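import Mathlib
import Crest.Agent.R001.EndBT
import Crest.Agent.R001.TreeDefs
import Crest.Agent.Lib.Mertens

-- ▼ part R001/End
section

/-! R1, block END: S0001 from the main theorem `MainRough (21/10)`. -/

set_option autoImplicit false

namespace Crest.Agent.R001.End

open Finset

/-- **Main theorem of R1** (exponent `c`): any `X` consecutive integers contain at least
`X / (log X)^2` integers without prime factor `< z`, as soon as `z^2 ≤ X (log X)^c`. -/
def MainRough (c : ℝ) : Prop :=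
  ∃ X0 : ℝ, ∀ X : ℕ, X0 ≤ X → ∀ (a : ℤ) (z : ℝ), 0 ≤ z →
    z ^ 2 ≤ X * (Real.log X) ^ c →
    (X : ℝ) / (Real.log X) ^ 2 ≤ ((rough (Finset.Ioc (a - X) a) z).card : ℝ)

/-- multiples of `p` among rough numbers of an interval -/
lemma card_dvd_rough (a : ℤ) (X p : ℕ) (hp : p.Prime) (z : ℝ) :
    ∃ a' : ℤ, (((rough (Finset.Ioc (a - X) a) z).filter (fun t : ℤ => (p : ℤ) ∣ t)).card) ≤
      (rough (Finset.Ioc a' (a' + ((X / p + 1 : ℕ) : ℤ))) z).card := by
  refine ⟨(a - X) / p, ?_⟩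
  have hp0 : (0 : ℤ) < p := by exact_mod_cast hp.pos
  apply Finset.card_le_card_of_injOn (fun t : ℤ => t / p)
  · intro t ht
    rw [Finset.mem_coe, Finset.mem_filter, mem_rough, Finset.mem_Ioc] at ht
    obtain ⟨⟨⟨h1, h2⟩, h3⟩, t', rfl⟩ := ht
    show ((p : ℤ) * t') / p ∈ ((rough (Finset.Ioc ((a - X) / p)
      ((a - X) / p + ((X / p + 1 : ℕ) : ℤ))) z : Finset ℤ) : Set ℤ)
    rw [Int.mul_ediv_cancel_left _ hp0.ne', Finset.mem_coe, mem_rough, Finset.mem_Ioc]
    have e1 := Int.mul_ediv_add_emod (a - X) p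
    have e2 := Int.emod_nonneg (a - X) hp0.ne'
    have e3 := Int.emod_lt_of_pos (a - X) hp0
    have f1 : (X : ℤ) < p * ((X / p + 1 : ℕ) : ℤ) := by
      have := Nat.lt_mul_div_succ X hp.pos
      exact_mod_cast this
    refine ⟨⟨?_, ?_⟩, ?_⟩
    · by_contra hc
      push Not at hc
      have : (p : ℤ) * t' ≤ p * ((a - X) / p) := mul_le_mul_of_nonneg_left hc hp0.le
      linarith
    · by_contra hc
      push Not at hc
      have h4 : (a - X) / p + ((X / p + 1 : ℕ) : ℤ) + 1 ≤ t' := hc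
      have : (p : ℤ) * ((a - X) / p + ((X / p + 1 : ℕ) : ℤ) + 1) ≤ p * t' :=
        mul_le_mul_of_nonneg_left h4 hp0.le
      have h5 : (p : ℤ) * ((a - X) / p + ((X / p + 1 : ℕ) : ℤ) + 1) =
        p * ((a - X) / p) + p * ((X / p + 1 : ℕ) : ℤ) + p := by ring
      rw [h5] at this
      linarith
    · intro q hq hqz hqd
      exact h3 q hq hqz (hqd.mul_left _)
  · intro t ht t' ht' he
    rw [Finset.mem_coe, Finset.mem_filter] at ht ht'
    obtain ⟨_, u, rfl⟩ := ht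
    obtain ⟨_, u', rfl⟩ := ht'
    simp only [Int.mul_ediv_cancel_left _ hp0.ne'] at he
    rw [he]

lemma card_rough_le (s : Finset ℤ) (w : ℝ) : (rough s w).card ≤ s.card := by
  apply Finset.card_le_card
  intro t ht
  exact (mem_rough.1 ht).1

/-- the elements divisible by a given prime `p ≥ z`. -/
theorem card_dvd_le : ∃ C : ℝ, 0 < C ∧ ∀ (X : ℕ), 16 ≤ X → ∀ (a : ℤ) (z : ℝ),
    (X : ℝ) ^ ((1 : ℝ) / 2) ≤ z → ∀ p : ℕ, p.Prime → z ≤ p →
    (((rough (Finset.Ioc (a - X) a) z).filter (fun t : ℤ => (p : ℤ) ∣ t)).card : ℝ) ≤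
      C * (X / (z * Real.log X)) + 2 * (X : ℝ) ^ ((1 : ℝ) / 10) := by
  obtain ⟨C, hC, hbt⟩ := bt
  refine ⟨20 * C, by positivity, ?_⟩
  intro X hX a z hz p hp hzp
  have hX16 : (16 : ℝ) ≤ X := by exact_mod_cast hX
  have hX0 : (0 : ℝ) < X := by linarith
  have hX1 : (1 : ℝ) ≤ X := by linarith
  have hlX : 0 < Real.log X := Real.log_pos (by linarith)
  have hp0 : (0 : ℝ) < p := by exact_mod_cast hp.pos
  have hz0 : 0 < z := lt_of_lt_of_le (by positivity) hz
  obtain ⟨a', ha'⟩ := card_dvd_rough a X p hp z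
  set N := X / p + 1 with hN
  have hNle : (N : ℝ) ≤ X / p + 1 := by
    rw [hN]
    push_cast
    have := @Nat.cast_div_le ℝ _ _ _ X p
    linarith
  have hcard : ((rough (Finset.Ioc a' (a' + (N : ℤ))) z).card : ℝ) ≤ N := by
    have h1 := card_rough_le (Finset.Ioc a' (a' + (N : ℤ))) z
    rw [Int.card_Ioc] at h1
    have h2 : (a' + (N : ℤ) - a').toNat = N := by
      rw [add_sub_cancel_left]; exact Int.toNat_natCast N
    rw [h2] at h1
    exact_mod_cast h1
  have ha'' : (((rough (Finset.Ioc (a - X) a) z).filter (fun t : ℤ => (p : ℤ) ∣ t)).card : ℝ) ≤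
      ((rough (Finset.Ioc a' (a' + (N : ℤ))) z).card : ℝ) := by exact_mod_cast ha'
  refine ha''.trans ?_
  have hpos1 : 0 ≤ 20 * C * (X / (z * Real.log X)) := by positivity
  have hpos2 : 0 ≤ 2 * (X : ℝ) ^ ((1 : ℝ) / 10) := by positivity
  by_cases hcase : (p : ℝ) ≤ (X : ℝ) ^ ((9 : ℝ) / 10)
  · -- Brun--Titchmarsh
    have hXp : (X : ℝ) ^ ((1 : ℝ) / 10) ≤ X / p := by
      rw [le_div_iff₀ hp0]
      calc (X : ℝ) ^ ((1 : ℝ) / 10) * p ≤ (X : ℝ) ^ ((1 : ℝ) / 10) * (X : ℝ) ^ ((9 : ℝ) / 10) :=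
            mul_le_mul_of_nonneg_left hcase (by positivity)
        _ = X := by
            rw [← Real.rpow_add hX0]
            norm_num
    have hXp1 : 1 ≤ (X : ℝ) / p := le_trans (Real.one_le_rpow hX1 (by norm_num)) hXp
    have hNge : (X : ℝ) / p ≤ N := by
      rw [hN, div_le_iff₀ hp0]
      have := (Nat.lt_mul_div_succ X hp.pos).le
      have h2 : (X : ℝ) ≤ ((p * (X / p + 1) : ℕ) : ℝ) := by exact_mod_cast this
      rw [Nat.cast_mul] at h2
      linarith [mul_comm (p : ℝ) ((X / p + 1 : ℕ) : ℝ)]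
    have hN2 : 2 ≤ N := by
      have h1 : 1 ≤ X / p := by
        have h2 : (p : ℝ) ≤ X := by
          rw [le_div_iff₀ hp0, one_mul] at hXp1
          exact hXp1
        have h3 : p ≤ X := by exact_mod_cast h2
        exact (Nat.one_le_div_iff hp.pos).2 h3
      omega
    have hN0 : (0 : ℝ) < N := by
      have : 0 < N := by omega
      exact_mod_cast this
    have hw : (N : ℝ) ^ ((1 : ℝ) / 56) < z := by
      have h1 : (N : ℝ) ≤ (X : ℝ) ^ (2 : ℝ) := by
        have h3 : (X : ℝ) / p ≤ X := by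
          rw [div_le_iff₀ hp0]
          have : (1 : ℝ) ≤ p := by exact_mod_cast hp.one_lt.le
          nlinarith
        have h4 : (X : ℝ) ^ (2 : ℝ) = X * X := by
          rw [Real.rpow_two]; ring
        rw [h4]
        nlinarith
      have h2 : (N : ℝ) ^ ((1 : ℝ) / 56) ≤ (X : ℝ) ^ ((1 : ℝ) / 28) := by
        calc (N : ℝ) ^ ((1 : ℝ) / 56) ≤ ((X : ℝ) ^ (2 : ℝ)) ^ ((1 : ℝ) / 56) :=
              Real.rpow_le_rpow hN0.le h1 (by norm_num)
          _ = _ := by
              rw [← Real.rpow_mul hX0.le]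
              norm_num
      have h3 : (X : ℝ) ^ ((1 : ℝ) / 28) < (X : ℝ) ^ ((1 : ℝ) / 2) :=
        Real.rpow_lt_rpow_of_exponent_lt (by linarith) (by norm_num)
      linarith
    have hb := hbt a' N hN2 z hw
    have hlogN : Real.log X / 10 ≤ Real.log N := by
      have h1 : (X : ℝ) ^ ((1 : ℝ) / 10) ≤ N := hXp.trans hNge
      have h2 := Real.log_le_log (by positivity) h1
      rw [Real.log_rpow hX0] at h2
      linarith
    have hNle2 : (N : ℝ) ≤ 2 * (X / z) := by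
      have : (X : ℝ) / p ≤ X / z := div_le_div_of_nonneg_left hX0.le hz0 hzp
      linarith
    have hlN : 0 < Real.log N := by linarith [div_pos hlX (by norm_num : (0 : ℝ) < 10)]
    calc ((rough (Finset.Ioc a' (a' + (N : ℤ))) z).card : ℝ) ≤ C * (N / Real.log N) := hb
      _ ≤ C * (2 * (X / z) / (Real.log X / 10)) := by
          apply mul_le_mul_of_nonneg_left _ hC.le
          apply div_le_div₀ (by positivity) hNle2 (by positivity) hlogN
      _ = 20 * C * (X / (z * Real.log X)) := by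
          field_simp
          ring
      _ ≤ _ := by linarith
  · push Not at hcase
    have hXp : (X : ℝ) / p ≤ (X : ℝ) ^ ((1 : ℝ) / 10) := by
      rw [div_le_iff₀ hp0]
      calc (X : ℝ) = (X : ℝ) ^ ((1 : ℝ) / 10) * (X : ℝ) ^ ((9 : ℝ) / 10) := by
            rw [← Real.rpow_add hX0]
            norm_num
        _ ≤ _ := mul_le_mul_of_nonneg_left hcase.le (by positivity)
    have h1 : 1 ≤ (X : ℝ) ^ ((1 : ℝ) / 10) := Real.one_le_rpow hX1 (by norm_num)
    linarith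

open Filter Asymptotics in
/-- numerical facts valid for large `X`. -/
lemma eventually_num (C : ℝ) : ∀ᶠ x : ℝ in atTop,
    16 ≤ x ∧ 1 ≤ Real.log x ∧
    Real.log (Real.log (3 * x)) ≤ (Real.log x) ^ ((1 : ℝ) / 100) ∧
    x ^ ((1 : ℝ) / 2) * (Real.log x) ^ ((1 : ℝ) / 100) *
      (C * (x / (x ^ ((1 : ℝ) / 2) * (Real.log x) ^ ((21 : ℝ) / 20) * Real.log x)) +
        2 * x ^ ((1 : ℝ) / 10)) < x / (Real.log x) ^ 2 := by
  have hL : Tendsto Real.log atTop atTop := Real.tendsto_log_atTop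
  have e1 : ∀ᶠ x : ℝ in atTop, Real.log (2 * Real.log x) ≤ (Real.log x) ^ ((1 : ℝ) / 100) := by
    have h1 : (fun y : ℝ => Real.log y) =o[atTop] fun y : ℝ => y ^ ((1 : ℝ) / 200) :=
      isLittleO_log_rpow_atTop (by norm_num)
    have h2 := h1.bound (show (0 : ℝ) < 1 by norm_num)
    have h3 : ∀ᶠ y : ℝ in atTop, Real.log (2 * y) ≤ y ^ ((1 : ℝ) / 100) := by
      have h5 : Tendsto (fun y : ℝ => 2 * y) atTop atTop := tendsto_id.const_mul_atTop (by norm_num)
      filter_upwards [h5.eventually h2, eventually_ge_atTop (2 : ℝ)] with y hy hy1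
      have hpos : 0 ≤ Real.log (2 * y) := Real.log_nonneg (by linarith)
      rw [Real.norm_eq_abs, abs_of_nonneg hpos, Real.norm_eq_abs, abs_of_nonneg (by positivity),
        one_mul] at hy
      refine hy.trans ?_
      calc (2 * y) ^ ((1 : ℝ) / 200) ≤ (y * y) ^ ((1 : ℝ) / 200) := by
            apply Real.rpow_le_rpow (by positivity) _ (by norm_num)
            nlinarith
        _ = y ^ ((1 : ℝ) / 100) := by
            rw [show y * y = y ^ (2 : ℝ) by rw [Real.rpow_two]; ring,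
              ← Real.rpow_mul (by linarith)]
            norm_num
    exact hL.eventually h3
  have e2 : ∀ᶠ x : ℝ in atTop, (Real.log x) ^ ((201 : ℝ) / 100) ≤ (1 / 8) * x ^ ((4 : ℝ) / 10) := by
    have h1 := isLittleO_log_rpow_rpow_atTop (s := (4 : ℝ) / 10) ((201 : ℝ) / 100) (by norm_num)
    have h2 := h1.bound (show (0 : ℝ) < 1 / 8 by norm_num)
    filter_upwards [h2, eventually_ge_atTop (3 : ℝ)] with x hx hx3
    have hl : 0 ≤ Real.log x := Real.log_nonneg (by linarith)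
    rw [Real.norm_eq_abs, abs_of_nonneg (by positivity), Real.norm_eq_abs,
      abs_of_nonneg (by positivity)] at hx
    exact hx
  have e3 : ∀ᶠ x : ℝ in atTop, |C| * (Real.log x) ^ (-((1 : ℝ) / 25)) ≤ 1 / 4 := by
    have h1 : Tendsto (fun y : ℝ => |C| * y ^ (-((1 : ℝ) / 25))) atTop (nhds (|C| * 0)) :=
      (tendsto_rpow_neg_atTop (by norm_num)).const_mul _
    rw [mul_zero] at h1
    have h2 := h1.eventually (eventually_le_nhds (show (0 : ℝ) < 1 / 4 by norm_num))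
    exact hL.eventually h2
  have e4 : ∀ᶠ x : ℝ in atTop, 1 ≤ Real.log x := hL.eventually (eventually_ge_atTop 1)
  filter_upwards [e1, e2, e3, e4, eventually_ge_atTop (16 : ℝ)] with x h1 h2 h3 h4 h5
  have hx0 : 0 < x := by linarith
  set L := Real.log x with hLdef
  have hL0 : 0 < L := by linarith
  refine ⟨h5, h4, ?_, ?_⟩
  · refine le_trans ?_ h1
    have h6 : Real.log (3 * x) ≤ 2 * L := by
      rw [Real.log_mul (by norm_num) hx0.ne']
      have : Real.log 3 ≤ Real.log x := Real.log_le_log (by norm_num) (by linarith)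
      linarith
    apply Real.log_le_log _ h6
    apply Real.log_pos
    linarith
  · have hCle : C ≤ |C| := le_abs_self C
    have t1 : x ^ ((1 : ℝ) / 2) * L ^ ((1 : ℝ) / 100) *
        (C * (x / (x ^ ((1 : ℝ) / 2) * L ^ ((21 : ℝ) / 20) * L))) =
        C * (L ^ (-((1 : ℝ) / 25))) * (x / L ^ 2) := by
      have hxh : x ^ ((1 : ℝ) / 2) ≠ 0 := by positivity
      have u1 : L ^ ((21 : ℝ) / 20) * L = L ^ ((1 : ℝ) / 100) * L ^ ((1 : ℝ) / 25) * L ^ 2 := by
        rw [← Real.rpow_natCast L 2, ← Real.rpow_add hL0, ← Real.rpow_add hL0,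
          ← Real.rpow_add_one hL0.ne']
        norm_num
      rw [mul_assoc (x ^ ((1 : ℝ) / 2)) (L ^ ((21 : ℝ) / 20)) L, u1, Real.rpow_neg hL0.le]
      field_simp
    have t2 : x ^ ((1 : ℝ) / 2) * L ^ ((1 : ℝ) / 100) * (2 * x ^ ((1 : ℝ) / 10)) ≤
        (1 / 4) * (x / L ^ 2) := by
      have u1 : x ^ ((1 : ℝ) / 2) * x ^ ((1 : ℝ) / 10) * x ^ ((4 : ℝ) / 10) = x := by
        rw [← Real.rpow_add hx0, ← Real.rpow_add hx0]
        norm_num
      have u2 : L ^ ((201 : ℝ) / 100) = L ^ ((1 : ℝ) / 100) * L ^ 2 := by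
        rw [← Real.rpow_natCast L 2, ← Real.rpow_add hL0]
        norm_num
      rw [u2] at h2
      rw [mul_div_assoc', le_div_iff₀ (by positivity)]
      have u3 : 0 < x ^ ((1 : ℝ) / 2) * x ^ ((1 : ℝ) / 10) := by positivity
      calc x ^ ((1 : ℝ) / 2) * L ^ ((1 : ℝ) / 100) * (2 * x ^ ((1 : ℝ) / 10)) * L ^ 2 =
          2 * (x ^ ((1 : ℝ) / 2) * x ^ ((1 : ℝ) / 10)) * (L ^ ((1 : ℝ) / 100) * L ^ 2) := by ring
        _ ≤ 2 * (x ^ ((1 : ℝ) / 2) * x ^ ((1 : ℝ) / 10)) * ((1 / 8) * x ^ ((4 : ℝ) / 10)) :=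
            mul_le_mul_of_nonneg_left h2 (by positivity)
        _ = (1 / 4) * (x ^ ((1 : ℝ) / 2) * x ^ ((1 : ℝ) / 10) * x ^ ((4 : ℝ) / 10)) := by ring
        _ = _ := by rw [u1]
    have hxL : 0 < x / L ^ 2 := by positivity
    have t3 : C * (L ^ (-((1 : ℝ) / 25))) * (x / L ^ 2) ≤ (1 / 4) * (x / L ^ 2) := by
      apply mul_le_mul_of_nonneg_right _ hxL.le
      refine le_trans ?_ h3
      apply mul_le_mul_of_nonneg_right hCle (by positivity)
    rw [mul_add, t1]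
    linarith

/-- the statement of `S0001` follows from `MainRough (21/10)`. -/
theorem result_of_main (hmain : MainRough ((21 : ℝ) / 10)) :
    ∃ C : ℝ, 0 < C ∧ ∀ (k : ℕ), 1 ≤ k → ∀ (n : ℕ), 0 < n → n.primeFactors.card ≤ k →
      ∀ (a : ℤ) (m : ℕ), C * (k : ℝ) ^ 2 / (Real.log (Real.log (3 * (k : ℝ)))) ^ 2 ≤ (m : ℝ) →
        ∃ x : ℤ, a ≤ x ∧ x < a + m ∧ Int.gcd x n = 1 := by
  obtain ⟨X0, hX0⟩ := hmain
  obtain ⟨C, hC, hdvd⟩ := card_dvd_le
  obtain ⟨X1, hX1⟩ := Filter.eventually_atTop.1 (eventually_num C)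
  set C0 : ℝ := 12 * max 1 (max X0 X1) with hC0
  have hM1 : 1 ≤ max 1 (max X0 X1) := le_max_left _ _
  have hC00 : 0 < C0 := by positivity
  refine ⟨C0, hC00, ?_⟩
  intro k hk n hn hcard a m hm
  have hk0 : (1 : ℝ) ≤ k := by exact_mod_cast hk
  set ll := Real.log (Real.log (3 * (k : ℝ))) with hll
  have hlog3 : 1 < Real.log 3 := by
    rw [Real.lt_log_iff_exp_lt (by norm_num)]
    exact lt_trans Real.exp_one_lt_d9 (by norm_num)
  have hl3k : 1 < Real.log (3 * (k : ℝ)) := by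
    refine lt_of_lt_of_le hlog3 ?_
    apply Real.log_le_log (by norm_num)
    linarith
  have hll0 : 0 < ll := Real.log_pos hl3k
  have hllsq : ll ^ 2 ≤ 12 * k := by
    have h1 : ll ≤ Real.log (3 * (k : ℝ)) := by
      have := Real.log_le_sub_one_of_pos (show 0 < Real.log (3 * (k : ℝ)) by linarith)
      linarith
    have h2 : Real.log (3 * (k : ℝ)) ≤ 2 * (3 * (k : ℝ)) ^ ((1 : ℝ) / 2) := by
      have := Real.log_le_rpow_div (show (0 : ℝ) ≤ 3 * (k : ℝ) by positivity)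
        (show (0 : ℝ) < 1 / 2 by norm_num)
      linarith
    calc ll ^ 2 ≤ (2 * (3 * (k : ℝ)) ^ ((1 : ℝ) / 2)) ^ 2 :=
          pow_le_pow_left₀ hll0.le (h1.trans h2) 2
      _ = 4 * ((3 * (k : ℝ)) ^ ((1 : ℝ) / 2)) ^ 2 := by ring
      _ = 12 * k := by
          rw [← Real.rpow_natCast, ← Real.rpow_mul (by positivity)]
          norm_num
          ring
  have hkm : max 1 (max X0 X1) * k ≤ m := by
    refine le_trans ?_ hm
    rw [le_div_iff₀ (by positivity)]
    calc max 1 (max X0 X1) * k * ll ^ 2 ≤ max 1 (max X0 X1) * k * (12 * k) :=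
          mul_le_mul_of_nonneg_left hllsq (by positivity)
      _ = _ := by rw [hC0]; ring
  have hm1 : (k : ℝ) ≤ m := by nlinarith
  have hmX : max 1 (max X0 X1) ≤ m := by nlinarith
  have hmX0 : X0 ≤ m := le_trans (le_trans (le_max_left _ _) (le_max_right _ _)) hmX
  have hmX1 : X1 ≤ m := le_trans (le_trans (le_max_right _ _) (le_max_right _ _)) hmX
  obtain ⟨h16, hL1, hlog, hfin⟩ := hX1 m hmX1
  have hm0 : (0 : ℝ) < m := by linarith
  set L := Real.log (m : ℝ) with hL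
  have hL0 : 0 < L := by linarith
  have hkle : (k : ℝ) ≤ (m : ℝ) ^ ((1 : ℝ) / 2) * L ^ ((1 : ℝ) / 100) := by
    have h1 : ll ≤ L ^ ((1 : ℝ) / 100) := by
      refine le_trans ?_ hlog
      apply Real.log_le_log (by linarith)
      apply Real.log_le_log (by positivity)
      linarith
    have h2 : (k : ℝ) ^ 2 ≤ m * ll ^ 2 := by
      rw [div_le_iff₀ (by positivity)] at hm
      have : (1 : ℝ) ≤ C0 := by rw [hC0]; linarith
      nlinarith [sq_nonneg (k : ℝ)]
    have h3 : (k : ℝ) ^ 2 ≤ ((m : ℝ) ^ ((1 : ℝ) / 2) * ll) ^ 2 := by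
      rw [mul_pow, ← Real.rpow_natCast ((m : ℝ) ^ ((1 : ℝ) / 2)), ← Real.rpow_mul hm0.le]
      norm_num
      exact h2
    have h4 : (k : ℝ) ≤ (m : ℝ) ^ ((1 : ℝ) / 2) * ll :=
      le_of_sq_le_sq h3 (by positivity)
    exact h4.trans (mul_le_mul_of_nonneg_left h1 (by positivity))
  set z : ℝ := (m : ℝ) ^ ((1 : ℝ) / 2) * L ^ ((21 : ℝ) / 20) with hz
  have hz0 : 0 < z := by positivity
  have hz2 : z ^ 2 ≤ m * (Real.log (m : ℝ)) ^ ((21 : ℝ) / 10) := by
    rw [hz, mul_pow, ← Real.rpow_natCast ((m : ℝ) ^ ((1 : ℝ) / 2)), ← Real.rpow_mul hm0.le,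
      ← Real.rpow_natCast (L ^ ((21 : ℝ) / 20)), ← Real.rpow_mul hL0.le, ← hL]
    norm_num
  have hzge : (m : ℝ) ^ ((1 : ℝ) / 2) ≤ z := by
    rw [hz]
    have : 1 ≤ L ^ ((21 : ℝ) / 20) := Real.one_le_rpow hL1 (by norm_num)
    have h2 : 0 ≤ (m : ℝ) ^ ((1 : ℝ) / 2) := by positivity
    nlinarith
  have hlow := hX0 m hmX0 (a + m - 1) z hz0.le hz2
  set R := rough (Finset.Ioc (a + m - 1 - m) (a + m - 1)) z with hR
  classical
  set S := n.primeFactors.filter (fun p : ℕ => z ≤ (p : ℝ)) with hS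
  have hm16 : 16 ≤ m := by exact_mod_cast h16
  have hbound : ∀ p ∈ S, ((R.filter (fun t : ℤ => (p : ℤ) ∣ t)).card : ℝ) ≤
      C * (m / (z * L)) + 2 * (m : ℝ) ^ ((1 : ℝ) / 10) := by
    intro p hp
    rw [hS, Finset.mem_filter] at hp
    exact hdvd m hm16 (a + m - 1) z hzge p (Nat.prime_of_mem_primeFactors hp.1) hp.2
  have hScard : (S.card : ℝ) ≤ k := by
    have := (Finset.card_filter_le n.primeFactors (fun p : ℕ => z ≤ (p : ℝ))).trans hcard
    exact_mod_cast this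
  have hunion : ((S.biUnion (fun p => R.filter (fun t : ℤ => (p : ℤ) ∣ t))).card : ℝ) ≤
      k * (C * (m / (z * L)) + 2 * (m : ℝ) ^ ((1 : ℝ) / 10)) := by
    have h1 : ((S.biUnion (fun p => R.filter (fun t : ℤ => (p : ℤ) ∣ t))).card : ℝ) ≤
        ∑ p ∈ S, ((R.filter (fun t : ℤ => (p : ℤ) ∣ t)).card : ℝ) := by
      exact_mod_cast Finset.card_biUnion_le
    refine h1.trans ((Finset.sum_le_sum hbound).trans ?_)
    rw [Finset.sum_const, nsmul_eq_mul]
    exact mul_le_mul_of_nonneg_right hScard (by positivity)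
  have hlt : ((S.biUnion (fun p => R.filter (fun t : ℤ => (p : ℤ) ∣ t))).card : ℝ) <
      (R.card : ℝ) := by
    refine lt_of_le_of_lt hunion (lt_of_lt_of_le ?_ hlow)
    refine lt_of_le_of_lt ?_ hfin
    exact mul_le_mul_of_nonneg_right hkle (by positivity)
  have hlt' : (S.biUnion (fun p => R.filter (fun t : ℤ => (p : ℤ) ∣ t))).card < R.card := by
    exact_mod_cast hlt
  obtain ⟨t, htR, htS⟩ := Finset.exists_mem_notMem_of_card_lt_card hlt'
  have htR' := mem_rough.1 htR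
  rw [Finset.mem_Ioc] at htR'
  refine ⟨t, by omega, by omega, ?_⟩
  by_contra hg
  have hn' : Int.gcd t n ≠ 0 := by
    intro h0
    rw [Int.gcd_eq_zero_iff] at h0
    have := h0.2
    omega
  obtain ⟨p, hp, hpd⟩ := Nat.exists_prime_and_dvd hg
  have hpt : (p : ℤ) ∣ t := (Int.natCast_dvd_natCast.2 hpd).trans (Int.gcd_dvd_left _ _)
  have hpn : p ∣ n := by
    have : (p : ℤ) ∣ (n : ℤ) := (Int.natCast_dvd_natCast.2 hpd).trans (Int.gcd_dvd_right _ _)
    exact_mod_cast this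
  by_cases hpz : (p : ℝ) < z
  · exact htR'.2 p hp hpz hpt
  · push Not at hpz
    apply htS
    rw [Finset.mem_biUnion]
    refine ⟨p, ?_, ?_⟩
    · rw [hS, Finset.mem_filter, Nat.mem_primeFactors]
      exact ⟨⟨hp, hpn, hn.ne'⟩, hpz⟩
    · rw [Finset.mem_filter]
      exact ⟨htR, hpt⟩

end Crest.Agent.R001.End
end

-- ▼ part R001/Asm1

/-!
# R1, top assembly, part 1 (helper301)

* parameters `Dlev X = ⌊X/(log X)^3⌋`, `w0 X = √(Dlev X)`;
* short Mertens sum over the primes in `[w0, z)`;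
* the loss in passing from sifting limit `w0` to `z` (Brun–Titchmarsh).
-/

set_option autoImplicit false

open Finset Filter

namespace Crest.Agent.R001.Asm

open Crest.Agent.R001.End

/-- the level of the Rosser tree -/
noncomputable def Dlev (X : ℕ) : ℕ := ⌊(X : ℝ) / (Real.log X) ^ 3⌋₊

/-- the sifting limit of the root of the tree -/
noncomputable def w0 (X : ℕ) : ℕ := Nat.sqrt (Dlev X)

/-- the largeness conditions used in this file -/
structure Big (x : ℝ) : Prop where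
  l1 : 1 ≤ Real.log (Real.log x)
  lL : 8 * Real.log (Real.log x) ≤ Real.log x
  u9 : 9 * (Real.log x) ^ 2 ≤ x ^ ((1 : ℝ) / 2)
  L10 : (Real.log x) ^ ((21 : ℝ) / 20) ≤ x ^ ((1 : ℝ) / 10)
  x2 : 2 ≤ x

lemma eventually_log_rpow_le (r s c : ℝ) (hs : 0 < s) (hc : 0 < c) :
    ∀ᶠ x : ℝ in atTop, c * (Real.log x) ^ r ≤ x ^ s := by
  have h3 := (isLittleO_log_rpow_rpow_atTop r hs).def (inv_pos.mpr hc)
  filter_upwards [h3, eventually_ge_atTop (1 : ℝ)] with x hx hx1
  rw [Real.norm_of_nonneg (Real.rpow_nonneg (Real.log_nonneg hx1) _),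
    Real.norm_of_nonneg (by positivity)] at hx
  calc c * (Real.log x) ^ r ≤ c * (c⁻¹ * x ^ s) := by gcongr
    _ = x ^ s := by field_simp

lemma tendsto_loglog : Tendsto (fun x : ℝ => Real.log (Real.log x)) atTop atTop :=
  Real.tendsto_log_atTop.comp Real.tendsto_log_atTop

/-- `c log log x ≤ log x` eventually -/
lemma eventually_loglog_le (c : ℝ) (hc : 0 < c) :
    ∀ᶠ x : ℝ in atTop, c * Real.log (Real.log x) ≤ Real.log x := by
  have h := eventually_log_rpow_le 1 1 c one_pos hc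
  have h2 := Real.tendsto_log_atTop.eventually h
  filter_upwards [h2] with x hx
  simpa using hx

lemma eventually_big : ∀ᶠ x : ℝ in atTop, Big x := by
  have h1 : ∀ᶠ x : ℝ in atTop, 1 ≤ Real.log (Real.log x) := tendsto_loglog.eventually_ge_atTop 1
  have h2 := eventually_loglog_le 8 (by norm_num)
  have h3 := eventually_log_rpow_le 2 (1 / 2) 9 (by norm_num) (by norm_num)
  have h4 := eventually_log_rpow_le (21 / 20) (1 / 10) 1 (by norm_num) (by norm_num)
  filter_upwards [h1, h2, h3, h4, eventually_ge_atTop (2 : ℝ)] with x a b c d e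
  refine ⟨a, b, ?_, ?_, e⟩
  · have : (Real.log x) ^ (2 : ℝ) = (Real.log x) ^ 2 := by
      rw [show (2 : ℝ) = ((2 : ℕ) : ℝ) by norm_num, Real.rpow_natCast]
    rw [this] at c
    exact c
  · simpa using d

section

variable {X : ℕ} (hX : Big X)

include hX

lemma Big.L8 : 8 ≤ Real.log X := by have := hX.l1; have := hX.lL; linarith

lemma Big.X0 : (0 : ℝ) < X := by have := hX.x2; linarith

/-- `u = X^{1/2}/L^2` -/
lemma Big.u_ge : 9 ≤ (X : ℝ) ^ ((1 : ℝ) / 2) / (Real.log X) ^ 2 := by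
  have h8 := hX.L8
  rw [le_div_iff₀ (by positivity)]
  exact hX.u9

/-- `u + 1 < w0` -/
lemma Big.w0_gt : (X : ℝ) ^ ((1 : ℝ) / 2) / (Real.log X) ^ 2 + 1 < w0 X := by
  have h8 := hX.L8
  have hX0 := hX.X0
  obtain ⟨u, hu⟩ : ∃ u, u = (X : ℝ) ^ ((1 : ℝ) / 2) / (Real.log X) ^ 2 := ⟨_, rfl⟩
  have hu9 : 9 ≤ u := by rw [hu]; exact hX.u_ge
  rw [← hu]
  have hXu : (X : ℝ) = u ^ 2 * (Real.log X) ^ 4 := by
    rw [hu, div_pow, ← Real.rpow_natCast ((X : ℝ) ^ ((1 : ℝ) / 2)), ← Real.rpow_mul hX0.le]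
    have : (Real.log (X : ℝ)) ≠ 0 := by linarith
    norm_num
    field_simp
  have h1 : (u + 2) ^ 2 + 1 ≤ (X : ℝ) / (Real.log X) ^ 3 := by
    rw [le_div_iff₀ (by positivity)]
    have h2 : (u + 2) ^ 2 + 1 ≤ 2 * u ^ 2 := by nlinarith
    have h4 : 0 < (Real.log (X : ℝ)) ^ 3 := by positivity
    calc ((u + 2) ^ 2 + 1) * (Real.log X) ^ 3 ≤ (2 * u ^ 2) * (Real.log X) ^ 3 := by gcongr
      _ ≤ (Real.log X * u ^ 2) * (Real.log X) ^ 3 := by
          have : 2 ≤ Real.log X := by linarith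
          gcongr
      _ = u ^ 2 * (Real.log X) ^ 4 := by ring
      _ = X := hXu.symm
  have h5 : (u + 2) ^ 2 < (Dlev X : ℝ) := by
    unfold Dlev
    have := Nat.lt_floor_add_one ((X : ℝ) / (Real.log X) ^ 3)
    linarith
  have h6 : (Dlev X : ℝ) < ((w0 X : ℝ) + 1) ^ 2 := by
    have := Nat.sqrt_lt' (m := Dlev X) (n := Nat.sqrt (Dlev X) + 1)
    have h7 : Dlev X < (Nat.sqrt (Dlev X) + 1) ^ 2 := this.mp (Nat.lt_succ_self _)
    unfold w0
    exact_mod_cast h7
  have h8 : u + 2 < (w0 X : ℝ) + 1 :=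
    lt_of_pow_lt_pow_left₀ 2 (by positivity) (h5.trans h6)
  linarith

/-- short Mertens sum -/
lemma Big.mertens {z : ℝ} (hz : z ^ 2 ≤ X * (Real.log X) ^ ((21 : ℝ) / 10)) {S : Finset ℕ}
    (hS : ∀ p ∈ S, p.Prime ∧ w0 X ≤ p ∧ (p : ℝ) < z) :
    ∑ p ∈ S, (1 : ℝ) / p ≤ 85 * Real.log (Real.log X) / Real.log X := by
  have h8 := hX.L8
  have hX0 := hX.X0
  have hl1 := hX.l1
  have hlL := hX.lL
  obtain ⟨L, hL⟩ : ∃ L, L = Real.log (X : ℝ) := ⟨_, rfl⟩
  obtain ⟨l, hl⟩ : ∃ l, l = Real.log L := ⟨_, rfl⟩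
  obtain ⟨u, hu⟩ : ∃ u, u = (X : ℝ) ^ ((1 : ℝ) / 2) / (Real.log X) ^ 2 := ⟨_, rfl⟩
  have hu9 : 9 ≤ u := by rw [hu]; exact hX.u_ge
  have hw0 : u + 1 < w0 X := by rw [hu]; exact hX.w0_gt
  rw [← hL] at h8 hl1 hlL hu hz ⊢
  rw [← hl] at hl1 hlL ⊢
  have hL0 : 0 < L := by linarith
  rcases S.eq_empty_or_nonempty with rfl | ⟨p₁, hp₁⟩
  · rw [Finset.sum_empty]; positivity
  obtain ⟨-, hp2, hp3⟩ := hS p₁ hp₁
  have hp2' : (w0 X : ℝ) ≤ p₁ := by exact_mod_cast hp2
  have huz : u ≤ z := by linarith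
  have hz0 : 0 < z := by linarith
  have hsub : S ⊆ Lib.Mertens.pr u z := by
    intro p hp
    obtain ⟨h1, h2, h3⟩ := hS p hp
    have h2' : (w0 X : ℝ) ≤ p := by exact_mod_cast h2
    rw [Lib.Mertens.mem_pr (by linarith) hz0.le]
    exact ⟨⟨by linarith, h3.le⟩, h1⟩
  have hlogu : Real.log u = L / 2 - 2 * l := by
    rw [hu, Real.log_div (by positivity) (by positivity), Real.log_rpow hX0, Real.log_pow, ← hL,
      ← hl]
    push_cast
    ring
  have hlogz : Real.log z ≤ L / 2 + (21 / 20) * l := by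
    have h1 : Real.log (z ^ 2) ≤ Real.log (X * L ^ ((21 : ℝ) / 10)) :=
      Real.log_le_log (by positivity) hz
    rw [Real.log_pow, Real.log_mul hX0.ne' (by positivity), Real.log_rpow hL0, ← hL, ← hl] at h1
    push_cast at h1
    linarith
  have hlu : L / 4 ≤ Real.log u := by rw [hlogu]; linarith
  have hlu0 : 0 < Real.log u := by linarith
  have hlz0 : 0 < Real.log z := lt_of_lt_of_le hlu0 (Real.log_le_log (by linarith) huz)
  have hM := Lib.Mertens.mertens_two u z (by linarith) huz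
  have hM2 := (abs_le.mp hM).2
  have h1 : Real.log (Real.log z) - Real.log (Real.log u) ≤ 13 * l / L := by
    rw [← Real.log_div hlz0.ne' hlu0.ne']
    refine (Real.log_le_sub_one_of_pos (by positivity)).trans ?_
    rw [div_sub_one hlu0.ne', div_le_div_iff₀ hlu0 hL0]
    have h2 : Real.log z - Real.log u ≤ (13 / 4) * l := by rw [hlogu]; linarith
    calc (Real.log z - Real.log u) * L ≤ ((13 / 4) * l) * L := by gcongr
      _ = 13 * l * (L / 4) := by ring
      _ ≤ 13 * l * Real.log u := by gcongr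
  have h2 : 18 / Real.log u ≤ 72 * l / L := by
    rw [div_le_div_iff₀ hlu0 hL0]
    calc 18 * L = 72 * (L / 4) := by ring
      _ ≤ 72 * Real.log u := by gcongr
      _ ≤ 72 * l * Real.log u := by
          have : 72 * Real.log u * 1 ≤ 72 * Real.log u * l := by gcongr
          linarith
  calc ∑ p ∈ S, (1 : ℝ) / p ≤ ∑ p ∈ Lib.Mertens.pr u z, (1 : ℝ) / p :=
        Finset.sum_le_sum_of_subset_of_nonneg hsub fun p _ _ => by positivity
    _ ≤ (Real.log (Real.log z) - Real.log (Real.log u)) + 18 / Real.log u := by linarith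
    _ ≤ 13 * l / L + 72 * l / L := add_le_add h1 h2
    _ = 85 * l / L := by ring

end

/-- **LOSS**: passing from the sifting limit `w0 X` to `z` costs at most `C X l/L^2`. -/
theorem loss : ∃ C : ℝ, 0 < C ∧ ∀ X : ℕ, Big X → ∀ (a : ℤ) (z : ℝ), 0 ≤ z →
    z ^ 2 ≤ X * (Real.log X) ^ ((21 : ℝ) / 10) →
    ((rough (Finset.Ioc (a - X) a) (w0 X : ℝ)).card : ℝ) ≤
      ((rough (Finset.Ioc (a - X) a) z).card : ℝ) +
        C * X * Real.log (Real.log X) / (Real.log X) ^ 2 := by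
  obtain ⟨C, hC, hbt⟩ := bt
  refine ⟨5 * C * 85, by positivity, ?_⟩
  intro X hX a z hz0 hz
  have h8 := hX.L8
  have hX0 := hX.X0
  have hl1 := hX.l1
  have hlL := hX.lL
  have hu9 := hX.u_ge
  have hw0 := hX.w0_gt
  have hL10 := hX.L10
  classical
  obtain ⟨S, hSdef⟩ : ∃ S, S = (Finset.range ⌈z⌉₊).filter
    (fun p : ℕ => p.Prime ∧ w0 X ≤ p ∧ (p : ℝ) < z) := ⟨_, rfl⟩
  have hS : ∀ p ∈ S, p.Prime ∧ w0 X ≤ p ∧ (p : ℝ) < z := by
    intro p hp
    rw [hSdef, Finset.mem_filter] at hp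
    exact hp.2
  have hmert := hX.mertens hz hS
  obtain ⟨R, hR⟩ : ∃ R, R = rough (Finset.Ioc (a - X) a) (w0 X : ℝ) := ⟨_, rfl⟩
  have hcover : R ⊆ rough (Finset.Ioc (a - X) a) z ∪
      S.biUnion (fun p => R.filter (fun t : ℤ => (p : ℤ) ∣ t)) := by
    intro t ht
    rw [Finset.mem_union]
    by_cases h : t ∈ rough (Finset.Ioc (a - X) a) z
    · exact Or.inl h
    · right
      have ht' := ht
      rw [hR, mem_rough] at ht'
      rw [mem_rough] at h
      push Not at h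
      obtain ⟨p, hp, hpz, hpt⟩ := h ht'.1
      rw [Finset.mem_biUnion]
      refine ⟨p, ?_, Finset.mem_filter.mpr ⟨ht, hpt⟩⟩
      rw [hSdef, Finset.mem_filter, Finset.mem_range]
      have hpw : w0 X ≤ p := by
        by_contra hlt
        push Not at hlt
        exact ht'.2 p hp (by exact_mod_cast hlt) hpt
      exact ⟨Nat.lt_ceil.mpr hpz, hp, hpw, hpz⟩
  have hcard : (R.card : ℝ) ≤ ((rough (Finset.Ioc (a - X) a) z).card : ℝ) +
      ∑ p ∈ S, ((R.filter (fun t : ℤ => (p : ℤ) ∣ t)).card : ℝ) := by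
    have h1 := Finset.card_le_card hcover
    have h2 := Finset.card_union_le (rough (Finset.Ioc (a - X) a) z)
      (S.biUnion (fun p => R.filter (fun t : ℤ => (p : ℤ) ∣ t)))
    have h3 : (S.biUnion (fun p => R.filter (fun t : ℤ => (p : ℤ) ∣ t))).card ≤
        ∑ p ∈ S, (R.filter (fun t : ℤ => (p : ℤ) ∣ t)).card := Finset.card_biUnion_le
    have h4 : R.card ≤ (rough (Finset.Ioc (a - X) a) z).card +
        ∑ p ∈ S, (R.filter (fun t : ℤ => (p : ℤ) ∣ t)).card := by omega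
    exact_mod_cast h4
  have hterm : ∀ p ∈ S, ((R.filter (fun t : ℤ => (p : ℤ) ∣ t)).card : ℝ) ≤
      5 * C * X / Real.log X * (1 / p) := by
    intro p hp
    obtain ⟨hpp, hpw, hpz⟩ := hS p hp
    have hp0 : (0 : ℝ) < p := by exact_mod_cast hpp.pos
    obtain ⟨a', ha'⟩ := card_dvd_rough a X p hpp (w0 X : ℝ)
    rw [← hR] at ha'
    have hz1 : z ≤ (X : ℝ) ^ ((1 : ℝ) / 2) * (Real.log X) ^ ((21 : ℝ) / 20) := by
      have h1 : z ^ 2 ≤ ((X : ℝ) ^ ((1 : ℝ) / 2) * (Real.log X) ^ ((21 : ℝ) / 20)) ^ 2 := by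
        rw [mul_pow, ← Real.rpow_natCast ((X : ℝ) ^ ((1 : ℝ) / 2)), ← Real.rpow_mul hX0.le,
          ← Real.rpow_natCast ((Real.log (X : ℝ)) ^ ((21 : ℝ) / 20)),
          ← Real.rpow_mul (by linarith)]
        norm_num
        exact hz
      exact le_of_sq_le_sq h1 (by positivity)
    have hz2 : z ≤ (X : ℝ) ^ ((3 : ℝ) / 5) := by
      calc z ≤ (X : ℝ) ^ ((1 : ℝ) / 2) * (Real.log X) ^ ((21 : ℝ) / 20) := hz1
        _ ≤ (X : ℝ) ^ ((1 : ℝ) / 2) * (X : ℝ) ^ ((1 : ℝ) / 10) := by gcongr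
        _ = (X : ℝ) ^ ((3 : ℝ) / 5) := by rw [← Real.rpow_add hX0]; norm_num
    have hXp : (X : ℝ) ^ ((2 : ℝ) / 5) ≤ X / p := by
      rw [le_div_iff₀ hp0]
      calc (X : ℝ) ^ ((2 : ℝ) / 5) * p ≤ (X : ℝ) ^ ((2 : ℝ) / 5) * (X : ℝ) ^ ((3 : ℝ) / 5) := by
            gcongr
            linarith
        _ = X := by rw [← Real.rpow_add hX0]; norm_num
    obtain ⟨N, hN⟩ : ∃ N, N = X / p + 1 := ⟨_, rfl⟩
    rw [← hN] at ha'
    have hN1 : (X : ℝ) / p ≤ N := by
      rw [hN, div_le_iff₀ hp0]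
      have := (Nat.lt_mul_div_succ X hpp.pos).le
      have h2 : (X : ℝ) ≤ ((p * (X / p + 1) : ℕ) : ℝ) := by exact_mod_cast this
      push_cast at h2 ⊢
      linarith
    have hpow2 : 2 ≤ (X : ℝ) ^ ((2 : ℝ) / 5) := by
      have h1 : Real.log 2 ≤ Real.log ((X : ℝ) ^ ((2 : ℝ) / 5)) := by
        rw [Real.log_rpow hX0]
        have := Real.log_two_lt_d9
        linarith
      exact (Real.log_le_log_iff (by norm_num) (by positivity)).mp h1
    have hN2 : (N : ℝ) ≤ 2 * (X / p) := by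
      have h2 : ((X / p : ℕ) : ℝ) ≤ X / p := Nat.cast_div_le
      rw [hN]
      push_cast
      linarith
    have hN3 : 2 ≤ N := by
      have : (2 : ℝ) ≤ N := by linarith
      exact_mod_cast this
    have hNlog : 2 / 5 * Real.log X ≤ Real.log N := by
      rw [← Real.log_rpow hX0]
      exact Real.log_le_log (by positivity) (by linarith)
    have hNX : (N : ℝ) ≤ X := by
      have hp5 : (2 : ℝ) ≤ p := by exact_mod_cast hpp.two_le
      refine hN2.trans ?_
      rw [← mul_div_assoc, div_le_iff₀ hp0]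
      nlinarith
    have hw0' : (N : ℝ) ^ ((1 : ℝ) / 56) < (w0 X : ℝ) := by
      have h1 : (N : ℝ) ^ ((1 : ℝ) / 56) ≤ (X : ℝ) ^ ((1 : ℝ) / 56) :=
        Real.rpow_le_rpow (by positivity) hNX (by norm_num)
      have h2 : (X : ℝ) ^ ((1 : ℝ) / 56) ≤ (X : ℝ) ^ ((1 : ℝ) / 2) / (Real.log X) ^ 2 := by
        rw [le_div_iff₀ (by positivity)]
        -- `L^2 ≤ (L^{21/20})^2 ≤ X^{1/5}`
        have h3 : (Real.log X) ^ 2 ≤ (X : ℝ) ^ ((1 : ℝ) / 5) := by
          calc (Real.log X) ^ 2 ≤ ((Real.log X) ^ ((21 : ℝ) / 20)) ^ 2 := by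
                gcongr
                calc Real.log X = (Real.log X) ^ (1 : ℝ) := (Real.rpow_one _).symm
                  _ ≤ (Real.log X) ^ ((21 : ℝ) / 20) :=
                    Real.rpow_le_rpow_of_exponent_le (by linarith) (by norm_num)
            _ ≤ ((X : ℝ) ^ ((1 : ℝ) / 10)) ^ 2 := by gcongr
            _ = (X : ℝ) ^ ((1 : ℝ) / 5) := by
                rw [← Real.rpow_natCast, ← Real.rpow_mul hX0.le]
                norm_num
        calc (X : ℝ) ^ ((1 : ℝ) / 56) * (Real.log X) ^ 2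
            ≤ (X : ℝ) ^ ((1 : ℝ) / 56) * (X : ℝ) ^ ((1 : ℝ) / 5) := by gcongr
          _ = (X : ℝ) ^ ((1 : ℝ) / 56 + (1 : ℝ) / 5) := (Real.rpow_add hX0 _ _).symm
          _ ≤ (X : ℝ) ^ ((1 : ℝ) / 2) :=
              Real.rpow_le_rpow_of_exponent_le (by have := hX.x2; linarith) (by norm_num)
      linarith
    have h1 := hbt a' N hN3 (w0 X : ℝ) hw0'
    have h2 : ((R.filter (fun t : ℤ => (p : ℤ) ∣ t)).card : ℝ) ≤
        ((rough (Finset.Ioc a' (a' + (N : ℤ))) (w0 X : ℝ)).card : ℝ) := by exact_mod_cast ha'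
    have hlogN : 0 < Real.log N := by linarith
    calc ((R.filter (fun t : ℤ => (p : ℤ) ∣ t)).card : ℝ) ≤ C * (N / Real.log N) := h2.trans h1
      _ ≤ C * ((2 * (X / p)) / (2 / 5 * Real.log X)) := by gcongr
      _ = 5 * C * X / Real.log X * (1 / p) := by
          field_simp
  rw [← hR]
  refine hcard.trans ?_
  gcongr
  calc ∑ p ∈ S, ((R.filter (fun t : ℤ => (p : ℤ) ∣ t)).card : ℝ)
      ≤ ∑ p ∈ S, 5 * C * X / Real.log X * (1 / p) := Finset.sum_le_sum hterm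
    _ = 5 * C * X / Real.log X * ∑ p ∈ S, (1 : ℝ) / p := by rw [Finset.mul_sum]
    _ ≤ 5 * C * X / Real.log X * (85 * Real.log (Real.log X) / Real.log X) := by gcongr
    _ = 5 * C * 85 * X * Real.log (Real.log X) / (Real.log X) ^ 2 := by
        field_simp

end Crest.Agent.R001.Asm
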