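import Mathlib
import Crest.Agent.Lib.Mertens

-- ▼ part R001/FLCore
section

/-!
# Fundamental lemma of the sieve, combinatorial core (Brun-Hooley).  helper571
-/

set_option autoImplicit false

namespace Crest.Agent.R001.FL

open Finset

/-- truncated signed weight -/
noncomputable def sg (m : ℕ) (D : Finset ℕ) : ℝ := if D.card ≤ m then (-1) ^ D.card else 0

/-- exact-size weight -/
noncomputable def ex (m : ℕ) (D : Finset ℕ) : ℝ := if D.card = m then 1 else 0

/-- weight product -/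
noncomputable def gp (g : ℕ → ℝ) (D : Finset ℕ) : ℝ := ∏ p ∈ D, g p

/-- truncated alternating sum -/
noncomputable def Bm (g : ℕ → ℝ) (m : ℕ) (S : Finset ℕ) : ℝ := ∑ D ∈ S.powerset, sg m D * gp g D

/-- elementary symmetric sum -/
noncomputable def em (g : ℕ → ℝ) (m : ℕ) (S : Finset ℕ) : ℝ := ∑ D ∈ S.powerset, ex m D * gp g D

/-- full product -/
noncomputable def Vp (g : ℕ → ℝ) (S : Finset ℕ) : ℝ := ∏ p ∈ S, (1 - g p)

lemma gp_insert (g : ℕ → ℝ) {p : ℕ} {D : Finset ℕ} (h : p ∉ D) :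
    gp g (insert p D) = g p * gp g D := by
  simp [gp, Finset.prod_insert h]


lemma Bm_insert_succ (g : ℕ → ℝ) (m : ℕ) {p : ℕ} {S : Finset ℕ} (h : p ∉ S) :
    Bm g (m + 1) (insert p S) = Bm g (m + 1) S - g p * Bm g m S := by
  rw [Bm, Finset.sum_powerset_insert h, Bm, Bm, Finset.mul_sum, sub_eq_add_neg,
    ← Finset.sum_neg_distrib]
  congr 1
  apply Finset.sum_congr rfl
  intro D hD
  have hpD : p ∉ D := fun hp => h (Finset.mem_powerset.1 hD hp)
  rw [gp_insert g hpD]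
  simp only [sg, Finset.card_insert_of_notMem hpD]
  by_cases hc : D.card ≤ m
  · simp [hc, pow_succ]
    ring
  · simp [hc]

lemma Bm_zero (g : ℕ → ℝ) (S : Finset ℕ) : Bm g 0 S = 1 := by
  rw [Bm, Finset.sum_eq_single ∅]
  · simp [sg, gp]
  · intro D _ hD
    have : D.card ≠ 0 := by simpa using hD
    simp [sg, this]
  · intro h
    exact absurd (Finset.empty_mem_powerset S) h

lemma em_insert_succ (g : ℕ → ℝ) (m : ℕ) {p : ℕ} {S : Finset ℕ} (h : p ∉ S) :
    em g (m + 1) (insert p S) = em g (m + 1) S + g p * em g m S := by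
  rw [em, Finset.sum_powerset_insert h, em, em, Finset.mul_sum]
  congr 1
  apply Finset.sum_congr rfl
  intro D hD
  have hpD : p ∉ D := fun hp => h (Finset.mem_powerset.1 hD hp)
  rw [gp_insert g hpD]
  simp only [ex, Finset.card_insert_of_notMem hpD]
  by_cases hc : D.card = m
  · simp [hc]
  · simp [hc]

lemma em_zero (g : ℕ → ℝ) (S : Finset ℕ) : em g 0 S = 1 := by
  rw [em, Finset.sum_eq_single ∅]
  · simp [ex, gp]
  · intro D _ hD
    have : D.card ≠ 0 := by simpa using hD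
    simp [ex, this]
  · intro h
    exact absurd (Finset.empty_mem_powerset S) h

lemma em_empty_succ (g : ℕ → ℝ) (m : ℕ) : em g (m + 1) ∅ = 0 := by
  simp [em, ex]


lemma Vp_insert (g : ℕ → ℝ) {p : ℕ} {S : Finset ℕ} (h : p ∉ S) :
    Vp g (insert p S) = Vp g S - g p * Vp g S := by
  rw [Vp, Finset.prod_insert h, Vp]; ring

lemma Vp_nonneg (g : ℕ → ℝ) (S : Finset ℕ) (h : ∀ p ∈ S, g p ≤ 1) : 0 ≤ Vp g S :=
  Finset.prod_nonneg fun p hp => by linarith [h p hp]

lemma Vp_le_one (g : ℕ → ℝ) (S : Finset ℕ) (h0 : ∀ p ∈ S, 0 ≤ g p) (h : ∀ p ∈ S, g p ≤ 1) :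
    Vp g S ≤ 1 :=
  Finset.prod_le_one (fun p hp => by linarith [h p hp]) fun p hp => by linarith [h0 p hp]

/-- Bonferroni with weights. -/
theorem bonferroni (g : ℕ → ℝ) (S : Finset ℕ) (h0 : ∀ p ∈ S, 0 ≤ g p) (h1 : ∀ p ∈ S, g p ≤ 1) :
    ∀ m : ℕ, 0 ≤ (-1 : ℝ) ^ m * (Bm g m S - Vp g S) ∧
      (-1 : ℝ) ^ m * (Bm g m S - Vp g S) ≤ em g (m + 1) S := by
  classical
  induction S using Finset.induction_on with
  | empty =>
    intro m
    have hB : Bm g m ∅ = 1 := by simp [Bm, sg, gp]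
    have hV : Vp g ∅ = 1 := by simp [Vp]
    rw [hB, hV, em_empty_succ]
    simp
  | insert p S hp ih =>
    have h0' : ∀ q ∈ S, 0 ≤ g q := fun q hq => h0 q (Finset.mem_insert_of_mem hq)
    have h1' : ∀ q ∈ S, g q ≤ 1 := fun q hq => h1 q (Finset.mem_insert_of_mem hq)
    have ih' := ih h0' h1'
    have hgp := h0 p (Finset.mem_insert_self p S)
    intro m
    cases m with
    | zero =>
      have h2 := ih' 0
      rw [Bm_zero] at h2
      rw [Bm_zero, Vp_insert g hp, em_insert_succ g 0 hp, em_zero]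
      simp only [pow_zero, one_mul] at h2 ⊢
      have h3 := Vp_nonneg g S h1'
      have h4 := Vp_le_one g S h0' h1'
      constructor
      · nlinarith [mul_nonneg hgp h3]
      · nlinarith [mul_le_mul_of_nonneg_left h4 hgp]
    | succ m =>
      have h2 := ih' (m + 1)
      have h3 := ih' m
      rw [Bm_insert_succ g m hp, Vp_insert g hp, em_insert_succ g (m + 1) hp]
      have h4 : (-1 : ℝ) ^ (m + 1) * (Bm g (m + 1) S - g p * Bm g m S - (Vp g S - g p * Vp g S)) =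
          (-1 : ℝ) ^ (m + 1) * (Bm g (m + 1) S - Vp g S) +
            g p * ((-1 : ℝ) ^ m * (Bm g m S - Vp g S)) := by
        rw [pow_succ]; ring
      rw [h4]
      constructor
      · exact add_nonneg h2.1 (mul_nonneg hgp h3.1)
      · exact add_le_add h2.2 (mul_le_mul_of_nonneg_left h3.2 hgp)

lemma pow_add_ge (x y : ℝ) (hx : 0 ≤ x) (hy : 0 ≤ y) (m : ℕ) :
    x ^ (m + 1) + (m + 1 : ℕ) * x ^ m * y ≤ (x + y) ^ (m + 1) := by
  induction m with
  | zero => simp
  | succ m ih =>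
    have h1 : (x + y) ^ (m + 1 + 1) = (x + y) ^ (m + 1) * (x + y) := pow_succ _ _
    rw [h1]
    have h2 : (x ^ (m + 1) + (m + 1 : ℕ) * x ^ m * y) * (x + y) ≤ (x + y) ^ (m + 1) * (x + y) :=
      mul_le_mul_of_nonneg_right ih (by positivity)
    refine le_trans ?_ h2
    push_cast
    have h3 : 0 ≤ ((m : ℝ) + 1) * x ^ m * y * y := by positivity
    have h4 : (x ^ (m + 1) + ((m : ℝ) + 1) * x ^ m * y) * (x + y) =
      x ^ (m + 1 + 1) + ((m : ℝ) + 1 + 1) * x ^ (m + 1) * y + ((m : ℝ) + 1) * x ^ m * y * y := by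
      ring
    rw [h4]
    linarith

theorem em_le (g : ℕ → ℝ) (S : Finset ℕ) (h0 : ∀ p ∈ S, 0 ≤ g p) :
    ∀ m : ℕ, em g m S ≤ (∑ p ∈ S, g p) ^ m / m.factorial := by
  classical
  induction S using Finset.induction_on with
  | empty =>
    intro m
    cases m with
    | zero => rw [em_zero]; simp
    | succ m => rw [em_empty_succ]; positivity
  | insert p S hp ih =>
    have h0' : ∀ q ∈ S, 0 ≤ g q := fun q hq => h0 q (Finset.mem_insert_of_mem hq)
    have ih' := ih h0'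
    have hgp := h0 p (Finset.mem_insert_self p S)
    have hs : 0 ≤ ∑ q ∈ S, g q := Finset.sum_nonneg h0'
    intro m
    cases m with
    | zero => rw [em_zero]; simp
    | succ m =>
      rw [em_insert_succ g m hp, Finset.sum_insert hp]
      have h1 := pow_add_ge (∑ q ∈ S, g q) (g p) hs hgp m
      have h2 := ih' (m + 1)
      have h3 := mul_le_mul_of_nonneg_left (ih' m) hgp
      calc em g (m + 1) S + g p * em g m S
          ≤ (∑ q ∈ S, g q) ^ (m + 1) / (m + 1).factorial +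
            g p * ((∑ q ∈ S, g q) ^ m / m.factorial) := add_le_add h2 h3
        _ = ((∑ q ∈ S, g q) ^ (m + 1) + (m + 1 : ℕ) * (∑ q ∈ S, g q) ^ m * g p) /
            (m + 1).factorial := by
          rw [Nat.factorial_succ]
          have h4 : (m.factorial : ℝ) ≠ 0 := by exact_mod_cast m.factorial_ne_zero
          have h5 : ((m + 1 : ℕ) : ℝ) ≠ 0 := by positivity
          push_cast
          push_cast at h5
          field_simp
        _ ≤ _ := by
          apply div_le_div_of_nonneg_right _ (by positivity)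
          rw [add_comm (g p)]
          exact h1

/-! ### block decomposition -/

lemma sum_powerset_split (T : Finset ℕ) (q : ℕ → Prop) [DecidablePred q]
    (F G : Finset ℕ → ℝ) :
    ∑ D ∈ T.powerset, F (D.filter q) * G (D.filter fun p => ¬ q p) =
      (∑ D ∈ (T.filter q).powerset, F D) * ∑ D ∈ (T.filter fun p => ¬ q p).powerset, G D := by
  classical
  rw [Finset.sum_mul_sum, ← Finset.sum_product']
  refine Finset.sum_bij' (fun D _ => (D.filter q, D.filter fun p => ¬ q p))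
    (fun AB _ => AB.1 ∪ AB.2) ?_ ?_ ?_ ?_ ?_
  · intro D hD
    rw [Finset.mem_product, Finset.mem_powerset, Finset.mem_powerset]
    rw [Finset.mem_powerset] at hD
    exact ⟨Finset.filter_subset_filter _ hD, Finset.filter_subset_filter _ hD⟩
  · intro AB hAB
    rw [Finset.mem_product, Finset.mem_powerset, Finset.mem_powerset] at hAB
    rw [Finset.mem_powerset]
    exact Finset.union_subset (hAB.1.trans (Finset.filter_subset _ _))
      (hAB.2.trans (Finset.filter_subset _ _))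
  · intro D _
    exact Finset.filter_union_filter_not_eq _ _
  · intro AB hAB
    rw [Finset.mem_product, Finset.mem_powerset, Finset.mem_powerset] at hAB
    have h1 : ∀ p ∈ AB.1, q p := fun p hp => (Finset.mem_filter.1 (hAB.1 hp)).2
    have h2 : ∀ p ∈ AB.2, ¬ q p := fun p hp => (Finset.mem_filter.1 (hAB.2 hp)).2
    ext p
    · simp only [Finset.mem_filter, Finset.mem_union]
      constructor
      · rintro ⟨h | h, h'⟩
        · exact h
        · exact absurd h' (h2 p h)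
      · intro h
        exact ⟨Or.inl h, h1 p h⟩
    · simp only [Finset.mem_filter, Finset.mem_union]
      constructor
      · rintro ⟨h | h, h'⟩
        · exact absurd (h1 p h) h'
        · exact h
      · intro h
        exact ⟨Or.inr h, h2 p h⟩
  · intro D _
    rfl

/-- the `j`-th block of `D` -/
def blk (c : ℕ → ℕ) (j : ℕ) (D : Finset ℕ) : Finset ℕ := D.filter fun p => c p = j

lemma sum_blocks (c : ℕ → ℕ) (F : ℕ → Finset ℕ → ℝ) (t : ℕ) : ∀ T : Finset ℕ,
    (∀ p ∈ T, c p < t) →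
    ∑ D ∈ T.powerset, ∏ j ∈ range t, F j (blk c j D) =
      ∏ j ∈ range t, ∑ D ∈ (blk c j T).powerset, F j D := by
  induction t with
  | zero =>
    intro T hT
    have : T = ∅ := Finset.eq_empty_of_forall_notMem fun p hp => absurd (hT p hp) (Nat.not_lt_zero _)
    subst this
    simp
  | succ t ih =>
    intro T hT
    have h1 := sum_powerset_split T (fun p => c p < t)
      (fun D => ∏ j ∈ range t, F j (blk c j D)) (fun D => F t D)
    have h2 : ∑ D ∈ T.powerset, ∏ j ∈ range (t + 1), F j (blk c j D) =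
        ∑ D ∈ T.powerset, (∏ j ∈ range t, F j (blk c j (D.filter fun p => c p < t))) *
          F t (D.filter fun p => ¬ c p < t) := by
      apply Finset.sum_congr rfl
      intro D hD
      rw [Finset.prod_range_succ]
      congr 1
      · apply Finset.prod_congr rfl
        intro j hj
        congr 1
        ext p
        simp only [blk, Finset.mem_filter]
        have := Finset.mem_range.1 hj
        constructor
        · rintro ⟨h, h'⟩; exact ⟨⟨h, by omega⟩, h'⟩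
        · rintro ⟨⟨h, _⟩, h'⟩; exact ⟨h, h'⟩
      · congr 1
        ext p
        simp only [blk, Finset.mem_filter]
        constructor
        · rintro ⟨h, h'⟩; exact ⟨h, by omega⟩
        · rintro ⟨h, h'⟩
          have := hT p (Finset.mem_powerset.1 hD h)
          exact ⟨h, by omega⟩
    rw [h2, h1, Finset.prod_range_succ, ih _ (fun p hp => (Finset.mem_filter.1 hp).2)]
    congr 1
    · apply Finset.prod_congr rfl
      intro j hj
      apply Finset.sum_congr _ fun _ _ => rfl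
      congr 1
      ext p
      simp only [blk, Finset.mem_filter]
      have := Finset.mem_range.1 hj
      constructor
      · rintro ⟨⟨h, _⟩, h'⟩; exact ⟨h, h'⟩
      · rintro ⟨h, h'⟩; exact ⟨⟨h, by omega⟩, h'⟩
    · apply Finset.sum_congr _ fun _ _ => rfl
      congr 1
      ext p
      simp only [blk, Finset.mem_filter]
      constructor
      · rintro ⟨h, h'⟩
        have := hT p h
        exact ⟨h, by omega⟩
      · rintro ⟨h, h'⟩; exact ⟨h, by omega⟩

lemma gp_blocks (c : ℕ → ℕ) (g : ℕ → ℝ) (t : ℕ) : ∀ D : Finset ℕ, (∀ p ∈ D, c p < t) →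
    gp g D = ∏ j ∈ range t, gp g (blk c j D) := by
  intro D hD
  unfold gp blk
  rw [Finset.prod_fiberwise_of_maps_to (fun p hp => Finset.mem_range.2 (hD p hp))]

/-- upper weights -/
noncomputable def lamp (c : ℕ → ℕ) (k : ℕ → ℕ) (t : ℕ) (D : Finset ℕ) : ℝ :=
  ∏ j ∈ range t, sg (2 * k j) (blk c j D)

/-- correction weights with special block `l` -/
noncomputable def lamc (c : ℕ → ℕ) (k : ℕ → ℕ) (t : ℕ) (l : ℕ) (D : Finset ℕ) : ℝ :=
  ∏ j ∈ range t, (if j = l then ex (2 * k j + 1) (blk c j D) else sg (2 * k j) (blk c j D))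

/-- lower weights -/
noncomputable def lamm (c : ℕ → ℕ) (k : ℕ → ℕ) (t : ℕ) (D : Finset ℕ) : ℝ :=
  lamp c k t D - ∑ l ∈ range t, lamc c k t l D

/-- weighted sum of upper weights -/
lemma sum_lamp (c : ℕ → ℕ) (k : ℕ → ℕ) (t : ℕ) (g : ℕ → ℝ) (T : Finset ℕ)
    (hT : ∀ p ∈ T, c p < t) :
    ∑ D ∈ T.powerset, lamp c k t D * gp g D =
      ∏ j ∈ range t, Bm g (2 * k j) (blk c j T) := by
  have h1 := sum_blocks c (fun j D => sg (2 * k j) D * gp g D) t T hT
  unfold Bm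
  rw [← h1]
  apply Finset.sum_congr rfl
  intro D hD
  rw [gp_blocks c g t D fun p hp => hT p (Finset.mem_powerset.1 hD hp), lamp,
    ← Finset.prod_mul_distrib]

lemma sum_lamc (c : ℕ → ℕ) (k : ℕ → ℕ) (t : ℕ) (g : ℕ → ℝ) (T : Finset ℕ) (l : ℕ)
    (hT : ∀ p ∈ T, c p < t) :
    ∑ D ∈ T.powerset, lamc c k t l D * gp g D =
      ∏ j ∈ range t, (if j = l then em g (2 * k j + 1) (blk c j T)
        else Bm g (2 * k j) (blk c j T)) := by
  have h1 := sum_blocks c (fun j D => (if j = l then ex (2 * k j + 1) D else sg (2 * k j) D) *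
    gp g D) t T hT
  have h2 : ∀ j ∈ range t, (if j = l then em g (2 * k j + 1) (blk c j T)
        else Bm g (2 * k j) (blk c j T)) =
      ∑ D ∈ (blk c j T).powerset, (if j = l then ex (2 * k j + 1) D else sg (2 * k j) D) *
        gp g D := by
    intro j _
    split_ifs <;> rfl
  rw [Finset.prod_congr rfl h2, ← h1]
  apply Finset.sum_congr rfl
  intro D hD
  rw [gp_blocks c g t D fun p hp => hT p (Finset.mem_powerset.1 hD hp), lamc,
    ← Finset.prod_mul_distrib]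

/-- product lower bound: `∏ (y_j)` vs perturbation, `0 ≤ x_j ≤ y_j`, `y_j - x_j ≤ e_j`. -/
lemma prod_lower (t : ℕ) (x y e : ℕ → ℝ) (hx : ∀ j ∈ range t, 0 ≤ x j)
    (hxy : ∀ j ∈ range t, x j ≤ y j) (he : ∀ j ∈ range t, y j - x j ≤ e j) :
    ∏ j ∈ range t, y j - ∑ l ∈ range t, ∏ j ∈ range t, (if j = l then e j else y j) ≤
      ∏ j ∈ range t, x j := by
  induction t with
  | zero => simp
  | succ t ih =>
    have hx' : ∀ j ∈ range t, 0 ≤ x j := fun j hj =>
      hx j (Finset.mem_range.2 ((Finset.mem_range.1 hj).trans (Nat.lt_succ_self _)))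
    have hxy' : ∀ j ∈ range t, x j ≤ y j := fun j hj =>
      hxy j (Finset.mem_range.2 ((Finset.mem_range.1 hj).trans (Nat.lt_succ_self _)))
    have he' : ∀ j ∈ range t, y j - x j ≤ e j := fun j hj =>
      he j (Finset.mem_range.2 ((Finset.mem_range.1 hj).trans (Nat.lt_succ_self _)))
    have ih' := ih hx' hxy' he'
    have ht : t ∈ range (t + 1) := Finset.self_mem_range_succ t
    have h1 := hx t ht
    have h2 := hxy t ht
    have h3 := he t ht
    rw [Finset.prod_range_succ, Finset.prod_range_succ (fun j => x j), Finset.sum_range_succ]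
    have h4 : ∑ l ∈ range t, ∏ j ∈ range (t + 1), (if j = l then e j else y j) =
        (∑ l ∈ range t, ∏ j ∈ range t, (if j = l then e j else y j)) * y t := by
      rw [Finset.sum_mul]
      apply Finset.sum_congr rfl
      intro l hl
      rw [Finset.prod_range_succ]
      have : t ≠ l := by
        have := Finset.mem_range.1 hl
        omega
      rw [if_neg this]
    have h5 : ∏ j ∈ range (t + 1), (if j = t then e j else y j) = (∏ j ∈ range t, y j) * e t := by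
      rw [Finset.prod_range_succ, if_pos rfl]
      congr 1
      apply Finset.prod_congr rfl
      intro j hj
      have : j ≠ t := by
        have := Finset.mem_range.1 hj
        omega
      rw [if_neg this]
    rw [h4, h5]
    have h6 : 0 ≤ ∏ j ∈ range t, y j :=
      Finset.prod_nonneg fun j hj => (hx' j hj).trans (hxy' j hj)
    have h7 : 0 ≤ ∏ j ∈ range t, x j := Finset.prod_nonneg hx'
    have h8 : 0 ≤ ∑ l ∈ range t, ∏ j ∈ range t, (if j = l then e j else y j) := by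
      apply Finset.sum_nonneg
      intro l _
      apply Finset.prod_nonneg
      intro j hj
      split_ifs
      · linarith [hxy' j hj, he' j hj]
      · exact (hx' j hj).trans (hxy' j hj)
    have h9 : ∏ j ∈ range t, x j ≤ ∏ j ∈ range t, y j :=
      Finset.prod_le_prod hx' hxy'
    nlinarith [mul_nonneg h6 (sub_nonneg.2 h3), mul_nonneg h8 h1,
      mul_nonneg h8 (h1.trans h2), mul_nonneg (sub_nonneg.2 h9) (sub_nonneg.2 h2),
      mul_le_mul_of_nonneg_right ih' (h1.trans h2),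
      mul_le_mul_of_nonneg_left h3 h6, mul_le_mul_of_nonneg_left h2 h7]

end Crest.Agent.R001.FL
end

-- ▼ part R001/FLMain
section

/-!
# Fundamental lemma of the sieve (Brun-Hooley), all dimensions, weights form.  helper571
-/

set_option autoImplicit false

namespace Crest.Agent.R001.FL

open Finset

/-- block index -/
noncomputable def cz (z : ℝ) (p : ℕ) : ℕ := Nat.log 2 ⌊Real.log z / Real.log p⌋₊

/-- number of blocks -/
noncomputable def tz (z : ℝ) : ℕ := Nat.log 2 ⌊Real.log z / Real.log 2⌋₊ + 1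

lemma cz_lt {z : ℝ} {p : ℕ} (hp : 2 ≤ p) (hpz : (p : ℝ) ≤ z) : cz z p < tz z := by
  unfold cz tz
  have h2 : (2 : ℝ) ≤ p := by exact_mod_cast hp
  have h3 : Real.log 2 ≤ Real.log p := Real.log_le_log (by norm_num) h2
  have h4 : 0 < Real.log 2 := Real.log_pos (by norm_num)
  have h5 : 0 ≤ Real.log z := Real.log_nonneg (by linarith)
  have h6 : ⌊Real.log z / Real.log p⌋₊ ≤ ⌊Real.log z / Real.log 2⌋₊ := by
    apply Nat.floor_le_floor
    exact div_le_div_of_nonneg_left h5 h4 h3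
  exact Nat.lt_succ_of_le (Nat.log_mono_right h6)

lemma cz_bounds {z : ℝ} {p : ℕ} (hp : 2 ≤ p) (hpz : (p : ℝ) ≤ z) :
    Real.log p ≤ Real.log z / 2 ^ (cz z p) ∧ Real.log z / 2 ^ (cz z p) / 2 < Real.log p := by
  have h2 : (2 : ℝ) ≤ p := by exact_mod_cast hp
  have hlp : 0 < Real.log p := Real.log_pos (by linarith)
  have hzp : Real.log p ≤ Real.log z := Real.log_le_log (by linarith) hpz
  set r := Real.log z / Real.log p with hr
  have hr1 : 1 ≤ r := by rw [hr, le_div_iff₀ hlp]; linarith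
  have hn0 : ⌊r⌋₊ ≠ 0 := by
    have : 1 ≤ ⌊r⌋₊ := Nat.le_floor (by exact_mod_cast hr1)
    omega
  have hc : cz z p = Nat.log 2 ⌊r⌋₊ := rfl
  have h3 : 2 ^ (cz z p) ≤ ⌊r⌋₊ := by rw [hc]; exact Nat.pow_log_le_self 2 hn0
  have h4 : ⌊r⌋₊ < 2 ^ (cz z p + 1) := by rw [hc]; exact Nat.lt_pow_succ_log_self (by norm_num) _
  have h5 : (2 : ℝ) ^ (cz z p) ≤ r := by
    calc (2 : ℝ) ^ (cz z p) = ((2 ^ (cz z p) : ℕ) : ℝ) := by push_cast; rfl
      _ ≤ (⌊r⌋₊ : ℝ) := by exact_mod_cast h3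
      _ ≤ r := Nat.floor_le (by linarith)
  have h6 : r < (2 : ℝ) ^ (cz z p + 1) := by
    calc r < (⌊r⌋₊ : ℝ) + 1 := Nat.lt_floor_add_one r
      _ ≤ ((2 ^ (cz z p + 1) : ℕ) : ℝ) := by exact_mod_cast h4
      _ = _ := by push_cast; rfl
  have h7 : Real.log z = r * Real.log p := by rw [hr]; field_simp
  constructor
  · rw [le_div_iff₀ (by positivity), h7]
    nlinarith
  · rw [div_div, div_lt_iff₀ (by positivity), h7, ← pow_succ]
    nlinarith

lemma abs_sg_le (m : ℕ) (D : Finset ℕ) : |sg m D| ≤ 1 := by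
  unfold sg
  split_ifs
  · rw [abs_pow, abs_neg, abs_one, one_pow]
  · simp

lemma abs_ex_le (m : ℕ) (D : Finset ℕ) : |ex m D| ≤ 1 := by
  unfold ex
  split_ifs <;> simp

lemma abs_lamp_le (c k : ℕ → ℕ) (t : ℕ) (D : Finset ℕ) : |lamp c k t D| ≤ 1 := by
  unfold lamp
  rw [Finset.abs_prod]
  exact Finset.prod_le_one (fun _ _ => abs_nonneg _) fun _ _ => abs_sg_le _ _

lemma abs_lamc_le (c k : ℕ → ℕ) (t l : ℕ) (D : Finset ℕ) : |lamc c k t l D| ≤ 1 := by
  unfold lamc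
  rw [Finset.abs_prod]
  apply Finset.prod_le_one (fun _ _ => abs_nonneg _)
  intro j _
  split_ifs
  · exact abs_ex_le _ _
  · exact abs_sg_le _ _

lemma lamc_eq_zero_of_ne (c k : ℕ → ℕ) (t l : ℕ) (D : Finset ℕ) (hl : l ∈ range t)
    (h : (blk c l D).card ≠ 2 * k l + 1) : lamc c k t l D = 0 := by
  unfold lamc
  apply Finset.prod_eq_zero hl
  rw [if_pos rfl, ex, if_neg h]

lemma lamm_cases (c k : ℕ → ℕ) (t : ℕ) (D : Finset ℕ) :
    (lamm c k t D = lamp c k t D) ∨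
      (lamp c k t D = 0 ∧ ∃ l ∈ range t, lamm c k t D = - lamc c k t l D) := by
  by_cases h : ∃ l ∈ range t, (blk c l D).card = 2 * k l + 1
  · right
    obtain ⟨l, hl, hc⟩ := h
    have h1 : lamp c k t D = 0 := by
      unfold lamp
      apply Finset.prod_eq_zero hl
      rw [sg, if_neg (by omega)]
    refine ⟨h1, l, hl, ?_⟩
    unfold lamm
    rw [h1, Finset.sum_eq_single l]
    · ring
    · intro m hm hml
      unfold lamc
      apply Finset.prod_eq_zero hl
      rw [if_neg (fun h => hml h.symm), sg, if_neg (by omega)]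
    · intro h; exact absurd hl h
  · left
    push Not at h
    unfold lamm
    rw [Finset.sum_eq_zero fun l hl => lamc_eq_zero_of_ne c k t l D hl (h l hl)]
    ring

lemma abs_lamm_le (c k : ℕ → ℕ) (t : ℕ) (D : Finset ℕ) : |lamm c k t D| ≤ 1 := by
  rcases lamm_cases c k t D with h | ⟨_, l, _, h⟩
  · rw [h]; exact abs_lamp_le _ _ _ _
  · rw [h, abs_neg]; exact abs_lamc_le _ _ _ _ _

lemma card_of_lamp_ne (c k : ℕ → ℕ) (t : ℕ) (D : Finset ℕ) (h : lamp c k t D ≠ 0) :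
    ∀ j ∈ range t, (blk c j D).card ≤ 2 * k j + 1 := by
  intro j hj
  by_contra h1
  apply h
  unfold lamp
  apply Finset.prod_eq_zero hj
  rw [sg, if_neg (by omega)]

lemma card_of_lamc_ne (c k : ℕ → ℕ) (t l : ℕ) (D : Finset ℕ) (h : lamc c k t l D ≠ 0) :
    ∀ j ∈ range t, (blk c j D).card ≤ 2 * k j + 1 := by
  intro j hj
  by_contra h1
  apply h
  unfold lamc
  apply Finset.prod_eq_zero hj
  split_ifs
  · rw [ex, if_neg (by omega)]
  · rw [sg, if_neg (by omega)]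

lemma card_of_lamm_ne (c k : ℕ → ℕ) (t : ℕ) (D : Finset ℕ) (h : lamm c k t D ≠ 0) :
    ∀ j ∈ range t, (blk c j D).card ≤ 2 * k j + 1 := by
  rcases lamm_cases c k t D with h1 | ⟨_, l, _, h1⟩
  · rw [h1] at h; exact card_of_lamp_ne c k t D h
  · rw [h1, neg_ne_zero] at h; exact card_of_lamc_ne c k t l D h

lemma level_sum (k0 t : ℕ) :
    ∑ j ∈ range t, ((2 * (k0 + j) + 1 : ℕ) : ℝ) / 2 ^ j =
      4 * k0 + 6 - (4 * k0 + 4 * t + 6) / 2 ^ t := by
  induction t with
  | zero => simp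
  | succ t ih =>
    rw [Finset.sum_range_succ, ih, pow_succ]
    push_cast
    field_simp
    ring

lemma level_le (k0 : ℕ) {z : ℝ} (hz : 1 ≤ z) (D : Finset ℕ)
    (hD : ∀ p ∈ D, 2 ≤ p ∧ (p : ℝ) ≤ z)
    (hc : ∀ j ∈ range (tz z), (blk (cz z) j D).card ≤ 2 * (k0 + j) + 1) :
    ∏ p ∈ D, (p : ℝ) ≤ z ^ ((4 * k0 + 6 : ℕ) : ℝ) := by
  have hpos : ∀ p ∈ D, (0 : ℝ) < p := fun p hp => by
    have := (hD p hp).1
    exact_mod_cast (by omega : 0 < p)
  have hlz : 0 ≤ Real.log z := Real.log_nonneg hz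
  rw [← Real.log_le_log_iff (Finset.prod_pos hpos) (Real.rpow_pos_of_pos (by linarith) _),
    Real.log_rpow (by linarith), Real.log_prod (fun p hp => (hpos p hp).ne')]
  have h1 : ∑ p ∈ D, Real.log p = ∑ j ∈ range (tz z), ∑ p ∈ blk (cz z) j D, Real.log p := by
    unfold blk
    rw [Finset.sum_fiberwise_of_maps_to]
    intro p hp
    exact Finset.mem_range.2 (cz_lt (hD p hp).1 (hD p hp).2)
  rw [h1]
  have h2 : ∀ j ∈ range (tz z), ∑ p ∈ blk (cz z) j D, Real.log p ≤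
      ((2 * (k0 + j) + 1 : ℕ) : ℝ) / 2 ^ j * Real.log z := by
    intro j hj
    have h3 : ∀ p ∈ blk (cz z) j D, Real.log p ≤ Real.log z / 2 ^ j := by
      intro p hp
      rw [blk, Finset.mem_filter] at hp
      have h4 := (cz_bounds (hD p hp.1).1 (hD p hp.1).2).1
      rw [hp.2] at h4
      exact h4
    calc ∑ p ∈ blk (cz z) j D, Real.log p
        ≤ (blk (cz z) j D).card • (Real.log z / 2 ^ j) := Finset.sum_le_card_nsmul _ _ _ h3
      _ = ((blk (cz z) j D).card : ℝ) * (Real.log z / 2 ^ j) := by rw [nsmul_eq_mul]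
      _ ≤ ((2 * (k0 + j) + 1 : ℕ) : ℝ) * (Real.log z / 2 ^ j) := by
          apply mul_le_mul_of_nonneg_right _ (by positivity)
          exact_mod_cast hc j hj
      _ = _ := by ring
  refine (Finset.sum_le_sum h2).trans ?_
  rw [← Finset.sum_mul, level_sum]
  apply mul_le_mul_of_nonneg_right _ hlz
  push_cast
  have : (0 : ℝ) ≤ (4 * k0 + 4 * (tz z) + 6) / 2 ^ (tz z) := by positivity
  linarith

lemma Vp_one_empty (S : Finset ℕ) : Vp (fun _ => 1) S = if S = ∅ then 1 else 0 := by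
  unfold Vp
  split_ifs with h
  · subst h; simp
  · obtain ⟨p, hp⟩ := Finset.nonempty_iff_ne_empty.2 h
    exact Finset.prod_eq_zero hp (by simp)

lemma prod_Vp_blocks (c : ℕ → ℕ) (g : ℕ → ℝ) (t : ℕ) (T : Finset ℕ) (hT : ∀ p ∈ T, c p < t) :
    ∏ j ∈ range t, Vp g (blk c j T) = Vp g T := by
  unfold Vp blk
  rw [Finset.prod_fiberwise_of_maps_to (fun p hp => Finset.mem_range.2 (hT p hp))]

/-- weights sandwich the indicator -/
theorem sandwich (c k : ℕ → ℕ) (t : ℕ) (T : Finset ℕ) (hT : ∀ p ∈ T, c p < t) :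
    ∑ D ∈ T.powerset, lamm c k t D ≤ (if T = ∅ then 1 else 0) ∧
      (if T = ∅ then (1 : ℝ) else 0) ≤ ∑ D ∈ T.powerset, lamp c k t D := by
  have hg1 : ∀ D : Finset ℕ, gp (fun _ => 1) D = 1 := fun D => by simp [gp]
  have h1 := sum_lamp c k t (fun _ => 1) T hT
  have h2 := fun l => sum_lamc c k t (fun _ => 1) T l hT
  have hV := prod_Vp_blocks c (fun _ => 1) t T hT
  rw [Vp_one_empty] at hV
  simp only [hg1, mul_one] at h1 h2
  have hb : ∀ j, 0 ≤ Bm (fun _ => 1) (2 * k j) (blk c j T) - Vp (fun _ => 1) (blk c j T) ∧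
      Bm (fun _ => 1) (2 * k j) (blk c j T) - Vp (fun _ => 1) (blk c j T) ≤
        em (fun _ => 1) (2 * k j + 1) (blk c j T) := by
    intro j
    have h3 := bonferroni (fun _ => 1) (blk c j T) (fun _ _ => zero_le_one) (fun _ _ => le_rfl)
      (2 * k j)
    have h4 : (-1 : ℝ) ^ (2 * k j) = 1 := by rw [pow_mul]; norm_num
    rw [h4, one_mul] at h3
    exact h3
  have hV0 : ∀ j, 0 ≤ Vp (fun _ => 1) (blk c j T) := fun j => Vp_nonneg _ _ fun _ _ => le_rfl
  constructor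
  · have h5 := prod_lower t (fun j => Vp (fun _ => 1) (blk c j T))
      (fun j => Bm (fun _ => 1) (2 * k j) (blk c j T))
      (fun j => em (fun _ => 1) (2 * k j + 1) (blk c j T))
      (fun j _ => hV0 j) (fun j _ => by linarith [(hb j).1]) (fun j _ => (hb j).2)
    rw [hV] at h5
    refine le_trans (le_of_eq ?_) h5
    unfold lamm
    rw [Finset.sum_sub_distrib, h1, Finset.sum_comm]
    congr 1
    exact Finset.sum_congr rfl fun l _ => h2 l
  · rw [h1, ← hV]
    exact Finset.prod_le_prod (fun j _ => hV0 j) (fun j _ => by linarith [(hb j).1])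

/-- main terms, abstract version. -/
theorem main_terms (c k : ℕ → ℕ) (t : ℕ) (g : ℕ → ℝ) (P : Finset ℕ) (hP : ∀ p ∈ P, c p < t)
    (h0 : ∀ p ∈ P, 0 ≤ g p) (h1 : ∀ p ∈ P, g p < 1) (ε : ℕ → ℝ) (hε0 : ∀ j, 0 ≤ ε j)
    (hε : ∀ j ∈ range t, em g (2 * k j + 1) (blk c j P) ≤ ε j * Vp g (blk c j P))
    (E : ℝ) (hE : ∑ j ∈ range t, ε j ≤ E) (hE1 : E ≤ 1 / 2) :
    (1 - E) * Vp g P ≤ ∑ D ∈ P.powerset, lamm c k t D * gp g D ∧
      ∑ D ∈ P.powerset, lamp c k t D * gp g D ≤ (1 + 2 * E) * Vp g P := by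
  have hb : ∀ j, 0 ≤ Bm g (2 * k j) (blk c j P) - Vp g (blk c j P) ∧
      Bm g (2 * k j) (blk c j P) - Vp g (blk c j P) ≤ em g (2 * k j + 1) (blk c j P) := by
    intro j
    have h3 := bonferroni g (blk c j P)
      (fun p hp => h0 p (Finset.mem_of_mem_filter p hp))
      (fun p hp => (h1 p (Finset.mem_of_mem_filter p hp)).le) (2 * k j)
    have h4 : (-1 : ℝ) ^ (2 * k j) = 1 := by rw [pow_mul]; norm_num
    rw [h4, one_mul] at h3
    exact h3
  have hVpos : ∀ j, 0 < Vp g (blk c j P) := fun j =>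
    Finset.prod_pos fun p hp => by linarith [h1 p (Finset.mem_of_mem_filter p hp)]
  have hV : ∏ j ∈ range t, Vp g (blk c j P) = Vp g P := prod_Vp_blocks c g t P hP
  have hVP : 0 < Vp g P := Finset.prod_pos fun p hp => by linarith [h1 p hp]
  have hE0 : 0 ≤ E := (Finset.sum_nonneg fun j _ => hε0 j).trans hE
  constructor
  · have h5 : ∑ D ∈ P.powerset, lamm c k t D * gp g D =
        ∏ j ∈ range t, Bm g (2 * k j) (blk c j P) -
          ∑ l ∈ range t, ∏ j ∈ range t, (if j = l then em g (2 * k j + 1) (blk c j P)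
            else Bm g (2 * k j) (blk c j P)) := by
      unfold lamm
      simp only [sub_mul, Finset.sum_mul]
      rw [Finset.sum_sub_distrib, sum_lamp c k t g P hP, Finset.sum_comm]
      congr 1
      exact Finset.sum_congr rfl fun l _ => sum_lamc c k t g P l hP
    rw [h5]
    have h6 : ∀ l ∈ range t, ∏ j ∈ range t, (if j = l then em g (2 * k j + 1) (blk c j P)
            else Bm g (2 * k j) (blk c j P)) ≤
        ε l * ∏ j ∈ range t, Bm g (2 * k j) (blk c j P) := by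
      intro l hl
      rw [← Finset.mul_prod_erase (range t) _ hl, if_pos rfl,
        ← Finset.mul_prod_erase (range t) (fun j => Bm g (2 * k j) (blk c j P)) hl, ← mul_assoc]
      have h7 : ∏ x ∈ (range t).erase l, (if x = l then em g (2 * k x + 1) (blk c x P)
            else Bm g (2 * k x) (blk c x P)) =
          ∏ x ∈ (range t).erase l, Bm g (2 * k x) (blk c x P) := by
        apply Finset.prod_congr rfl
        intro j hj
        rw [if_neg (Finset.ne_of_mem_erase hj)]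
      rw [h7]
      apply mul_le_mul_of_nonneg_right
      · calc em g (2 * k l + 1) (blk c l P) ≤ ε l * Vp g (blk c l P) := hε l hl
          _ ≤ ε l * Bm g (2 * k l) (blk c l P) :=
            mul_le_mul_of_nonneg_left (by linarith [(hb l).1]) (hε0 l)
      · exact Finset.prod_nonneg fun j _ => by linarith [(hb j).1, hVpos j]
    have h8 : ∏ j ∈ range t, Vp g (blk c j P) ≤ ∏ j ∈ range t, Bm g (2 * k j) (blk c j P) :=
      Finset.prod_le_prod (fun j _ => (hVpos j).le) fun j _ => by linarith [(hb j).1]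
    rw [hV] at h8
    have h9 := Finset.sum_le_sum h6
    rw [← Finset.sum_mul] at h9
    have h10 : (∑ l ∈ range t, ε l) * ∏ j ∈ range t, Bm g (2 * k j) (blk c j P) ≤
        E * ∏ j ∈ range t, Bm g (2 * k j) (blk c j P) :=
      mul_le_mul_of_nonneg_right hE (hVP.le.trans h8)
    have h11 : (1 - E) * Vp g P ≤ (1 - E) * ∏ j ∈ range t, Bm g (2 * k j) (blk c j P) :=
      mul_le_mul_of_nonneg_left h8 (by linarith)
    linarith
  · rw [sum_lamp c k t g P hP]
    have h6 : ∀ j ∈ range t, Bm g (2 * k j) (blk c j P) ≤ Vp g (blk c j P) * Real.exp (ε j) := by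
      intro j hj
      have h7 : 1 + ε j ≤ Real.exp (ε j) := by linarith [Real.add_one_le_exp (ε j)]
      have h8 : Bm g (2 * k j) (blk c j P) ≤ Vp g (blk c j P) * (1 + ε j) := by
        have := hε j hj
        have := (hb j).2
        linarith
      exact h8.trans (mul_le_mul_of_nonneg_left h7 (hVpos j).le)
    have h7 := Finset.prod_le_prod (s := range t)
      (fun j _ => by linarith [(hb j).1, hVpos j]) h6
    rw [Finset.prod_mul_distrib, hV, ← Real.exp_sum] at h7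
    refine h7.trans ?_
    rw [mul_comm]
    apply mul_le_mul_of_nonneg_right _ hVP.le
    have h8 : Real.exp (∑ j ∈ range t, ε j) ≤ Real.exp E := Real.exp_le_exp.2 hE
    have h9 : Real.exp E ≤ 1 / (1 - E) := by
      have h10 : 1 - E ≤ Real.exp (-E) := by linarith [Real.add_one_le_exp (-E)]
      rw [Real.exp_neg] at h10
      rw [le_div_iff₀ (by linarith)]
      have h11 := Real.exp_pos E
      calc Real.exp E * (1 - E) ≤ Real.exp E * (Real.exp E)⁻¹ :=
            mul_le_mul_of_nonneg_left h10 h11.le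
        _ = 1 := mul_inv_cancel₀ h11.ne'
    have h10 : 1 / (1 - E) ≤ 1 + 2 * E := by
      rw [div_le_iff₀ (by linarith)]
      nlinarith
    linarith

/-- dimension hypothesis -/
def Dim (κ K : ℝ) (P : Finset ℕ) (g : ℕ → ℝ) : Prop :=
  ∀ u v : ℝ, 2 ≤ u → u ≤ v →
    ∏ p ∈ P.filter (fun p : ℕ => u ≤ (p : ℝ) ∧ (p : ℝ) ≤ v), (1 - g p)⁻¹ ≤
      K * (Real.log v / Real.log u) ^ κ

lemma block_bound {κ K : ℝ} (hκ : 0 ≤ κ) (hK : 1 ≤ K) {z : ℝ} (hz : 2 ≤ z) (P : Finset ℕ)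
    (g : ℕ → ℝ) (hP : ∀ p ∈ P, 2 ≤ p ∧ (p : ℝ) ≤ z) (h0 : ∀ p ∈ P, 0 ≤ g p)
    (h1 : ∀ p ∈ P, g p < 1) (hdim : Dim κ K P g) (j : ℕ) :
    ∏ p ∈ blk (cz z) j P, (1 - g p)⁻¹ ≤ K * 2 ^ κ := by
  have h2κ : (1 : ℝ) ≤ 2 ^ κ := Real.one_le_rpow (by norm_num) hκ
  rcases Finset.eq_empty_or_nonempty (blk (cz z) j P) with he | ⟨p0, hp0⟩
  · rw [he, Finset.prod_empty]
    nlinarith
  · have hlz : 0 < Real.log z := Real.log_pos (by linarith)
    set lv := Real.log z / 2 ^ j with hlv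
    have hlv0 : 0 < lv := by positivity
    have hmem : ∀ p ∈ blk (cz z) j P, 2 ≤ p ∧ Real.log p ≤ lv ∧ lv / 2 < Real.log p := by
      intro p hp
      rw [blk, Finset.mem_filter] at hp
      have h4 := cz_bounds (hP p hp.1).1 (hP p hp.1).2
      rw [hp.2] at h4
      exact ⟨(hP p hp.1).1, h4⟩
    set u := max 2 (Real.exp (lv / 2)) with hu
    have hu2 : 2 ≤ u := le_max_left _ _
    have hv2 : 2 ≤ Real.exp lv := by
      have h5 := hmem p0 hp0
      have h6 : (2 : ℝ) ≤ p0 := by exact_mod_cast h5.1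
      calc (2 : ℝ) ≤ p0 := h6
        _ = Real.exp (Real.log p0) := (Real.exp_log (by linarith)).symm
        _ ≤ Real.exp lv := Real.exp_le_exp.2 h5.2.1
    have huv : u ≤ Real.exp lv := max_le hv2 (Real.exp_le_exp.2 (by linarith))
    have h5 := hdim u (Real.exp lv) hu2 huv
    have hlu : lv / 2 ≤ Real.log u := by
      have h6 := Real.log_le_log (Real.exp_pos _) (le_max_right 2 (Real.exp (lv / 2)))
      rwa [Real.log_exp] at h6
    have h7 : Real.log (Real.exp lv) / Real.log u ≤ 2 := by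
      rw [Real.log_exp, div_le_iff₀ (by linarith)]
      linarith
    have h8 : (Real.log (Real.exp lv) / Real.log u) ^ κ ≤ 2 ^ κ := by
      apply Real.rpow_le_rpow _ h7 hκ
      rw [Real.log_exp]
      apply div_nonneg hlv0.le
      linarith
    have h9 : K * (Real.log (Real.exp lv) / Real.log u) ^ κ ≤ K * 2 ^ κ :=
      mul_le_mul_of_nonneg_left h8 (by linarith)
    refine le_trans ?_ (h5.trans h9)
    have hsub : blk (cz z) j P ⊆ P.filter (fun p : ℕ => u ≤ (p : ℝ) ∧ (p : ℝ) ≤ Real.exp lv) := by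
      intro p hp
      have h10 := hmem p hp
      have hp2 : (2 : ℝ) ≤ p := by exact_mod_cast h10.1
      rw [Finset.mem_filter]
      refine ⟨Finset.mem_of_mem_filter p hp, ?_, ?_⟩
      · apply max_le hp2
        rw [← Real.exp_log (by linarith : (0 : ℝ) < p)]
        exact Real.exp_le_exp.2 h10.2.2.le
      · rw [← Real.exp_log (by linarith : (0 : ℝ) < p)]
        exact Real.exp_le_exp.2 h10.2.1
    rw [← Finset.prod_sdiff hsub]
    have h11 : ∀ p ∈ P, 1 ≤ (1 - g p)⁻¹ := by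
      intro p hp
      rw [le_inv_comm₀ one_pos (by linarith [h1 p hp])]
      simp
      exact h0 p hp
    have h12 : (1 : ℝ) ≤ ∏ x ∈ P.filter (fun p : ℕ => u ≤ (p : ℝ) ∧ (p : ℝ) ≤ Real.exp lv) \
        blk (cz z) j P, (1 - g x)⁻¹ := by
      calc (1 : ℝ) = ∏ _x ∈ P.filter (fun p : ℕ => u ≤ (p : ℝ) ∧ (p : ℝ) ≤ Real.exp lv) \
            blk (cz z) j P, (1 : ℝ) := by rw [Finset.prod_const_one]
        _ ≤ _ := by
          apply Finset.prod_le_prod (fun _ _ => zero_le_one)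
          intro p hp
          exact h11 p (Finset.mem_of_mem_filter p (Finset.mem_sdiff.1 hp).1)
    have h13 : 0 ≤ ∏ x ∈ blk (cz z) j P, (1 - g x)⁻¹ := by
      apply Finset.prod_nonneg
      intro p hp
      exact zero_le_one.trans (h11 p (Finset.mem_of_mem_filter p hp))
    nlinarith [mul_le_mul_of_nonneg_right h12 h13]

lemma em_block_le {κ K : ℝ} (hκ : 0 ≤ κ) (hK : 1 ≤ K) {z : ℝ} (hz : 2 ≤ z) (P : Finset ℕ)
    (g : ℕ → ℝ) (hP : ∀ p ∈ P, 2 ≤ p ∧ (p : ℝ) ≤ z) (h0 : ∀ p ∈ P, 0 ≤ g p)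
    (h1 : ∀ p ∈ P, g p < 1) (hdim : Dim κ K P g) (j m : ℕ) :
    em g m (blk (cz z) j P) ≤
      (K * 2 ^ κ) * (Real.log (K * 2 ^ κ)) ^ m / m.factorial * Vp g (blk (cz z) j P) := by
  have hb := block_bound hκ hK hz P g hP h0 h1 hdim j
  have h2κ : (1 : ℝ) ≤ 2 ^ κ := Real.one_le_rpow (by norm_num) hκ
  have hM : 1 ≤ K * 2 ^ κ := by nlinarith
  have h0' : ∀ p ∈ blk (cz z) j P, 0 ≤ g p := fun p hp => h0 p (Finset.mem_of_mem_filter p hp)
  have h1' : ∀ p ∈ blk (cz z) j P, g p < 1 := fun p hp => h1 p (Finset.mem_of_mem_filter p hp)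
  have hV : 0 < Vp g (blk (cz z) j P) := Finset.prod_pos fun p hp => by linarith [h1' p hp]
  have hVi : 1 ≤ (K * 2 ^ κ) * Vp g (blk (cz z) j P) := by
    have h3 : (Vp g (blk (cz z) j P))⁻¹ ≤ K * 2 ^ κ := by
      rw [Vp, ← Finset.prod_inv_distrib]; exact hb
    calc (1 : ℝ) = (Vp g (blk (cz z) j P))⁻¹ * Vp g (blk (cz z) j P) :=
          (inv_mul_cancel₀ hV.ne').symm
      _ ≤ _ := mul_le_mul_of_nonneg_right h3 hV.le
  have hsum : ∑ p ∈ blk (cz z) j P, g p ≤ Real.log (K * 2 ^ κ) := by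
    have h4 : ∑ p ∈ blk (cz z) j P, g p ≤
        Real.log (∏ p ∈ blk (cz z) j P, (1 - g p)⁻¹) := by
      rw [Real.log_prod (fun p hp => by
        have := h1' p hp
        exact inv_ne_zero (by linarith))]
      apply Finset.sum_le_sum
      intro p hp
      rw [Real.log_inv]
      have h5 : Real.log (1 - g p) ≤ (1 - g p) - 1 :=
        Real.log_le_sub_one_of_pos (by linarith [h1' p hp])
      linarith
    refine h4.trans (Real.log_le_log ?_ hb)
    exact Finset.prod_pos fun p hp => inv_pos.2 (by linarith [h1' p hp])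
  have hs0 : 0 ≤ ∑ p ∈ blk (cz z) j P, g p := Finset.sum_nonneg h0'
  calc em g m (blk (cz z) j P)
      ≤ (∑ p ∈ blk (cz z) j P, g p) ^ m / m.factorial := em_le g _ h0' m
    _ ≤ (Real.log (K * 2 ^ κ)) ^ m / m.factorial :=
        div_le_div_of_nonneg_right (pow_le_pow_left₀ hs0 hsum m) (by positivity)
    _ = (Real.log (K * 2 ^ κ)) ^ m / m.factorial * 1 := (mul_one _).symm
    _ ≤ (Real.log (K * 2 ^ κ)) ^ m / m.factorial * ((K * 2 ^ κ) * Vp g (blk (cz z) j P)) :=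
        mul_le_mul_of_nonneg_left hVi (div_nonneg (pow_nonneg (Real.log_nonneg hM) _)
          (by positivity))
    _ = _ := by ring

lemma tail_small (M Λ E : ℝ) (hM : 0 ≤ M) (hE : 0 < E) :
    ∃ k0 : ℕ, ∀ t : ℕ, ∑ j ∈ range t, M * Λ ^ (2 * (k0 + j) + 1) /
      ((2 * (k0 + j) + 1).factorial : ℝ) ≤ E := by
  have h1 := FloorSemiring.tendsto_pow_div_factorial_atTop (2 * Λ)
  have hδ : 0 < E / (2 * (M + 1)) := by positivity
  have h2 := (h1.eventually (Metric.ball_mem_nhds (0 : ℝ) hδ))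
  rw [Filter.eventually_atTop] at h2
  obtain ⟨N, hN⟩ := h2
  refine ⟨N, fun t => ?_⟩
  have h3 : ∀ j ∈ range t, M * Λ ^ (2 * (N + j) + 1) / ((2 * (N + j) + 1).factorial : ℝ) ≤
      E / 2 * (1 / 2) ^ j := by
    intro j _
    set n := 2 * (N + j) + 1 with hn
    have h4 := hN n (by omega)
    rw [dist_zero_right, Real.norm_eq_abs] at h4
    have h5 : Λ ^ n / (n.factorial : ℝ) = (2 * Λ) ^ n / (n.factorial : ℝ) * (1 / 2) ^ n := by
      rw [mul_pow, one_div, inv_pow]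
      field_simp
    have h6 : Λ ^ n / (n.factorial : ℝ) ≤ E / (2 * (M + 1)) * (1 / 2) ^ n := by
      rw [h5]
      exact mul_le_mul_of_nonneg_right ((le_abs_self _).trans h4.le) (by positivity)
    have h7 : ((1 : ℝ) / 2) ^ n ≤ (1 / 2) ^ j :=
      pow_le_pow_of_le_one (by norm_num) (by norm_num) (by omega)
    calc M * Λ ^ n / (n.factorial : ℝ) = M * (Λ ^ n / (n.factorial : ℝ)) := by ring
      _ ≤ M * (E / (2 * (M + 1)) * (1 / 2) ^ n) := mul_le_mul_of_nonneg_left h6 hM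
      _ ≤ M * (E / (2 * (M + 1)) * (1 / 2) ^ j) := by gcongr
      _ ≤ (M + 1) * (E / (2 * (M + 1)) * (1 / 2) ^ j) := by gcongr; linarith
      _ = E / 2 * (1 / 2) ^ j := by field_simp
  refine (Finset.sum_le_sum h3).trans ?_
  rw [← Finset.mul_sum]
  have h8 : ∑ i ∈ range t, ((1 : ℝ) / 2) ^ i ≤ 2 := by
    have := geom_sum_eq (by norm_num : (1 / 2 : ℝ) ≠ 1) t
    rw [this]
    have h9 : (0 : ℝ) ≤ (1 / 2) ^ t := by positivity
    rw [div_le_iff_of_neg (by norm_num)]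
    linarith
  nlinarith

/-- **Fundamental lemma of the sieve** (two-sided, any dimension, weights form). The weights
depend only on `z` (and the accuracy parameter), not on `g` or `P`. -/
theorem fundamental (κ K η : ℝ) (hκ : 0 ≤ κ) (hK : 1 ≤ K) (hη : 0 < η) :
    ∃ s : ℕ, 1 ≤ s ∧ ∀ z : ℝ, 2 ≤ z → ∃ lp lm : Finset ℕ → ℝ,
      (∀ D, |lp D| ≤ 1) ∧ (∀ D, |lm D| ≤ 1) ∧
      (∀ D : Finset ℕ, (∀ p ∈ D, 2 ≤ p ∧ (p : ℝ) ≤ z) → lp D ≠ 0 → ∏ p ∈ D, (p : ℝ) ≤ z ^ s) ∧
      (∀ D : Finset ℕ, (∀ p ∈ D, 2 ≤ p ∧ (p : ℝ) ≤ z) → lm D ≠ 0 → ∏ p ∈ D, (p : ℝ) ≤ z ^ s) ∧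
      (∀ T : Finset ℕ, (∀ p ∈ T, 2 ≤ p ∧ (p : ℝ) ≤ z) →
        ∑ D ∈ T.powerset, lm D ≤ (if T = ∅ then 1 else 0) ∧
        (if T = ∅ then (1 : ℝ) else 0) ≤ ∑ D ∈ T.powerset, lp D) ∧
      (∀ (P : Finset ℕ) (g : ℕ → ℝ), (∀ p ∈ P, 2 ≤ p ∧ (p : ℝ) ≤ z) → (∀ p ∈ P, 0 ≤ g p) →
        (∀ p ∈ P, g p < 1) → Dim κ K P g →
        (1 - η) * ∏ p ∈ P, (1 - g p) ≤ ∑ D ∈ P.powerset, lm D * ∏ p ∈ D, g p ∧
        ∑ D ∈ P.powerset, lp D * ∏ p ∈ D, g p ≤ (1 + η) * ∏ p ∈ P, (1 - g p)) := by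
  set M := K * 2 ^ κ with hM
  have h2κ : (1 : ℝ) ≤ 2 ^ κ := Real.one_le_rpow (by norm_num) hκ
  have hM1 : 1 ≤ M := by rw [hM]; nlinarith
  set E := min (η / 2) (1 / 2) with hE
  have hE0 : 0 < E := lt_min (by linarith) (by norm_num)
  have hE1 : E ≤ 1 / 2 := min_le_right _ _
  have hE2 : E ≤ η / 2 := min_le_left _ _
  obtain ⟨k0, hk0⟩ := tail_small M (Real.log M) E (by linarith) hE0
  refine ⟨4 * k0 + 6, by omega, fun z hz => ?_⟩
  have hcz : ∀ T : Finset ℕ, (∀ p ∈ T, 2 ≤ p ∧ (p : ℝ) ≤ z) → ∀ p ∈ T, cz z p < tz z :=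
    fun T hT p hp => cz_lt (hT p hp).1 (hT p hp).2
  refine ⟨lamp (cz z) (fun j => k0 + j) (tz z), lamm (cz z) (fun j => k0 + j) (tz z),
    abs_lamp_le _ _ _, abs_lamm_le _ _ _, ?_, ?_, ?_, ?_⟩
  · intro D hD h
    have := level_le k0 (by linarith : (1 : ℝ) ≤ z) D hD (card_of_lamp_ne _ _ _ D h)
    rwa [Real.rpow_natCast] at this
  · intro D hD h
    have := level_le k0 (by linarith : (1 : ℝ) ≤ z) D hD (card_of_lamm_ne _ _ _ D h)
    rwa [Real.rpow_natCast] at this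
  · intro T hT
    exact sandwich _ _ _ T (hcz T hT)
  · intro P g hP h0 h1 hdim
    have h5 := main_terms (cz z) (fun j => k0 + j) (tz z) g P (hcz P hP) h0 h1
      (fun j => M * (Real.log M) ^ (2 * (k0 + j) + 1) / ((2 * (k0 + j) + 1).factorial : ℝ))
      (fun j => by
        have := Real.log_nonneg hM1
        positivity)
      (fun j _ => em_block_le hκ hK hz P g hP h0 h1 hdim j _)
      E (hk0 _) hE1
    have hV : 0 ≤ Vp g P := Vp_nonneg g P fun p hp => (h1 p hp).le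
    constructor
    · refine le_trans ?_ h5.1
      apply mul_le_mul_of_nonneg_right _ hV
      linarith
    · refine h5.2.trans ?_
      apply mul_le_mul_of_nonneg_right _ hV
      linarith

end Crest.Agent.R001.FL
end

-- ▼ part R001/FLCor

/-!
# Fundamental lemma: dimension criterion, weighted sieve, sieve for intervals.  helper571
-/

set_option autoImplicit false

namespace Crest.Agent.R001.FL

open Finset Crest.Agent.Lib.Mertens

lemma sum_inv_sq_le (S : Finset ℕ) (hS : ∀ p ∈ S, 2 ≤ p) : ∑ p ∈ S, (1 : ℝ) / (p : ℝ) ^ 2 ≤ 1 := by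
  rcases S.eq_empty_or_nonempty with h | h
  · subst h; simp
  · set n := S.sup id with hn
    have hsub : S ⊆ Finset.Ioc 1 (max n 1) := by
      intro p hp
      have h1 : p ≤ n := Finset.le_sup (f := id) hp
      have h2 := hS p hp
      rw [Finset.mem_Ioc]
      omega
    have h1 : ∑ p ∈ S, (1 : ℝ) / (p : ℝ) ^ 2 ≤ ∑ p ∈ Finset.Ioc 1 (max n 1), ((p : ℝ) ^ 2)⁻¹ := by
      simp only [one_div]
      apply Finset.sum_le_sum_of_subset_of_nonneg hsub
      intro p _ _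
      positivity
    have h2 := sum_Ioc_inv_sq_le_sub (α := ℝ) (k := 1) (n := max n 1) one_ne_zero (le_max_right _ _)
    have h3 : (0 : ℝ) ≤ ((max n 1 : ℕ) : ℝ)⁻¹ := by positivity
    have h4 : ((1 : ℕ) : ℝ)⁻¹ = 1 := by norm_num
    rw [h4] at h2
    linarith

/-- Sufficient condition for the dimension hypothesis. -/
theorem dim_of (κ C c : ℝ) (hκ : 0 ≤ κ) (hC : 0 ≤ C) (hc : 0 < c) :
    ∃ K : ℝ, 1 ≤ K ∧ ∀ (P : Finset ℕ) (g : ℕ → ℝ), (∀ p ∈ P, p.Prime) →
      (∀ p ∈ P, 0 ≤ g p) → (∀ p ∈ P, g p ≤ 1 - c) →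
      (∀ p ∈ P, g p ≤ κ / p + C / (p : ℝ) ^ 2) → Dim κ K P g := by
  set C2 := C + (κ + C) ^ 2 / c with hC2
  have hC20 : 0 ≤ C2 := by positivity
  set A := κ * (1 + 18 / Real.log 2) + C2 with hA
  have hl2 : 0 < Real.log 2 := Real.log_pos (by norm_num)
  have hA0 : 0 ≤ A := by positivity
  refine ⟨Real.exp A, Real.one_le_exp hA0, fun P g hP h0 h1 hg u v hu huv => ?_⟩
  set Q := P.filter (fun p : ℕ => u ≤ (p : ℝ) ∧ (p : ℝ) ≤ v) with hQ
  have hlu : 0 < Real.log u := Real.log_pos (by linarith)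
  have hlv : 0 < Real.log v := Real.log_pos (by linarith)
  have hmem : ∀ p ∈ Q, p ∈ P ∧ u ≤ (p : ℝ) ∧ (p : ℝ) ≤ v := fun p hp => by
    rw [hQ, Finset.mem_filter] at hp; exact hp
  have hterm : ∀ p ∈ Q, -Real.log (1 - g p) ≤ κ * (1 / p) + C2 * (1 / (p : ℝ) ^ 2) := by
    intro p hp
    have hpP := (hmem p hp).1
    have hp1 : (1 : ℝ) ≤ p := by
      have := (hP p hpP).one_lt
      exact_mod_cast this.le
    have h2 := h0 p hpP
    have h3 := h1 p hpP
    have h4 := hg p hpP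
    have h5 : 0 < 1 - g p := by linarith
    have h6 : -Real.log (1 - g p) ≤ g p + (g p) ^ 2 / c := by
      have h7 := Real.one_sub_inv_le_log_of_pos h5
      have h8 : -Real.log (1 - g p) ≤ (1 - g p)⁻¹ - 1 := by linarith
      have h9 : (1 - g p)⁻¹ - 1 = g p + (g p) ^ 2 * (1 - g p)⁻¹ := by
        field_simp
        ring
      have h10 : (1 - g p)⁻¹ ≤ c⁻¹ := inv_anti₀ hc (by linarith)
      rw [h9] at h8
      have h11 : (g p) ^ 2 * (1 - g p)⁻¹ ≤ (g p) ^ 2 * c⁻¹ :=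
        mul_le_mul_of_nonneg_left h10 (by positivity)
      rw [div_eq_mul_inv]
      linarith
    have h7 : g p ≤ (κ + C) / p := by
      refine h4.trans ?_
      rw [add_div]
      have : C / (p : ℝ) ^ 2 ≤ C / p := by
        apply div_le_div_of_nonneg_left hC (by linarith)
        nlinarith
      linarith
    have h8 : (g p) ^ 2 ≤ ((κ + C) / p) ^ 2 := pow_le_pow_left₀ h2 h7 2
    have h9 : (g p) ^ 2 / c ≤ ((κ + C) / p) ^ 2 / c := div_le_div_of_nonneg_right h8 hc.le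
    calc -Real.log (1 - g p) ≤ g p + (g p) ^ 2 / c := h6
      _ ≤ (κ / p + C / (p : ℝ) ^ 2) + ((κ + C) / p) ^ 2 / c := add_le_add h4 h9
      _ = _ := by rw [hC2]; field_simp; ring
  have hsum1 : ∑ p ∈ Q, (1 : ℝ) / p ≤
      (1 + 18 / Real.log 2) + (Real.log (Real.log v) - Real.log (Real.log u)) := by
    have h2 := (abs_le.1 (mertens_two u v hu huv)).2
    have h3 : 18 / Real.log u ≤ 18 / Real.log 2 :=
      div_le_div_of_nonneg_left (by norm_num) hl2 (Real.log_le_log (by norm_num) hu)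
    have h4 : Q ⊆ insert ⌊u⌋₊ (pr u v) := by
      intro p hp
      have h5 := hmem p hp
      rw [Finset.mem_insert]
      rcases eq_or_lt_of_le h5.2.1 with h6 | h6
      · left
        rw [h6, Nat.floor_natCast]
      · right
        rw [mem_pr (by linarith) (by linarith)]
        exact ⟨⟨h6, h5.2.2⟩, hP p h5.1⟩
    have h5 : ∑ p ∈ Q, (1 : ℝ) / p ≤ ∑ p ∈ insert ⌊u⌋₊ (pr u v), (1 : ℝ) / p :=
      Finset.sum_le_sum_of_subset_of_nonneg h4 fun _ _ _ => by positivity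
    have h6 : ∑ p ∈ insert ⌊u⌋₊ (pr u v), (1 : ℝ) / p ≤
        (1 : ℝ) / (⌊u⌋₊ : ℕ) + ∑ p ∈ pr u v, (1 : ℝ) / p := by
      by_cases h7 : ⌊u⌋₊ ∈ pr u v
      · rw [Finset.insert_eq_of_mem h7]
        have : (0 : ℝ) ≤ 1 / (⌊u⌋₊ : ℕ) := by positivity
        linarith
      · rw [Finset.sum_insert h7]
    have h7 : (1 : ℝ) / (⌊u⌋₊ : ℕ) ≤ 1 := by
      have h8 : 1 ≤ ⌊u⌋₊ := Nat.le_floor (by push_cast; linarith)
      have h9 : (1 : ℝ) ≤ (⌊u⌋₊ : ℕ) := by exact_mod_cast h8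
      rw [div_le_one (by linarith)]
      exact h9
    linarith
  have hsum2 : ∑ p ∈ Q, (1 : ℝ) / (p : ℝ) ^ 2 ≤ 1 :=
    sum_inv_sq_le Q fun p hp => (hP p (hmem p hp).1).two_le
  have hlog : ∑ p ∈ Q, -Real.log (1 - g p) ≤
      A + κ * (Real.log (Real.log v) - Real.log (Real.log u)) := by
    refine (Finset.sum_le_sum hterm).trans ?_
    rw [Finset.sum_add_distrib, ← Finset.mul_sum, ← Finset.mul_sum, hA]
    have h2 := mul_le_mul_of_nonneg_left hsum1 hκ
    have h3 := mul_le_mul_of_nonneg_left hsum2 hC20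
    linarith
  have hprod : ∏ p ∈ Q, (1 - g p)⁻¹ = Real.exp (∑ p ∈ Q, -Real.log (1 - g p)) := by
    rw [Real.exp_sum]
    apply Finset.prod_congr rfl
    intro p hp
    have h5 : 0 < 1 - g p := by linarith [h1 p (hmem p hp).1]
    rw [Real.exp_neg, Real.exp_log h5]
  rw [hprod]
  have hfin : Real.exp A * (Real.log v / Real.log u) ^ κ =
      Real.exp (A + κ * (Real.log (Real.log v) - Real.log (Real.log u))) := by
    have e1 : (Real.log v / Real.log u) ^ κ =
        Real.exp (Real.log (Real.log v / Real.log u) * κ) :=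
      Real.rpow_def_of_pos (div_pos hlv hlu) κ
    rw [e1, ← Real.exp_add, ← Real.log_div hlv.ne' hlu.ne', mul_comm κ]
  rw [hfin]
  exact Real.exp_le_exp.2 hlog

/-- Weighted sieve, two-sided, from the fundamental lemma. -/
theorem sieve_weighted (κ K η : ℝ) (hκ : 0 ≤ κ) (hK : 1 ≤ K) (hη : 0 < η) :
    ∃ s : ℕ, 1 ≤ s ∧ ∀ z : ℝ, 2 ≤ z → ∀ (P : Finset ℕ) (g : ℕ → ℝ),
      (∀ p ∈ P, 2 ≤ p ∧ (p : ℝ) ≤ z) → (∀ p ∈ P, 0 ≤ g p) → (∀ p ∈ P, g p < 1) →
      Dim κ K P g →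
      ∀ {α : Type} (Ω : Finset α) (w : α → ℝ) (T : α → Finset ℕ) (Y : ℝ) (R : Finset ℕ → ℝ),
        (∀ a ∈ Ω, 0 ≤ w a) → (∀ a ∈ Ω, T a ⊆ P) → 0 ≤ Y →
        (∀ D ⊆ P, ∏ p ∈ D, (p : ℝ) ≤ z ^ s →
          |∑ a ∈ Ω.filter (fun a => D ⊆ T a), w a - (∏ p ∈ D, g p) * Y| ≤ R D) →
        (1 - η) * (∏ p ∈ P, (1 - g p)) * Y -
            ∑ D ∈ P.powerset.filter (fun D : Finset ℕ => ∏ p ∈ D, (p : ℝ) ≤ z ^ s), R D ≤
          ∑ a ∈ Ω.filter (fun a => T a = ∅), w a ∧
        ∑ a ∈ Ω.filter (fun a => T a = ∅), w a ≤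
          (1 + η) * (∏ p ∈ P, (1 - g p)) * Y +
            ∑ D ∈ P.powerset.filter (fun D : Finset ℕ => ∏ p ∈ D, (p : ℝ) ≤ z ^ s), R D := by
  classical
  obtain ⟨s, hs, H⟩ := fundamental κ K η hκ hK hη
  refine ⟨s, hs, fun z hz P g hP h0 h1 hdim α Ω w T Y R hw hT hY hR => ?_⟩
  obtain ⟨lp, lm, hlp, hlm, hlps, hlms, hsand, hmain⟩ := H z hz
  obtain ⟨m1, m2⟩ := hmain P g hP h0 h1 hdim
  -- exchange of summation
  have exch : ∀ lam : Finset ℕ → ℝ, ∑ a ∈ Ω, w a * ∑ D ∈ (T a).powerset, lam D =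
      ∑ D ∈ P.powerset, lam D * ∑ a ∈ Ω.filter (fun a => D ⊆ T a), w a := by
    intro lam
    have h2 : ∀ a ∈ Ω, w a * ∑ D ∈ (T a).powerset, lam D =
        ∑ D ∈ P.powerset, if D ⊆ T a then w a * lam D else 0 := by
      intro a ha
      rw [← Finset.sum_filter, Finset.mul_sum]
      apply Finset.sum_congr _ fun _ _ => rfl
      ext D
      rw [Finset.mem_powerset, Finset.mem_filter, Finset.mem_powerset]
      exact ⟨fun h => ⟨h.trans (hT a ha), h⟩, fun h => h.2⟩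
    rw [Finset.sum_congr rfl h2, Finset.sum_comm]
    apply Finset.sum_congr rfl
    intro D _
    rw [Finset.mul_sum, Finset.sum_filter]
    apply Finset.sum_congr rfl
    intro a _
    split_ifs <;> ring
  -- error bound
  have err : ∀ lam : Finset ℕ → ℝ, (∀ D, |lam D| ≤ 1) →
      (∀ D : Finset ℕ, (∀ p ∈ D, 2 ≤ p ∧ (p : ℝ) ≤ z) → lam D ≠ 0 →
        ∏ p ∈ D, (p : ℝ) ≤ z ^ s) →
      |∑ D ∈ P.powerset, lam D * ∑ a ∈ Ω.filter (fun a => D ⊆ T a), w a -
        (∑ D ∈ P.powerset, lam D * ∏ p ∈ D, g p) * Y| ≤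
        ∑ D ∈ P.powerset.filter (fun D : Finset ℕ => ∏ p ∈ D, (p : ℝ) ≤ z ^ s), R D := by
    intro lam hl1 hl2
    rw [Finset.sum_mul, ← Finset.sum_sub_distrib, Finset.sum_filter]
    refine (Finset.abs_sum_le_sum_abs _ _).trans (Finset.sum_le_sum ?_)
    intro D hD
    rw [Finset.mem_powerset] at hD
    have hDz : ∀ p ∈ D, 2 ≤ p ∧ (p : ℝ) ≤ z := fun p hp => hP p (hD hp)
    have h3 : lam D * ∑ a ∈ Ω.filter (fun a => D ⊆ T a), w a - lam D * (∏ p ∈ D, g p) * Y =
        lam D * (∑ a ∈ Ω.filter (fun a => D ⊆ T a), w a - (∏ p ∈ D, g p) * Y) := by ring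
    rw [h3, abs_mul]
    by_cases hz0 : lam D = 0
    · rw [hz0, abs_zero, zero_mul]
      split_ifs with hc
      · exact (abs_nonneg _).trans (hR D hD hc)
      · exact le_rfl
    · have hc := hl2 D hDz hz0
      rw [if_pos hc]
      calc |lam D| * |∑ a ∈ Ω.filter (fun a => D ⊆ T a), w a - (∏ p ∈ D, g p) * Y|
          ≤ 1 * |∑ a ∈ Ω.filter (fun a => D ⊆ T a), w a - (∏ p ∈ D, g p) * Y| :=
            mul_le_mul_of_nonneg_right (hl1 D) (abs_nonneg _)
        _ ≤ R D := by rw [one_mul]; exact hR D hD hc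
  have hind : ∑ a ∈ Ω.filter (fun a => T a = ∅), w a =
      ∑ a ∈ Ω, w a * (if T a = ∅ then 1 else 0) := by
    rw [Finset.sum_filter]
    apply Finset.sum_congr rfl
    intro a _
    split_ifs <;> ring
  have hTz : ∀ a ∈ Ω, ∀ p ∈ T a, 2 ≤ p ∧ (p : ℝ) ≤ z := fun a ha p hp => hP p (hT a ha hp)
  constructor
  · have h2 : ∑ a ∈ Ω, w a * ∑ D ∈ (T a).powerset, lm D ≤
        ∑ a ∈ Ω, w a * (if T a = ∅ then 1 else 0) :=
      Finset.sum_le_sum fun a ha =>
        mul_le_mul_of_nonneg_left (hsand (T a) (hTz a ha)).1 (hw a ha)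
    rw [exch] at h2
    have h3 := (abs_le.1 (err lm hlm hlms)).1
    have h4 : (1 - η) * (∏ p ∈ P, (1 - g p)) * Y ≤
        (∑ D ∈ P.powerset, lm D * ∏ p ∈ D, g p) * Y := mul_le_mul_of_nonneg_right m1 hY
    rw [hind]
    linarith
  · have h2 : ∑ a ∈ Ω, w a * (if T a = ∅ then 1 else 0) ≤
        ∑ a ∈ Ω, w a * ∑ D ∈ (T a).powerset, lp D :=
      Finset.sum_le_sum fun a ha =>
        mul_le_mul_of_nonneg_left (hsand (T a) (hTz a ha)).2 (hw a ha)
    rw [exch] at h2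
    have h3 := (abs_le.1 (err lp hlp hlps)).2
    have h4 : (∑ D ∈ P.powerset, lp D * ∏ p ∈ D, g p) * Y ≤
        (1 + η) * (∏ p ∈ P, (1 - g p)) * Y := mul_le_mul_of_nonneg_right m2 hY
    rw [hind]
    linarith

/-- number of squarefree products up to a bound -/
lemma card_level (P : Finset ℕ) (hP : ∀ p ∈ P, p.Prime) (B : ℝ) (hB : 0 ≤ B) :
    ((P.powerset.filter (fun D : Finset ℕ => ∏ p ∈ D, (p : ℝ) ≤ B)).card : ℝ) ≤ B := by
  classical
  have h1 : (P.powerset.filter (fun D : Finset ℕ => ∏ p ∈ D, (p : ℝ) ≤ B)).card ≤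
      (Finset.Icc 1 ⌊B⌋₊).card := by
    apply Finset.card_le_card_of_injOn (fun D => ∏ p ∈ D, p)
    · intro D hD
      rw [Finset.mem_coe, Finset.mem_filter, Finset.mem_powerset] at hD
      rw [Finset.mem_coe, Finset.mem_Icc]
      constructor
      · exact Nat.one_le_iff_ne_zero.2 (Finset.prod_ne_zero_iff.2 fun p hp =>
          (hP p (hD.1 hp)).ne_zero)
      · apply Nat.le_floor
        push_cast
        exact hD.2
    · intro D hD E hE h
      rw [Finset.mem_coe, Finset.mem_filter, Finset.mem_powerset] at hD hE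
      have h2 : ∀ F : Finset ℕ, F ⊆ P → (∏ p ∈ F, p).primeFactors = F := by
        intro F hF
        exact Nat.primeFactors_prod fun p hp => hP p (hF hp)
      have h3 := h2 D hD.1
      have h4 := h2 E hE.1
      simp only at h
      rw [h] at h3
      rw [← h3, h4]
  calc ((P.powerset.filter (fun D : Finset ℕ => ∏ p ∈ D, (p : ℝ) ≤ B)).card : ℝ)
      ≤ ((Finset.Icc 1 ⌊B⌋₊).card : ℝ) := by exact_mod_cast h1
    _ = (⌊B⌋₊ : ℝ) := by rw [Nat.card_Icc]; simp
    _ ≤ B := Nat.floor_le hB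

/-- trivial lower bound for the Euler product -/
lemma prod_ge_inv (P : Finset ℕ) (hP : ∀ p ∈ P, 2 ≤ p) (z : ℝ) (hz : 2 ≤ z)
    (hPz : ∀ p ∈ P, (p : ℝ) ≤ z) : 1 / z ≤ ∏ p ∈ P, (1 - 1 / (p : ℝ)) := by
  have h1 : ∀ n : ℕ, 1 ≤ n → ∏ p ∈ Finset.Icc 2 n, (1 - 1 / (p : ℝ)) = 1 / n := by
    intro n hn
    induction n, hn using Nat.le_induction with
    | base => simp
    | succ n hn ih =>
      rw [Finset.prod_Icc_succ_top (by omega), ih]
      have : (n : ℝ) ≠ 0 := by positivity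
      push_cast
      field_simp
      ring
  have hfl : 1 ≤ ⌊z⌋₊ := Nat.le_floor (by push_cast; linarith)
  have hsub : P ⊆ Finset.Icc 2 ⌊z⌋₊ := fun p hp =>
    Finset.mem_Icc.2 ⟨hP p hp, Nat.le_floor (hPz p hp)⟩
  have hfac : ∀ p : ℕ, 2 ≤ p → 0 ≤ 1 - 1 / (p : ℝ) ∧ 1 - 1 / (p : ℝ) ≤ 1 := by
    intro p hp
    have h2 : (2 : ℝ) ≤ p := by exact_mod_cast hp
    constructor
    · rw [sub_nonneg, div_le_one (by linarith)]; linarith
    · have : (0 : ℝ) ≤ 1 / p := by positivity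
      linarith
  calc 1 / z ≤ 1 / (⌊z⌋₊ : ℝ) := by
        apply one_div_le_one_div_of_le
        · exact_mod_cast hfl
        · exact Nat.floor_le (by linarith)
    _ = ∏ p ∈ Finset.Icc 2 ⌊z⌋₊, (1 - 1 / (p : ℝ)) := (h1 _ hfl).symm
    _ ≤ ∏ p ∈ P, (1 - 1 / (p : ℝ)) := by
        rw [← Finset.prod_sdiff hsub]
        have h3 : ∏ x ∈ Finset.Icc 2 ⌊z⌋₊ \ P, (1 - 1 / (x : ℝ)) ≤ 1 :=
          Finset.prod_le_one
            (fun p hp => (hfac p (Finset.mem_Icc.1 (Finset.mem_sdiff.1 hp).1).1).1)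
            (fun p hp => (hfac p (Finset.mem_Icc.1 (Finset.mem_sdiff.1 hp).1).1).2)
        have h4 : 0 ≤ ∏ p ∈ P, (1 - 1 / (p : ℝ)) :=
          Finset.prod_nonneg fun p hp => (hfac p (hP p hp)).1
        nlinarith

/-- counting integers of an interval in one class modulo `d` -/
lemma card_class_Ioc (x : ℤ) (H : ℕ) (d : ℕ) (hd : 0 < d) (v : ℤ) :
    |(((Finset.Ioc x (x + H)).filter (fun m => m ≡ v [ZMOD d])).card : ℝ) - (H : ℝ) / d| ≤ 1 := by
  have hd' : (0 : ℤ) < d := by exact_mod_cast hd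
  have h1 := Int.Ioc_filter_modEq_card x (x + H) hd' v
  have h2 : ((((Finset.Ioc x (x + H)).filter (fun m => m ≡ v [ZMOD d])).card : ℤ) : ℝ) =
      ((max (⌊((x + H : ℤ) - v) / (d : ℚ)⌋ - ⌊((x : ℤ) - v) / (d : ℚ)⌋) 0 : ℤ) : ℝ) := by
    rw [h1]
    push_cast
    rfl
  have hdq : (0 : ℚ) < d := by exact_mod_cast hd
  set A := ⌊((x + H : ℤ) - v) / (d : ℚ)⌋ with hA
  set B := ⌊((x : ℤ) - v) / (d : ℚ)⌋ with hB
  have e : (((x + H : ℤ) : ℚ) - v) / (d : ℚ) = ((x : ℚ) - v) / d + (H : ℚ) / d := by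
    push_cast
    field_simp
    ring
  have a1 : (A : ℚ) ≤ ((x + H : ℤ) - v) / (d : ℚ) := Int.floor_le _
  have a2 : ((x + H : ℤ) - v) / (d : ℚ) < A + 1 := Int.lt_floor_add_one _
  have b1 : (B : ℚ) ≤ ((x : ℤ) - v) / (d : ℚ) := Int.floor_le _
  have b2 : ((x : ℤ) - v) / (d : ℚ) < B + 1 := Int.lt_floor_add_one _
  rw [e] at a1 a2
  have hAB : B ≤ A := by
    apply Int.floor_le_floor
    rw [e]
    have : (0 : ℚ) ≤ (H : ℚ) / d := by positivity
    linarith
  have h3 : |((A - B : ℤ) : ℚ) - (H : ℚ) / d| ≤ 1 := by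
    push_cast
    rw [abs_le]
    constructor <;> linarith
  have h4 : |((A - B : ℤ) : ℝ) - (H : ℝ) / d| ≤ 1 := by
    have h3' := (Rat.cast_le (K := ℝ)).2 h3
    push_cast at h3' ⊢
    exact h3'
  have h5 : (((Finset.Ioc x (x + H)).filter (fun m => m ≡ v [ZMOD d])).card : ℝ) =
      ((A - B : ℤ) : ℝ) := by
    have h6 : max (A - B) 0 = A - B := max_eq_left (by omega)
    rw [h6] at h2
    rw [← h2]
    push_cast
    rfl
  rw [h5]
  exact h4

/-- simultaneous classes modulo a set of primes -/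
lemma exists_crt (D : Finset ℕ) (hD : ∀ p ∈ D, p.Prime) (r : ℕ → ℤ) :
    ∃ v : ℤ, ∀ m : ℤ, (∀ p ∈ D, m ≡ r p [ZMOD p]) ↔ m ≡ v [ZMOD (∏ p ∈ D, p : ℕ)] := by
  classical
  induction D using Finset.induction_on with
  | empty =>
    refine ⟨0, fun m => ?_⟩
    simp [Int.modEq_one]
  | insert p D hp ih =>
    obtain ⟨v, hv⟩ := ih fun q hq => hD q (Finset.mem_insert_of_mem hq)
    have hpp := hD p (Finset.mem_insert_self p D)
    have hc : Nat.Coprime p (∏ q ∈ D, q) := by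
      apply Nat.Coprime.prod_right
      intro q hq
      rw [Nat.coprime_primes hpp (hD q (Finset.mem_insert_of_mem hq))]
      rintro rfl
      exact hp hq
    have hcop : IsCoprime (p : ℤ) ((∏ q ∈ D, q : ℕ) : ℤ) := Nat.isCoprime_iff_coprime.2 hc
    obtain ⟨a, b, hab⟩ := hcop
    -- v' = r p * (b * Q) + v * (a * p)
    refine ⟨r p * (b * ((∏ q ∈ D, q : ℕ) : ℤ)) + v * (a * p), fun m => ?_⟩
    rw [Finset.prod_insert hp]
    have key1 : r p * (b * ((∏ q ∈ D, q : ℕ) : ℤ)) + v * (a * p) ≡ r p [ZMOD p] := by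
      apply Int.ModEq.symm
      rw [Int.modEq_iff_dvd]
      refine ⟨a * v - a * r p, ?_⟩
      have : b * ((∏ q ∈ D, q : ℕ) : ℤ) = 1 - a * p := by linarith
      rw [this]; ring
    have key2 : r p * (b * ((∏ q ∈ D, q : ℕ) : ℤ)) + v * (a * p) ≡ v
        [ZMOD ((∏ q ∈ D, q : ℕ) : ℤ)] := by
      apply Int.ModEq.symm
      rw [Int.modEq_iff_dvd]
      refine ⟨b * r p - b * v, ?_⟩
      have : a * (p : ℤ) = 1 - b * ((∏ q ∈ D, q : ℕ) : ℤ) := by linarith
      rw [this]; ring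
    have key3 : ∀ w : ℤ, (m ≡ w [ZMOD ((p * ∏ q ∈ D, q : ℕ) : ℤ)]) ↔
        (m ≡ w [ZMOD p] ∧ m ≡ w [ZMOD ((∏ q ∈ D, q : ℕ) : ℤ)]) := by
      intro w
      rw [Int.modEq_iff_dvd, Int.modEq_iff_dvd, Int.modEq_iff_dvd, Nat.cast_mul]
      constructor
      · intro h
        exact ⟨(Dvd.intro _ rfl).trans h, (Dvd.intro_left _ rfl).trans h⟩
      · rintro ⟨h, h'⟩
        exact IsCoprime.mul_dvd (Nat.isCoprime_iff_coprime.2 hc) h h'
    rw [key3]
    constructor
    · intro h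
      refine ⟨(h p (Finset.mem_insert_self p D)).trans key1.symm, ?_⟩
      exact ((hv m).1 fun q hq => h q (Finset.mem_insert_of_mem hq)).trans key2.symm
    · rintro ⟨h, h'⟩ q hq
      rcases Finset.mem_insert.1 hq with rfl | hq
      · exact h.trans key1
      · exact (hv m).2 (h'.trans key2) q hq


end Crest.Agent.R001.FL
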