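import Crest.Agent.R001.Fin5_571
import Crest.Agent.R001.EndBT

-- ▼ part R001/Fin6_571
section

set_option autoImplicit false

namespace Crest.Agent.R001.Fin571

open Finset Crest.Agent.Lib.Mertens Crest.Agent.R001.FL ArithmeticFunction

open Classical in
/-- **(B)** two families of classes -/
def Upper : Prop := ∃ C : ℝ, 0 < C ∧ ∃ k : ℕ, 1 ≤ k ∧ ∀ w V H : ℕ, 2 ≤ w → 1 ≤ V → V ≤ w →
  w ^ k ≤ H → ∀ (x : ℤ) (r1 r2 : ℕ → ℤ),
  (((Ioc x (x + H)).filter (fun j : ℤ =>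
    (∀ p : ℕ, p.Prime → 3 ≤ p → (p : ℝ) ≤ (H : ℝ) ^ ((1 : ℝ) / k) → ¬ p ∣ V →
      ¬ j ≡ r1 p [ZMOD p]) ∧
    (∀ p : ℕ, p.Prime → 3 ≤ p → p ≤ w → ¬ j ≡ r2 p [ZMOD p]))).card : ℝ) ≤
  C * (H / Real.log H) * ∏ p ∈ (Icc 3 w).filter
    (fun p : ℕ => p.Prime ∧ ¬ p ∣ V ∧ ¬ r1 p ≡ r2 p [ZMOD p]), (1 - 1 / (p : ℝ))

lemma exists_class (p : ℕ) (hp : p.Prime) (α β : ℤ) (hα : ¬ (p : ℤ) ∣ α) :
    ∃ c : ℤ, ∀ j : ℤ, (p : ℤ) ∣ α * j + β ↔ j ≡ c [ZMOD p] := by
  have hcop : IsCoprime α (p : ℤ) := by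
    have h1 : Prime (p : ℤ) := Nat.prime_iff_prime_int.1 hp
    exact ((Prime.coprime_iff_not_dvd h1).2 hα).symm
  obtain ⟨u, v, huv⟩ := hcop
  refine ⟨-(u * β), fun j => ?_⟩
  have hiff : j ≡ -(u * β) [ZMOD p] ↔ (p : ℤ) ∣ j - -(u * β) :=
    ⟨fun h => Int.modEq_iff_dvd.1 h.symm, fun h => (Int.modEq_iff_dvd.2 h).symm⟩
  rw [hiff]
  constructor
  · rintro ⟨m, hm⟩
    refine ⟨u * m + v * j, ?_⟩
    have : j - -(u * β) = (u * α + v * p) * j + u * β := by rw [huv]; ring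
    rw [this]
    linear_combination u * hm
  · rintro ⟨m, hm⟩
    refine ⟨α * m + v * β, ?_⟩
    have : α * j + β = α * j + (u * α + v * p) * β := by rw [huv]; ring
    rw [this]
    linear_combination α * hm

open Classical in
/-- one exceptional prime -/
lemma one_prime (C : ℝ) (k : ℕ) (hk : 1 ≤ k)
    (hU : ∀ w V H : ℕ, 2 ≤ w → 1 ≤ V → V ≤ w →
      w ^ k ≤ H → ∀ (x : ℤ) (r1 r2 : ℕ → ℤ),
      (((Ioc x (x + H)).filter (fun j : ℤ =>
        (∀ p : ℕ, p.Prime → 3 ≤ p → (p : ℝ) ≤ (H : ℝ) ^ ((1 : ℝ) / k) → ¬ p ∣ V →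
          ¬ j ≡ r1 p [ZMOD p]) ∧
        (∀ p : ℕ, p.Prime → 3 ≤ p → p ≤ w → ¬ j ≡ r2 p [ZMOD p]))).card : ℝ) ≤
      C * (H / Real.log H) * ∏ p ∈ (Icc 3 w).filter
        (fun p : ℕ => p.Prime ∧ ¬ p ∣ V ∧ ¬ r1 p ≡ r2 p [ZMOD p]), (1 - 1 / (p : ℝ)))
    (w : ℝ) (hw : 2 ≤ w) (V V0 b H p0 : ℕ) (r : ℕ → ℤ) (hV0 : 1 ≤ V0) (hV0w : (V0 : ℝ) ≤ w)
    (hVV : ∀ p : ℕ, p.Prime → 3 ≤ p → (p ∣ V ↔ p ∣ V0))
    (hp0 : p0.Prime) (hp0w : w < p0) (hJw : w ^ k ≤ ((H / p0 + 1 : ℕ) : ℝ))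
    (hJb : H / p0 + 1 < b) :
    (((range H).filter (fun i : ℕ => ((V * i + b).Prime ∧
          ∀ p ∈ PP w, ¬ (i : ℤ) ≡ r p [ZMOD p]) ∧ (i : ℤ) ≡ r p0 [ZMOD p0])).card : ℝ) ≤
      2 * (C * (((H / p0 + 1 : ℕ) : ℝ) / Real.log ((H / p0 + 1 : ℕ) : ℝ)) * FF w V b r) := by
  classical
  set J := H / p0 + 1 with hJ
  have hp0pos : 0 < p0 := hp0.pos
  have hp0' : (0 : ℤ) < p0 := by exact_mod_cast hp0pos
  -- the starting point
  set i0 : ℤ := r p0 % p0 with hi0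
  have hi0n : 0 ≤ i0 := Int.emod_nonneg _ hp0'.ne'
  have hi0l : i0 < p0 := Int.emod_lt_of_pos _ hp0'
  -- classes
  have hc1 : ∀ p : ℕ, ∃ c : ℤ, p.Prime → 3 ≤ p → ¬ p ∣ V0 → p ≠ p0 →
      ∀ j : ℤ, (p : ℤ) ∣ ((V : ℤ) * p0) * j + (V * i0 + b) ↔ j ≡ c [ZMOD p] := by
    intro p
    by_cases h : p.Prime ∧ 3 ≤ p ∧ ¬ p ∣ V0 ∧ p ≠ p0
    · obtain ⟨h1, h2, h3, h4⟩ := h
      have h5 : ¬ (p : ℤ) ∣ (V : ℤ) * p0 := by
        intro h6
        have h7 : p ∣ V * p0 := by exact_mod_cast h6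
        rcases (Nat.Prime.dvd_mul h1).1 h7 with h8 | h8
        · exact h3 ((hVV p h1 h2).1 h8)
        · exact h4 ((Nat.prime_dvd_prime_iff_eq h1 hp0).1 h8)
      obtain ⟨c, hc⟩ := exists_class p h1 _ (V * i0 + b) h5
      exact ⟨c, fun _ _ _ _ => hc⟩
    · exact ⟨0, fun h1 h2 h3 h4 => absurd ⟨h1, h2, h3, h4⟩ h⟩
  choose c1 hc1 using hc1
  have hc2 : ∀ p : ℕ, ∃ c : ℤ, p.Prime → p ≠ p0 →
      ∀ j : ℤ, (p : ℤ) ∣ (p0 : ℤ) * j + (i0 - r p) ↔ j ≡ c [ZMOD p] := by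
    intro p
    by_cases h : p.Prime ∧ p ≠ p0
    · obtain ⟨h1, h4⟩ := h
      have h5 : ¬ (p : ℤ) ∣ (p0 : ℤ) := by
        intro h6
        have h7 : p ∣ p0 := by exact_mod_cast h6
        exact h4 ((Nat.prime_dvd_prime_iff_eq h1 hp0).1 h7)
      obtain ⟨c, hc⟩ := exists_class p h1 _ (i0 - r p) h5
      exact ⟨c, fun _ _ => hc⟩
    · exact ⟨0, fun h1 h4 => absurd ⟨h1, h4⟩ h⟩
  choose c2 hc2 using hc2
  -- the natural threshold
  set wn : ℕ := ⌊w⌋₊ with hwn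
  have hw0 : 0 ≤ w := by linarith
  have hwn2 : 2 ≤ wn := Nat.le_floor (by exact_mod_cast hw)
  have hV0n : V0 ≤ wn := Nat.le_floor hV0w
  have hJn : wn ^ k ≤ J := by
    have h1 : ((wn ^ k : ℕ) : ℝ) ≤ (J : ℝ) := by
      push_cast
      exact (pow_le_pow_left₀ (Nat.cast_nonneg _) (Nat.floor_le hw0) k).trans hJw
    exact_mod_cast h1
  have hJ1 : 1 ≤ J := Nat.succ_le_succ (Nat.zero_le _)
  have hJr : (J : ℝ) ^ ((1 : ℝ) / k) ≤ J := by
    have h1 : (1 : ℝ) ≤ J := by exact_mod_cast hJ1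
    have h2 : (1 : ℝ) / k ≤ 1 := by
      rw [div_le_one (by exact_mod_cast hk)]
      exact_mod_cast hk
    calc (J : ℝ) ^ ((1 : ℝ) / k) ≤ (J : ℝ) ^ (1 : ℝ) := Real.rpow_le_rpow_of_exponent_le h1 h2
      _ = J := Real.rpow_one _
  -- the sets
  let A : ℤ → Finset ℤ := fun e => (Ioc (-1 : ℤ) (-1 + J)).filter (fun j : ℤ =>
        (∀ p : ℕ, p.Prime → 3 ≤ p → (p : ℝ) ≤ (J : ℝ) ^ ((1 : ℝ) / k) → ¬ p ∣ V0 →
          ¬ j ≡ (Function.update c1 p0 e) p [ZMOD p]) ∧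
        (∀ p : ℕ, p.Prime → 3 ≤ p → p ≤ wn → ¬ j ≡ c2 p [ZMOD p]))
  have hA : ∀ e : ℤ, ((A e).card : ℝ) ≤ C * ((J : ℝ) / Real.log J) * FF w V b r := by
    intro e
    have h1 := hU wn V0 J hwn2 hV0 hV0n hJn (-1) (Function.update c1 p0 e) c2
    refine h1.trans (le_of_eq ?_)
    congr 1
    rw [FF, PP, Finset.filter_filter]
    apply Finset.prod_congr _ fun _ _ => rfl
    ext p
    rw [Finset.mem_filter, Finset.mem_filter, Finset.mem_Icc]
    constructor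
    · rintro ⟨h2, h3, h4, h5⟩
      have hpp0 : p ≠ p0 := by
        rintro rfl
        have : (p : ℝ) ≤ w := (Nat.le_floor_iff hw0).1 h2.2
        linarith
      refine ⟨h2, h3, fun h6 => h4 ((hVV p h3 h2.1).1 h6), fun h6 => h5 ?_⟩
      rw [Function.update_of_ne hpp0]
      have h7 := (hc2 p h3 hpp0 (c2 p)).2 (Int.ModEq.refl _)
      refine Int.ModEq.symm ((hc1 p h3 h2.1 h4 hpp0 (c2 p)).1 ?_)
      have h8 : (V : ℤ) * p0 * c2 p + (V * i0 + b) = V * (p0 * c2 p + (i0 - r p)) + (V * r p + b) := by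
        ring
      rw [h8]
      exact dvd_add (Dvd.dvd.mul_left h7 _) h6
    · rintro ⟨h2, h3, h4, h5⟩
      have hpp0 : p ≠ p0 := by
        rintro rfl
        have : (p : ℝ) ≤ w := (Nat.le_floor_iff hw0).1 h2.2
        linarith
      have h4' : ¬ p ∣ V0 := fun h6 => h4 ((hVV p h3 h2.1).2 h6)
      refine ⟨h2, h3, h4', fun h6 => h5 ?_⟩
      rw [Function.update_of_ne hpp0] at h6
      have h7 := (hc2 p h3 hpp0 (c2 p)).2 (Int.ModEq.refl _)
      have h9 := (hc1 p h3 h2.1 h4' hpp0 (c2 p)).2 h6.symm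
      have h8 : (V : ℤ) * p0 * c2 p + (V * i0 + b) = V * (p0 * c2 p + (i0 - r p)) + (V * r p + b) := by
        ring
      rw [h8] at h9
      exact (Int.dvd_add_right (Dvd.dvd.mul_left h7 _)).1 h9
  -- the map
  have hsub : (((range H).filter (fun i : ℕ => ((V * i + b).Prime ∧
          ∀ p ∈ PP w, ¬ (i : ℤ) ≡ r p [ZMOD p]) ∧ (i : ℤ) ≡ r p0 [ZMOD p0])).card) ≤
      (A 0 ∪ A 1).card := by
    apply Finset.card_le_card_of_injOn (fun i : ℕ => ((i : ℤ) - i0) / p0)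
    · intro i hi
      rw [Finset.mem_coe, Finset.mem_filter, Finset.mem_range] at hi
      obtain ⟨hiH, ⟨hN, hP⟩, hi0'⟩ := hi
      have hdvd : (p0 : ℤ) ∣ (i : ℤ) - i0 := by
        apply Int.modEq_iff_dvd.1
        exact (Int.mod_modEq _ _).trans hi0'.symm
      obtain ⟨j, hj⟩ := hdvd
      show (((i : ℤ) - i0) / p0) ∈ ((A 0 ∪ A 1 : Finset ℤ) : Set ℤ)
      rw [hj, Int.mul_ediv_cancel_left _ hp0'.ne']
      have hij : (i : ℤ) = i0 + p0 * j := by linarith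
      have hjlow : -1 < j := by
        by_contra hcon
        have h1 : j ≤ -1 := not_lt.1 hcon
        have h2 : (p0 : ℤ) * j ≤ p0 * (-1) := mul_le_mul_of_nonneg_left h1 hp0'.le
        have h3 : (0 : ℤ) ≤ i := Int.natCast_nonneg i
        linarith
      have hjup : j ≤ -1 + J := by
        by_contra hcon
        have h1 : (J : ℤ) ≤ j := by linarith [not_le.1 hcon]
        have h2 : (p0 : ℤ) * J ≤ p0 * j := mul_le_mul_of_nonneg_left h1 hp0'.le
        have h3 : (H : ℤ) < p0 * J := by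
          have := Nat.lt_mul_div_succ H hp0pos
          rw [hJ]
          exact_mod_cast this
        have h4 : (i : ℤ) < H := by exact_mod_cast hiH
        linarith
      have hcond : ∀ e : ℤ, ¬ j ≡ e [ZMOD p0] → j ∈ A e := by
        intro e he
        show j ∈ (Ioc (-1 : ℤ) (-1 + J)).filter _
        rw [Finset.mem_filter, Finset.mem_Ioc]
        refine ⟨⟨hjlow, hjup⟩, ?_, ?_⟩
        · intro p hp hp3 hpJ hpV hjp
          by_cases hpp0 : p = p0
          · subst hpp0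
            rw [Function.update_self] at hjp
            exact he hjp
          · rw [Function.update_of_ne hpp0] at hjp
            have h1 := (hc1 p hp hp3 hpV hpp0 j).2 hjp
            have h2 : (V : ℤ) * p0 * j + (V * i0 + b) = ((V * i + b : ℕ) : ℤ) := by
              push_cast
              rw [hij]
              ring
            rw [h2] at h1
            have h3 : p ∣ V * i + b := by exact_mod_cast h1
            have h4 := (Nat.prime_dvd_prime_iff_eq hp hN).1 h3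
            have h5 : (p : ℝ) ≤ J := hpJ.trans hJr
            have h6 : p ≤ J := by exact_mod_cast h5
            have h7 : b ≤ p := by rw [h4]; exact Nat.le_add_left _ _
            omega
        · intro p hp hp3 hpw hjp
          have hpw' : p ∈ PP w := by
            rw [PP, Finset.mem_filter, Finset.mem_Icc]
            exact ⟨⟨hp3, hpw⟩, hp⟩
          have hpp0 : p ≠ p0 := by
            rintro rfl
            have := PP_le hpw'
            linarith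
          apply hP p hpw'
          have h1 := (hc2 p hp hpp0 j).2 hjp
          have h2 : (p0 : ℤ) * j + (i0 - r p) = i - r p := by rw [hij]; ring
          rw [h2] at h1
          exact (Int.modEq_iff_dvd.2 h1).symm
      rw [Finset.mem_coe, Finset.mem_union]
      by_cases h0 : j ≡ 0 [ZMOD p0]
      · right
        apply hcond
        intro h1
        have h2 := (Int.modEq_iff_dvd.1 (h0.symm.trans h1))
        rw [sub_zero] at h2
        have h3 : p0 ∣ 1 := by exact_mod_cast h2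
        exact hp0.one_lt.ne' (Nat.dvd_one.1 h3)
      · left
        exact hcond 0 h0
    · intro i hi i' hi' he
      rw [Finset.mem_coe, Finset.mem_filter, Finset.mem_range] at hi hi'
      have hdvd : ∀ n : ℕ, (n : ℤ) ≡ r p0 [ZMOD p0] → (p0 : ℤ) ∣ (n : ℤ) - i0 := by
        intro n hn
        apply Int.modEq_iff_dvd.1
        exact (Int.mod_modEq _ _).trans hn.symm
      obtain ⟨j, hj⟩ := hdvd i hi.2.2
      obtain ⟨j', hj'⟩ := hdvd i' hi'.2.2
      simp only at he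
      rw [hj, hj', Int.mul_ediv_cancel_left _ hp0'.ne', Int.mul_ediv_cancel_left _ hp0'.ne'] at he
      have : (i : ℤ) = i' := by
        have h1 : (i : ℤ) = i0 + p0 * j := by linarith
        have h2 : (i' : ℤ) = i0 + p0 * j' := by linarith
        rw [h1, h2, he]
      exact_mod_cast this
  have h1 : ((((range H).filter (fun i : ℕ => ((V * i + b).Prime ∧
          ∀ p ∈ PP w, ¬ (i : ℤ) ≡ r p [ZMOD p]) ∧ (i : ℤ) ≡ r p0 [ZMOD p0])).card : ℕ) : ℝ) ≤
      ((A 0).card : ℝ) + ((A 1).card : ℝ) := by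
    have := hsub.trans (Finset.card_union_le _ _)
    exact_mod_cast this
  linarith [hA 0, hA 1]

end Crest.Agent.R001.Fin571
end

-- ▼ part R001/Fin7_571
section

set_option autoImplicit false

namespace Crest.Agent.R001.Fin571

open Finset Crest.Agent.Lib.Mertens Crest.Agent.R001.FL ArithmeticFunction

open Classical in
theorem comb (hSW : Crest.Agent.SW.PsiAP) (hUp : Upper) : ∃ ε₀ : ℝ, 0 < ε₀ ∧ ∀ C1 : ℕ, 1 ≤ C1 →
    ∃ X0 : ℝ, ∀ X : ℝ, X0 ≤ X → ∀ (V V0 b H : ℕ) (r : ℕ → ℤ),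
      0 < V → b.Coprime V → (V : ℝ) ≤ 4 * (Real.log X) ^ C1 →
      1 ≤ V0 → (V0 : ℝ) ≤ (Real.log X) ^ C1 →
      (∀ p : ℕ, p.Prime → 3 ≤ p → (p ∣ V ↔ p ∣ V0)) →
      X / 32 ≤ H → (H : ℝ) ≤ X → X / 8 ≤ b → (b : ℝ) ≤ 2 * X * (Real.log X) ^ C1 →
      ∀ XX : Finset ℕ, (∀ p ∈ XX, p.Prime ∧ (Real.log X) ^ C1 < p ∧ (p : ℝ) ≤ X ^ ((3 : ℝ) / 5)) →
      ∑ p ∈ XX, (1 : ℝ) / p ≤ ε₀ →
      (1 / 32) * (H / Real.log X) * FF ((Real.log X) ^ C1) V b r ≤
        (((range H).filter (fun i : ℕ => (V * i + b).Prime ∧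
          (∀ p ∈ PP ((Real.log X) ^ C1), ¬ (i : ℤ) ≡ r p [ZMOD p]) ∧
          ∀ p ∈ XX, ¬ (i : ℤ) ≡ r p [ZMOD p])).card : ℝ) := by
  obtain ⟨C, hC, k, hk, hU⟩ := hUp
  refine ⟨1 / (384 * C), by positivity, fun C1 hC1 => ?_⟩
  obtain ⟨X1, hX1⟩ := lower hSW C1 hC1
  obtain ⟨X2, hX2⟩ := ev_log 17
  obtain ⟨X3, hX3⟩ := ev_pow (3 * C1 * k) 1
  refine ⟨max (max X1 X2) (max X3 (2 ^ 75)), fun X hX V V0 b H r hV hbV hV4 hV0 hV0w hVV hH1 hH2
    hb1 hb2 XX hXX hsum => ?_⟩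
  have hlow := hX1 X ((le_max_left _ _).trans ((le_max_left _ _).trans hX)) V b H r hV hbV hV4
    hH1 hH2 hb1 hb2
  have hL17 := hX2 X ((le_max_right _ _).trans ((le_max_left _ _).trans hX))
  have hLk := hX3 X ((le_max_left _ _).trans ((le_max_right _ _).trans hX))
  have hX75 : 2 ^ 75 ≤ X := (le_max_right _ _).trans ((le_max_right _ _).trans hX)
  set L := Real.log X with hL
  have hX1 : 1 ≤ X := le_trans (by norm_num) hX75
  have hXpos : 0 < X := by linarith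
  have hL0 : 0 < L := by linarith
  set w := L ^ C1 with hw
  have hwL : L ≤ w := by
    calc L = L ^ 1 := (pow_one L).symm
      _ ≤ L ^ C1 := pow_le_pow_right₀ (by linarith) hC1
  have hw17 : 17 ≤ w := by linarith
  have hw0 : 0 < w := by linarith
  set F := FF w V b r with hF
  have hF0 : 0 < F := FF_pos _ _ _ _
  -- powers of X
  have h15 : 32 ≤ X ^ ((1 : ℝ) / 15) := by
    have h1 : ((2 : ℝ) ^ 75) ^ ((1 : ℝ) / 15) ≤ X ^ ((1 : ℝ) / 15) :=
      Real.rpow_le_rpow (by positivity) hX75 (by norm_num)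
    have h2 : ((2 : ℝ) ^ 75) ^ ((1 : ℝ) / 15) = 32 := by
      rw [← Real.rpow_natCast, ← Real.rpow_mul (by norm_num)]
      norm_num
    rw [h2] at h1
    exact h1
  have e1 : X ^ ((3 : ℝ) / 5) * X ^ ((1 : ℝ) / 3) * X ^ ((1 : ℝ) / 15) = X := by
    rw [← Real.rpow_add hXpos, ← Real.rpow_add hXpos]
    norm_num
  have hX13 : 0 < X ^ ((1 : ℝ) / 3) := Real.rpow_pos_of_pos hXpos _
  have hX35 : 0 < X ^ ((3 : ℝ) / 5) := Real.rpow_pos_of_pos hXpos _
  have hX131 : 1 ≤ X ^ ((1 : ℝ) / 3) := Real.one_le_rpow hX1 (by norm_num)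
  -- the factor for each prime
  have hone : ∀ p ∈ XX, (((range H).filter (fun i : ℕ => ((V * i + b).Prime ∧
          ∀ q ∈ PP w, ¬ (i : ℤ) ≡ r q [ZMOD q]) ∧ (i : ℤ) ≡ r p [ZMOD p])).card : ℝ) ≤
      12 * C * (H / L) * F * (1 / p) := by
    intro p hp
    obtain ⟨hpp, hpw, hpX⟩ := hXX p hp
    have hp0 : (0 : ℝ) < p := by exact_mod_cast hpp.pos
    have hJlow : (H : ℝ) / p ≤ ((H / p + 1 : ℕ) : ℝ) := by
      rw [div_le_iff₀ hp0]
      have := (Nat.lt_mul_div_succ H hpp.pos).le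
      rw [mul_comm] at this
      exact_mod_cast this
    have hJup : ((H / p + 1 : ℕ) : ℝ) ≤ (H : ℝ) / p + 1 := by
      push_cast
      have := Nat.cast_div_le (α := ℝ) (m := H) (n := p)
      linarith
    have hHp : X ^ ((1 : ℝ) / 3) ≤ (H : ℝ) / p := by
      rw [le_div_iff₀ hp0]
      calc X ^ ((1 : ℝ) / 3) * p ≤ X ^ ((1 : ℝ) / 3) * X ^ ((3 : ℝ) / 5) := by gcongr
        _ = (X ^ ((3 : ℝ) / 5) * X ^ ((1 : ℝ) / 3) * 32) / 32 := by ring
        _ ≤ (X ^ ((3 : ℝ) / 5) * X ^ ((1 : ℝ) / 3) * X ^ ((1 : ℝ) / 15)) / 32 := by gcongr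
        _ = X / 32 := by rw [e1]
        _ ≤ H := hH1
    set J := H / p + 1 with hJ
    have hJ13 : X ^ ((1 : ℝ) / 3) ≤ (J : ℝ) := hHp.trans hJlow
    have hlogJ : L / 3 ≤ Real.log J := by
      have h1 : Real.log (X ^ ((1 : ℝ) / 3)) ≤ Real.log J := Real.log_le_log hX13 hJ13
      rw [Real.log_rpow hXpos] at h1
      linarith
    have hJw : w ^ k ≤ ((J : ℕ) : ℝ) := by
      refine le_trans ?_ hJ13
      have h1 : (w ^ k) ^ 3 ≤ X := by
        have : (w ^ k) ^ 3 = 1 * L ^ (3 * C1 * k) := by rw [hw]; ring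
        rw [this]; exact hLk
      have h2 : ((w ^ k) ^ 3) ^ ((1 : ℝ) / 3) ≤ X ^ ((1 : ℝ) / 3) :=
        Real.rpow_le_rpow (by positivity) h1 (by norm_num)
      have h3 : ((w ^ k) ^ 3) ^ ((1 : ℝ) / 3) = w ^ k := by
        rw [← Real.rpow_natCast (w ^ k) 3, ← Real.rpow_mul (by positivity)]
        norm_num
      rw [h3] at h2
      exact h2
    have hJ2 : (J : ℝ) ≤ 2 * (H / p) := by linarith
    have hJb : J < b := by
      have h1 : (J : ℝ) < b := by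
        have h2 : (H : ℝ) / p < X / 16 := by
          rw [div_lt_div_iff₀ hp0 (by norm_num)]
          nlinarith
        linarith
      exact_mod_cast h1
    have h1 := one_prime C k hk hU w (by linarith) V V0 b H p r hV0 hV0w hVV hpp hpw hJw hJb
    refine h1.trans ?_
    rw [← hJ]
    calc 2 * (C * ((J : ℝ) / Real.log J) * F) ≤ 2 * (C * (2 * (H / p) / (L / 3)) * F) := by
          gcongr
      _ = 12 * C * (H / L) * F * (1 / p) := by
          field_simp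
          ring
  -- union bound
  set S := (range H).filter (fun i : ℕ => (V * i + b).Prime ∧
          ∀ p ∈ PP w, ¬ (i : ℤ) ≡ r p [ZMOD p]) with hS
  set S' := (range H).filter (fun i : ℕ => (V * i + b).Prime ∧
          (∀ p ∈ PP w, ¬ (i : ℤ) ≡ r p [ZMOD p]) ∧
          ∀ p ∈ XX, ¬ (i : ℤ) ≡ r p [ZMOD p]) with hS'
  have hsub : S ⊆ S' ∪ XX.biUnion (fun p => (range H).filter (fun i : ℕ => ((V * i + b).Prime ∧
          ∀ q ∈ PP w, ¬ (i : ℤ) ≡ r q [ZMOD q]) ∧ (i : ℤ) ≡ r p [ZMOD p])) := by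
    intro i hi
    rw [hS, Finset.mem_filter] at hi
    rw [Finset.mem_union]
    by_cases h : ∀ p ∈ XX, ¬ (i : ℤ) ≡ r p [ZMOD p]
    · left
      rw [hS', Finset.mem_filter]
      exact ⟨hi.1, hi.2.1, hi.2.2, h⟩
    · right
      push Not at h
      obtain ⟨p, hp, hip⟩ := h
      rw [Finset.mem_biUnion]
      exact ⟨p, hp, Finset.mem_filter.2 ⟨hi.1, hi.2, hip⟩⟩
  have hcard : (S.card : ℝ) ≤ S'.card + ∑ p ∈ XX, 12 * C * (H / L) * F * (1 / p) := by
    have h1 : S.card ≤ S'.card + ∑ p ∈ XX, ((range H).filter (fun i : ℕ => ((V * i + b).Prime ∧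
          ∀ q ∈ PP w, ¬ (i : ℤ) ≡ r q [ZMOD q]) ∧ (i : ℤ) ≡ r p [ZMOD p])).card :=
      (Finset.card_le_card hsub).trans ((Finset.card_union_le _ _).trans
        (Nat.add_le_add_left Finset.card_biUnion_le _))
    have h2 : (S.card : ℝ) ≤ S'.card + ∑ p ∈ XX, (((range H).filter (fun i : ℕ =>
        ((V * i + b).Prime ∧ ∀ q ∈ PP w, ¬ (i : ℤ) ≡ r q [ZMOD q]) ∧
          (i : ℤ) ≡ r p [ZMOD p])).card : ℝ) := by exact_mod_cast h1
    refine h2.trans ?_
    gcongr with p hp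
    exact hone p hp
  rw [← Finset.mul_sum] at hcard
  have hsm : 12 * C * (H / L) * F * ∑ p ∈ XX, 1 / (p : ℝ) ≤
      12 * C * (H / L) * F * (1 / (384 * C)) := by gcongr
  have hsm2 : 12 * C * (H / L) * F * (1 / (384 * C)) = (1 / 32) * (H / L) * F := by
    field_simp
    ring
  have hlow' : (1 / 16) * (H / L) * F ≤ (S.card : ℝ) := by
    refine hlow.trans (le_of_eq ?_)
    congr!
  linarith

end Crest.Agent.R001.Fin571
end

-- ▼ part R001/Fin8_571
section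

set_option autoImplicit false

namespace Crest.Agent.R001.Fin571

open Finset Crest.Agent.Lib.Mertens Crest.Agent.R001.FL ArithmeticFunction

/-- choice of the class modulo 4 -/
lemma two_adic (a U : ℤ) (V : ℕ) (h : IsCoprime U (V : ℤ)) :
    ∃ ρ : ℤ, ∃ ν : ℕ, ν ≤ 1 ∧ ∀ s : ℤ, s ≡ ρ [ZMOD 4] → ¬ (2 : ℤ) ∣ a - s ∧
      ∃ m : ℤ, (V : ℤ) * s - U = 2 ^ ν * m ∧ ¬ (2 : ℤ) ∣ m := by
  have key : ∀ ρ : ℤ, ∀ ν : ℕ, ν ≤ 1 → ¬ (2 : ℤ) ∣ a - ρ → (∃ m : ℤ, (V : ℤ) * ρ - U = 2 ^ ν * m ∧ ¬ (2 : ℤ) ∣ m) →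
      ∀ s : ℤ, s ≡ ρ [ZMOD 4] → ¬ (2 : ℤ) ∣ a - s ∧
      ∃ m : ℤ, (V : ℤ) * s - U = 2 ^ ν * m ∧ ¬ (2 : ℤ) ∣ m := by
    intro ρ ν hν h1 h2 s hs
    obtain ⟨c, hc⟩ := Int.modEq_iff_dvd.1 hs
    obtain ⟨m, hm, hm2⟩ := h2
    constructor
    · intro h3
      apply h1
      have : a - ρ = (a - s) - 4 * c := by linarith
      rw [this]
      exact dvd_sub h3 ⟨2 * c, by ring⟩
    · interval_cases ν
      · refine ⟨m - 4 * V * c, ?_, ?_⟩
        · have : s = ρ - 4 * c := by linarith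
          rw [this]
          linear_combination hm
        · intro h3
          apply hm2
          have : m = (m - 4 * V * c) + 2 * (2 * V * c) := by ring
          rw [this]
          exact dvd_add h3 ⟨_, rfl⟩
      · refine ⟨m - 2 * V * c, ?_, ?_⟩
        · have : s = ρ - 4 * c := by linarith
          rw [this]
          linear_combination hm
        · intro h3
          apply hm2
          have : m = (m - 2 * V * c) + 2 * (V * c) := by ring
          rw [this]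
          exact dvd_add h3 ⟨_, rfl⟩
  have h1 : ¬ (2 : ℤ) ∣ a - (a + 1) := by
    have : a - (a + 1) = -1 := by ring
    rw [this]; norm_num
  have h3 : ¬ (2 : ℤ) ∣ a - (a + 3) := by
    have : a - (a + 3) = -3 := by ring
    rw [this]; norm_num
  by_cases he : (2 : ℤ) ∣ (V : ℤ) * (a + 1) - U
  · obtain ⟨m, hm⟩ := he
    by_cases hm2 : (2 : ℤ) ∣ m
    · -- then V is odd
      have hV : ¬ (2 : ℤ) ∣ (V : ℤ) := by
        intro hV
        have hU : (2 : ℤ) ∣ U := by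
          have : U = V * (a + 1) - 2 * m := by linarith
          rw [this]
          exact dvd_sub (Dvd.dvd.mul_right hV _) ⟨m, rfl⟩
        have := (h.isUnit_of_dvd' hU hV)
        rw [Int.isUnit_iff] at this
        omega
      refine ⟨a + 3, 1, le_rfl, key (a + 3) 1 le_rfl h3 ⟨m + V, by linear_combination hm, ?_⟩⟩
      intro h4
      apply hV
      exact (Int.dvd_add_right hm2).1 h4
    · exact ⟨a + 1, 1, le_rfl, key (a + 1) 1 le_rfl h1 ⟨m, by linear_combination hm, hm2⟩⟩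
  · exact ⟨a + 1, 0, by norm_num, key (a + 1) 0 (by norm_num) h1 ⟨_, by ring, he⟩⟩

/-- the density factor is at least a constant over `log w` -/
lemma FF_ge_log (w : ℝ) (hw : 2 ≤ w) (V b : ℕ) (r : ℕ → ℤ) :
    Real.exp (-(22 / Real.log 2)) * (Real.log 2 / Real.log w) ≤ FF w V b r := by
  refine (mertens_three 2 w le_rfl hw).1.trans ?_
  rw [FF]
  have hsub : (PP w).filter (fun p : ℕ => ¬ p ∣ V ∧ ¬ (p : ℤ) ∣ (V : ℤ) * r p + b) ⊆ pr 2 w := by
    intro p hp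
    have h1 := (Finset.mem_filter.1 hp).1
    rw [mem_pr (by norm_num) (by linarith)]
    have h2 : (3 : ℝ) ≤ p := by exact_mod_cast PP_three h1
    exact ⟨⟨by linarith, PP_le h1⟩, PP_prime h1⟩
  rw [← Finset.prod_sdiff hsub]
  have hfac : ∀ p ∈ pr 2 w, 0 ≤ 1 - 1 / (p : ℝ) ∧ 1 - 1 / (p : ℝ) ≤ 1 := by
    intro p hp
    rw [mem_pr (by norm_num) (by linarith)] at hp
    have h2 : (2 : ℝ) < p := hp.1.1
    constructor
    · rw [sub_nonneg, div_le_one (by linarith)]; linarith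
    · have : (0 : ℝ) ≤ 1 / p := by positivity
      linarith
  have h3 : ∏ p ∈ pr 2 w \ (PP w).filter (fun p : ℕ => ¬ p ∣ V ∧ ¬ (p : ℤ) ∣ (V : ℤ) * r p + b),
      (1 - 1 / (p : ℝ)) ≤ 1 :=
    Finset.prod_le_one (fun p hp => (hfac p (Finset.mem_sdiff.1 hp).1).1)
      (fun p hp => (hfac p (Finset.mem_sdiff.1 hp).1).2)
  have h4 : 0 ≤ ∏ p ∈ (PP w).filter (fun p : ℕ => ¬ p ∣ V ∧ ¬ (p : ℤ) ∣ (V : ℤ) * r p + b),
      (1 - 1 / (p : ℝ)) := Finset.prod_nonneg fun p hp => (hfac p (hsub hp)).1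
  nlinarith

end Crest.Agent.R001.Fin571
end

-- ▼ part R001/Fin9_571

set_option autoImplicit false

namespace Crest.Agent.R001.Fin571

open Finset Crest.Agent.Lib.Mertens Crest.Agent.R001.FL ArithmeticFunction Crest.Agent.R001.End

/-- choice of the quarter interval -/
lemma quarter (X : ℕ) (hX : 32 ≤ X) (U : ℤ) (V : ℕ) (hV : 1 ≤ V) (ρ : ℤ) :
    ∃ τ s0 : ℤ, (τ = 1 ∨ τ = -1) ∧ s0 ≡ ρ [ZMOD 4] ∧
      (∀ i : ℕ, i < X / 16 → 0 ≤ s0 + 4 * τ * i ∧ s0 + 4 * τ * i < X) ∧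
      (V : ℤ) * X ≤ 4 * (τ * (V * s0 - U)) ∧ 0 ≤ s0 ∧ s0 ≤ X := by
  have hX0 : (0 : ℤ) ≤ X := Int.natCast_nonneg X
  have hV0 : (0 : ℤ) < V := by exact_mod_cast hV
  have hXd : ((X / 16 : ℕ) : ℤ) = (X : ℤ) / 16 := by simp
  by_cases h : 2 * U ≤ V * X
  · set lo : ℤ := X - X / 4 with hlo
    have h1 := Int.emod_nonneg (ρ - lo) (by norm_num : (4 : ℤ) ≠ 0)
    have h2 := Int.emod_lt_of_pos (ρ - lo) (by norm_num : (0 : ℤ) < 4)
    refine ⟨1, lo + (ρ - lo) % 4, Or.inl rfl, ?_, ?_, ?_, ?_, ?_⟩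
    · have : lo + (ρ - lo) % 4 ≡ lo + (ρ - lo) [ZMOD 4] := Int.ModEq.add_left _ (Int.mod_modEq _ _)
      rwa [add_sub_cancel] at this
    · intro i hi
      have hi' : (i : ℤ) < X / 16 := by rw [← hXd]; exact_mod_cast hi
      have hi0 : (0 : ℤ) ≤ i := Int.natCast_nonneg i
      constructor <;> omega
    · have h3 : 3 * (X : ℤ) ≤ 4 * (lo + (ρ - lo) % 4) := by omega
      nlinarith
    · omega
    · omega
  · push Not at h
    set hi : ℤ := X / 4 with hhi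
    have h1 := Int.emod_nonneg (hi - ρ) (by norm_num : (4 : ℤ) ≠ 0)
    have h2 := Int.emod_lt_of_pos (hi - ρ) (by norm_num : (0 : ℤ) < 4)
    refine ⟨-1, hi - (hi - ρ) % 4, Or.inr rfl, ?_, ?_, ?_, ?_, ?_⟩
    · have : hi - (hi - ρ) % 4 ≡ hi - (hi - ρ) [ZMOD 4] := Int.ModEq.sub_left _ (Int.mod_modEq _ _)
      rwa [sub_sub_cancel] at this
    · intro i hi
      have hi' : (i : ℤ) < X / 16 := by rw [← hXd]; exact_mod_cast hi
      have hi0 : (0 : ℤ) ≤ i := Int.natCast_nonneg i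
      constructor <;> omega
    · have h3 : 4 * (hi - (hi - ρ) % 4) ≤ (X : ℤ) := by omega
      nlinarith
    · omega
    · omega

/-- final numerical inequality -/
lemma final_num (C1 : ℕ) (hC1 : 1 ≤ C1) : ∃ X0 : ℝ, ∀ X : ℝ, X0 ≤ X → ∀ (H F : ℝ), X / 32 ≤ H →
    Real.exp (-(22 / Real.log 2)) * (Real.log 2 / Real.log ((Real.log X) ^ C1)) ≤ F →
    X / (Real.log X) ^ 2 ≤ (1 / 32) * (H / Real.log X) * F := by
  have hl2 : 0 < Real.log 2 := Real.log_pos (by norm_num)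
  set c0 := Real.exp (-(22 / Real.log 2)) * Real.log 2 with hc0
  have hc0' : 0 < c0 := by positivity
  obtain ⟨Y1, hY1⟩ := ev_pow 1 (1024 * C1 / c0)
  obtain ⟨X1, hX1⟩ := ev_log (max (max Y1 2) 2)
  refine ⟨max X1 1, fun X hX H F hH hF => ?_⟩
  have h1 := hX1 X ((le_max_left _ _).trans hX)
  have hX1' : 1 ≤ X := (le_max_right _ _).trans hX
  set L := Real.log X with hL
  have hL2 : 2 ≤ L := (le_max_right _ _).trans h1
  have hLY : Y1 ≤ L := (le_max_left _ _).trans ((le_max_left _ _).trans h1)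
  have h2 := hY1 L hLY
  rw [pow_one] at h2
  have hlL : 0 < Real.log L := Real.log_pos (by linarith)
  have hC1' : (0 : ℝ) < C1 := by exact_mod_cast hC1
  rw [Real.log_pow] at hF
  have h3 : 1024 * C1 * Real.log L ≤ L * c0 := by
    rw [div_mul_eq_mul_div, div_le_iff₀ hc0'] at h2
    exact h2
  have hF2 : 1024 / L ≤ F := by
    refine le_trans ?_ hF
    have : Real.exp (-(22 / Real.log 2)) * (Real.log 2 / (↑C1 * Real.log L)) =
        c0 / (C1 * Real.log L) := by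
      rw [hc0]; ring
    rw [this, div_le_div_iff₀ (by linarith) (by positivity)]
    linarith
  have hXpos : 0 < X := by linarith
  calc X / L ^ 2 = (1 / 32) * ((X / 32) / L) * (1024 / L) := by
        field_simp
        ring
    _ ≤ (1 / 32) * (H / L) * F := by
        have hH0 : 0 ≤ H := by linarith
        have hL0 : 0 < L := by linarith
        have h5 : (1 / 32) * ((X / 32) / L) ≤ (1 / 32) * (H / L) := by gcongr
        exact mul_le_mul h5 hF2 (by positivity) (by positivity)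

lemma pow35 {X : ℝ} (hX10 : (2 : ℝ) ^ 10 ≤ X) : X ^ ((3 : ℝ) / 5) < X / 8 := by
  have hXpos : 0 < X := by linarith
  have e1 : X ^ ((3 : ℝ) / 5) * X ^ ((2 : ℝ) / 5) = X := by
    rw [← Real.rpow_add hXpos]; norm_num
  have e2 : (16 : ℝ) ≤ X ^ ((2 : ℝ) / 5) := by
    have e3 : ((2 : ℝ) ^ 10) ^ ((2 : ℝ) / 5) ≤ X ^ ((2 : ℝ) / 5) :=
      Real.rpow_le_rpow (by positivity) hX10 (by norm_num)
    have e4 : ((2 : ℝ) ^ 10) ^ ((2 : ℝ) / 5) = 16 := by
      rw [← Real.rpow_natCast, ← Real.rpow_mul (by norm_num)]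
      norm_num
    rw [e4] at e3
    exact e3
  have e5 : 0 < X ^ ((3 : ℝ) / 5) := Real.rpow_pos_of_pos hXpos _
  rw [lt_div_iff₀ (by norm_num)]
  calc X ^ ((3 : ℝ) / 5) * 8 < X ^ ((3 : ℝ) / 5) * 16 := by gcongr; norm_num
    _ ≤ X ^ ((3 : ℝ) / 5) * X ^ ((2 : ℝ) / 5) := by gcongr
    _ = X := e1

set_option maxHeartbeats 1000000 in
open Classical in
/-- **BLOCK FIN** (from the upper bound sieve and Siegel–Walfisz) -/
theorem fin_aux (hSW : Crest.Agent.SW.PsiAP) (hUp : Upper) : ∃ ε₀ : ℝ, 0 < ε₀ ∧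
    ∀ C1 : ℕ, 1 ≤ C1 → ∃ X0 : ℝ, ∀ X : ℕ, X0 ≤ X → ∀ (a U : ℤ) (V : ℕ), 1 ≤ V →
      (V : ℝ) ≤ (Real.log X) ^ C1 → |(U : ℝ)| ≤ X * (Real.log X) ^ C1 → IsCoprime U (V : ℤ) →
      ∀ z : ℝ, z ≤ (X : ℝ) ^ ((3 : ℝ) / 5) → ∀ XX : Finset ℕ,
      (∀ p ∈ XX, p.Prime ∧ (Real.log X) ^ C1 < p) → ∑ p ∈ XX, (1 : ℝ) / p ≤ ε₀ →
      (∀ p : ℕ, p.Prime → (Real.log X) ^ C1 < p → (p : ℝ) < z → p ∉ XX →
        (p : ℤ) ∣ (V : ℤ) * a - U) →
      (X : ℝ) / (Real.log X) ^ 2 ≤ ((rough (Finset.Ioc (a - X) a) z).card : ℝ) := by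
  obtain ⟨ε₀, hε, hcomb⟩ := comb hSW hUp
  refine ⟨ε₀, hε, fun C1 hC1 => ?_⟩
  obtain ⟨X1, hX1⟩ := hcomb C1 hC1
  obtain ⟨X2, hX2⟩ := final_num C1 hC1
  obtain ⟨X3, hX3⟩ := ev_log 2
  refine ⟨max (max X1 X2) (max X3 (2 ^ 10)), fun X hX a U V hV hVw hUw hUV z hz XX hXX hsum hdvd => ?_⟩
  have hcb := hX1 X ((le_max_left _ _).trans ((le_max_left _ _).trans hX))
  have hfn := hX2 X ((le_max_right _ _).trans ((le_max_left _ _).trans hX))
  have hL2 := hX3 X ((le_max_left _ _).trans ((le_max_right _ _).trans hX))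
  have hX10 : (2 : ℝ) ^ 10 ≤ X := (le_max_right _ _).trans ((le_max_right _ _).trans hX)
  have hXn : 1024 ≤ X := by
    have : ((1024 : ℕ) : ℝ) ≤ X := by push_cast; linarith
    exact_mod_cast this
  set L := Real.log X with hL
  set w := L ^ C1 with hw
  have hwL : L ≤ w := by
    calc L = L ^ 1 := (pow_one L).symm
      _ ≤ L ^ C1 := pow_le_pow_right₀ (by linarith) hC1
  have hw2 : 2 ≤ w := by linarith
  have hXpos : (0 : ℝ) < X := by linarith
  obtain ⟨ρ, ν, hν, hρ⟩ := two_adic a U V hUV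
  obtain ⟨τ, s0, hτ, hs0ρ, hrange, hbig, hs00, hs0X⟩ := quarter X (by omega) U V hV ρ
  obtain ⟨_, m, hm, hm2⟩ := hρ s0 hs0ρ
  have hττ : τ * τ = 1 := by rcases hτ with h | h <;> rw [h] <;> norm_num
  have hpow : (0 : ℤ) < 2 ^ ν := by positivity
  have hVX : (0 : ℤ) < V * X := by
    have : 0 < V * X := Nat.mul_pos hV (by omega)
    exact_mod_cast this
  have hn0 : τ * (V * s0 - U) = 2 ^ ν * (τ * m) := by rw [hm]; ring
  have hmpos : 0 < τ * m := by
    by_contra hcon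
    have h1 : 2 ^ ν * (τ * m) ≤ 0 := mul_nonpos_of_nonneg_of_nonpos hpow.le (not_lt.1 hcon)
    rw [← hn0] at h1
    linarith
  set b : ℕ := (τ * m).toNat with hb
  have hbm : (b : ℤ) = τ * m := Int.toNat_of_nonneg hmpos.le
  have hb2 : ¬ 2 ∣ b := by
    intro h
    have h1 : (2 : ℤ) ∣ (b : ℤ) := by exact_mod_cast h
    rw [hbm] at h1
    apply hm2
    have : m = τ * (τ * m) := by rw [← mul_assoc, hττ, one_mul]
    rw [this]
    exact Dvd.dvd.mul_left h1 _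
  -- the modulus
  obtain ⟨V1, hV1⟩ : ∃ V1 : ℕ, 2 ^ ν * V1 = 4 * V := by
    interval_cases ν
    · exact ⟨4 * V, by ring⟩
    · exact ⟨2 * V, by ring⟩
  have hV1z : (2 : ℤ) ^ ν * V1 = 4 * V := by exact_mod_cast hV1
  have hV1pos : 0 < V1 := by
    rcases Nat.eq_zero_or_pos V1 with h | h
    · rw [h] at hV1; omega
    · exact h
  have h2ν : (2 : ℕ) ^ ν ≤ 2 := by interval_cases ν <;> norm_num
  have h2ν1 : 1 ≤ (2 : ℕ) ^ ν := Nat.one_le_two_pow
  have hV14 : V1 ≤ 4 * V := by nlinarith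
  have hdv : ∀ p : ℕ, p.Prime → 3 ≤ p → (p ∣ V1 ↔ p ∣ V) := by
    intro p hp hp3
    constructor
    · intro h
      have h1 : p ∣ 4 * V := by rw [← hV1]; exact Dvd.dvd.mul_left h _
      rcases (Nat.Prime.dvd_mul hp).1 h1 with h2 | h2
      · have h3 : p ∣ 2 ^ 2 := by norm_num; exact h2
        have := (Nat.prime_dvd_prime_iff_eq hp Nat.prime_two).1 (hp.dvd_of_dvd_pow h3)
        omega
      · exact h2
    · intro h
      have h1 : p ∣ 2 ^ ν * V1 := by rw [hV1]; exact Dvd.dvd.mul_left h _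
      rcases (Nat.Prime.dvd_mul hp).1 h1 with h2 | h2
      · have := (Nat.prime_dvd_prime_iff_eq hp Nat.prime_two).1 (hp.dvd_of_dvd_pow h2)
        omega
      · exact h2
  have hbV : b.Coprime V1 := by
    apply Nat.Coprime.symm
    apply Nat.coprime_of_dvd
    intro k hk hkV hkb
    rcases hk.eq_two_or_odd' with h | h
    · rw [h] at hkb; exact hb2 hkb
    · have hk3 : 3 ≤ k := by
        have := hk.two_le
        rcases h with ⟨c, hc⟩
        omega
      have h1 : (k : ℤ) ∣ (V : ℤ) := by exact_mod_cast (hdv k hk hk3).1 hkV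
      have h2 : (k : ℤ) ∣ (b : ℤ) := by exact_mod_cast hkb
      have h3 : (k : ℤ) ∣ U := by
        have h4 : U = V * s0 - τ * (2 ^ ν * b) := by
          rw [hbm, ← hn0, ← mul_assoc, hττ]; ring
        rw [h4]
        exact dvd_sub (Dvd.dvd.mul_right h1 _) (Dvd.dvd.mul_left (Dvd.dvd.mul_left h2 _) _)
      have h5 := hUV.isUnit_of_dvd' h3 h1
      rw [Int.isUnit_iff] at h5
      omega
  -- sizes
  set H : ℕ := X / 16 with hH
  have hH1 : (X : ℝ) / 32 ≤ H := by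
    have : X ≤ 32 * H := by omega
    have h2 : (X : ℝ) ≤ 32 * H := by exact_mod_cast this
    linarith
  have hH2 : (H : ℝ) ≤ X := by
    have : H ≤ X := by omega
    exact_mod_cast this
  have hb2n : (2 : ℤ) ^ ν ≤ 2 := by exact_mod_cast h2ν
  have hb1n : (1 : ℤ) ≤ 2 ^ ν := by exact_mod_cast h2ν1
  have hb0 : (0 : ℤ) < b := by rw [hbm]; exact hmpos
  have hbX : (X : ℤ) ≤ 8 * b := by
    have h1 : (V : ℤ) * X ≤ 4 * (2 ^ ν * b) := by rw [hbm, ← hn0]; exact hbig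
    have h2 : (X : ℤ) ≤ V * X := by
      have : (1 : ℤ) ≤ V := by exact_mod_cast hV
      have : (0 : ℤ) ≤ X := Int.natCast_nonneg X
      nlinarith
    nlinarith
  have hbXr : (X : ℝ) / 8 ≤ b := by
    have : (X : ℝ) ≤ 8 * b := by exact_mod_cast hbX
    linarith
  have hbU : (b : ℝ) ≤ 2 * X * w := by
    have h1 : (b : ℤ) ≤ |(V : ℤ) * s0 - U| := by
      have h2 : (b : ℤ) ≤ 2 ^ ν * b := by nlinarith
      have h3 : (2 : ℤ) ^ ν * b = τ * (V * s0 - U) := by rw [hbm, hn0]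
      have h4 : τ * (V * s0 - U) ≤ |(V : ℤ) * s0 - U| := by
        rcases hτ with h | h
        · rw [h, one_mul]; exact le_abs_self _
        · rw [h, neg_one_mul]; exact neg_le_abs _
      linarith
    have h2 : |(V : ℤ) * s0 - U| ≤ (V : ℤ) * s0 + |U| := by
      have h3 : |(V : ℤ) * s0 - U| ≤ |(V : ℤ) * s0| + |U| := abs_sub _ _
      have h4 : |(V : ℤ) * s0| = V * s0 := abs_of_nonneg (mul_nonneg (Int.natCast_nonneg V) hs00)
      rw [h4] at h3
      exact h3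
    have h3 : (b : ℤ) ≤ V * X + |U| := by
      have : (V : ℤ) * s0 ≤ V * X := mul_le_mul_of_nonneg_left hs0X (Int.natCast_nonneg V)
      linarith
    have h4 : (b : ℝ) ≤ V * X + |(U : ℝ)| := by exact_mod_cast h3
    have h5 : (V : ℝ) * X ≤ w * X := mul_le_mul_of_nonneg_right hVw hXpos.le
    linarith
  -- the classes of `t`
  have hcl : ∀ p : ℕ, ∃ c : ℤ, p.Prime → 3 ≤ p →
      ∀ j : ℤ, (p : ℤ) ∣ (-(4 * τ)) * j + (a - s0) ↔ j ≡ c [ZMOD p] := by
    intro p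
    by_cases h : p.Prime ∧ 3 ≤ p
    · obtain ⟨h1, h2⟩ := h
      have h5 : ¬ (p : ℤ) ∣ -(4 * τ) := by
        intro h6
        have h7 : (p : ℤ) ∣ 4 := by
          have : (4 : ℤ) = -(4 * τ) * (-τ) := by linear_combination -4 * hττ
          rw [this]
          exact Dvd.dvd.mul_right h6 _
        have h8 : p ∣ 2 ^ 2 := by norm_num; exact_mod_cast h7
        have := (Nat.prime_dvd_prime_iff_eq h1 Nat.prime_two).1 (h1.dvd_of_dvd_pow h8)
        omega
      obtain ⟨c, hc⟩ := exists_class p h1 _ (a - s0) h5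
      exact ⟨c, fun _ _ => hc⟩
    · exact ⟨0, fun h1 h4 => absurd ⟨h1, h4⟩ h⟩
  choose r hr using hcl
  set XX' := XX.filter (fun p : ℕ => (p : ℝ) < z) with hXX'
  have hsum' : ∑ p ∈ XX', (1 : ℝ) / p ≤ ε₀ := by
    refine le_trans (Finset.sum_le_sum_of_subset_of_nonneg (Finset.filter_subset _ _) ?_) hsum
    intro p _ _
    positivity
  have hV1r : (V1 : ℝ) ≤ 4 * w := by
    have h1 : (V1 : ℝ) ≤ 4 * V := by exact_mod_cast hV14
    linarith
  have hmain := hcb V1 V b H r hV1pos hbV hV1r hV hVw hdv hH1 hH2 hbXr hbU XX' (by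
    intro p hp
    rw [hXX', Finset.mem_filter] at hp
    exact ⟨(hXX p hp.1).1, (hXX p hp.1).2, (hp.2.le.trans hz)⟩) hsum'
  have hlast := hfn H (FF w V1 b r) hH1 (FF_ge_log w hw2 V1 b r)
  refine hlast.trans (hmain.trans ?_)
  -- the injection
  have hcard : (((range H).filter (fun i : ℕ => (V1 * i + b).Prime ∧
          (∀ p ∈ PP w, ¬ (i : ℤ) ≡ r p [ZMOD p]) ∧
          ∀ p ∈ XX', ¬ (i : ℤ) ≡ r p [ZMOD p])).card) ≤ (rough (Finset.Ioc (a - X) a) z).card := by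
    apply Finset.card_le_card_of_injOn (fun i : ℕ => a - (s0 + 4 * τ * i))
    · intro i hi
      rw [Finset.mem_coe, Finset.mem_filter, Finset.mem_range] at hi
      obtain ⟨hiH, hN, hP, hE⟩ := hi
      obtain ⟨hr1, hr2⟩ := hrange i hiH
      show a - (s0 + 4 * τ * i) ∈ ((rough (Finset.Ioc (a - X) a) z : Finset ℤ) : Set ℤ)
      rw [Finset.mem_coe, mem_rough, Finset.mem_Ioc]
      refine ⟨⟨by linarith, by linarith⟩, fun q hq hqz hqt => ?_⟩
      have hsi : s0 + 4 * τ * i ≡ ρ [ZMOD 4] := by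
        refine Int.ModEq.trans ?_ hs0ρ
        apply Int.ModEq.symm
        rw [Int.modEq_iff_dvd]
        exact ⟨τ * i, by ring⟩
      obtain ⟨hodd, _⟩ := hρ _ hsi
      rcases hq.eq_two_or_odd' with h | h
      · rw [h] at hqt; exact hodd (by exact_mod_cast hqt)
      · have hq3 : 3 ≤ q := by
          have := hq.two_le
          rcases h with ⟨c, hc⟩
          omega
        have hqi : (i : ℤ) ≡ r q [ZMOD q] := by
          apply (hr q hq hq3 i).1
          have : -(4 * τ) * (i : ℤ) + (a - s0) = a - (s0 + 4 * τ * i) := by ring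
          rw [this]; exact hqt
        by_cases hqw : (q : ℝ) ≤ w
        · apply hP q _ hqi
          rw [mem_PP (by linarith)]
          exact ⟨hq, hq3, hqw⟩
        · push Not at hqw
          by_cases hqX : q ∈ XX
          · apply hE q _ hqi
            rw [hXX', Finset.mem_filter]
            exact ⟨hqX, hqz⟩
          · have h1 := hdvd q hq hqw hqz hqX
            -- q divides N
            have h2 : (q : ℤ) ∣ 2 ^ ν * ((V1 * i + b : ℕ) : ℤ) := by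
              have h3 : (2 : ℤ) ^ ν * ((V1 * i + b : ℕ) : ℤ) =
                  τ * (((V : ℤ) * a - U) - V * (a - (s0 + 4 * τ * i))) := by
                push_cast
                have e1 : (2 : ℤ) ^ ν * (V1 * i + b) = (2 ^ ν * V1) * i + 2 ^ ν * b := by ring
                rw [e1, hV1z, hbm, ← hn0]
                linear_combination (-4 * (V : ℤ) * i) * hττ
              rw [h3]
              exact Dvd.dvd.mul_left (dvd_sub h1 (Dvd.dvd.mul_left hqt _)) _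
            have h4 : q ∣ 2 ^ ν * (V1 * i + b) := by exact_mod_cast h2
            rcases (Nat.Prime.dvd_mul hq).1 h4 with h5 | h5
            · have := (Nat.prime_dvd_prime_iff_eq hq Nat.prime_two).1 (hq.dvd_of_dvd_pow h5)
              omega
            · have h6 := (Nat.prime_dvd_prime_iff_eq hq hN).1 h5
              have h7 : b ≤ q := by rw [h6]; exact Nat.le_add_left _ _
              have h8 : (b : ℝ) ≤ q := by exact_mod_cast h7
              have h9 := pow35 hX10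
              linarith
    · intro i _ j _ hij
      simp only at hij
      have h1 : τ * (i : ℤ) = τ * j := by linarith
      have h2 : (i : ℤ) = j := by
        have h3 : τ * (τ * (i : ℤ)) = τ * (τ * j) := by rw [h1]
        rw [← mul_assoc, ← mul_assoc, hττ, one_mul, one_mul] at h3
        exact h3
      exact_mod_cast h2
  exact_mod_cast hcard

end Crest.Agent.R001.Fin571
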