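import Mathlib
import Crest.Agent.R001.F1E
import Crest.Agent.R001.TreeDefs
import Crest.Agent.SW.Princ
import Crest.Agent.R001.TreeSize
import Crest.Agent.SW.PsiAP301
import Crest.Agent.SW.PNT774

-- ▼ part R001/F1F
section

/-!
# R1, block F1: asymptotic formula for `Rw x w / x`

* `F1c` : for `w² ≤ x ≤ w⁵`,
  `2 log(log x / log w - 1) / log x - C / log² x ≤ Rw x w / x
      ≤ 2 log(log x / log w - 1) / log x + C / log² x + C (max 0 (log x - 4 log w))³ / log⁴ x`.
-/

open Finset ArithmeticFunction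

namespace Crest.Agent.R001.F1

open Crest.Agent.Lib.Mertens

/-- **F1c**: asymptotics of `Rw x w / x`, `w² ≤ x ≤ w⁵`. -/
theorem F1c (h : PNT2) : ∃ C : ℝ, 0 < C ∧ ∀ x w : ℝ, 2 ≤ w → w ^ 2 ≤ x → x ≤ w ^ 5 →
    2 * Real.log ((Real.log x - Real.log w) / Real.log w) / Real.log x - C / Real.log x ^ 2 ≤
      Rw x w / x ∧
    Rw x w / x ≤ 2 * Real.log ((Real.log x - Real.log w) / Real.log w) / Real.log x +
      C / Real.log x ^ 2 + C * (max 0 (Real.log x - 4 * Real.log w)) ^ 3 / Real.log x ^ 4 := by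
  obtain ⟨C, hC0, hC⟩ := N2_asymp h
  obtain ⟨K, hK0, hK⟩ := N4_upper h
  refine ⟨2 * C + 8 + 2 * K * 10 ^ 10, by positivity, ?_⟩
  intro x w hw hx hx5
  obtain ⟨hx0, hs2, hlw, hlx, hls, hws⟩ := basic hw hx
  have hw0 : 0 < w := by linarith
  have hA := abs_le.mp (hC x w hw hx hx5)
  set ω := Real.log w with hω
  set V := Real.log x with hV
  have hV5 : V ≤ 5 * ω := by
    have := Real.log_le_log hx0 hx5
    rw [Real.log_pow] at this
    exact_mod_cast this
  have e0 : 2 * Real.log ((V - ω) / ω) / V = 2 * (Real.log ((V - ω) / ω) / V) := by ring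
  rw [e0]
  have hR2 : 2 * (((rk 2 x w).card : ℝ) / x) ≤ Rw x w / x := by
    rw [← mul_div_assoc]
    exact div_le_div_of_nonneg_right Rw_ge hx0.le
  have hx6 : x < w ^ 6 := by
    refine lt_of_le_of_lt hx5 ?_
    exact pow_lt_pow_right₀ (by linarith) (by norm_num)
  have hR1 : Rw x w / x ≤ 2 * (1 / x + ((rk 2 x w).card : ℝ) / x +
      ((rk 4 x w).card : ℝ) / x) := by
    have h3 := div_le_div_of_nonneg_right (Rw_le hw hx0.le hx6) hx0.le
    refine h3.trans (le_of_eq ?_)
    ring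
  have hx1 : 1 < x := by nlinarith
  have hinv : 1 / x ≤ 4 / V ^ 2 := inv_le_log_sq hx1
  have hV0 : 0 < V := hlx
  set κ := max 0 (V - 4 * ω) with hκ
  have hκ0 : 0 ≤ κ := le_max_left _ _
  have hN4 : ((rk 4 x w).card : ℝ) / x ≤ K * 10 ^ 10 / V ^ 2 + K * 10 ^ 10 * κ ^ 3 / V ^ 4 := by
    by_cases hx14 : x < w ^ 4
    · rw [rk_empty hw0.le hx0.le hx14]
      simp only [Finset.card_empty, Nat.cast_zero, zero_div]
      positivity
    · push Not at hx14
      have h3 := hK x w hw hx14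
      rw [← hV, ← hω] at h3
      have h4' : 0 ≤ V - 4 * ω := by
        have h5 := Real.log_le_log (by positivity) hx14
        rw [Real.log_pow] at h5
        push_cast at h5
        linarith
      have hκe : V - 4 * ω = κ := by rw [hκ, max_eq_right h4']
      rw [hκe] at h3
      have h5 : (κ + 19) ^ 3 ≤ 4 * κ ^ 3 + 4 * 19 ^ 3 := by
        nlinarith [mul_nonneg (add_nonneg hκ0 (by norm_num : (0:ℝ) ≤ 19)) (sq_nonneg (κ - 19))]
      have hω4 : 1 / ω ^ 4 ≤ 625 / V ^ 4 := by
        rw [div_le_div_iff₀ (by positivity) (by positivity)]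
        have := pow_le_pow_left₀ hV0.le hV5 4
        rw [mul_pow] at this
        linarith
      have hω2 : 1 / V ^ 4 ≤ 3 / V ^ 2 := by
        rw [div_le_div_iff₀ (by positivity) (by positivity)]
        have hl2 : 0.6931471803 < Real.log 2 := Real.log_two_gt_d9
        have hlw2 : Real.log 2 ≤ ω := Real.log_le_log (by norm_num) hw
        have h6 : 1 ≤ V := by
          have := Real.log_le_log (by positivity) hx
          rw [Real.log_pow] at this
          push_cast at this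
          linarith
        have h7 : V ^ 2 * 1 ≤ V ^ 2 * (V ^ 2) := by
          apply mul_le_mul_of_nonneg_left _ (by positivity)
          nlinarith
        nlinarith
      calc ((rk 4 x w).card : ℝ) / x
          ≤ K * x * (κ + 19) ^ 3 / ω ^ 4 / x :=
            div_le_div_of_nonneg_right h3 hx0.le
        _ = K * (κ + 19) ^ 3 * (1 / ω ^ 4) := by field_simp
        _ ≤ K * (4 * κ ^ 3 + 4 * 19 ^ 3) * (625 / V ^ 4) := by
            apply mul_le_mul _ hω4 (by positivity) (by positivity)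
            exact mul_le_mul_of_nonneg_left h5 hK0.le
        _ = K * 2500 * κ ^ 3 / V ^ 4 + K * (4 * 19 ^ 3 * 625) * (1 / V ^ 4) := by ring
        _ ≤ K * 2500 * κ ^ 3 / V ^ 4 + K * (4 * 19 ^ 3 * 625) * (3 / V ^ 2) := by
            have := mul_le_mul_of_nonneg_left hω2
              (by positivity : 0 ≤ K * (4 * 19 ^ 3 * 625))
            linarith
        _ ≤ K * 10 ^ 10 / V ^ 2 + K * 10 ^ 10 * κ ^ 3 / V ^ 4 := by
            have h8 : K * 2500 * κ ^ 3 / V ^ 4 ≤ K * 10 ^ 10 * κ ^ 3 / V ^ 4 := by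
              apply div_le_div_of_nonneg_right _ (by positivity)
              apply mul_le_mul_of_nonneg_right _ (by positivity)
              nlinarith
            have h9 : K * (4 * 19 ^ 3 * 625) * (3 / V ^ 2) ≤ K * 10 ^ 10 / V ^ 2 := by
              have e : K * (4 * 19 ^ 3 * 625) * (3 / V ^ 2) =
                  K * (4 * 19 ^ 3 * 625 * 3) / V ^ 2 := by ring
              rw [e]
              apply div_le_div_of_nonneg_right _ (by positivity)
              apply mul_le_mul_of_nonneg_left _ hK0.le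
              norm_num
            linarith
  constructor
  · have e1 : C / V ^ 2 * 2 ≤ (2 * C + 8 + 2 * K * 10 ^ 10) / V ^ 2 := by
      rw [div_mul_eq_mul_div]
      apply div_le_div_of_nonneg_right _ (by positivity)
      nlinarith
    linarith [hA.1, hA.2]
  · have e1 : (2 * C + 8 + 2 * K * 10 ^ 10) / V ^ 2 =
        2 * (C / V ^ 2) + 2 * (4 / V ^ 2) + 2 * (K * 10 ^ 10 / V ^ 2) := by ring
    have e2 : 2 * (K * 10 ^ 10 * κ ^ 3 / V ^ 4) ≤
        (2 * C + 8 + 2 * K * 10 ^ 10) * κ ^ 3 / V ^ 4 := by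
      rw [← mul_div_assoc]
      apply div_le_div_of_nonneg_right _ (by positivity)
      have : 0 ≤ κ ^ 3 := by positivity
      nlinarith
    rw [e1]
    linarith [hA.1, hA.2]

end Crest.Agent.R001.F1
end

-- ▼ part R001/Par
section

/-!
# R1, block PAR: the parity model on the Rosser tree

`Am M`, `Sm M` : the pair `(A, S)` of the weighted set `{m ≤ M}`, weight `1 + λ(m)`.
-/

namespace Crest.Agent.R001.Par

open Finset Classical ArithmeticFunction
open Crest.Agent.R001.Tree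
open Crest.Agent.SW (lam lam_mul lam_apply abs_lam_le abs_lam lam_one Lsum Lsum_bound Lsum_trivial)
open Crest.Agent.R001.F1

/-- the weight `1 + λ` -/
noncomputable def wt (m : ℕ) : ℝ := 1 + lam m

/-- the set `{1, …, ⌊M⌋}` -/
noncomputable def Om (M : ℝ) : Finset ℕ := Icc 1 ⌊M⌋₊

/-- weight of the multiples of `d` -/
noncomputable def Am (M : ℝ) (d : ℕ) : ℝ := Aw (Om M) (fun t : ℕ => (t : ℤ)) wt d

/-- weight of the multiples of `d` without prime factor `< w` -/
noncomputable def Sm (M : ℝ) (d w : ℕ) : ℝ := Sw (Om M) (fun t : ℕ => (t : ℤ)) wt d w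


theorem buch_m (M : ℝ) : Buch (Am M) (Sm M) := buch_w _ _ _


lemma lam_prime {p : ℕ} (hp : p.Prime) : lam p = -1 := by
  rw [lam_apply hp.ne_zero, cardFactors_apply_prime hp, pow_one]

/-- every node has `λ(d) = 1` -/
lemma Node_lam {stop : ℕ → ℕ → Prop} {d0 w0 d w : ℕ} (h0 : lam d0 = 1)
    (h : Node stop d0 w0 d w) : lam d = 1 := by
  induction h with
  | root => exact h0
  | step _ hp hq _ ih =>
    rw [lam_mul, lam_mul, ih, lam_prime (prime_of_mem_pr hp), lam_prime (prime_of_mem_pr hq)]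
    norm_num

lemma Leaf_lam {stop : ℕ → ℕ → Prop} {d0 w0 d w : ℕ} (h0 : lam d0 = 1)
    (h : Leaf stop d0 w0 d w) : lam d = 1 := by
  obtain ⟨d1, w1, p, hn, hp, hq, hd, _⟩ := h
  rw [hd, lam_mul, lam_mul, Node_lam h0 hn, lam_prime (prime_of_mem_pr hp),
    lam_prime (prime_of_mem_pr hq)]
  norm_num

lemma Leaf_pos {stop : ℕ → ℕ → Prop} {d0 w0 d w : ℕ} (h0 : 0 < d0)
    (h : Leaf stop d0 w0 d w) : 0 < d := by
  obtain ⟨d1, w1, p, hn, hp, hq, hd, _⟩ := h
  rw [hd]
  exact Nat.mul_pos (Nat.mul_pos (hn.pos h0) (prime_of_mem_pr hp).pos) (prime_of_mem_pr hq).pos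

lemma Leaf_rgh {stop : ℕ → ℕ → Prop} {d0 w0 d w : ℕ} (h0 : Rgh d0 w0)
    (h : Leaf stop d0 w0 d w) : Rgh d w := by
  obtain ⟨d1, w1, p, hn, hp, hq, hd, _⟩ := h
  rw [hd]
  exact (hn.rgh h0).child hp hq

lemma Leaf_two {stop : ℕ → ℕ → Prop} {d0 w0 d w : ℕ}
    (h : Leaf stop d0 w0 d w) : 2 ≤ w := by
  obtain ⟨d1, w1, p, hn, hp, hq, hd, _⟩ := h
  exact (prime_of_mem_pr hq).two_le

/-- sum over the multiples of `d` up to `M` -/
lemma sum_mult (M : ℝ) {d : ℕ} (hd : 0 < d) (g : ℕ → ℝ) (P : ℕ → Prop) :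
    ∑ t ∈ (Om M).filter (fun t : ℕ => (d : ℤ) ∣ (t : ℤ) ∧ P t), g t =
      ∑ m ∈ (Om (M / d)).filter (fun m => P (d * m)), g (d * m) := by
  have hfl : ⌊M / (d : ℝ)⌋₊ = ⌊M⌋₊ / d := Nat.floor_div_natCast M d
  symm
  apply Finset.sum_bij (fun m _ => d * m)
  · intro m hm
    simp only [Om, Finset.mem_filter, Finset.mem_Icc, hfl] at hm ⊢
    obtain ⟨⟨h1, h2⟩, h3⟩ := hm
    refine ⟨⟨Nat.mul_pos hd h1, ?_⟩, ?_, h3⟩
    · calc d * m ≤ d * (⌊M⌋₊ / d) := Nat.mul_le_mul_left d h2
        _ ≤ ⌊M⌋₊ := Nat.mul_div_le _ _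
    · exact_mod_cast Nat.dvd_mul_right d m
  · intro m1 _ m2 _ h
    exact Nat.eq_of_mul_eq_mul_left hd h
  · intro t ht
    simp only [Om, Finset.mem_filter, Finset.mem_Icc] at ht
    obtain ⟨⟨h1, h2⟩, h3, h4⟩ := ht
    obtain ⟨m, rfl⟩ := Int.natCast_dvd_natCast.mp h3
    refine ⟨m, ?_, rfl⟩
    simp only [Om, Finset.mem_filter, Finset.mem_Icc, hfl]
    refine ⟨⟨?_, ?_⟩, h4⟩
    · rcases Nat.eq_zero_or_pos m with h | h
      · subst h; simp at h1
      · exact h
    · rw [Nat.le_div_iff_mul_le hd, mul_comm]; exact h2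
  · intro m _; rfl

lemma Am_eq (M : ℝ) {d : ℕ} (hd : 0 < d) :
    Am M d = (⌊M / d⌋₊ : ℝ) + lam d * Lsum (M / d) := by
  unfold Am Aw
  have h := sum_mult M hd wt (fun _ => True)
  simp only [and_true, Finset.filter_true] at h
  rw [h]
  unfold wt Lsum Om
  rw [Finset.sum_add_distrib, Finset.mul_sum]
  congr 1
  · simp
  · exact Finset.sum_congr rfl (fun m _ => lam_mul d m)

lemma abs_Am_sub_le {M : ℝ} (hM : 0 < M) {d : ℕ} (hd : 0 < d) :
    |Am M d / M - 1 / d| ≤ (1 + |Lsum (M / d)|) / M := by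
  have hd0 : (0 : ℝ) < d := by exact_mod_cast hd
  have e : Am M d / M - 1 / d = (((⌊M / d⌋₊ : ℝ) - M / d) + lam d * Lsum (M / d)) / M := by
    rw [Am_eq M hd]
    field_simp
    ring
  rw [e, abs_div, abs_of_pos hM]
  apply div_le_div_of_nonneg_right _ hM.le
  refine (abs_add_le _ _).trans ?_
  have h1 : |(⌊M / d⌋₊ : ℝ) - M / d| ≤ 1 := by
    rw [abs_le]
    have h2 := Nat.floor_le (show 0 ≤ M / (d : ℝ) by positivity)
    have h3 := (Nat.lt_floor_add_one (M / (d : ℝ))).le
    constructor <;> linarith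
  have h2 : |lam d * Lsum (M / d)| ≤ |Lsum (M / d)| := by
    rw [abs_mul, abs_lam hd.ne', one_mul]
  linarith

/-- on even rough states the sieved weight is `Rw` -/
lemma Sm_eq (M : ℝ) (hM : 0 ≤ M) {d w : ℕ} (hd : 0 < d) (hr : Rgh d w) (hl : lam d = 1) :
    Sm M d w = Rw (M / d) w := by
  unfold Sm Sw
  rw [sum_mult M hd wt (fun t => ∀ p : ℕ, p.Prime → p < w → ¬ (p : ℤ) ∣ (t : ℤ))]
  have hMd : 0 ≤ M / (d : ℝ) := by positivity
  have hset : (Om (M / d)).filter
      (fun m => ∀ p : ℕ, p.Prime → p < w → ¬ (p : ℤ) ∣ ((d * m : ℕ) : ℤ)) =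
      roughN (M / d) w := by
    ext m
    rw [mem_roughN hMd]
    simp only [Om, Finset.mem_filter, Finset.mem_Icc, Nat.le_floor_iff hMd]
    constructor
    · rintro ⟨⟨h1, h2⟩, h3⟩
      refine ⟨h1, h2, ?_⟩
      intro p hp hpm
      by_contra hlt
      push Not at hlt
      have hlt' : p < w := by exact_mod_cast hlt
      exact h3 p hp hlt' (Int.natCast_dvd_natCast.mpr (dvd_mul_of_dvd_right hpm d))
    · rintro ⟨h1, h2, h3⟩
      refine ⟨⟨h1, h2⟩, ?_⟩
      intro p hp hpw hdvd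
      rcases hp.dvd_mul.mp (Int.natCast_dvd_natCast.mp hdvd) with h | h
      · exact hr p hp hpw h
      · have := h3 p hp h
        have h4 : (p : ℝ) < w := by exact_mod_cast hpw
        linarith
  rw [hset]
  unfold Rw
  rw [Finset.card_filter]
  push_cast
  rw [Finset.mul_sum]
  apply Finset.sum_congr rfl
  intro m hm
  rw [mem_roughN hMd] at hm
  have hm0 : m ≠ 0 := by omega
  unfold wt
  rw [lam_mul, hl, one_mul, lam_apply hm0]
  split_ifs with h
  · rw [h.neg_one_pow]; norm_num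
  · rw [Nat.not_even_iff_odd] at h
    rw [h.neg_one_pow]; norm_num

lemma Sm_one (M : ℝ) (hM : 0 ≤ M) (w : ℕ) : Sm M 1 w = Rw M w := by
  have := Sm_eq M hM (d := 1) (w := w) one_pos (rgh_one w) lam_one
  simpa using this


lemma Sm_leaf (M : ℝ) (hM : 0 ≤ M) {stop : ℕ → ℕ → Prop} {w0 d w : ℕ}
    (h : Leaf stop 1 w0 d w) : Sm M d w = Rw (M / d) w :=
  Sm_eq M hM (Leaf_pos one_pos h) (Leaf_rgh (rgh_one w0) h) (Leaf_lam lam_one h)

lemma Rw_nonneg (x w : ℝ) : 0 ≤ Rw x w := by unfold Rw; positivity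

lemma Rw_of_lt_one {x w : ℝ} (hx : x < 1) : Rw x w = 0 := by
  unfold Rw roughN
  have : ⌊x⌋₊ = 0 := Nat.floor_eq_zero.mpr hx
  rw [this]
  simp

/-- below `w²` only `1` and `w²` count -/
lemma Rw_le_four {x w : ℝ} (hw : 2 ≤ w) (hx0 : 0 ≤ x) (hx : x ≤ w ^ 2) : Rw x w ≤ 4 := by
  unfold Rw
  have hsub : (roughN x w).filter (fun m => Even (cardFactors m)) ⊆ {1, ⌊w ^ 2⌋₊} := by
    intro m hm
    rw [Finset.mem_filter, mem_roughN hx0] at hm
    obtain ⟨⟨h1, h2, h3⟩, h4⟩ := hm
    rw [Finset.mem_insert, Finset.mem_singleton]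
    by_cases hm1 : m = 1
    · left; exact hm1
    · right
      have hpos : cardFactors m ≠ 0 := by
        intro h0
        rcases cardFactors_eq_zero_iff_eq_zero_or_one.mp h0 with h | h
        · omega
        · exact hm1 h
      have h5 : 2 ≤ cardFactors m := by
        obtain ⟨k, hk⟩ := h4
        omega
      have h6 := pow_le_of_rough (by linarith) h1 h3
      have h7 : w ^ 2 ≤ w ^ (cardFactors m) := pow_le_pow_right₀ (by linarith) h5
      have h8 : (m : ℝ) = w ^ 2 := le_antisymm (h2.trans hx) (h7.trans h6)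
      rw [← h8, Nat.floor_natCast]
  have h1 := Finset.card_le_card hsub
  have h2 : ((roughN x w).filter (fun m => Even (cardFactors m))).card ≤ 2 :=
    h1.trans (Finset.card_le_two)
  have h3 : ((((roughN x w).filter (fun m => Even (cardFactors m))).card : ℕ) : ℝ) ≤ 2 := by
    exact_mod_cast h2
  linarith

/-- BOUNDARY: stopped states of the Rosser rule at level `≥ M` -/
lemma Sm_boundary {M : ℝ} (hM : 0 ≤ M) {stop : ℕ → ℕ → Prop} {w0 d w : ℕ}
    (h : Leaf stop 1 w0 d w) (hb : M ≤ d * w ^ 2) :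
    Sm M d w ≤ if (d : ℝ) ≤ M then 4 else 0 := by
  have hd : 0 < d := Leaf_pos one_pos h
  have hd0 : (0 : ℝ) < d := by exact_mod_cast hd
  rw [Sm_leaf M hM h]
  split_ifs with h1
  · apply Rw_le_four
    · exact_mod_cast Leaf_two h
    · positivity
    · rw [div_le_iff₀ hd0]; linarith
  · push Not at h1
    rw [Rw_of_lt_one ((div_lt_one hd0).mpr h1)]

/-! ### the error terms -/

/-- the error function -/
noncomputable def errF (M : ℝ) (d w : ℕ) : ℝ :=
  (1 + |Lsum (M / d)|) / M + ∑ p ∈ pr w, (1 + |Lsum (M / ((d * p : ℕ) : ℝ))|) / M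

/-- the reciprocal function -/
noncomputable def rec (d : ℕ) : ℝ := 1 / (d : ℝ)


lemma abs_intF_sub_le {M : ℝ} (hM : 0 < M) {d w : ℕ} (hd : 0 < d) :
    |intF (Am M) d w / M - intF rec d w| ≤ errF M d w := by
  unfold intF errF
  have e : (Am M d - ∑ p ∈ pr w, Am M (d * p)) / M - (rec d - ∑ p ∈ pr w, rec (d * p)) =
      (Am M d / M - rec d) - ∑ p ∈ pr w, (Am M (d * p) / M - rec (d * p)) := by
    rw [Finset.sum_sub_distrib, sub_div, Finset.sum_div]
    ring
  rw [e]
  refine (abs_sub _ _).trans (add_le_add ?_ ?_)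
  · exact abs_Am_sub_le hM hd
  · refine (Finset.abs_sum_le_sum_abs _ _).trans (Finset.sum_le_sum ?_)
    intro p hp
    exact abs_Am_sub_le hM (Nat.mul_pos hd (prime_of_mem_pr hp).pos)

/-- IDENTITY at level `M`, for every stopping rule. -/
theorem identity_m {M : ℝ} (hM : 0 < M) (stop : ℕ → ℕ → Prop) (w0 : ℕ) :
    |T stop (intF rec) (fun d w => Rw (M / d) w / M) 1 w0 - Rw M w0 / M| ≤
      T stop (errF M) (fun _ _ => 0) 1 w0 := by
  have h1 := identity (buch_m M) stop (rgh_one w0)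
  rw [Sm_one M hM.le] at h1
  have h2 : Rw M w0 / M = T stop (fun d w => intF (Am M) d w / M)
      (fun d w => Sm M d w / M) 1 w0 := by
    rw [h1]
    have := T_smul stop (1 / M) (intF (Am M)) (Sm M) 1 w0
    rw [div_eq_mul_one_div, mul_comm, ← this]
    congr 1 <;> (funext a b; ring)
  have h3 : T stop (fun d w => intF (Am M) d w / M) (fun d w => Sm M d w / M) 1 w0 =
      T stop (fun d w => intF (Am M) d w / M) (fun d w => Rw (M / d) w / M) 1 w0 := by
    apply T_congr
    · intro d w _; rfl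
    · intro d w h
      rw [Sm_leaf M hM.le h]
  rw [h2, h3, ← T_sub]
  apply abs_T_le
  · intro d w h
    rw [abs_sub_comm]
    exact abs_intF_sub_le hM (h.pos one_pos)
  · intro d w _
    simp

end Crest.Agent.R001.Par
end

-- ▼ part R001/Par2

/-!
# R1, block PAR, part 2: size of the error terms, and the formula for `ρ`

* `errF_le` : `errF M d w ≤ C / (d (log (M/d))^A)`;
* `rho_formula` : main term of the Rosser sieve of level `D`, `w² ≤ D ≤ w⁵`.
-/

namespace Crest.Agent.R001.Par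

open Finset Classical ArithmeticFunction
open Crest.Agent.R001.Tree
open Crest.Agent.SW (lam lam_mul lam_apply abs_lam_le abs_lam lam_one Lsum Lsum_bound Lsum_trivial)
open Crest.Agent.R001.F1

lemma sum_pr_inv_le (w : ℕ) (hw : 1 ≤ w) :
    ∑ p ∈ Tree.pr w, 1 / (p : ℝ) ≤ 1 + Real.log w := by
  have h1 : ∑ p ∈ Tree.pr w, 1 / (p : ℝ) ≤ ∑ i ∈ range (w - 1), ((i + 1 : ℕ) : ℝ)⁻¹ := by
    have h2 : ∑ i ∈ range (w - 1), ((i + 1 : ℕ) : ℝ)⁻¹ =
        ∑ p ∈ (range (w - 1)).image (fun i => i + 1), ((p : ℕ) : ℝ)⁻¹ := by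
      rw [Finset.sum_image]
      intro a _ b _ h
      simpa using h
    rw [h2]
    simp only [one_div]
    apply Finset.sum_le_sum_of_subset_of_nonneg
    · intro p hp
      rw [Tree.mem_pr] at hp
      rw [Finset.mem_image]
      refine ⟨p - 1, ?_, ?_⟩
      · rw [Finset.mem_range]; have := hp.2.two_le; omega
      · have := hp.2.two_le; omega
    · intro i _ _
      positivity
  refine h1.trans ?_
  have h3 := harmonic_le_one_add_log (w - 1)
  have h4 : ((harmonic (w - 1) : ℚ) : ℝ) = ∑ i ∈ range (w - 1), ((i + 1 : ℕ) : ℝ)⁻¹ := by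
    unfold harmonic
    push_cast
    rfl
  rw [← h4]
  refine h3.trans ?_
  have h5 : Real.log ((w - 1 : ℕ) : ℝ) ≤ Real.log w := by
    rcases Nat.eq_zero_or_pos (w - 1) with h | h
    · rw [h]
      simp only [Nat.cast_zero, Real.log_zero]
      exact Real.log_nonneg (by exact_mod_cast hw)
    · apply Real.log_le_log (by exact_mod_cast h)
      exact_mod_cast Nat.sub_le w 1
  linarith

/-- size of the error terms -/
theorem errF_le (A : ℝ) : ∃ C : ℝ, 0 < C ∧ ∀ (M : ℝ) (d w : ℕ), 0 < d → 2 ≤ w →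
    (d : ℝ) * (w : ℝ) ^ 2 ≤ M → errF M d w ≤ C / ((d : ℝ) * (Real.log (M / d)) ^ A) := by
  obtain ⟨C₀, hC₀⟩ := Lsum_bound (|A| + 1)
  obtain ⟨C₁, hC₁0, hC₁⟩ := Crest.Agent.SW.AP301.log_rpow_le (|A| + 1)
  set B := |A| + 1 with hB
  have hB1 : 1 ≤ B := by have := abs_nonneg A; linarith
  have hAB : A ≤ B - 1 := by have := le_abs_self A; linarith
  refine ⟨2 * (C₁ * 2 ^ B) + 5 * (|C₀| * 2 ^ B), by positivity, ?_⟩
  intro M d w hd hw hM
  have hd0 : (0 : ℝ) < d := by exact_mod_cast hd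
  have hw2 : (2 : ℝ) ≤ w := by exact_mod_cast hw
  obtain ⟨x, hx⟩ : ∃ x, x = M / d := ⟨_, rfl⟩
  have hxw : (w : ℝ) ^ 2 ≤ x := by rw [hx, le_div_iff₀ hd0]; linarith
  have hx4 : 4 ≤ x := by nlinarith
  have hx0 : 0 < x := by linarith
  have hMx : M = d * x := by rw [hx]; field_simp
  have hM0 : 0 < M := by rw [hMx]; positivity
  have hlx1 : 1 ≤ Real.log x := by
    have h1 : Real.log 4 ≤ Real.log x := Real.log_le_log (by norm_num) hx4
    have h2 : Real.log 4 = 2 * Real.log 2 := by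
      have : (4 : ℝ) = 2 ^ 2 := by norm_num
      rw [this, Real.log_pow]; push_cast; ring
    have h3 : 0.6931471803 < Real.log 2 := Real.log_two_gt_d9
    linarith
  have hlx0 : 0 < Real.log x := by linarith
  have hs0 : 0 < Real.sqrt x := Real.sqrt_pos.mpr hx0
  have hs2 : 2 ≤ Real.sqrt x := by
    apply Real.le_sqrt_of_sq_le; linarith
  have hws : (w : ℝ) ≤ Real.sqrt x := Real.le_sqrt_of_sq_le hxw
  have hls : Real.log (Real.sqrt x) = Real.log x / 2 := Real.log_sqrt hx0.le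
  have hLB : 0 < (Real.log x) ^ B := Real.rpow_pos_of_pos hlx0 B
  have hLA : 0 < (Real.log x) ^ A := Real.rpow_pos_of_pos hlx0 A
  -- `(log x)^A ≤ (log x)^(B-1) ≤ (log x)^B`
  have hAB' : (Real.log x) ^ A * Real.log x ≤ (Real.log x) ^ B := by
    have h1 : (Real.log x) ^ A ≤ (Real.log x) ^ (B - 1) :=
      Real.rpow_le_rpow_of_exponent_le hlx1 hAB
    have h2 : (Real.log x) ^ B = (Real.log x) ^ (B - 1) * Real.log x := by
      rw [← Real.rpow_add_one hlx0.ne']; congr 1; ring
    rw [h2]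
    exact mul_le_mul_of_nonneg_right h1 hlx0.le
  have hinvB : 1 / (Real.log x) ^ B ≤ 1 / (Real.log x) ^ A / Real.log x := by
    rw [div_div]
    exact one_div_le_one_div_of_le (by positivity) hAB'
  have hinvB' : 1 / (Real.log x) ^ B ≤ 1 / (Real.log x) ^ A := by
    refine hinvB.trans ?_
    apply div_le_self (by positivity) hlx1
  -- sqrt bound
  have hsB : 1 / Real.sqrt x ≤ C₁ * 2 ^ B / (Real.log x) ^ B := by
    have h1 := hC₁ (Real.sqrt x) hs2
    rw [hls, Real.div_rpow hlx0.le (by norm_num)] at h1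
    rw [div_le_div_iff₀ hs0 hLB]
    rw [div_le_iff₀ (by positivity)] at h1
    linarith
  have hxs : 1 / x ≤ 1 / Real.sqrt x := by
    apply one_div_le_one_div_of_le hs0
    rw [Real.sqrt_le_left hx0.le]
    nlinarith
  have h2B : (1 : ℝ) ≤ 2 ^ B := Real.one_le_rpow (by norm_num) (by linarith)
  -- first term
  have hT1 : (1 + |Lsum (M / d)|) / M ≤
      1 / d * (C₁ * 2 ^ B / (Real.log x) ^ B + |C₀| * 2 ^ B / (Real.log x) ^ B) := by
    rw [← hx]
    have h1 := hC₀ x (by linarith)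
    have h2 : |Lsum x| ≤ |C₀| * 2 ^ B * x / (Real.log x) ^ B := by
      refine h1.trans ?_
      apply div_le_div_of_nonneg_right _ hLB.le
      apply mul_le_mul_of_nonneg_right _ hx0.le
      have := le_abs_self C₀
      nlinarith [abs_nonneg C₀]
    calc (1 + |Lsum x|) / M ≤ (1 + |C₀| * 2 ^ B * x / (Real.log x) ^ B) / M := by
          apply div_le_div_of_nonneg_right _ hM0.le
          linarith
      _ = 1 / d * (1 / x + |C₀| * 2 ^ B / (Real.log x) ^ B) := by
          rw [hMx]; field_simp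
      _ ≤ _ := by
          apply mul_le_mul_of_nonneg_left _ (by positivity)
          linarith
  -- second term
  have hT2 : ∑ p ∈ Tree.pr w, (1 + |Lsum (M / ((d * p : ℕ) : ℝ))|) / M ≤
      1 / d * (C₁ * 2 ^ B / (Real.log x) ^ B +
        |C₀| * 2 ^ B / (Real.log x) ^ B * (2 * Real.log x)) := by
    have hterm : ∀ p ∈ Tree.pr w, (1 + |Lsum (M / ((d * p : ℕ) : ℝ))|) / M ≤
        1 / d * (1 / x + |C₀| * 2 ^ B / (Real.log x) ^ B * (1 / p)) := by
      intro p hp
      rw [Tree.mem_pr] at hp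
      have hp0 : (0 : ℝ) < p := by exact_mod_cast hp.2.pos
      have hpw : (p : ℝ) ≤ w := by exact_mod_cast hp.1.le
      have e1 : M / ((d * p : ℕ) : ℝ) = x / p := by
        push_cast; rw [hMx]; field_simp
      rw [e1]
      have hxp : Real.sqrt x ≤ x / p := by
        rw [le_div_iff₀ hp0]
        calc Real.sqrt x * p ≤ Real.sqrt x * Real.sqrt x :=
              mul_le_mul_of_nonneg_left (hpw.trans hws) hs0.le
          _ = x := Real.mul_self_sqrt hx0.le
      have hxp2 : 2 ≤ x / p := hs2.trans hxp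
      have h1 := hC₀ (x / p) hxp2
      have h3 : (Real.log x / 2) ^ B ≤ (Real.log (x / p)) ^ B := by
        apply Real.rpow_le_rpow (by positivity) _ (by linarith)
        rw [← hls]
        exact Real.log_le_log hs0 hxp
      have h2 : |Lsum (x / p)| ≤ |C₀| * 2 ^ B * (x / p) / (Real.log x) ^ B := by
        refine h1.trans ?_
        calc C₀ * (x / p) / (Real.log (x / p)) ^ B
            ≤ |C₀| * (x / p) / (Real.log (x / p)) ^ B := by
              apply div_le_div_of_nonneg_right _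
                (Real.rpow_nonneg (Real.log_nonneg (by linarith)) B)
              exact mul_le_mul_of_nonneg_right (le_abs_self C₀) (by positivity)
          _ ≤ |C₀| * (x / p) / (Real.log x / 2) ^ B := by
              apply div_le_div_of_nonneg_left (by positivity) (by positivity) h3
          _ = |C₀| * 2 ^ B * (x / p) / (Real.log x) ^ B := by
              rw [Real.div_rpow hlx0.le (by norm_num)]
              field_simp
      calc (1 + |Lsum (x / p)|) / M ≤ (1 + |C₀| * 2 ^ B * (x / p) / (Real.log x) ^ B) / M := by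
            apply div_le_div_of_nonneg_right _ hM0.le
            linarith
        _ = 1 / d * (1 / x + |C₀| * 2 ^ B / (Real.log x) ^ B * (1 / p)) := by
            rw [hMx]; field_simp
    refine (Finset.sum_le_sum hterm).trans ?_
    rw [← Finset.mul_sum, Finset.sum_add_distrib, ← Finset.mul_sum, Finset.sum_const,
      nsmul_eq_mul]
    apply mul_le_mul_of_nonneg_left _ (by positivity)
    have hcard : ((Tree.pr w).card : ℝ) ≤ w := by
      have : (Tree.pr w).card ≤ w := by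
        unfold Tree.pr
        exact (Finset.card_filter_le _ _).trans (by simp)
      exact_mod_cast this
    have h1 : ((Tree.pr w).card : ℝ) * (1 / x) ≤ 1 / Real.sqrt x := by
      calc ((Tree.pr w).card : ℝ) * (1 / x) ≤ Real.sqrt x * (1 / x) := by
            apply mul_le_mul_of_nonneg_right (hcard.trans hws) (by positivity)
        _ = 1 / Real.sqrt x := by
            have : x = Real.sqrt x * Real.sqrt x := (Real.mul_self_sqrt hx0.le).symm
            field_simp
            rw [sq]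
            exact this.symm
    have h2 : ∑ p ∈ Tree.pr w, 1 / (p : ℝ) ≤ 2 * Real.log x := by
      refine (sum_pr_inv_le w (by omega)).trans ?_
      have h3 : Real.log w ≤ Real.log x / 2 := by
        rw [← hls]; exact Real.log_le_log (by linarith) hws
      linarith
    have h4 : |C₀| * 2 ^ B / (Real.log x) ^ B * ∑ p ∈ Tree.pr w, 1 / (p : ℝ) ≤
        |C₀| * 2 ^ B / (Real.log x) ^ B * (2 * Real.log x) :=
      mul_le_mul_of_nonneg_left h2 (by positivity)
    linarith
  unfold errF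
  refine (add_le_add hT1 hT2).trans ?_
  rw [← hx, ← mul_add]
  have e : (2 * (C₁ * 2 ^ B) + 5 * (|C₀| * 2 ^ B)) / ((d : ℝ) * (Real.log x) ^ A) =
      1 / d * ((2 * (C₁ * 2 ^ B) + 5 * (|C₀| * 2 ^ B)) * (1 / (Real.log x) ^ A)) := by
    field_simp
  rw [e]
  apply mul_le_mul_of_nonneg_left _ (by positivity)
  have h1 : C₁ * 2 ^ B / (Real.log x) ^ B ≤ C₁ * 2 ^ B * (1 / (Real.log x) ^ A) := by
    rw [div_eq_mul_one_div]
    exact mul_le_mul_of_nonneg_left hinvB' (by positivity)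
  have h2 : |C₀| * 2 ^ B / (Real.log x) ^ B ≤ |C₀| * 2 ^ B * (1 / (Real.log x) ^ A) := by
    rw [div_eq_mul_one_div]
    exact mul_le_mul_of_nonneg_left hinvB' (by positivity)
  have h3 : |C₀| * 2 ^ B / (Real.log x) ^ B * (2 * Real.log x) ≤
      2 * (|C₀| * 2 ^ B * (1 / (Real.log x) ^ A)) := by
    calc |C₀| * 2 ^ B / (Real.log x) ^ B * (2 * Real.log x)
        = |C₀| * 2 ^ B * (1 / (Real.log x) ^ B) * (2 * Real.log x) := by ring
      _ ≤ |C₀| * 2 ^ B * (1 / (Real.log x) ^ A / Real.log x) * (2 * Real.log x) := by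
          apply mul_le_mul_of_nonneg_right _ (by positivity)
          exact mul_le_mul_of_nonneg_left hinvB (by positivity)
      _ = 2 * (|C₀| * 2 ^ B * (1 / (Real.log x) ^ A)) := by field_simp
  have h4 : 0 ≤ |C₀| * 2 ^ B * (1 / (Real.log x) ^ A) := by positivity
  linarith

/-- main term of the Rosser sieve of level `D` for the primes `< w` (density `1`) -/
noncomputable def rho (D : ℝ) (w : ℕ) : ℝ := T (bd D) (intF rec) (fun _ _ => 0) 1 w

/-- mass hypothesis -/
def MassH (A : ℝ) : Prop := ∃ C : ℝ, ∀ (D : ℝ) (w : ℕ), 2 ≤ w → (w : ℝ) ^ 2 ≤ D →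
  T (bd D) (fun d _ => 1 / ((d : ℝ) * (Real.log (D / d)) ^ A)) (fun _ _ => 0) 1 w ≤
    C / Real.log D ^ 2

/-- boundary hypothesis -/
def BdH : Prop := ∃ C : ℝ, ∀ (D : ℝ) (w : ℕ), 2 ≤ w → (w : ℝ) ^ 2 ≤ D →
  T (bd D) (fun _ _ => 0) (fun b _ => if (b : ℝ) ≤ D then 1 / D else 0) 1 w ≤
    C / Real.log D ^ 2

/-- `ρ` and `Rw` -/
theorem rho_sub_Rw {A : ℝ} (hm : MassH A) (hb : BdH) : ∃ C : ℝ, 0 < C ∧ ∀ (D : ℝ) (w : ℕ),
    2 ≤ w → (w : ℝ) ^ 2 ≤ D → |rho D w - Rw D w / D| ≤ C / Real.log D ^ 2 := by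
  obtain ⟨Ce, hCe0, hCe⟩ := errF_le A
  obtain ⟨Cm, hCm⟩ := hm
  obtain ⟨Cb, hCb⟩ := hb
  refine ⟨Ce * |Cm| + 4 * |Cb| + 1, by positivity, ?_⟩
  intro D w hw hD
  have hw2 : (2 : ℝ) ≤ w := by exact_mod_cast hw
  have hD4 : 4 ≤ D := by nlinarith
  have hD0 : 0 < D := by linarith
  have hlD : 0 < Real.log D := Real.log_pos (by linarith)
  have hid := identity_m hD0 (bd D) w
  rw [T_split] at hid
  -- error
  have h1 : T (bd D) (errF D) (fun _ _ => 0) 1 w ≤ Ce * |Cm| / Real.log D ^ 2 := by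
    calc T (bd D) (errF D) (fun _ _ => 0) 1 w
        ≤ T (bd D) (fun d _ => Ce * (1 / ((d : ℝ) * (Real.log (D / d)) ^ A)))
            (fun _ _ => Ce * 0) 1 w := by
          apply T_mono
          · intro d w' h
            have hd : 0 < d := h.pos one_pos
            have hbnd : 2 ≤ w' ∧ (d : ℝ) * (w' : ℝ) ^ 2 ≤ D := by
              cases h with
              | root => exact ⟨hw, by simpa using hD⟩
              | step _ hp hq hs =>
                exact ⟨(Tree.prime_of_mem_pr hq).two_le, (not_bd.mp hs).le⟩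
            have := hCe D d w' hd hbnd.1 hbnd.2
            rw [mul_one_div]
            exact this
          · intro d w' _
            simp
      _ = Ce * T (bd D) (fun d _ => 1 / ((d : ℝ) * (Real.log (D / d)) ^ A))
            (fun _ _ => 0) 1 w :=
          T_smul (bd D) Ce (fun d _ => 1 / ((d : ℝ) * (Real.log (D / d)) ^ A)) (fun _ _ => 0) 1 w
      _ ≤ Ce * (|Cm| / Real.log D ^ 2) := by
          apply mul_le_mul_of_nonneg_left _ hCe0.le
          refine (hCm D w hw hD).trans ?_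
          exact div_le_div_of_nonneg_right (le_abs_self Cm) (by positivity)
      _ = Ce * |Cm| / Real.log D ^ 2 := by ring
  -- boundary
  have h2 : T (bd D) (fun _ _ => 0) (fun d w' => Rw (D / d) w' / D) 1 w ≤
      4 * |Cb| / Real.log D ^ 2 := by
    calc T (bd D) (fun _ _ => 0) (fun d w' => Rw (D / d) w' / D) 1 w
        ≤ T (bd D) (fun _ _ => 4 * 0) (fun b _ => 4 * (if (b : ℝ) ≤ D then 1 / D else 0)) 1 w := by
          apply T_mono
          · intro d w' _
            simp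
          · intro d w' h
            have hb' : D ≤ (d : ℝ) * (w' : ℝ) ^ 2 := by
              obtain ⟨_, _, _, _, _, _, _, hs⟩ := h
              exact hs
            have h3 := Sm_boundary hD0.le h hb'
            rw [Sm_leaf D hD0.le h] at h3
            have h4 := div_le_div_of_nonneg_right h3 hD0.le
            refine h4.trans (le_of_eq ?_)
            split_ifs
            · ring
            · simp
      _ = 4 * T (bd D) (fun _ _ => 0) (fun b _ => if (b : ℝ) ≤ D then 1 / D else 0) 1 w :=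
          T_smul (bd D) 4 (fun _ _ => 0) (fun b _ => if (b : ℝ) ≤ D then 1 / D else 0) 1 w
      _ ≤ 4 * (|Cb| / Real.log D ^ 2) := by
          apply mul_le_mul_of_nonneg_left _ (by norm_num)
          refine (hCb D w hw hD).trans ?_
          exact div_le_div_of_nonneg_right (le_abs_self Cb) (by positivity)
      _ = 4 * |Cb| / Real.log D ^ 2 := by ring
  have h3 : 0 ≤ T (bd D) (fun _ _ => 0) (fun d w' => Rw (D / d) w' / D) 1 w := by
    apply T_nonneg
    · intro _ _ _; exact le_rfl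
    · intro d w' _
      exact div_nonneg (Rw_nonneg _ _) hD0.le
  have h4 := abs_le.mp (hid.trans h1)
  have e : (Ce * |Cm| + 4 * |Cb| + 1) / Real.log D ^ 2 =
      Ce * |Cm| / Real.log D ^ 2 + 4 * |Cb| / Real.log D ^ 2 + 1 / Real.log D ^ 2 := by ring
  have h5 : 0 ≤ 1 / Real.log D ^ 2 := by positivity
  rw [e, abs_le]
  unfold rho
  constructor <;> linarith [h4.1, h4.2]

theorem pnt2_holds : PNT2 := Crest.Agent.SW.pnt2

/-- **RHO FORMULA** -/
theorem rho_formula {A : ℝ} (hm : MassH A) (hb : BdH) : ∃ C : ℝ, 0 < C ∧ ∀ (D : ℝ) (w : ℕ),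
    2 ≤ w → (w : ℝ) ^ 2 ≤ D → D ≤ (w : ℝ) ^ 5 →
    2 * Real.log ((Real.log D - Real.log w) / Real.log w) / Real.log D - C / Real.log D ^ 2 ≤
      rho D w ∧
    rho D w ≤ 2 * Real.log ((Real.log D - Real.log w) / Real.log w) / Real.log D +
      C / Real.log D ^ 2 + C * (max 0 (Real.log D - 4 * Real.log w)) ^ 3 / Real.log D ^ 4 := by
  obtain ⟨C₁, hC₁0, hC₁⟩ := rho_sub_Rw hm hb
  obtain ⟨C₂, hC₂0, hC₂⟩ := F1c pnt2_holds
  refine ⟨C₁ + C₂, by positivity, ?_⟩
  intro D w hw hD hD5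
  have hw2 : (2 : ℝ) ≤ w := by exact_mod_cast hw
  have h1 := abs_le.mp (hC₁ D w hw hD)
  have h2 := hC₂ D w hw2 hD hD5
  have hD4 : 4 ≤ D := by nlinarith
  have hlD : 0 < Real.log D := Real.log_pos (by linarith)
  have e : (C₁ + C₂) / Real.log D ^ 2 = C₁ / Real.log D ^ 2 + C₂ / Real.log D ^ 2 := by ring
  have h3 : C₂ * (max 0 (Real.log D - 4 * Real.log w)) ^ 3 / Real.log D ^ 4 ≤
      (C₁ + C₂) * (max 0 (Real.log D - 4 * Real.log w)) ^ 3 / Real.log D ^ 4 := by
    apply div_le_div_of_nonneg_right _ (by positivity)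
    apply mul_le_mul_of_nonneg_right _ (pow_nonneg (le_max_left _ _) 3)
    linarith
  rw [e]
  constructor <;> linarith [h1.1, h1.2, h2.1, h2.2]

end Crest.Agent.R001.Par
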