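import Crest.Agent.R001.AsmDefs
import Crest.Agent.R001.UT
import Crest.Agent.R001.Hit621g
import Mathlib
import Crest.Agent.R001.Par2
import Crest.Agent.R001.BdBound

-- ▼ part R001/Asm2a
section

/-!
# R1, top assembly, part 2 (helper571): from the blocks to `MainRough (21/10)`
-/

set_option autoImplicit false

namespace Crest.Agent.R001.Asm

open Finset Crest.Agent.R001.Tree

lemma node_sqfree {stop : ℕ → ℕ → Prop} {w0 d w : ℕ} (h : Node stop 1 w0 d w) :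
    Squarefree d ∧ ∀ r : ℕ, r.Prime → r ∣ d → w ≤ r ∧ r < w0 := by
  induction h with
  | root =>
    exact ⟨squarefree_one, fun r hr h1 => absurd (Nat.dvd_one.1 h1) hr.one_lt.ne'⟩
  | @step d w p q hn hp hq hs ih =>
    obtain ⟨h1, h2⟩ := ih
    have hpp := prime_of_mem_pr hp
    have hqp := prime_of_mem_pr hq
    have hqlt := lt_of_mem_pr hq
    have hplt := lt_of_mem_pr hp
    have hww0 : w ≤ w0 := hn.w_le
    have hpd : ¬ p ∣ d := fun hc => by have := (h2 p hpp hc).1; omega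
    have hqd : ¬ q ∣ d * p := by
      intro hc
      rcases (Nat.Prime.dvd_mul hqp).1 hc with h3 | h3
      · have := (h2 q hqp h3).1; omega
      · have := (Nat.prime_dvd_prime_iff_eq hqp hpp).1 h3; omega
    constructor
    · rw [Nat.squarefree_mul_iff, Nat.squarefree_mul_iff]
      refine ⟨?_, ⟨?_, h1, hpp.squarefree⟩, hqp.squarefree⟩
      · exact ((Nat.Prime.coprime_iff_not_dvd hqp).2 hqd).symm
      · exact ((Nat.Prime.coprime_iff_not_dvd hpp).2 hpd).symm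
    · intro r hr hdvd
      rcases (Nat.Prime.dvd_mul hr).1 hdvd with h3 | h3
      · rcases (Nat.Prime.dvd_mul hr).1 h3 with h4 | h4
        · obtain ⟨h5, h6⟩ := h2 r hr h4
          omega
        · have := (Nat.prime_dvd_prime_iff_eq hr hpp).1 h4
          omega
      · have := (Nat.prime_dvd_prime_iff_eq hr hqp).1 h3
        omega

lemma leaf_facts {stop : ℕ → ℕ → Prop} {w0 b : ℕ} (h : b ∈ LS stop 1 w0) :
    Squarefree b ∧ 1 < b ∧ b.minFac.Prime ∧ (∀ r : ℕ, r.Prime → r ∣ b → r < w0) ∧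
      stop b b.minFac := by
  obtain ⟨w', hl⟩ := mem_LS.1 h
  have hmin := hl.minFac (rgh_one w0)
  obtain ⟨d, w, p, hn, hp, hq, rfl, hs⟩ := hl
  rw [hmin]
  obtain ⟨h1, h2⟩ := node_sqfree hn
  have hpp := prime_of_mem_pr hp
  have hqp := prime_of_mem_pr hq
  have hqlt := lt_of_mem_pr hq
  have hplt := lt_of_mem_pr hp
  have hww0 : w ≤ w0 := hn.w_le
  have hpd : ¬ p ∣ d := fun hc => by have := (h2 p hpp hc).1; omega
  have hqd : ¬ w' ∣ d * p := by
    intro hc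
    rcases (Nat.Prime.dvd_mul hqp).1 hc with h3 | h3
    · have := (h2 w' hqp h3).1; omega
    · have := (Nat.prime_dvd_prime_iff_eq hqp hpp).1 h3; omega
  have hd0 : 0 < d := hn.pos one_pos
  refine ⟨?_, ?_, hqp, ?_, hs⟩
  · rw [Nat.squarefree_mul_iff, Nat.squarefree_mul_iff]
    refine ⟨?_, ⟨?_, h1, hpp.squarefree⟩, hqp.squarefree⟩
    · exact ((Nat.Prime.coprime_iff_not_dvd hqp).2 hqd).symm
    · exact ((Nat.Prime.coprime_iff_not_dvd hpp).2 hpd).symm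
  · calc 1 < w' := hqp.one_lt
      _ ≤ d * p * w' := Nat.le_mul_of_pos_left _ (Nat.mul_pos hd0 hpp.pos)
  · intro r hr hdvd
    rcases (Nat.Prime.dvd_mul hr).1 hdvd with h3 | h3
    · rcases (Nat.Prime.dvd_mul hr).1 h3 with h4 | h4
      · exact (h2 r hr h4).2
      · have := (Nat.prime_dvd_prime_iff_eq hr hpp).1 h4
        omega
    · have := (Nat.prime_dvd_prime_iff_eq hr hqp).1 h3
      omega

/-- a capture of `b / g` together with `g ∣ V a - U` is a capture of `b` -/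
lemma capt_of_div {X : ℕ} {a : ℤ} {τ : ℤ × ℤ} {b g : ℕ} (hsq : Squarefree b) (hg : g ∣ b)
    (h1 : (g : ℤ) ∣ τ.2 * a - τ.1) (h2 : Capt X a τ (b / g)) : Capt X a τ b := by
  obtain ⟨h, hh1, hhX, hhd, hdv⟩ := h2
  obtain ⟨m, rfl⟩ := hg
  have hg0 : 0 < g := by
    rcases Nat.eq_zero_or_pos g with h0 | h0
    · rw [h0, zero_mul] at hsq
      exact absurd hsq not_squarefree_zero
    · exact h0
  rw [Nat.mul_div_cancel_left _ hg0] at hhd hdv
  refine ⟨h, hh1, hhX, hhd.mul_left g, ?_⟩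
  have hcop : g.Coprime m := Nat.coprime_of_squarefree_mul hsq
  push_cast
  exact IsCoprime.mul_dvd (Nat.isCoprime_iff_coprime.2 hcop) (h1.mul_left _) hdv

/-- low height: all large primes of `b` divide `V a - U` -/
lemma low_dvd {X CH : ℕ} {a : ℤ} {τ : ℤ × ℤ} {b : ℕ} (hb : 0 < b) (hτ : 1 ≤ τ.2)
    (hlow : Low X CH a τ b) {p : ℕ} (hp : p.Prime) (hpb : p ∣ b)
    (hpL : (Real.log X) ^ CH < p) : (p : ℤ) ∣ τ.2 * a - τ.1 := by
  have hg0 : 0 < Int.gcd b (τ.2 * a - τ.1) :=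
    Int.gcd_pos_of_ne_zero_left _ (by exact_mod_cast hb.ne')
  have hgb : Int.gcd b (τ.2 * a - τ.1) ∣ b := by
    have := Int.gcd_dvd_left (a := (b : ℤ)) (b := τ.2 * a - τ.1)
    exact_mod_cast this
  have hgv : (Int.gcd b (τ.2 * a - τ.1) : ℤ) ∣ τ.2 * a - τ.1 := Int.gcd_dvd_right _ _
  obtain ⟨u, hu⟩ := hgb
  have hu0 : 0 < u := by
    rcases Nat.eq_zero_or_pos u with h0 | h0
    · rw [h0, mul_zero] at hu; omega
    · exact h0
  have h1 : b / Int.gcd b (τ.2 * a - τ.1) = u := Nat.div_eq_of_eq_mul_right hg0 hu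
  have h2 := hlow.1
  rw [h1] at h2
  have h3 : (u : ℝ) ≤ (Real.log X) ^ CH := by
    have h4 : (1 : ℝ) ≤ (τ.2 : ℝ) := by exact_mod_cast hτ
    have h5 : (0 : ℝ) < u := by exact_mod_cast hu0
    nlinarith
  rw [hu] at hpb
  rcases (Nat.Prime.dvd_mul hp).1 hpb with h4 | h4
  · exact (Int.natCast_dvd_natCast.2 h4).trans hgv
  · have h5 := Nat.le_of_dvd hu0 h4
    have h6 : (p : ℝ) ≤ u := by exact_mod_cast h5
    linarith

lemma low_den {X CH : ℕ} {a : ℤ} {τ : ℤ × ℤ} {b : ℕ} (hb : 0 < b) (hτ : 1 ≤ τ.2)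
    (hlow : Low X CH a τ b) : (τ.2 : ℝ) ≤ (Real.log X) ^ CH := by
  have hg0 : 0 < Int.gcd b (τ.2 * a - τ.1) :=
    Int.gcd_pos_of_ne_zero_left _ (by exact_mod_cast hb.ne')
  have hgb : Int.gcd b (τ.2 * a - τ.1) ∣ b := by
    have := Int.gcd_dvd_left (a := (b : ℤ)) (b := τ.2 * a - τ.1)
    exact_mod_cast this
  have h1 : 1 ≤ b / Int.gcd b (τ.2 * a - τ.1) :=
    Nat.div_pos (Nat.le_of_dvd hb hgb) hg0
  have h2 := hlow.1
  have h3 : (1 : ℝ) ≤ ((b / Int.gcd b (τ.2 * a - τ.1) : ℕ) : ℝ) := by exact_mod_cast h1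
  have h4 : (1 : ℝ) ≤ (τ.2 : ℝ) := by exact_mod_cast hτ
  nlinarith

end Crest.Agent.R001.Asm
end

-- ▼ part R001/Par3

/-!
# R1: `MassH`, `BdH` and the `ρ`-formula from the mass theorem `XiH`
-/

set_option autoImplicit false

namespace Crest.Agent.R001.Par

open Finset Classical
open Crest.Agent.R001
open Crest.Agent.R001.Bridge (XiH bridge0 BdOp)

lemma inv_root {D : ℝ} {w : ℕ} (hw : 2 ≤ w) (hD : (w : ℝ) ^ 2 ≤ D) : Mass.Inv (D / (1 : ℕ)) w := by
  refine ⟨hw, ?_⟩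
  simpa using hD

theorem massH_of_XiH (hX : XiH) : MassH (25 / 4) := by
  obtain ⟨C, hC⟩ := hX
  have hl2 : 0.6931471803 < Real.log 2 := Real.log_two_gt_d9
  have hl20 : 0 < Real.log 2 := by linarith
  refine ⟨|C| / Real.log 2 ^ 4, ?_⟩
  intro D w hw hD
  have hI := inv_root hw hD
  have h1 := bridge0 D (fun y _ => 1 / Real.log y ^ (25 / 4 : ℝ)) (fun _ _ => 0) w 1 one_pos
  have e1 : (fun (d : ℕ) (_ : ℕ) => 1 / ((d : ℝ) * (Real.log (D / d)) ^ (25 / 4 : ℝ))) =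
      (fun (d : ℕ) (w : ℕ) => 1 / (d : ℝ) *
        (fun (y : ℝ) (_ : ℕ) => 1 / Real.log y ^ (25 / 4 : ℝ)) (D / d) w) := by
    funext d w
    simp only
    rw [one_div_mul_one_div]
  have e2 : (fun (_ : ℕ) (_ : ℕ) => (0 : ℝ)) =
      (fun (d : ℕ) (w : ℕ) => 1 / (d : ℝ) * (fun (_ : ℝ) (_ : ℕ) => (0 : ℝ)) (D / d) w) := by
    funext d w
    simp
  rw [e1]
  rw [← e2] at h1
  rw [h1]
  have e3 : BdOp (fun _ _ => 0) = fun _ _ => 0 := by
    funext y w
    unfold BdOp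
    simp
  rw [e3]
  simp only [add_zero, Nat.cast_one, div_one, one_mul]
  have hI' : Mass.Inv D w := ⟨hw, hD⟩
  have hly := hI'.log_y_pos
  have h2 : Mass.T0 (fun y _ => 1 / Real.log y ^ (25 / 4 : ℝ)) D w ≤
      Mass.T0 (fun y w => 1 / Real.log 2 ^ 4 * Mass.Xi y w) D w := by
    apply Bridge.T0_mono' _ D w hI'
    intro y w h
    have hlw := h.log_two_le
    have hly := h.log_y_pos
    unfold Mass.Xi
    rw [Real.rpow_neg hly.le]
    have h3 : Real.log 2 ^ 4 ≤ Real.log w ^ 4 := pow_le_pow_left₀ hl20.le hlw 4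
    have h4 : 0 < Real.log y ^ (25 / 4 : ℝ) := Real.rpow_pos_of_pos hly _
    calc 1 / Real.log y ^ (25 / 4 : ℝ) = 1 * (Real.log y ^ (25 / 4 : ℝ))⁻¹ := by
          rw [one_mul, one_div]
      _ ≤ (1 / Real.log 2 ^ 4 * Real.log w ^ 4) * (Real.log y ^ (25 / 4 : ℝ))⁻¹ := by
          apply mul_le_mul_of_nonneg_right _ (by positivity)
          rw [one_div_mul_eq_div, le_div_iff₀ (by positivity), one_mul]
          exact h3
      _ = 1 / Real.log 2 ^ 4 * (Real.log w ^ 4 * (Real.log y ^ (25 / 4 : ℝ))⁻¹) := by ring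
  rw [Bridge.T0_smul'] at h2
  refine h2.trans ?_
  have h3 : Mass.T0 Mass.Xi D w ≤ |C| / Real.log D ^ 2 :=
    (hC D w hI').trans (div_le_div_of_nonneg_right (le_abs_self C) (by positivity))
  calc 1 / Real.log 2 ^ 4 * Mass.T0 Mass.Xi D w ≤ 1 / Real.log 2 ^ 4 * (|C| / Real.log D ^ 2) :=
        mul_le_mul_of_nonneg_left h3 (by positivity)
    _ = |C| / Real.log 2 ^ 4 / Real.log D ^ 2 := by ring

theorem bdH_of_XiH (hX : XiH) : BdH := by
  obtain ⟨C, hC0, hC⟩ := Bridge.T0_B_le hX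
  refine ⟨C, ?_⟩
  intro D w hw hD
  have hI' : Mass.Inv D w := ⟨hw, hD⟩
  have hD0 : 0 < D := by linarith [hI'.y_ge]
  have h1 := bridge0 D (fun _ _ => 0) Bridge.hb w 1 one_pos
  have e2 : (fun (d : ℕ) (w : ℕ) => 1 / (d : ℝ) * (fun (_ : ℝ) (_ : ℕ) => (0 : ℝ)) (D / d) w) =
      (fun (_ : ℕ) (_ : ℕ) => (0 : ℝ)) := by
    funext d w
    simp
  rw [e2] at h1
  have h2 : Tree.T (Tree.bd D) (fun _ _ => 0) (fun b _ => if (b : ℝ) ≤ D then 1 / D else 0) 1 w =
      Tree.T (Tree.bd D) (fun _ _ => 0) (fun d w => 1 / (d : ℝ) * Bridge.hb (D / d) w) 1 w := by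
    apply Tree.T_congr
    · intro _ _ _; rfl
    · intro d w' hl
      have hd : 0 < d := Leaf_pos one_pos hl
      have hd0 : (0 : ℝ) < d := by exact_mod_cast hd
      unfold Bridge.hb
      have e : (1 ≤ D / (d : ℝ)) ↔ ((d : ℝ) ≤ D) := one_le_div hd0
      by_cases h : (d : ℝ) ≤ D
      · rw [if_pos h, if_pos (e.mpr h)]
        field_simp
      · rw [if_neg h, if_neg (fun h' => h (e.mp h')), mul_zero]
  rw [h2, h1]
  simp only [zero_add, Nat.cast_one, div_one, one_mul]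
  exact hC D w hI'



end Crest.Agent.R001.Par
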