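import Crest.Agent.R001.MassL664
import Crest.Agent.R001.Nog621
import Crest.Agent.R001.HitI621
import Crest.Agent.R001.FLCor
import Crest.Agent.Lib.Mertens
import Crest.Agent.SW.Final
import Crest.Agent.R001.Fin9_571
import Crest.Agent.R001.Par3_Mg

-- ▼ part R001/MassM664
section

/-! Row 1 (S0001), block (1), file M: the inputs of HIT. -/

set_option autoImplicit false

namespace Crest.Agent.R001.Mass

open Finset Classical

/-- line mass, non-strict form -/
theorem lineUp : Hit.LineUp := by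
  obtain ⟨c⟩ := exists_consts
  obtain ⟨C, V1, hC, hV1, h⟩ := line_one
  have hC1 := c.hC1
  have hC3 : 0 < c.C3 := by linarith [c.hC3]
  refine ⟨C + 256 + 256 * c.C1 * c.C3, V1, by positivity, by linarith, ?_⟩
  intro V hV y w hw hwy hVy
  have hI : Inv y w := ⟨hw, hwy⟩
  have hv := hI.log_y_pos
  have hω := hI.log_w_pos
  have hV0 : 0 < V := by linarith
  have hpos : 0 ≤ V ^ 2 * (Real.log w ^ 4 / Real.log y ^ 6) := by positivity
  have hfin : ∀ A : ℝ, 0 ≤ A → A ≤ C + 256 + 256 * c.C1 * c.C3 →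
      T (stopV V) (fun _ _ => 0) (fun _ _ => 1) y w ≤ A * (V ^ 2 * (Real.log w ^ 4 / Real.log y ^ 6)) →
      T (stopV V) (fun _ _ => 0) (fun _ _ => 1) y w ≤
        (C + 256 + 256 * c.C1 * c.C3) * V ^ 2 * Real.log w ^ 4 / Real.log y ^ 6 := by
    intro A _ hA2 h1
    refine h1.trans ((mul_le_mul_of_nonneg_right hA2 hpos).trans (le_of_eq ?_))
    ring
  rcases lt_or_eq_of_le hVy with hlt | heq
  · refine hfin C hC.le ?_ ?_
    · have : 0 ≤ 256 + 256 * c.C1 * c.C3 := by positivity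
      linarith
    · refine (h V hV y w hI hlt).trans (le_of_eq ?_)
      ring
  · by_cases hG : Good y w
    · refine hfin 256 (by norm_num) ?_ ?_
      · have : 0 ≤ C + 256 * c.C1 * c.C3 := by positivity
        linarith
      · rw [T_stop ⟨hG, heq.ge⟩]
        unfold Good at hG
        rw [heq]
        have e : Real.log y ^ 2 * (Real.log w ^ 4 / Real.log y ^ 6) =
            Real.log w ^ 4 / Real.log y ^ 4 := by
          field_simp
        rw [e, ← mul_div_assoc, le_div_iff₀ (by positivity), one_mul]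
        have h1 := pow_le_pow_left₀ hv.le hG.le 4
        linarith [(by ring : (4 * Real.log w) ^ 4 = 256 * Real.log w ^ 4)]
    · have hs : ¬ stopV V y w := fun h' => hG h'.1
      refine hfin (256 * c.C1 * c.C3) (by positivity) ?_ ?_
      · linarith
      · have h1 := line_le c (stopV V) (h := fun _ _ => 1) (A := 256 * V ^ (9 / 4 : ℝ))
          (by positivity) (by
            rintro y w hI' ⟨hG, hle⟩
            have hv' := hI'.log_y_pos
            have h2 := good_Xi hI' hG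
            have h3 : V ^ (-(9 / 4) : ℝ) ≤ Real.log y ^ (-(9 / 4) : ℝ) :=
              Real.rpow_le_rpow_of_nonpos hv' hle (by norm_num)
            have h4 : V ^ (9 / 4 : ℝ) * V ^ (-(9 / 4) : ℝ) = 1 := by
              rw [← Real.rpow_add hV0]
              norm_num
            have h5 := mul_le_mul_of_nonneg_left (h3.trans h2)
              (by positivity : 0 ≤ V ^ (9 / 4 : ℝ))
            rw [h4] at h5
            linarith) hI hs
        have h2 := below c V y w ⟨hI, heq.ge⟩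
        have h3 : XiB y w = Xi y w := by unfold XiB; rw [if_neg hG]
        rw [h3] at h2
        have h4 := mul_le_mul_of_nonneg_left h2
          (by positivity : 0 ≤ 256 * V ^ (9 / 4 : ℝ) * c.C1)
        refine h1.trans (h4.trans (le_of_eq ?_))
        have h5 : V ^ (9 / 4 : ℝ) * Xi y w = V ^ 2 * (Real.log w ^ 4 / Real.log y ^ 6) := by
          rw [← quarter_Xi hI, ← heq]
          have h6 : V ^ (9 / 4 : ℝ) = V ^ 2 * V ^ (1 / 4 : ℝ) := by
            rw [← Real.rpow_natCast V 2, ← Real.rpow_add hV0]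
            norm_num
          rw [h6]
          ring
        calc 256 * V ^ (9 / 4 : ℝ) * c.C1 * (c.C3 * Xi y w)
            = 256 * c.C1 * c.C3 * (V ^ (9 / 4 : ℝ) * Xi y w) := by ring
          _ = _ := by rw [h5]


theorem massLow : Hit.MassLow := by
  obtain ⟨c, V2, η, hc, hV2, hη, hη1, h⟩ := lower
  refine ⟨c * η ^ 2, V2, 2, by positivity, by linarith, by norm_num, ?_⟩
  intro V hV y w hw hwy hG hVy
  have hI : Inv y w := ⟨hw, hwy⟩
  have hV0 : 0 < V := by linarith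
  have hv := hI.log_y_pos
  have hlt : V < Real.log y := by linarith
  have h1 := h V hV y w hI hG hlt
  have h2 : T (stopV V) (fun _ _ => 0)
      (fun y _ => if η * V < Real.log y then 1 / Real.log y ^ 2 else 0) y w ≤
      1 / (η * V) ^ 2 * T (stopV V) (fun _ _ => 0) (fun _ _ => 1) y w := by
    have e := T_smul (stop := stopV V) (f := fun _ _ => 0) (g := fun _ _ => 1)
      (1 / (η * V) ^ 2) y w
    simp only [mul_zero, mul_one] at e
    rw [← e]
    refine T_mono inv_closed (fun _ _ _ _ => le_rfl) (fun y w _ _ => ?_) y w hI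
    split_ifs with h3
    · apply one_div_le_one_div_of_le (by positivity)
      exact pow_le_pow_left₀ (by positivity) h3.le 2
    · positivity
  have h3 := h1.trans h2
  have h4 := mul_le_mul_of_nonneg_left h3 (by positivity : 0 ≤ (η * V) ^ 2)
  have h5 : (η * V) ^ 2 * (1 / (η * V) ^ 2 * T (stopV V) (fun _ _ => 0) (fun _ _ => 1) y w) =
      T (stopV V) (fun _ _ => 0) (fun _ _ => 1) y w := by
    have : (η * V) ^ 2 ≠ 0 := by positivity
    field_simp
  rw [h5] at h4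
  refine le_trans (le_of_eq ?_) h4
  ring

end Crest.Agent.R001.Mass
end

-- ▼ part R001/HitU621
section

/-!
# R1, block HITI: unconditional form.  helper621
-/

set_option autoImplicit false

namespace Crest.Agent.R001.Hit

open Finset Classical Filter

open Crest.Agent.R001.Asm (Dlev w0)

/-- **HITI, unconditional.** -/
theorem hiti_holds (γ : ℝ) (hγ : 0 < γ) (hγ4 : γ ≤ 1 / 4) :
    ∃ C0 ε0 Cη : ℝ, 11 ≤ C0 ∧ 0 < ε0 ∧ 0 < Cη ∧
    ∀ (η ε : ℝ), 0 < η → η ≤ 1 → 0 < ε → 2 * ε + Cη * η ^ 2 ≤ ε0 →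
    ∀ (K C2 CL C1 : ℝ), 0 < K → C0 * K ≤ C2 → 2 * CL + 3 ≤ C2 → 0 < C1 →
    ∀ᶠ X : ℕ in atTop, ∀ (a : ℤ) (LL : Finset (ℤ × ℤ)),
      (LL.card : ℝ) ≤ (Real.log X) ^ CL →
      (∀ τ ∈ LL, 1 ≤ τ.2 ∧ (τ.2 : ℝ) ≤ (X : ℝ) ^ 2 ∧ |(τ.1 : ℝ)| ≤ (X : ℝ) ^ 2 ∧
        IsCoprime τ.1 τ.2) →
      ∀ U : Finset ℕ,
      ∑ b ∈ U, 1 / ((b : ℝ) * (Real.log ((Dlev X : ℝ) / b)) ^ 2) ≤ ε / (Real.log X) ^ 2 →
      (∀ b ∈ Tree.LS (stopL (Dlev X) (K * Real.log (Real.log X))) 1 (w0 X),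
        ¬ Tree.bd (Dlev X : ℝ) b b.minFac → b ∉ U →
        η * (K * Real.log (Real.log X)) < Real.log ((Dlev X : ℝ) / b) →
        (∃ g : ℕ, g.Prime ∧ g ∣ b ∧ (Real.log X) ^ C1 ≤ (g : ℝ) ∧ (g : ℝ) ≤ (X : ℝ) ^ γ) →
        (∃ p : ℕ, p.Prime ∧ p ∣ b ∧ Real.log (Dlev X) / 5 ≤ Real.log p) →
        ∃ τ ∈ LL, ∀ p : ℕ, p.Prime → p ∣ b → (Real.log X) ^ C2 < (p : ℝ) →
          (p : ℤ) ∣ τ.2 * a - τ.1) →
      ∃ τ ∈ LL, ∑ p ∈ (Tree.pr (w0 X)).filter (fun p : ℕ => (Real.log X) ^ C2 < (p : ℝ) ∧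
        ¬ (p : ℤ) ∣ τ.2 * a - τ.1), 1 / (p : ℝ) ≤ C0 * (2 * ε + Cη * η ^ 2) :=
  hiti Mass.lineUp Mass.massLow γ hγ hγ4

end Crest.Agent.R001.Hit
end

-- ▼ part R001/Fin/Upper
section

/-! R1, block FIN (B): upper bound sieve with two families of classes. -/

set_option autoImplicit false
open Finset
open Crest.Agent.R001.FL
open Crest.Agent.Lib

namespace Crest.Agent.R001.Fin

-- number of elements of an interval in given sets of classes mod the primes of `D`
-- and in one class mod `q`.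
set_option maxHeartbeats 2000000 in
lemma count_classes (x : ℤ) (H : ℕ) (C : ℕ → Finset ℤ) (D : Finset ℕ) (hD : ∀ p ∈ D, p.Prime)
    (hC : ∀ p ∈ D, ∀ c ∈ C p, ∀ c' ∈ C p, c ≡ c' [ZMOD p] → c = c') :
    ∀ (q : ℕ) (v : ℤ), 0 < q → (∀ p ∈ D, Nat.Coprime q p) →
    |(((Finset.Ioc x (x + H)).filter (fun a => a ≡ v [ZMOD q] ∧
        ∀ p ∈ D, ∃ c ∈ C p, a ≡ c [ZMOD p])).card : ℝ) -
      (H : ℝ) / q * ∏ p ∈ D, ((C p).card / (p : ℝ))| ≤ ∏ p ∈ D, ((C p).card : ℝ) := by
  classical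
  induction D using Finset.induction_on with
  | empty =>
    intro q v hq _
    have h := card_class_Ioc x H q hq v
    simpa using h
  | insert p D hp ih =>
    intro q v hq hcop
    have hpp := hD p (Finset.mem_insert_self p D)
    have ih' := ih (fun r hr => hD r (Finset.mem_insert_of_mem hr))
      (fun r hr => hC r (Finset.mem_insert_of_mem hr))
    have hqp : Nat.Coprime q p := hcop p (Finset.mem_insert_self p D)
    have hqp' : IsCoprime (q : ℤ) (p : ℤ) := Nat.isCoprime_iff_coprime.2 hqp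
    obtain ⟨s, t, hst⟩ := hqp'
    -- combined class
    let w : ℤ → ℤ := fun c => v * (t * p) + c * (s * q)
    have hw : ∀ c a : ℤ, (a ≡ v [ZMOD q] ∧ a ≡ c [ZMOD p]) ↔ a ≡ w c [ZMOD ((q * p : ℕ) : ℤ)] := by
      intro c a
      have k1 : w c ≡ v [ZMOD q] := by
        apply Int.ModEq.symm
        rw [Int.modEq_iff_dvd]
        refine ⟨s * (c - v), ?_⟩
        have : t * (p : ℤ) = 1 - s * q := by linarith
        simp only [w]
        rw [this]; ring
      have k2 : w c ≡ c [ZMOD p] := by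
        apply Int.ModEq.symm
        rw [Int.modEq_iff_dvd]
        refine ⟨t * (v - c), ?_⟩
        have : s * (q : ℤ) = 1 - t * p := by linarith
        simp only [w]
        rw [this]; ring
      constructor
      · rintro ⟨h1, h2⟩
        have h3 := h1.trans k1.symm
        have h4 := h2.trans k2.symm
        rw [Int.modEq_iff_dvd] at h3 h4 ⊢
        rw [Nat.cast_mul]
        exact IsCoprime.mul_dvd ⟨s, t, hst⟩ h3 h4
      · intro h
        rw [Nat.cast_mul] at h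
        refine ⟨?_, ?_⟩
        · exact (Int.ModEq.of_mul_right _ h).trans k1
        · exact (Int.ModEq.of_mul_left _ h).trans k2
    have hset : (Finset.Ioc x (x + H)).filter (fun a => a ≡ v [ZMOD q] ∧
        ∀ r ∈ insert p D, ∃ c ∈ C r, a ≡ c [ZMOD r]) =
        (C p).biUnion (fun c => (Finset.Ioc x (x + H)).filter
          (fun a => a ≡ w c [ZMOD ((q * p : ℕ) : ℤ)] ∧ ∀ r ∈ D, ∃ c ∈ C r, a ≡ c [ZMOD r])) := by
      ext a
      simp only [Finset.mem_filter, Finset.mem_biUnion]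
      constructor
      · rintro ⟨h1, h2, h3⟩
        obtain ⟨c, hc, hac⟩ := h3 p (Finset.mem_insert_self p D)
        exact ⟨c, hc, h1, (hw c a).1 ⟨h2, hac⟩, fun r hr => h3 r (Finset.mem_insert_of_mem hr)⟩
      · rintro ⟨c, hc, h1, h2, h3⟩
        obtain ⟨h4, h5⟩ := (hw c a).2 h2
        refine ⟨h1, h4, fun r hr => ?_⟩
        rcases Finset.mem_insert.1 hr with rfl | hr
        · exact ⟨c, hc, h5⟩
        · exact h3 r hr
    have hdisj : ∀ c ∈ C p, ∀ c' ∈ C p, c ≠ c' → Disjoint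
        ((Finset.Ioc x (x + H)).filter (fun a => a ≡ w c [ZMOD ((q * p : ℕ) : ℤ)] ∧
          ∀ r ∈ D, ∃ c ∈ C r, a ≡ c [ZMOD r]))
        ((Finset.Ioc x (x + H)).filter (fun a => a ≡ w c' [ZMOD ((q * p : ℕ) : ℤ)] ∧
          ∀ r ∈ D, ∃ c ∈ C r, a ≡ c [ZMOD r])) := by
      intro c hc c' hc' hne
      rw [Finset.disjoint_left]
      intro a ha ha'
      rw [Finset.mem_filter] at ha ha'
      have h1 := ((hw c a).2 ha.2.1).2
      have h2 := ((hw c' a).2 ha'.2.1).2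
      exact hne (hC p (Finset.mem_insert_self p D) c hc c' hc' (h1.symm.trans h2))
    rw [hset, Finset.card_biUnion hdisj, Finset.prod_insert hp, Finset.prod_insert hp]
    push_cast
    have hp0 : (0 : ℝ) < p := by exact_mod_cast hpp.pos
    have hq0 : (0 : ℝ) < q := by exact_mod_cast hq
    have e1 : (H : ℝ) / q * ((C p).card / (p : ℝ) * ∏ r ∈ D, ((C r).card / (r : ℝ))) =
        ∑ c ∈ C p, ((H : ℝ) / ((q * p : ℕ) : ℝ) * ∏ r ∈ D, ((C r).card / (r : ℝ))) := by
      rw [Finset.sum_const, nsmul_eq_mul, Nat.cast_mul]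
      generalize ∏ r ∈ D, ((C r).card / (r : ℝ)) = PP
      generalize ((C p).card : ℝ) = cc
      rw [div_mul_eq_div_div]
      ring
    rw [e1, ← Finset.sum_sub_distrib]
    calc |∑ c ∈ C p, _| ≤ ∑ c ∈ C p, _ := Finset.abs_sum_le_sum_abs _ _
      _ ≤ ∑ c ∈ C p, ∏ r ∈ D, ((C r).card : ℝ) := by
          apply Finset.sum_le_sum
          intro c _
          apply ih' (q * p) (w c) (Nat.mul_pos hq hpp.pos)
          intro r hr
          apply Nat.Coprime.mul_left (hcop r (Finset.mem_insert_of_mem hr))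
          rw [Nat.coprime_primes hpp (hD r (Finset.mem_insert_of_mem hr))]
          rintro rfl
          exact hp hr
      _ = (C p).card * ∏ r ∈ D, ((C r).card : ℝ) := by
          rw [Finset.sum_const, nsmul_eq_mul]

/-- the two-class family -/
noncomputable def Cl (V w : ℕ) (r1 r2 : ℕ → ℤ) (p : ℕ) : Finset ℤ := by
  classical
  exact (if p ∣ V then ∅ else {r1 p}) ∪
    (if p ≤ w ∧ (p ∣ V ∨ ¬ r1 p ≡ r2 p [ZMOD p]) then {r2 p} else ∅)

/-- the primes where the two classes differ -/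
noncomputable def PD (V w : ℕ) (r1 r2 : ℕ → ℤ) : Finset ℕ := by
  classical
  exact (Finset.Icc 3 w).filter (fun p => p.Prime ∧ ¬ p ∣ V ∧ ¬ r1 p ≡ r2 p [ZMOD p])

set_option maxHeartbeats 4000000 in
theorem upper_two : ∃ (C : ℝ) (k : ℕ), 0 < C ∧ 1 ≤ k ∧ ∀ (w V H : ℕ), 2 ≤ w → 1 ≤ V → V ≤ w →
    w ^ k ≤ H → ∀ (x : ℤ) (r1 r2 : ℕ → ℤ) (A : Finset ℤ), A ⊆ Finset.Ioc x (x + H) →
      (∀ j ∈ A, (∀ p : ℕ, p.Prime → 3 ≤ p → p ^ k ≤ H → ¬ p ∣ V → ¬ j ≡ r1 p [ZMOD p]) ∧
        (∀ p : ℕ, p.Prime → 3 ≤ p → p ≤ w → ¬ j ≡ r2 p [ZMOD p])) →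
      (A.card : ℝ) ≤ C * (H / Real.log H) * ∏ p ∈ PD V w r1 r2, (1 - 1 / (p : ℝ)) := by
  classical
  obtain ⟨K, hK, hdim⟩ := dim_of 2 0 (1 / 3) (by norm_num) le_rfl (by norm_num)
  obtain ⟨s, hs, H0⟩ := sieve_weighted 2 K 1 (by norm_num) hK one_pos
  -- choice of k
  obtain ⟨e, he⟩ : ∃ e : ℕ, 2 * s + 2 + e ≤ 2 ^ e := by
    obtain ⟨n, hn⟩ := pow_unbounded_of_one_lt (2 * s + 2) (by norm_num : 1 < 2)
    refine ⟨n + 2 * s + 2, ?_⟩
    have h1 : 2 ^ (n + 2 * s + 2) = 2 ^ n * (4 * 4 ^ s) := by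
      rw [show n + 2 * s + 2 = n + (2 * s + 2) by ring, pow_add, pow_add, pow_mul]
      norm_num
      ring
    have h2 : s + 1 ≤ 4 ^ s := by
      have := Nat.lt_pow_self (n := s) (by norm_num : 1 < 4)
      omega
    have h3 : n < 2 ^ n := Nat.lt_pow_self (by norm_num)
    rw [h1]
    have h4 : 1 ≤ 2 ^ n := Nat.one_le_two_pow
    nlinarith
  set k : ℕ := 2 * s + 2 + e with hk
  have hk1 : 1 ≤ k := by omega
  refine ⟨k * (2 * (Real.exp (22 / Real.log 2) * Real.log 2) + 1), k, by positivity, hk1,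
    fun w V H hw hV hVw hwH x r1 r2 A hAI hA => ?_⟩
  have hH1 : 1 ≤ H := le_trans (Nat.one_le_pow _ _ (by omega)) hwH
  have hHr : (0 : ℝ) < H := by exact_mod_cast hH1
  set z : ℝ := (H : ℝ) ^ (1 / (k : ℝ)) with hz
  have hk0 : (0 : ℝ) < k := by exact_mod_cast hk1
  have hzk : z ^ k = H := by
    rw [hz, ← Real.rpow_natCast, ← Real.rpow_mul hHr.le]
    rw [one_div_mul_cancel hk0.ne', Real.rpow_one]
  have hz0 : 0 ≤ z := Real.rpow_nonneg hHr.le _
  have hle : ∀ p : ℕ, (p : ℝ) ≤ z ↔ p ^ k ≤ H := by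
    intro p
    rw [← pow_le_pow_iff_left₀ (Nat.cast_nonneg p) hz0 (by omega : k ≠ 0), hzk]
    exact_mod_cast Iff.rfl
  have hwz : (w : ℝ) ≤ z := (hle w).2 hwH
  have hz2 : 2 ≤ z := le_trans (by exact_mod_cast hw) hwz
  have hlz : 0 < Real.log z := Real.log_pos (by linarith)
  have hlogH : Real.log H = k * Real.log z := by
    rw [← hzk, Real.log_pow]
  set P : Finset ℕ := Mertens.pr 2 z with hP
  have hmemP : ∀ p, p ∈ P ↔ (p.Prime ∧ 3 ≤ p ∧ (p : ℝ) ≤ z) := by
    intro p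
    rw [hP, Mertens.mem_pr (by norm_num) hz0]
    constructor
    · rintro ⟨⟨h1, h2⟩, h3⟩
      refine ⟨h3, ?_, h2⟩
      have : 2 < p := by exact_mod_cast h1
      omega
    · rintro ⟨h1, h2, h3⟩
      refine ⟨⟨?_, h3⟩, h1⟩
      have : 2 < p := by omega
      exact_mod_cast this
  set C : ℕ → Finset ℤ := Cl V w r1 r2 with hC
  have hCval : ∀ p, C p = (if p ∣ V then ∅ else {r1 p}) ∪
      (if p ≤ w ∧ (p ∣ V ∨ ¬ r1 p ≡ r2 p [ZMOD p]) then {r2 p} else ∅) := by
    intro p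
    rw [hC, Cl]
  -- cardinality of C p
  have hcard : ∀ p ∈ P, (C p).card = if p ∈ PD V w r1 r2 then 2 else 1 := by
    intro p hp
    rw [hmemP] at hp
    rw [hCval]
    by_cases h1 : p ∣ V
    · have h2 : p ≤ w := (Nat.le_of_dvd hV h1).trans hVw
      have h3 : p ∉ PD V w r1 r2 := by
        simp [PD, h1]
      simp [h1, h2, h3]
    · by_cases h2 : p ≤ w
      · by_cases h3 : r1 p ≡ r2 p [ZMOD p]
        · have h4 : p ∉ PD V w r1 r2 := by
            simp [PD, h3]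
          simp [h1, h3, h4]
        · have h4 : p ∈ PD V w r1 r2 := by
            rw [PD, Finset.mem_filter, Finset.mem_Icc]
            exact ⟨⟨hp.2.1, h2⟩, hp.1, h1, h3⟩
          have h5 : r1 p ≠ r2 p := fun h => h3 (by rw [h])
          rw [if_neg h1, if_pos ⟨h2, Or.inr h3⟩, if_pos h4]
          rw [Finset.card_union_of_disjoint (by simpa using h5)]
          simp
      · have h4 : p ∉ PD V w r1 r2 := by
          rw [PD, Finset.mem_filter, Finset.mem_Icc]
          rintro ⟨⟨_, h⟩, _⟩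
          exact h2 h
        simp [h1, h2, h4]
  have hcard2 : ∀ p ∈ P, (C p).card ≤ 2 := by
    intro p hp
    rw [hcard p hp]
    split_ifs <;> norm_num
  have hdist : ∀ p ∈ P, ∀ c ∈ C p, ∀ c' ∈ C p, c ≡ c' [ZMOD p] → c = c' := by
    intro p hp c hc c' hc' hcc
    rw [hCval] at hc hc'
    rw [Finset.mem_union] at hc hc'
    have a1 : ∀ d, d ∈ (if p ∣ V then (∅ : Finset ℤ) else {r1 p}) → d = r1 p ∧ ¬ p ∣ V := by
      intro d hd
      split_ifs at hd with h
      · simp at hd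
      · exact ⟨by simpa using hd, h⟩
    have a2 : ∀ d, d ∈ (if p ≤ w ∧ (p ∣ V ∨ ¬ r1 p ≡ r2 p [ZMOD p]) then ({r2 p} : Finset ℤ)
        else ∅) → d = r2 p ∧ (p ∣ V ∨ ¬ r1 p ≡ r2 p [ZMOD p]) := by
      intro d hd
      split_ifs at hd with h
      · exact ⟨by simpa using hd, h.2⟩
      · simp at hd
    rcases hc with hc | hc <;> rcases hc' with hc' | hc'
    · rw [(a1 c hc).1, (a1 c' hc').1]
    · exfalso
      obtain ⟨e1, e2⟩ := a1 c hc
      obtain ⟨e3, e4⟩ := a2 c' hc'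
      rw [e1, e3] at hcc
      rcases e4 with e4 | e4
      · exact e2 e4
      · exact e4 hcc
    · exfalso
      obtain ⟨e1, e2⟩ := a1 c' hc'
      obtain ⟨e3, e4⟩ := a2 c hc
      rw [e1, e3] at hcc
      rcases e4 with e4 | e4
      · exact e2 e4
      · exact e4 hcc.symm
    · rw [(a2 c hc).1, (a2 c' hc').1]
  -- densities
  set g : ℕ → ℝ := fun p => (C p).card / (p : ℝ) with hg
  have hPp : ∀ p ∈ P, p.Prime := fun p hp => ((hmemP p).1 hp).1
  have hP3 : ∀ p ∈ P, (3 : ℝ) ≤ p := fun p hp => by exact_mod_cast ((hmemP p).1 hp).2.1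
  have hPz : ∀ p ∈ P, 2 ≤ p ∧ (p : ℝ) ≤ z := fun p hp =>
    ⟨(hPp p hp).two_le, ((hmemP p).1 hp).2.2⟩
  have hg0 : ∀ p ∈ P, 0 ≤ g p := fun p _ => div_nonneg (Nat.cast_nonneg _) (Nat.cast_nonneg _)
  have hg2 : ∀ p ∈ P, g p ≤ 2 / p := by
    intro p hp
    simp only [hg]
    have := hP3 p hp
    gcongr
    exact_mod_cast hcard2 p hp
  have hg23 : ∀ p ∈ P, g p ≤ 1 - 1 / 3 := by
    intro p hp
    refine (hg2 p hp).trans ?_
    have := hP3 p hp
    rw [div_le_iff₀ (by linarith)]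
    linarith
  have hdimP : Dim 2 K P g := hdim P g hPp hg0 hg23 (fun p hp => by
    have := hg2 p hp
    simpa using this)
  -- the sieve
  set Ω : Finset ℤ := Finset.Ioc x (x + H) with hΩ
  set T : ℤ → Finset ℕ := fun a => P.filter (fun p => ∃ c ∈ C p, a ≡ c [ZMOD p]) with hT
  obtain ⟨-, hup⟩ := H0 z hz2 P g hPz hg0 (fun p hp => lt_of_le_of_lt (hg23 p hp) (by norm_num))
    hdimP Ω (fun _ => 1) T H (fun D => ∏ p ∈ D, ((C p).card : ℝ)) (fun _ _ => zero_le_one)
    (fun a _ => Finset.filter_subset _ _) (Nat.cast_nonneg H) (by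
      intro D hDP _
      have h1 := count_classes x H C D (fun p hp => hPp p (hDP hp))
        (fun p hp => hdist p (hDP hp)) 1 0 one_pos (fun p _ => Nat.coprime_one_left p)
      have h2 : Ω.filter (fun a => D ⊆ T a) = (Finset.Ioc x (x + H)).filter
          (fun a => a ≡ 0 [ZMOD ((1 : ℕ) : ℤ)] ∧ ∀ p ∈ D, ∃ c ∈ C p, a ≡ c [ZMOD p]) := by
        apply Finset.filter_congr
        intro a _
        constructor
        · intro h
          refine ⟨by simp [Int.modEq_one], fun p hp => ?_⟩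
          have := h hp
          rw [hT, Finset.mem_filter] at this
          exact this.2
        · rintro ⟨_, h⟩ p hp
          rw [hT, Finset.mem_filter]
          exact ⟨hDP hp, h p hp⟩
      rw [h2, Finset.sum_const, nsmul_eq_mul, mul_one]
      have h3 : (∏ p ∈ D, g p) * (H : ℝ) = (H : ℝ) / ((1 : ℕ) : ℝ) *
          ∏ p ∈ D, ((C p).card / (p : ℝ)) := by
        simp only [hg]
        push_cast
        ring
      rw [h3]
      exact h1)
  -- A is contained in the sifted set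
  have hAsub : A ⊆ Ω.filter (fun a => T a = ∅) := by
    intro j hj
    rw [Finset.mem_filter]
    refine ⟨hAI hj, ?_⟩
    obtain ⟨h1, h2⟩ := hA j hj
    rw [hT, Finset.filter_eq_empty_iff]
    rintro p hp ⟨c, hc, hjc⟩
    have hpP := (hmemP p).1 hp
    rw [hCval, Finset.mem_union] at hc
    rcases hc with hc | hc
    · split_ifs at hc with h
      · simp at hc
      · rw [Finset.mem_singleton] at hc
        rw [hc] at hjc
        exact h1 p hpP.1 hpP.2.1 ((hle p).1 hpP.2.2) h hjc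
    · split_ifs at hc with h
      · rw [Finset.mem_singleton] at hc
        rw [hc] at hjc
        exact h2 p hpP.1 hpP.2.1 h.1 hjc
      · simp at hc
  have hAcard : (A.card : ℝ) ≤ ∑ a ∈ Ω.filter (fun a => T a = ∅), (1 : ℝ) := by
    rw [Finset.sum_const, nsmul_eq_mul, mul_one]
    exact_mod_cast Finset.card_le_card hAsub
  -- the Euler product
  have hPDP : PD V w r1 r2 ⊆ P := by
    intro p hp
    rw [PD, Finset.mem_filter, Finset.mem_Icc] at hp
    rw [hmemP]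
    exact ⟨hp.2.1, hp.1.1, le_trans (by exact_mod_cast hp.1.2) hwz⟩
  set E : ℝ := ∏ p ∈ PD V w r1 r2, (1 - 1 / (p : ℝ)) with hE
  have hfac : ∀ p ∈ P, 0 ≤ 1 - 1 / (p : ℝ) ∧ 1 - 1 / (p : ℝ) ≤ 1 := by
    intro p hp
    have h3 := hP3 p hp
    constructor
    · rw [sub_nonneg, div_le_one (by linarith)]; linarith
    · have : (0 : ℝ) ≤ 1 / p := by positivity
      linarith
  have hprod : ∏ p ∈ P, (1 - g p) ≤ (∏ p ∈ P, (1 - 1 / (p : ℝ))) * E := by
    have h1 : E = ∏ p ∈ P, (if p ∈ PD V w r1 r2 then (1 - 1 / (p : ℝ)) else 1) := by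
      rw [hE, ← Finset.prod_filter]
      apply Finset.prod_congr _ fun _ _ => rfl
      ext p
      rw [Finset.mem_filter]
      exact ⟨fun h => ⟨hPDP h, h⟩, fun h => h.2⟩
    rw [h1, ← Finset.prod_mul_distrib]
    apply Finset.prod_le_prod
    · intro p hp
      have := hg23 p hp
      linarith
    · intro p hp
      have h3 := hP3 p hp
      simp only [hg]
      rw [hcard p hp]
      split_ifs with h
      · push_cast
        have e1 : 2 / (p : ℝ) = 2 * (1 / p) := by ring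
        rw [e1]
        nlinarith [sq_nonneg (1 / (p : ℝ))]
      · push_cast
        linarith
  have hmert := (Mertens.mertens_three 2 z le_rfl hz2).2
  have hmert' : ∏ p ∈ P, (1 - 1 / (p : ℝ)) ≤
      Real.exp (22 / Real.log 2) * Real.log 2 * (k / Real.log H) := by
    refine hmert.trans (le_of_eq ?_)
    rw [hlogH, div_mul_eq_div_div, div_self hk0.ne']
    ring
  -- lower bound for E
  have hE0 : 1 / z ≤ E := prod_ge_inv _ (fun p hp => (hPp p (hPDP hp)).two_le) z hz2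
    (fun p hp => ((hmemP p).1 (hPDP hp)).2.2)
  have hEnn : 0 ≤ E := le_trans (by positivity) hE0
  -- error
  have herr : ∑ D ∈ P.powerset.filter (fun D : Finset ℕ => ∏ p ∈ D, (p : ℝ) ≤ z ^ s),
      ∏ p ∈ D, ((C p).card : ℝ) ≤ k * (H / Real.log H) * E := by
    have h1 : ∀ D ∈ P.powerset.filter (fun D : Finset ℕ => ∏ p ∈ D, (p : ℝ) ≤ z ^ s),
        ∏ p ∈ D, ((C p).card : ℝ) ≤ z ^ s := by
      intro D hD
      rw [Finset.mem_filter, Finset.mem_powerset] at hD
      refine le_trans ?_ hD.2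
      apply Finset.prod_le_prod
      · intro p _
        exact Nat.cast_nonneg _
      · intro p hp
        have := hP3 p (hD.1 hp)
        have h2 : ((C p).card : ℝ) ≤ 2 := by exact_mod_cast hcard2 p (hD.1 hp)
        linarith
    have h2 := Finset.sum_le_card_nsmul _ _ _ h1
    rw [nsmul_eq_mul] at h2
    have h3 := card_level P hPp (z ^ s) (by positivity)
    have h4 : ∑ D ∈ P.powerset.filter (fun D : Finset ℕ => ∏ p ∈ D, (p : ℝ) ≤ z ^ s),
      ∏ p ∈ D, ((C p).card : ℝ) ≤ z ^ s * z ^ s := by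
      refine h2.trans ?_
      gcongr
    refine h4.trans ?_
    -- z^(2s) <= k * H / log H / z
    have h5 : z ^ s * z ^ s * (z * (k * Real.log z)) ≤ k * z ^ k := by
      have h6 : z ^ k = z ^ s * z ^ s * (z * z) * z ^ e := by
        rw [hk]
        ring
      rw [h6]
      have h7 : Real.log z ≤ z := by
        have := Real.log_le_sub_one_of_pos (by linarith : (0 : ℝ) < z)
        linarith
      have h8 : 1 ≤ z ^ e := one_le_pow₀ (by linarith)
      have h9 : 0 ≤ z ^ s * z ^ s := by positivity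
      have h10 : z * (k * Real.log z) ≤ k * (z * z * z ^ e) := by
        have : z * (k * Real.log z) ≤ k * (z * z) := by
          have := mul_le_mul_of_nonneg_left h7 (by positivity : 0 ≤ z * (k : ℝ))
          nlinarith
        refine this.trans ?_
        have : z * z ≤ z * z * z ^ e := by
          have : 0 ≤ z * z := by positivity
          nlinarith
        gcongr
      calc z ^ s * z ^ s * (z * (k * Real.log z)) ≤ z ^ s * z ^ s * (k * (z * z * z ^ e)) := by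
            gcongr
        _ = k * (z ^ s * z ^ s * (z * z) * z ^ e) := by ring
    have h11 : z ^ s * z ^ s ≤ k * (H / Real.log H) * (1 / z) := by
      rw [hlogH, ← hzk, mul_one_div, le_div_iff₀ (by linarith), ← mul_div_assoc,
        le_div_iff₀ (by positivity)]
      calc z ^ s * z ^ s * z * (k * Real.log z) = z ^ s * z ^ s * (z * (k * Real.log z)) := by ring
        _ ≤ _ := h5
    refine h11.trans ?_
    have h12 : 0 ≤ k * ((H : ℝ) / Real.log H) := by
      have : 0 ≤ Real.log H := by rw [hlogH]; positivity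
      positivity
    exact mul_le_mul_of_nonneg_left hE0 h12
  have hfin : (A.card : ℝ) ≤ (1 + 1) * (∏ p ∈ P, (1 - g p)) * H + k * (H / Real.log H) * E :=
    hAcard.trans (hup.trans (by linarith))
  refine hfin.trans ?_
  have h20 : (1 + 1) * (∏ p ∈ P, (1 - g p)) * (H : ℝ) ≤
      2 * (Real.exp (22 / Real.log 2) * Real.log 2 * (k / Real.log H) * E) * H := by
    have : ∏ p ∈ P, (1 - g p) ≤ Real.exp (22 / Real.log 2) * Real.log 2 * (k / Real.log H) * E :=
      hprod.trans (mul_le_mul_of_nonneg_right hmert' hEnn)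
    nlinarith
  calc (1 + 1) * (∏ p ∈ P, (1 - g p)) * (H : ℝ) + k * (H / Real.log H) * E
      ≤ 2 * (Real.exp (22 / Real.log 2) * Real.log 2 * (k / Real.log H) * E) * H +
        k * (H / Real.log H) * E := by linarith
    _ = k * (2 * (Real.exp (22 / Real.log 2) * Real.log 2) + 1) * (H / Real.log H) * E := by
      ring

end Crest.Agent.R001.Fin
end

-- ▼ part SW/Final301
section

/-! Siegel–Walfisz for `Λ` in progressions, unconditional: see `Crest.Agent.SW.Final`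
(`Crest.Agent.SW.psiAP_holds`, `Crest.Agent.SW.psiOne_holds`). -/
end

-- ▼ part R001/Fin10_571
section

set_option autoImplicit false

namespace Crest.Agent.R001.Fin571

open Finset Crest.Agent.Lib.Mertens Crest.Agent.R001.FL ArithmeticFunction Crest.Agent.R001.End

theorem upper_holds : Upper := by
  classical
  obtain ⟨C, k, hC, hk, h⟩ := Crest.Agent.R001.Fin.upper_two
  refine ⟨C, hC, k, hk, fun w V H hw hV hVw hwH x r1 r2 => ?_⟩
  refine (h w V H hw hV hVw hwH x r1 r2 _ (Finset.filter_subset _ _) ?_).trans (le_of_eq ?_)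
  · intro j hj
    rw [Finset.mem_filter] at hj
    refine ⟨fun p hp hp3 hpH => hj.2.1 p hp hp3 ?_, hj.2.2⟩
    have hk0 : (k : ℝ) ≠ 0 := by
      have : k ≠ 0 := by omega
      exact_mod_cast this
    have h1 : ((p : ℝ) ^ k) ≤ H := by exact_mod_cast hpH
    have h2 : ((p : ℝ) ^ k) ^ ((1 : ℝ) / k) ≤ (H : ℝ) ^ ((1 : ℝ) / k) :=
      Real.rpow_le_rpow (by positivity) h1 (by positivity)
    have h3 : ((p : ℝ) ^ k) ^ ((1 : ℝ) / k) = p := by
      rw [← Real.rpow_natCast, ← Real.rpow_mul (Nat.cast_nonneg p), mul_one_div_cancel hk0,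
        Real.rpow_one]
    rw [h3] at h2
    exact h2
  · rfl

/-- **BLOCK FIN.** There is an absolute `ε₀ > 0` such that: if, up to a set `XX` of primes with
`∑ 1/p ≤ ε₀`, every prime `p` with `L^C1 < p < z` divides `V a - U`, then the interval `(a-X, a]`
contains at least `X / L^2` integers without prime factor `< z`. -/
theorem fin : ∃ ε₀ : ℝ, 0 < ε₀ ∧
    ∀ C1 : ℕ, 1 ≤ C1 → ∃ X0 : ℝ, ∀ X : ℕ, X0 ≤ X → ∀ (a U : ℤ) (V : ℕ), 1 ≤ V →
      (V : ℝ) ≤ (Real.log X) ^ C1 → |(U : ℝ)| ≤ X * (Real.log X) ^ C1 → IsCoprime U (V : ℤ) →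
      ∀ z : ℝ, z ≤ (X : ℝ) ^ ((3 : ℝ) / 5) → ∀ XX : Finset ℕ,
      (∀ p ∈ XX, p.Prime ∧ (Real.log X) ^ C1 < p) → ∑ p ∈ XX, (1 : ℝ) / p ≤ ε₀ →
      (∀ p : ℕ, p.Prime → (Real.log X) ^ C1 < p → (p : ℝ) < z → p ∉ XX →
        (p : ℤ) ∣ (V : ℤ) * a - U) →
      (X : ℝ) / (Real.log X) ^ 2 ≤ ((rough (Finset.Ioc (a - X) a) z).card : ℝ) :=
  fin_aux Crest.Agent.SW.psiAP_holds upper_holds

/-- `z^2 ≤ X (log X)^c` implies `z ≤ X^(3/5)` for large `X`. -/
theorem z_le (c : ℝ) : ∃ X0 : ℝ, ∀ X : ℝ, X0 ≤ X → ∀ z : ℝ, z ^ 2 ≤ X * (Real.log X) ^ c →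
    z ≤ X ^ ((3 : ℝ) / 5) := by
  obtain ⟨n, hn⟩ := exists_nat_ge c
  obtain ⟨X1, hX1⟩ := ev_pow (5 * n) 1
  obtain ⟨X2, hX2⟩ := ev_log 1
  refine ⟨max (max X1 X2) 1, fun X hX z hz => ?_⟩
  have h1 := hX1 X ((le_max_left _ _).trans ((le_max_left _ _).trans hX))
  have h2 := hX2 X ((le_max_right _ _).trans ((le_max_left _ _).trans hX))
  have hX1' : 1 ≤ X := (le_max_right _ _).trans hX
  have hXpos : 0 < X := by linarith
  have h3 : (Real.log X) ^ c ≤ (Real.log X) ^ n := by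
    rw [← Real.rpow_natCast]
    exact Real.rpow_le_rpow_of_exponent_le h2 hn
  have h4 : (Real.log X) ^ n ≤ X ^ ((1 : ℝ) / 5) := by
    have h5 : (((Real.log X) ^ n) ^ 5) ^ ((1 : ℝ) / 5) ≤ X ^ ((1 : ℝ) / 5) := by
      apply Real.rpow_le_rpow (by positivity) _ (by norm_num)
      calc ((Real.log X) ^ n) ^ 5 = 1 * (Real.log X) ^ (5 * n) := by ring
        _ ≤ X := h1
    have h6 : (((Real.log X) ^ n) ^ 5) ^ ((1 : ℝ) / 5) = (Real.log X) ^ n := by
      rw [← Real.rpow_natCast ((Real.log X) ^ n) 5, ← Real.rpow_mul (by positivity)]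
      norm_num
    rw [h6] at h5
    exact h5
  have h7 : z ^ 2 ≤ (X ^ ((3 : ℝ) / 5)) ^ 2 := by
    calc z ^ 2 ≤ X * (Real.log X) ^ c := hz
      _ ≤ X * X ^ ((1 : ℝ) / 5) := by gcongr; exact h3.trans h4
      _ = (X ^ ((3 : ℝ) / 5)) ^ 2 := by
          rw [← Real.rpow_natCast, ← Real.rpow_mul hXpos.le]
          nth_rewrite 1 [← Real.rpow_one X]
          rw [← Real.rpow_add hXpos]
          norm_num
  exact (abs_le_of_sq_le_sq' h7 (by positivity)).2

/-- **BLOCK FIN**, convenience form for the assembly (real exponents, `z ^ 2 ≤ X L^C2`, no lower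
bound on the primes of `XX`). -/
theorem fin' : ∃ ε₀ : ℝ, 0 < ε₀ ∧
    ∀ C1 C2 : ℝ, ∃ X0 : ℝ, ∀ X : ℕ, X0 ≤ X → ∀ (a U : ℤ) (V : ℕ), 1 ≤ V →
      (V : ℝ) ≤ (Real.log X) ^ C1 → |(U : ℝ)| ≤ X * (Real.log X) ^ C1 → IsCoprime U (V : ℤ) →
      ∀ z : ℝ, z ^ 2 ≤ X * (Real.log X) ^ C2 → ∀ XX : Finset ℕ,
      (∀ p ∈ XX, p.Prime) → ∑ p ∈ XX, (1 : ℝ) / p ≤ ε₀ →
      (∀ p : ℕ, p.Prime → (Real.log X) ^ C1 < p → (p : ℝ) < z → p ∉ XX →
        (p : ℤ) ∣ (V : ℤ) * a - U) →
      (X : ℝ) / (Real.log X) ^ 2 ≤ ((rough (Finset.Ioc (a - X) a) z).card : ℝ) := by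
  classical
  obtain ⟨ε₀, hε, hfin⟩ := fin
  refine ⟨ε₀, hε, fun C1 C2 => ?_⟩
  obtain ⟨n, hn⟩ := exists_nat_ge (max C1 1)
  have hnC : C1 ≤ n := (le_max_left _ _).trans hn
  have hn1 : 1 ≤ n := by
    have : (1 : ℝ) ≤ n := (le_max_right _ _).trans hn
    exact_mod_cast this
  obtain ⟨X1, hX1⟩ := hfin n hn1
  obtain ⟨X2, hX2⟩ := ev_log 1
  obtain ⟨X3, hX3⟩ := z_le C2
  refine ⟨max (max X1 X2) (max X3 1), fun X hX a U V hV hVw hUw hUV z hz XX hXX hsum hdvd => ?_⟩
  have h1 := hX1 X ((le_max_left _ _).trans ((le_max_left _ _).trans hX))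
  have h2 := hX2 X ((le_max_right _ _).trans ((le_max_left _ _).trans hX))
  have h3 := hX3 X ((le_max_left _ _).trans ((le_max_right _ _).trans hX)) z hz
  have hX1' : (1 : ℝ) ≤ X := (le_max_right _ _).trans ((le_max_right _ _).trans hX)
  have h4 : (Real.log X) ^ C1 ≤ (Real.log X) ^ n := by
    rw [← Real.rpow_natCast]
    exact Real.rpow_le_rpow_of_exponent_le h2 hnC
  refine h1 a U V hV (hVw.trans h4) (hUw.trans ?_) hUV z h3
    (XX.filter (fun p : ℕ => (Real.log X) ^ n < p)) ?_ ?_ ?_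
  · gcongr
  · intro p hp
    rw [Finset.mem_filter] at hp
    exact ⟨hXX p hp.1, hp.2⟩
  · refine le_trans (Finset.sum_le_sum_of_subset_of_nonneg (Finset.filter_subset _ _) ?_) hsum
    intro p _ _
    positivity
  · intro p hp hpn hpz hpX
    refine hdvd p hp (lt_of_le_of_lt h4 hpn) hpz fun h => hpX ?_
    rw [Finset.mem_filter]
    exact ⟨h, hpn⟩

end Crest.Agent.R001.Fin571
end

-- ▼ part R001/Asm2

/-!
# R1, top assembly, part 3 (helper571): `MainRough (21/10)` from SE, UNS and HIT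
-/

set_option autoImplicit false

namespace Crest.Agent.R001.Asm

open Finset Crest.Agent.R001.Tree Crest.Agent.R001.End

open Classical in
/-- leaves of the line satisfy the window condition -/
lemma leaf_win {K4 K K1 : ℕ} {eta : ℝ} (hK : K = K4 + 4) (heta : (K1 : ℝ) ≤ eta * K4)
    {X : ℕ} (hX : Big X) (hD1 : (Dlev X : ℝ) ≤ X / (Real.log X) ^ 3)
    (hD2 : (X : ℝ) / (Real.log X) ^ 3 ≤ 2 * (Dlev X : ℝ)) (hD16 : 16 ≤ Dlev X)
    {b : ℕ} (hb : b ∈ LS (Hit.stopL (Dlev X) (K4 * Real.log (Real.log X))) 1 (w0 X))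
    (hbd : ¬ bd (Dlev X) b b.minFac)
    (hv : eta * (K4 * Real.log (Real.log X)) < Real.log ((Dlev X : ℝ) / b)) :
    Win X K K1 b := by
  have h8 := hX.L8
  have hX0 := hX.X0
  have hl1 := hX.l1
  have hL0 : 0 < Real.log (X : ℝ) := by linarith
  obtain ⟨hsq, hb1, hmp, hlt, hst⟩ := leaf_facts hb
  have hb0 : (0 : ℝ) < b := by
    have : 0 < b := by omega
    exact_mod_cast this
  have hD0 : (0 : ℝ) < (Dlev X : ℝ) := by
    have : (16 : ℝ) ≤ (Dlev X : ℝ) := by exact_mod_cast hD16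
    linarith
  have hstop : Hit.Stop (Dlev X) (K4 * Real.log (Real.log X)) b b.minFac := by
    rcases hst with h | h
    · exact absurd h hbd
    · exact h
  have hpow : ∀ n : ℕ, (Real.log (X : ℝ)) ^ n = Real.exp (n * Real.log (Real.log X)) := by
    intro n
    rw [Real.exp_nat_mul, Real.exp_log hL0]
  have hDb : 0 < (Dlev X : ℝ) / b := by positivity
  refine ⟨hsq, ?_, ?_, ?_, ?_⟩
  · -- lower bound for b
    have h1 : Real.log ((Dlev X : ℝ) / b) ≤ K4 * Real.log (Real.log X) := hstop.2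
    have h2 : (Dlev X : ℝ) / b ≤ (Real.log X) ^ K4 := by
      rw [hpow K4, ← Real.exp_log hDb]
      exact Real.exp_le_exp.2 h1
    rw [div_le_iff₀ hb0] at h2
    rw [hK, div_le_iff₀ (by positivity)]
    have h3 : (X : ℝ) ≤ 2 * (Dlev X : ℝ) * (Real.log X) ^ 3 := by
      rw [div_le_iff₀ (by positivity)] at hD2
      exact hD2
    calc (X : ℝ) ≤ 2 * (Dlev X : ℝ) * (Real.log X) ^ 3 := h3
      _ ≤ 2 * ((Real.log X) ^ K4 * b) * (Real.log X) ^ 3 := by gcongr
      _ = 2 * (b * (Real.log X) ^ (K4 + 3)) := by ring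
      _ ≤ Real.log X * (b * (Real.log X) ^ (K4 + 3)) := by
          have : 0 ≤ b * (Real.log (X : ℝ)) ^ (K4 + 3) := by positivity
          have : 2 ≤ Real.log (X : ℝ) := by linarith
          gcongr
      _ = b * (Real.log X) ^ (K4 + 4) := by ring
  · -- upper bound for b
    have h1 : (K1 : ℝ) * Real.log (Real.log X) ≤ Real.log ((Dlev X : ℝ) / b) := by
      have h2 : (K1 : ℝ) * Real.log (Real.log X) ≤ eta * K4 * Real.log (Real.log X) :=
        mul_le_mul_of_nonneg_right heta (by linarith)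
      have h3 : eta * K4 * Real.log (Real.log X) = eta * (K4 * Real.log (Real.log X)) := by ring
      linarith
    have h2 : (Real.log X) ^ K1 ≤ (Dlev X : ℝ) / b := by
      rw [hpow K1, ← Real.exp_log hDb]
      exact Real.exp_le_exp.2 h1
    rw [le_div_iff₀ hb0] at h2
    rw [le_div_iff₀ (by positivity)]
    have h3 : (Dlev X : ℝ) ≤ X := by
      refine hD1.trans (div_le_self hX0.le ?_)
      exact one_le_pow₀ (by linarith)
    linarith
  · rw [not_bd] at hbd
    rw [le_div_iff₀ hb0]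
    have h3 : 4 * (Dlev X : ℝ) ≤ X := by
      have h4 : X / (Real.log X) ^ 3 ≤ X / 4 := by
        apply div_le_div_of_nonneg_left hX0.le (by norm_num)
        calc (4 : ℝ) ≤ 8 ^ 3 := by norm_num
          _ ≤ (Real.log X) ^ 3 := by gcongr
      linarith
    nlinarith
  · intro p hp hpb
    have h1 := hlt p hp hpb
    have h2 : (w0 X : ℝ) ^ 2 ≤ (Dlev X : ℝ) := by
      have : w0 X ^ 2 ≤ Dlev X := Nat.sqrt_le' _
      exact_mod_cast this
    have h3 : (Dlev X : ℝ) ≤ X := by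
      refine hD1.trans (div_le_self hX0.le ?_)
      exact one_le_pow₀ (by linarith)
    have h4 : (w0 X : ℝ) ≤ (X : ℝ) ^ ((1 : ℝ) / 2) := by
      rw [← Real.sqrt_eq_rpow]
      apply Real.le_sqrt_of_sq_le
      linarith
    have h5 : (p : ℝ) < w0 X := by exact_mod_cast h1
    linarith

open Classical in
/-- **TOP ASSEMBLY of R1**: the main theorem from the blocks SE and UNS. -/
theorem mainRough_of (hse : SEH) (huns : UNSH) : MainRough (21 / 10) := by
  obtain ⟨e0, he0, hfin⟩ := Fin571.fin'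
  obtain ⟨C0, ε1, Ce, hC11, hε1, hCe, hh⟩ := Hit.hiti_holds (1 / 1000) (by norm_num) (by norm_num)
  have hC0 : 0 < C0 := by linarith
  obtain ⟨t, ht⟩ : ∃ t, t = min ε1 (e0 / (2 * C0)) := ⟨_, rfl⟩
  have ht0 : 0 < t := by rw [ht]; positivity
  have ht1 : t ≤ ε1 := by rw [ht]; exact min_le_left _ _
  have ht2 : C0 * t ≤ e0 / 2 := by
    have h1 : t ≤ e0 / (2 * C0) := by rw [ht]; exact min_le_right _ _
    calc C0 * t ≤ C0 * (e0 / (2 * C0)) := by gcongr
      _ = e0 / 2 := by field_simp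
  obtain ⟨eta, heta⟩ : ∃ eta, eta = min 1 (t / (2 * Ce)) := ⟨_, rfl⟩
  have heta0 : 0 < eta := by rw [heta]; positivity
  have heta1 : eta ≤ 1 := by rw [heta]; exact min_le_left _ _
  have heps0 : 0 < t / 4 := by positivity
  have hsmall : 2 * (t / 4) + Ce * eta ^ 2 ≤ t := by
    have h1 : eta ≤ t / (2 * Ce) := by rw [heta]; exact min_le_right _ _
    have h2 : eta ^ 2 ≤ eta := by nlinarith
    have h3 : Ce * eta ^ 2 ≤ Ce * (t / (2 * Ce)) := by
      gcongr
      exact h2.trans h1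
    have h4 : Ce * (t / (2 * Ce)) = t / 2 := by field_simp
    linarith
  obtain ⟨C, K0, hK0, X1, hut⟩ := UT.ut (Par.massH_of_XiH Mass.xiH) (Par.bdH_of_XiH Mass.xiH)
    (t / 4) heps0
  obtain ⟨K1s, hse⟩ := hse C 3
  obtain ⟨K1u, huns⟩ := huns C 3
  obtain ⟨K4, hK4⟩ := exists_nat_ge (((K1s : ℝ) + K1u + K0) / eta + 1)
  have hK4' : (K1s : ℝ) + K1u + K0 ≤ eta * K4 := by
    have h1 : ((K1s : ℝ) + K1u + K0) / eta ≤ K4 := by linarith
    rw [div_le_iff₀ heta0] at h1
    linarith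
  have hs0 : (0 : ℝ) ≤ K1s := Nat.cast_nonneg _
  have hu0 : (0 : ℝ) ≤ K1u := Nat.cast_nonneg _
  have hK4s : (K1s : ℝ) ≤ eta * K4 := by linarith
  have hK4u : (K1u : ℝ) ≤ eta * K4 := by linarith
  have hK40 : K0 ≤ eta * K4 := by linarith
  have hK4n : eta * K4 ≤ K4 := by
    have : (0 : ℝ) ≤ K4 := Nat.cast_nonneg _
    nlinarith
  have hKs : K1s ≤ K4 + 4 := by
    have h1 : (K1s : ℝ) ≤ K4 := by linarith
    have h2 : K1s ≤ K4 := by exact_mod_cast h1
    omega
  have hKu : K1u ≤ K4 + 4 := by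
    have h1 : (K1u : ℝ) ≤ K4 := by linarith
    have h2 : K1u ≤ K4 := by exact_mod_cast h1
    omega
  have hK41 : 1 ≤ K4 := by
    have h1 : (1 : ℝ) ≤ K4 := by
      have : 0 ≤ ((K1s : ℝ) + K1u + K0) / eta := by positivity
      linarith
    exact_mod_cast h1
  obtain ⟨CH, hse⟩ := hse (K4 + 4) hKs
  obtain ⟨CL, huns⟩ := huns (K4 + 4) hKu
  obtain ⟨C1, hC1⟩ : ∃ C1 : ℕ, C1 = CL + 1 := ⟨_, rfl⟩
  obtain ⟨Xu, huns⟩ := huns C1 (by omega)
  obtain ⟨Xs, hse⟩ := hse CL
  obtain ⟨C2, hC2⟩ := exists_nat_ge (C0 * K4 + (2 * CL + 3) + CH)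
  have hKp : (0 : ℝ) < K4 := by
    have : (1 : ℝ) ≤ K4 := by exact_mod_cast hK41
    linarith
  have hCLp : (0 : ℝ) ≤ CL := Nat.cast_nonneg _
  have hCHp : (0 : ℝ) ≤ CH := Nat.cast_nonneg _
  have hCKp : 0 < C0 * K4 := by positivity
  have hCHC2n : CH ≤ C2 := by
    have : (CH : ℝ) ≤ C2 := by linarith
    exact_mod_cast this
  have hC1p : (0 : ℝ) < C1 := by rw [hC1]; positivity
  obtain ⟨Xh, hh⟩ := Filter.eventually_atTop.1 (hh eta (t / 4) heta0 heta1 heps0
    (hsmall.trans ht1) (K4 : ℝ) (C2 : ℝ) (CL : ℝ) (C1 : ℝ) hKp (by linarith) (by linarith) hC1p)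
  obtain ⟨Xf, hfin⟩ := hfin (C2 : ℝ) (21 / 10)
  obtain ⟨Xd, hXd⟩ := Filter.eventually_atTop.1 UT.dlev_bounds
  obtain ⟨Xb, hXb⟩ := Filter.eventually_atTop.1 eventually_big
  obtain ⟨Xl, hXl⟩ := Filter.eventually_atTop.1 (eventually_loglog_le (170 / e0) (by positivity))
  refine ⟨max (max (max X1 Xu) (max Xs (Xh : ℝ))) (max (max Xf Xd) (max Xb Xl)),
    fun X hX a z hz0 hz => ?_⟩
  have hXa := (le_max_left _ _).trans hX
  have hXb' := (le_max_right _ _).trans hX
  have hX1 := (le_max_left _ _).trans ((le_max_left _ _).trans hXa)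
  have hXu := (le_max_right _ _).trans ((le_max_left _ _).trans hXa)
  have hXs := (le_max_left _ _).trans ((le_max_right _ _).trans hXa)
  have hXh := (le_max_right _ _).trans ((le_max_right _ _).trans hXa)
  have hXhn : Xh ≤ X := by exact_mod_cast hXh
  have hXf := (le_max_left _ _).trans ((le_max_left _ _).trans hXb')
  have hXdd := (le_max_right _ _).trans ((le_max_left _ _).trans hXb')
  have hXbb := (le_max_left _ _).trans ((le_max_right _ _).trans hXb')
  have hXll := (le_max_right _ _).trans ((le_max_right _ _).trans hXb')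
  have hB : Big X := hXb X hXbb
  obtain ⟨hDl, hD1, hD2, hD16⟩ := hXd X hXdd X rfl
  have hll := hXl X hXll
  have h8 := hB.L8
  have hX0 := hB.X0
  have hl1 := hB.l1
  have hL0 : 0 < Real.log (X : ℝ) := by linarith
  have hX1' : (1 : ℝ) ≤ X := by have := hB.x2; linarith
  obtain ⟨LL, hFam, hunsX⟩ := huns X hXu a
  obtain ⟨V, hV⟩ : ∃ V, V = K4 * Real.log (Real.log X) := ⟨_, rfl⟩
  obtain ⟨Lf, hLf⟩ : ∃ Lf, Lf = LS (Hit.stopL (Dlev X) V) 1 (w0 X) := ⟨_, rfl⟩
  obtain ⟨good, hgood⟩ : ∃ S, S = Lf.filter (fun b => ¬ bd (Dlev X) b b.minFac ∧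
    eta * V < Real.log ((Dlev X : ℝ) / b)) := ⟨_, rfl⟩
  obtain ⟨DDu, hDDu⟩ : ∃ S, S = good.filter (fun b => ∃ g : ℕ, g.Prime ∧ g ∣ b ∧
    (Real.log X) ^ C1 ≤ g ∧ (g : ℝ) ≤ (X : ℝ) ^ ((1 : ℝ) / 1000) ∧
    ∀ τ ∈ LL, ¬ ((g : ℤ) ∣ τ.2 * a - τ.1 ∧ Capt X a τ (b / g))) := ⟨_, rfl⟩
  obtain ⟨DDs, hDDs⟩ : ∃ S, S = good.filter (fun b => ∃ τ ∈ LL, Capt X a τ b ∧
    ¬ Low X CH a τ b) := ⟨_, rfl⟩
  have hgoodm : ∀ b, b ∈ good ↔ b ∈ Lf ∧ ¬ bd (Dlev X) b b.minFac ∧
      eta * V < Real.log ((Dlev X : ℝ) / b) := by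
    intro b; rw [hgood, Finset.mem_filter]
  have hwin : ∀ K1 : ℕ, (K1 : ℝ) ≤ eta * K4 → ∀ b ∈ good, Win X (K4 + 4) K1 b := by
    intro K1 hK1 b hb
    obtain ⟨h1, h2, h3⟩ := (hgoodm b).1 hb
    rw [hLf, hV] at h1
    rw [hV] at h3
    exact leaf_win rfl hK1 hB hD1 hD2 hD16 h1 h2 h3
  obtain ⟨levu, hlevu, hsumu⟩ := hunsX DDu (by
    intro d hd
    rw [hDDu, Finset.mem_filter] at hd
    exact ⟨hwin K1u hK4u d hd.1, hd.2⟩)
  obtain ⟨levs, hlevs, hsums⟩ := hse X hXs a LL hFam DDs (by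
    intro d hd
    rw [hDDs, Finset.mem_filter] at hd
    exact ⟨hwin K1s hK4s d hd.1, hd.2⟩)
  have hsub : DDu ∪ DDs ⊆ good := by
    apply Finset.union_subset
    · rw [hDDu]; exact Finset.filter_subset _ _
    · rw [hDDs]; exact Finset.filter_subset _ _
  by_cases heavy : (t / 4) / (Real.log X) ^ 2 ≤
      ∑ b ∈ DDu ∪ DDs, 1 / ((b : ℝ) * (Real.log ((Dlev X : ℝ) / b)) ^ 2)
  · -- heavy: UT
    refine hut X hX1 a z hz0 hz (Hit.stopL (Dlev X) V) (fun d w h => Or.inl h) (DDu ∪ DDs) ?_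
      (fun b => if b ∈ DDu then levu b else levs b) ?_ heavy ?_
    · intro b hb
      rw [← hLf]
      exact ((hgoodm b).1 (hsub hb)).1
    · intro b hb
      obtain ⟨h1, h2, h3⟩ := (hgoodm b).1 (hsub hb)
      have hst := (leaf_facts (hLf ▸ h1)).2.2.2.2
      have hmp := (leaf_facts (hLf ▸ h1)).2.2.1
      have hb1 := (leaf_facts (hLf ▸ h1)).2.1
      have hst' : Hit.Stop (Dlev X) V b b.minFac := by
        rcases hst with h | h
        · exact absurd h h2
        · exact h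
      have hb0 : (0 : ℝ) < b := by
        have : 0 < b := by omega
        exact_mod_cast this
      have hD0 : (0 : ℝ) < (Dlev X : ℝ) := by
        have : (16 : ℝ) ≤ (Dlev X : ℝ) := by exact_mod_cast hD16
        linarith
      refine ⟨h2, ?_, ?_, ?_⟩
      · have h4 := hst'.1
        unfold Hit.vv at h4
        have hm0 : (0 : ℝ) < b.minFac := by exact_mod_cast hmp.pos
        have h5 : Real.log ((Dlev X : ℝ) / b) < Real.log ((b.minFac : ℝ) ^ 4) := by
          rw [Real.log_pow]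
          push_cast
          exact h4
        have h6 : (Dlev X : ℝ) / b < (b.minFac : ℝ) ^ 4 :=
          (Real.log_lt_log_iff (by positivity) (by positivity)).1 h5
        rw [div_lt_iff₀ hb0] at h6
        linarith
      · have h4 : K0 * Real.log (Real.log X) ≤ eta * K4 * Real.log (Real.log X) :=
          mul_le_mul_of_nonneg_right hK40 (by linarith)
        have h5 : eta * K4 * Real.log (Real.log X) = eta * V := by rw [hV]; ring
        linarith
      · rcases Finset.mem_union.1 hb with h | h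
        · rw [if_pos h]; exact hlevu b h
        · by_cases h' : b ∈ DDu
          · rw [if_pos h']; exact hlevu b h'
          · rw [if_neg h']; exact hlevs b h
    · have h1 : ∑ b ∈ DDu ∪ DDs, max 0 ((X : ℝ) / b *
          Th (bd (if b ∈ DDu then levu b else levs b)) 1 b.minFac - sI a X b b.minFac) ≤
          ∑ b ∈ DDu, max 0 ((X : ℝ) / b * Th (bd (levu b)) 1 b.minFac - sI a X b b.minFac) +
          ∑ b ∈ DDs, max 0 ((X : ℝ) / b * Th (bd (levs b)) 1 b.minFac - sI a X b b.minFac) := by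
        rw [← Finset.union_sdiff_self_eq_union, Finset.sum_union Finset.disjoint_sdiff]
        apply add_le_add
        · refine le_of_eq (Finset.sum_congr rfl fun b hb => ?_)
          rw [if_pos hb]
        · have e : ∑ b ∈ DDs \ DDu, max 0 ((X : ℝ) / b *
              Th (bd (if b ∈ DDu then levu b else levs b)) 1 b.minFac - sI a X b b.minFac) =
              ∑ b ∈ DDs \ DDu, max 0 ((X : ℝ) / b * Th (bd (levs b)) 1 b.minFac -
                sI a X b b.minFac) := by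
            refine Finset.sum_congr rfl fun b hb => ?_
            rw [if_neg (Finset.mem_sdiff.1 hb).2]
          rw [e]
          exact Finset.sum_le_sum_of_subset_of_nonneg Finset.sdiff_subset
            fun _ _ _ => le_max_left _ _
      have h2 : X / (Real.log (X : ℝ)) ^ 3 + X / (Real.log (X : ℝ)) ^ 3 ≤ X / (Real.log X) ^ 2 := by
        rw [← add_div, div_le_div_iff₀ (by positivity) (by positivity)]
        have h3 : 0 ≤ (X : ℝ) * (Real.log X) ^ 2 := by positivity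
        calc (X + X : ℝ) * (Real.log X) ^ 2 = 2 * (X * (Real.log X) ^ 2) := by ring
          _ ≤ Real.log X * (X * (Real.log X) ^ 2) := by
              apply mul_le_mul_of_nonneg_right (by linarith) h3
          _ = X * (Real.log X) ^ 3 := by ring
      linarith
  · -- light: HIT and FIN
    push Not at heavy
    have hpow : ∀ n : ℕ, (Real.log (X : ℝ)) ^ n = Real.exp (n * Real.log (Real.log X)) := by
      intro n
      rw [Real.exp_nat_mul, Real.exp_log hL0]
    have hCHC2 : (Real.log (X : ℝ)) ^ CH ≤ (Real.log X) ^ C2 :=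
      pow_le_pow_right₀ (by linarith) hCHC2n
    obtain ⟨LL', hLL'⟩ : ∃ S, S = LL.filter (fun τ : ℤ × ℤ => (τ.2 : ℝ) ≤ (Real.log X) ^ CH ∧
      |(τ.1 : ℝ)| ≤ X * (Real.log X) ^ CH) := ⟨_, rfl⟩
    have hLm : ∀ τ, τ ∈ LL' ↔ τ ∈ LL ∧ (τ.2 : ℝ) ≤ (Real.log X) ^ CH ∧
      |(τ.1 : ℝ)| ≤ X * (Real.log X) ^ CH := by
      intro τ; rw [hLL', Finset.mem_filter]
    -- cardinality
    have hcard : (LL'.card : ℝ) ≤ (Real.log X) ^ (CL : ℝ) := by
      rw [Real.rpow_natCast]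
      refine le_trans ?_ hFam.1
      have : LL'.card ≤ LL.card := by
        rw [hLL']; exact Finset.card_le_card (Finset.filter_subset _ _)
      exact_mod_cast this
    -- heights
    have hheight : ∀ τ ∈ LL', 1 ≤ τ.2 ∧ (τ.2 : ℝ) ≤ (X : ℝ) ^ 2 ∧ |(τ.1 : ℝ)| ≤ (X : ℝ) ^ 2 ∧
        IsCoprime τ.1 τ.2 := by
      intro τ hτ
      obtain ⟨hτL, -, -⟩ := (hLm τ).1 hτ
      obtain ⟨f1, f2, f3, f4⟩ := hFam.2 τ hτL
      have e2 : (X : ℝ) ^ (2 : ℝ) = (X : ℝ) ^ 2 := by
        rw [show (2 : ℝ) = ((2 : ℕ) : ℝ) by norm_num, Real.rpow_natCast]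
      refine ⟨f1, f2.trans ?_, f3.trans ?_, f4⟩
      · rw [← e2]
        exact Real.rpow_le_rpow_of_exponent_le hX1' (by norm_num)
      · rw [← e2]
        exact Real.rpow_le_rpow_of_exponent_le hX1' (by norm_num)
    -- captured leaves
    have hcap : ∀ b ∈ LS (Hit.stopL (Dlev X) (K4 * Real.log (Real.log X))) 1 (w0 X),
        ¬ bd (Dlev X : ℝ) b b.minFac → b ∉ DDu ∪ DDs →
        eta * (K4 * Real.log (Real.log X)) < Real.log ((Dlev X : ℝ) / b) →
        (∃ g : ℕ, g.Prime ∧ g ∣ b ∧ (Real.log X) ^ (C1 : ℝ) ≤ (g : ℝ) ∧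
          (g : ℝ) ≤ (X : ℝ) ^ ((1 : ℝ) / 1000)) →
        (∃ p : ℕ, p.Prime ∧ p ∣ b ∧ Real.log (Dlev X) / 5 ≤ Real.log p) →
        ∃ τ ∈ LL', ∀ p : ℕ, p.Prime → p ∣ b → (Real.log X) ^ (C2 : ℝ) < (p : ℝ) →
          (p : ℤ) ∣ τ.2 * a - τ.1 := by
      intro b hb hbd hbU hv hg _
      rw [← hV] at hb hv
      rw [← hLf] at hb
      have hbgood : b ∈ good := (hgoodm b).2 ⟨hb, hbd, hv⟩
      obtain ⟨g, hgp, hgb, hg1, hg2⟩ := hg
      rw [Real.rpow_natCast] at hg1
      have hbu : b ∉ DDu := fun h => hbU (Finset.mem_union_left _ h)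
      have hbs : b ∉ DDs := fun h => hbU (Finset.mem_union_right _ h)
      obtain ⟨hsq, hb1, hmp, hlt, hst⟩ := leaf_facts (hLf ▸ hb)
      have hex : ∃ τ ∈ LL, (g : ℤ) ∣ τ.2 * a - τ.1 ∧ Capt X a τ (b / g) := by
        by_contra hcon
        push Not at hcon
        apply hbu
        rw [hDDu, Finset.mem_filter]
        exact ⟨hbgood, g, hgp, hgb, hg1, hg2, fun τ hτ h => hcon τ hτ h.1 h.2⟩
      obtain ⟨τ, hτL, hgd, hcapt⟩ := hex
      have hcb := capt_of_div hsq hgb hgd hcapt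
      have hlow : Low X CH a τ b := by
        by_contra hcon
        apply hbs
        rw [hDDs, Finset.mem_filter]
        exact ⟨hbgood, τ, hτL, hcb, hcon⟩
      obtain ⟨f1, -, -, -⟩ := hFam.2 τ hτL
      refine ⟨τ, (hLm τ).2 ⟨hτL, low_den (by omega) f1 hlow, hlow.2⟩, fun p hp hpb hplog => ?_⟩
      apply low_dvd (by omega) f1 hlow hp hpb
      rw [Real.rpow_natCast] at hplog
      exact lt_of_le_of_lt hCHC2 hplog
    obtain ⟨τ, hτ, hsum⟩ := hh X hXhn a LL' hcard hheight (DDu ∪ DDs) heavy.le hcap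
    -- FIN
    obtain ⟨hτL, hτ2, hτ1⟩ := (hLm τ).1 hτ
    obtain ⟨f1, -, -, f4⟩ := hFam.2 τ hτL
    have hVn : ((τ.2.toNat : ℕ) : ℤ) = τ.2 := Int.toNat_of_nonneg (by omega)
    have hVr : ((τ.2.toNat : ℕ) : ℝ) = (τ.2 : ℝ) := by
      rw [← Int.cast_natCast, hVn]
    obtain ⟨S1, hS1⟩ : ∃ S, S = (Tree.pr (w0 X)).filter (fun p : ℕ =>
      (Real.log X) ^ (C2 : ℝ) < (p : ℝ) ∧ ¬ (p : ℤ) ∣ τ.2 * a - τ.1) := ⟨_, rfl⟩
    obtain ⟨S2, hS2⟩ : ∃ S, S = (range ⌈z⌉₊).filter (fun p : ℕ => p.Prime ∧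
      w0 X ≤ p ∧ (p : ℝ) < z) := ⟨_, rfl⟩
    have hsum' : ∑ p ∈ S1, (1 : ℝ) / p ≤ C0 * (2 * (t / 4) + Ce * eta ^ 2) := by
      rw [hS1]
      refine le_trans (le_of_eq ?_) hsum
      congr!
    have hm2 : ∑ p ∈ S2, (1 : ℝ) / p ≤ 85 * Real.log (Real.log X) / Real.log X := by
      apply hB.mertens hz
      intro p hp
      rw [hS2, Finset.mem_filter] at hp
      exact hp.2
    have hm3 : 85 * Real.log (Real.log (X : ℝ)) / Real.log X ≤ e0 / 2 := by
      rw [div_le_iff₀ hL0]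
      have h1 : 170 * Real.log (Real.log (X : ℝ)) ≤ Real.log X * e0 := by
        rw [div_mul_eq_mul_div, div_le_iff₀ he0] at hll
        exact hll
      linarith
    have hm1 : ∑ p ∈ S1, (1 : ℝ) / p ≤ e0 / 2 := by
      refine hsum'.trans (le_trans ?_ ht2)
      gcongr
    refine hfin X hXf a τ.1 τ.2.toNat (by omega) ?_ ?_ ?_ z hz (S1 ∪ S2) ?_ ?_ ?_
    · rw [hVr, Real.rpow_natCast]
      exact hτ2.trans hCHC2
    · rw [Real.rpow_natCast]
      refine hτ1.trans ?_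
      gcongr
    · rw [hVn]; exact f4
    · intro p hp
      rcases Finset.mem_union.1 hp with h | h
      · rw [hS1, Finset.mem_filter] at h; exact prime_of_mem_pr h.1
      · rw [hS2, Finset.mem_filter] at h; exact h.2.1
    · have h1 : ∑ p ∈ S1 ∪ S2, (1 : ℝ) / p ≤ ∑ p ∈ S1, (1 : ℝ) / p + ∑ p ∈ S2, (1 : ℝ) / p := by
        rw [← Finset.sum_union_inter]
        have : 0 ≤ ∑ p ∈ S1 ∩ S2, (1 : ℝ) / p := Finset.sum_nonneg fun _ _ => by positivity
        linarith
      linarith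
    · intro p hp hpL hpz hpX
      rw [hVn]
      by_contra hcon
      apply hpX
      rw [Finset.mem_union]
      by_cases hpw : p < w0 X
      · left
        rw [hS1, Finset.mem_filter, Tree.mem_pr]
        exact ⟨⟨hpw, hp⟩, hpL, hcon⟩
      · right
        rw [hS2, Finset.mem_filter, Finset.mem_range]
        exact ⟨Nat.lt_ceil.2 hpz, hp, not_lt.1 hpw, hpz⟩

end Crest.Agent.R001.Asm
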