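import Mathlib
import Crest.Agent.R001.F1B

-- ▼ part R001/F1C
section

/-!
# R1, block F1, part C: asymptotics for the number of `w`-rough products of two primes
-/

open Finset ArithmeticFunction

namespace Crest.Agent.R001.F1

open Crest.Agent.Lib.Mertens

lemma pr_subset_Pq {x w : ℝ} (hw : 0 ≤ w) : pr w (Real.sqrt x) ⊆ Pq x w := by
  intro q hq
  rw [mem_pr hw (Real.sqrt_nonneg x)] at hq
  rw [mem_Pq]
  exact ⟨⟨hq.1.1.le, hq.1.2⟩, hq.2⟩

lemma sum_Pq_le {x w B : ℝ} (hw : 0 ≤ w) (hB : 0 ≤ B) (f : ℕ → ℝ)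
    (hf : ∀ q ∈ Pq x w, f q ≤ B) :
    ∑ q ∈ Pq x w, f q ≤ ∑ q ∈ pr w (Real.sqrt x), f q + B := by
  classical
  rw [← Finset.sum_sdiff (pr_subset_Pq hw), add_comm]
  have h1 : Pq x w \ pr w (Real.sqrt x) ⊆ {⌈w⌉₊} := by
    intro q hq
    rw [Finset.mem_sdiff, mem_Pq, mem_pr hw (Real.sqrt_nonneg x)] at hq
    obtain ⟨⟨⟨h1, h2⟩, h3⟩, h4⟩ := hq
    rw [Finset.mem_singleton]
    have h5 : ¬ w < q := fun h => h4 ⟨⟨h, h2⟩, h3⟩
    have h6 : w = q := le_antisymm h1 (not_lt.mp h5)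
    rw [h6, Nat.ceil_natCast]
  have h2 : ∑ q ∈ Pq x w \ pr w (Real.sqrt x), f q ≤ B := by
    calc ∑ q ∈ Pq x w \ pr w (Real.sqrt x), f q ≤ ∑ q ∈ Pq x w \ pr w (Real.sqrt x), B := by
          apply Finset.sum_le_sum
          intro q hq
          exact hf q (Finset.mem_sdiff.mp hq).1
      _ = (Pq x w \ pr w (Real.sqrt x)).card * B := by rw [Finset.sum_const, nsmul_eq_mul]
      _ ≤ 1 * B := by
          apply mul_le_mul_of_nonneg_right _ hB
          have := Finset.card_le_card h1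
          rw [Finset.card_singleton] at this
          exact_mod_cast this
      _ = B := one_mul B
  linarith

lemma recip_Pq {x w : ℝ} (hw : 2 ≤ w) (hx : w ^ 2 ≤ x) :
    ∑ q ∈ Pq x w, 1 / (q : ℝ) ≤ Real.log (Real.log (Real.sqrt x)) - Real.log (Real.log w) +
      19 / Real.log w := by
  have hw0 : 0 < w := by linarith
  have hws : w ≤ Real.sqrt x := Real.le_sqrt_of_sq_le hx
  have hlw : 0 < Real.log w := Real.log_pos (by linarith)
  have h1 := sum_Pq_le (x := x) (w := w) (B := 1 / w) hw0.le (by positivity)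
    (fun q => 1 / (q : ℝ)) (fun q hq => by
      rw [mem_Pq] at hq
      exact one_div_le_one_div_of_le hw0 hq.1.1)
  have h2 := (abs_le.mp (mertens_two w (Real.sqrt x) hw hws)).2
  have h3 : 1 / w ≤ 1 / Real.log w :=
    one_div_le_one_div_of_le hlw (by linarith [Real.log_le_sub_one_of_pos hw0])
  have e : 19 / Real.log w = 18 / Real.log w + 1 / Real.log w := by ring
  rw [e]
  linarith

lemma basic {x w : ℝ} (hw : 2 ≤ w) (hx : w ^ 2 ≤ x) :
    0 < x ∧ 2 ≤ Real.sqrt x ∧ 0 < Real.log w ∧ 0 < Real.log x ∧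
      Real.log (Real.sqrt x) = Real.log x / 2 ∧ w ≤ Real.sqrt x := by
  have hx4 : 4 ≤ x := by nlinarith
  have hx0 : 0 < x := by linarith
  have hws : w ≤ Real.sqrt x := Real.le_sqrt_of_sq_le hx
  exact ⟨hx0, hw.trans hws, Real.log_pos (by linarith), Real.log_pos (by linarith),
    Real.log_sqrt hx0.le, hws⟩

lemma Pq_facts {x w : ℝ} {q : ℕ} (hw : 2 ≤ w) (hx : w ^ 2 ≤ x) (hq : q ∈ Pq x w) :
    (0 : ℝ) < q ∧ Real.log w ≤ Real.log q ∧ Real.log x / 2 ≤ Real.log x - Real.log q ∧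
      2 ≤ x / q ∧ Real.log (x / q) = Real.log x - Real.log q ∧ q ≤ ⌊x / q⌋₊ := by
  obtain ⟨hx0, hs2, hlw, hlx, hls, hws⟩ := basic hw hx
  rw [mem_Pq] at hq
  obtain ⟨⟨h1, h2⟩, h3⟩ := hq
  have hq0 : (0 : ℝ) < q := by exact_mod_cast h3.pos
  have hlog : Real.log q ≤ Real.log x / 2 := by
    rw [← hls]; exact Real.log_le_log hq0 h2
  have hqx : (q : ℝ) ≤ x / q := by
    rw [le_div_iff₀ hq0]
    calc (q : ℝ) * q ≤ Real.sqrt x * Real.sqrt x :=
          mul_le_mul h2 h2 hq0.le (Real.sqrt_nonneg x)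
      _ = x := Real.mul_self_sqrt hx0.le
  refine ⟨hq0, Real.log_le_log (by linarith) h1, by linarith, by linarith, ?_, ?_⟩
  · rw [Real.log_div hx0.ne' hq0.ne']
  · exact Nat.le_floor hqx

lemma card_Pr {x w : ℝ} {q : ℕ} (hw : 2 ≤ w) (hx : w ^ 2 ≤ x) (hq : q ∈ Pq x w) :
    ((Pr x q).card : ℝ) = (Nat.primeCounting ⌊x / q⌋₊ : ℝ) - Nat.primeCounting (q - 1) := by
  obtain ⟨h1, h2, h3, h4, h5, h6⟩ := Pq_facts hw hx hq
  rw [mem_Pq] at hq
  unfold Pr
  rw [card_primes_Icc hq.2.pos (by omega)]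

/-- asymptotics for the number of products of two primes `≥ w` below `x` -/
theorem N2_asymp (h : PNT2) : ∃ C : ℝ, 0 < C ∧ ∀ x w : ℝ, 2 ≤ w → w ^ 2 ≤ x → x ≤ w ^ 5 →
    |((rk 2 x w).card : ℝ) / x -
      Real.log ((Real.log x - Real.log w) / Real.log w) / Real.log x| ≤
        C / Real.log x ^ 2 := by
  obtain ⟨C, hC⟩ := h
  obtain ⟨K, hK0, hK⟩ := cheb hC
  refine ⟨4 * |C| * 40 + 4 * K ^ 2 + 10 + 360, by positivity, ?_⟩
  intro x w hw hx hx5
  obtain ⟨hx0, hs2, hlw, hlx, hls, hws⟩ := basic hw hx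
  have hw0 : 0 < w := by linarith
  have hlx5 : Real.log x ≤ 5 * Real.log w := by
    have := Real.log_le_log hx0 hx5
    rw [Real.log_pow] at this
    exact_mod_cast this
  have hl2 : 0.6931471803 < Real.log 2 := Real.log_two_gt_d9
  have hlw2 : Real.log 2 ≤ Real.log w := Real.log_le_log (by norm_num) hw
  have hlogw : Real.log w ≤ w := by linarith [Real.log_le_sub_one_of_pos hw0]
  -- main sums
  set L := Real.log x with hL
  have hcard : ((rk 2 x w).card : ℝ) = ∑ q ∈ Pq x w,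
      ((Nat.primeCounting ⌊x / q⌋₊ : ℝ) - Nat.primeCounting (q - 1)) := by
    rw [card_rk_two hw hx0.le]
    push_cast
    exact Finset.sum_congr rfl (fun q hq => card_Pr hw hx hq)
  have hrec : ∑ q ∈ Pq x w, 1 / (q : ℝ) ≤ 40 := by
    refine (recip_Pq hw hx).trans ?_
    have h1 : Real.log (Real.log (Real.sqrt x)) - Real.log (Real.log w) ≤ 3 / 2 := by
      rw [hls, ← Real.log_div (by positivity) hlw.ne']
      refine (Real.log_le_sub_one_of_pos (by positivity)).trans ?_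
      have : Real.log x / 2 / Real.log w ≤ 5 / 2 := by
        rw [div_le_iff₀ hlw]; linarith
      linarith
    have h2 : 19 / Real.log w ≤ 28 := by
      rw [div_le_iff₀ hlw]; nlinarith
    linarith
  -- first error
  have herr1 : |((rk 2 x w).card : ℝ) - ∑ q ∈ Pq x w, x * (1 / ((q : ℝ) * (L - Real.log q)))| ≤
      (4 * |C| * 40 + 4 * K ^ 2) * x / L ^ 2 := by
    rw [hcard, ← Finset.sum_sub_distrib]
    refine (Finset.abs_sum_le_sum_abs _ _).trans ?_
    have hterm : ∀ q ∈ Pq x w, |(Nat.primeCounting ⌊x / q⌋₊ : ℝ) - Nat.primeCounting (q - 1) -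
        x * (1 / ((q : ℝ) * (L - Real.log q)))| ≤
        4 * |C| * x / L ^ 2 * (1 / (q : ℝ)) + Nat.primeCounting ⌊Real.sqrt x⌋₊ := by
      intro q hq
      obtain ⟨h1, h2, h3, h4, h5, h6⟩ := Pq_facts hw hx hq
      rw [mem_Pq] at hq
      have hC' := hC (x / q) h4
      have hpos : 0 < L - Real.log q := by
        have : 0 < L / 2 := by positivity
        linarith
      have e1 : x * (1 / ((q : ℝ) * (L - Real.log q))) = x / q / Real.log (x / q) := by
        rw [h5, ← hL]; field_simp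
      rw [e1]
      have h7 : C * (x / q) / Real.log (x / q) ^ 2 ≤ 4 * |C| * x / L ^ 2 * (1 / (q : ℝ)) := by
        rw [h5]
        calc C * (x / q) / (L - Real.log q) ^ 2 ≤ |C| * (x / q) / (L - Real.log q) ^ 2 := by
              apply div_le_div_of_nonneg_right _ (by positivity)
              exact mul_le_mul_of_nonneg_right (le_abs_self C) (by positivity)
          _ ≤ |C| * (x / q) / (L / 2) ^ 2 := by
              apply div_le_div_of_nonneg_left (by positivity) (by positivity)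
              exact pow_le_pow_left₀ (by positivity) h3 2
          _ = 4 * |C| * x / L ^ 2 * (1 / (q : ℝ)) := by
              field_simp
              ring
      have h8 : (Nat.primeCounting (q - 1) : ℝ) ≤ Nat.primeCounting ⌊Real.sqrt x⌋₊ := by
        have : q - 1 ≤ ⌊Real.sqrt x⌋₊ := by
          have := Nat.le_floor hq.1.2
          omega
        exact_mod_cast Nat.monotone_primeCounting this
      have h9 : (0 : ℝ) ≤ Nat.primeCounting (q - 1) := by positivity
      have h10 := abs_le.mp (hC'.trans h7)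
      rw [abs_le]
      constructor <;> linarith [h10.1, h10.2]
    refine (Finset.sum_le_sum hterm).trans ?_
    rw [Finset.sum_add_distrib, ← Finset.mul_sum, Finset.sum_const, nsmul_eq_mul]
    have hcardP : ((Pq x w).card : ℝ) ≤ Nat.primeCounting ⌊Real.sqrt x⌋₊ := by
      have h1 : Pq x w ⊆ (Icc 1 ⌊Real.sqrt x⌋₊).filter Nat.Prime := by
        intro q hq
        rw [mem_Pq] at hq
        rw [Finset.mem_filter, Finset.mem_Icc]
        exact ⟨⟨hq.2.pos, Nat.le_floor hq.1.2⟩, hq.2⟩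
      have h2 := Finset.card_le_card h1
      have h3 := card_primes_Icc (a := 1) (b := ⌊Real.sqrt x⌋₊) le_rfl (by omega)
      simp only [Nat.sub_self, Nat.primeCounting_zero, Nat.cast_zero, sub_zero] at h3
      rw [← h3]
      exact_mod_cast h2
    have hpi := hK (Real.sqrt x) hs2
    rw [hls] at hpi
    have hpi0 : (0 : ℝ) ≤ Nat.primeCounting ⌊Real.sqrt x⌋₊ := by positivity
    have h11 : (Pq x w).card * (Nat.primeCounting ⌊Real.sqrt x⌋₊ : ℝ) ≤ 4 * K ^ 2 * x / L ^ 2 := by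
      calc (Pq x w).card * (Nat.primeCounting ⌊Real.sqrt x⌋₊ : ℝ)
          ≤ (K * Real.sqrt x / (L / 2)) * (K * Real.sqrt x / (L / 2)) :=
            mul_le_mul (hcardP.trans hpi) hpi hpi0 (by positivity)
        _ = 4 * K ^ 2 * (Real.sqrt x * Real.sqrt x) / L ^ 2 := by
            field_simp
            ring
        _ = 4 * K ^ 2 * x / L ^ 2 := by rw [Real.mul_self_sqrt hx0.le]
    have h12 : 4 * |C| * x / L ^ 2 * ∑ q ∈ Pq x w, 1 / (q : ℝ) ≤ 4 * |C| * x / L ^ 2 * 40 :=
      mul_le_mul_of_nonneg_left hrec (by positivity)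
    have e : (4 * |C| * 40 + 4 * K ^ 2) * x / L ^ 2 =
        4 * |C| * x / L ^ 2 * 40 + 4 * K ^ 2 * x / L ^ 2 := by ring
    rw [e]
    linarith
  -- second error: the possible prime `q = w`
  have hG1 : ∑ q ∈ Pq x w, 1 / ((q : ℝ) * (L - Real.log q)) ≤ G x w + 10 / L ^ 2 := by
    apply sum_Pq_le hw0.le (by positivity)
    intro q hq
    obtain ⟨h1, h2, h3, h4, h5, h6⟩ := Pq_facts hw hx hq
    rw [mem_Pq] at hq
    have hpos : 0 < L / 2 := by positivity
    calc 1 / ((q : ℝ) * (L - Real.log q)) ≤ 1 / (w * (L / 2)) := by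
          apply one_div_le_one_div_of_le (by positivity)
          exact mul_le_mul hq.1.1 h3 hpos.le h1.le
      _ ≤ 10 / L ^ 2 := by
          rw [div_le_div_iff₀ (by positivity) (by positivity)]
          have : L ≤ 5 * w := by linarith
          nlinarith
  have hG2 : G x w ≤ ∑ q ∈ Pq x w, 1 / ((q : ℝ) * (L - Real.log q)) := by
    apply Finset.sum_le_sum_of_subset_of_nonneg (pr_subset_Pq hw0.le)
    intro q hq _
    obtain ⟨h1, h2, h3, h4, h5, h6⟩ := Pq_facts hw hx hq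
    have hpos : 0 < L / 2 := by positivity
    have : 0 < L - Real.log q := by linarith
    positivity
  have hG3 := G_bound hw hx
  have hG4 : 72 / (Real.log w * L) ≤ 360 / L ^ 2 := by
    rw [div_le_div_iff₀ (by positivity) (by positivity)]
    nlinarith
  rw [← Finset.mul_sum] at herr1
  have herr2 : |((rk 2 x w).card : ℝ) / x - ∑ q ∈ Pq x w, 1 / ((q : ℝ) * (L - Real.log q))| ≤
      (4 * |C| * 40 + 4 * K ^ 2) / L ^ 2 := by
    have e : ((rk 2 x w).card : ℝ) / x - ∑ q ∈ Pq x w, 1 / ((q : ℝ) * (L - Real.log q)) =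
        (((rk 2 x w).card : ℝ) - x * ∑ q ∈ Pq x w, 1 / ((q : ℝ) * (L - Real.log q))) / x := by
      field_simp
    rw [e, abs_div, abs_of_pos hx0, div_le_iff₀ hx0]
    refine herr1.trans (le_of_eq ?_)
    ring
  have h20 := abs_le.mp herr2
  have h21 := abs_le.mp (hG3.trans hG4)
  have e : (4 * |C| * 40 + 4 * K ^ 2 + 10 + 360) / L ^ 2 =
      (4 * |C| * 40 + 4 * K ^ 2) / L ^ 2 + 10 / L ^ 2 + 360 / L ^ 2 := by ring
  rw [e, abs_le]
  have h22 : 0 ≤ 10 / L ^ 2 := by positivity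
  constructor <;> linarith [h20.1, h20.2, h21.1, h21.2]

/-- upper bound for the number of products of two primes `≥ w` below `x` -/
theorem N2_upper (h : PNT2) : ∃ K : ℝ, 0 < K ∧ ∀ x w : ℝ, 2 ≤ w → w ^ 2 ≤ x →
    ((rk 2 x w).card : ℝ) ≤ K * x / Real.log x *
      (Real.log (Real.log (Real.sqrt x)) - Real.log (Real.log w) + 19 / Real.log w) := by
  obtain ⟨C, hC⟩ := h
  obtain ⟨K, hK0, hK⟩ := cheb hC
  refine ⟨2 * K, by positivity, ?_⟩
  intro x w hw hx
  obtain ⟨hx0, hs2, hlw, hlx, hls, hws⟩ := basic hw hx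
  have hcard : ((rk 2 x w).card : ℝ) = ∑ q ∈ Pq x w,
      ((Nat.primeCounting ⌊x / q⌋₊ : ℝ) - Nat.primeCounting (q - 1)) := by
    rw [card_rk_two hw hx0.le]
    push_cast
    exact Finset.sum_congr rfl (fun q hq => card_Pr hw hx hq)
  rw [hcard]
  calc ∑ q ∈ Pq x w, ((Nat.primeCounting ⌊x / q⌋₊ : ℝ) - Nat.primeCounting (q - 1))
      ≤ ∑ q ∈ Pq x w, 2 * K * x / Real.log x * (1 / (q : ℝ)) := by
        apply Finset.sum_le_sum
        intro q hq
        obtain ⟨h1, h2, h3, h4, h5, h6⟩ := Pq_facts hw hx hq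
        have h7 := hK (x / q) h4
        have h8 : (0 : ℝ) ≤ Nat.primeCounting (q - 1) := by positivity
        have h9 : K * (x / q) / Real.log (x / q) ≤ 2 * K * x / Real.log x * (1 / (q : ℝ)) := by
          rw [h5]
          calc K * (x / q) / (Real.log x - Real.log q) ≤ K * (x / q) / (Real.log x / 2) := by
                apply div_le_div_of_nonneg_left (by positivity) (by positivity) h3
            _ = 2 * K * x / Real.log x * (1 / (q : ℝ)) := by field_simp
        linarith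
    _ = 2 * K * x / Real.log x * ∑ q ∈ Pq x w, 1 / (q : ℝ) := by rw [Finset.mul_sum]
    _ ≤ _ := by
        apply mul_le_mul_of_nonneg_left (recip_Pq hw hx) (by positivity)

end Crest.Agent.R001.F1
end

-- ▼ part R001/F1D

/-!
# R1, block F1, part D: final estimates `F1a`, `F1b`
-/

open Finset ArithmeticFunction

namespace Crest.Agent.R001.F1

open Crest.Agent.Lib.Mertens

lemma rk_empty {k : ℕ} {x w : ℝ} (hw : 0 ≤ w) (hx : 0 ≤ x) (h : x < w ^ k) :
    rk k x w = ∅ := by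
  rw [Finset.eq_empty_iff_forall_notMem]
  intro m hm
  rw [mem_rk hx] at hm
  have := pow_le_of_rough hw hm.1.1 hm.1.2.2
  rw [hm.2] at this
  linarith [hm.1.2.1]

lemma card_rk_zero {x w : ℝ} (hx : 0 ≤ x) : (rk 0 x w).card ≤ 1 := by
  have h : rk 0 x w ⊆ {1} := by
    intro m hm
    rw [mem_rk hx] at hm
    rw [Finset.mem_singleton]
    rcases cardFactors_eq_zero_iff_eq_zero_or_one.mp hm.2 with h | h
    · omega
    · exact h
  exact (Finset.card_le_card h).trans (by simp)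

lemma rk_two_subset {x w : ℝ} : rk 2 x w ⊆
    (roughN x w).filter (fun m => Even (cardFactors m)) := by
  intro m hm
  unfold rk at hm
  rw [Finset.mem_filter] at hm ⊢
  refine ⟨hm.1, ?_⟩
  rw [hm.2]
  exact even_two

lemma even_subset {x w : ℝ} (hw : 2 ≤ w) (hx : 0 ≤ x) (h : x < w ^ 6) :
    (roughN x w).filter (fun m => Even (cardFactors m)) ⊆ rk 0 x w ∪ rk 2 x w ∪ rk 4 x w := by
  intro m hm
  rw [Finset.mem_filter] at hm
  obtain ⟨h1, h2⟩ := hm
  have h1' := h1
  rw [mem_roughN hx] at h1'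
  have h3 := pow_le_of_rough (by linarith) h1'.1 h1'.2.2
  have h4 : cardFactors m < 6 := by
    by_contra h5
    push Not at h5
    have : w ^ 6 ≤ w ^ (cardFactors m) := pow_le_pow_right₀ (by linarith) h5
    linarith [h1'.2.1]
  simp only [rk, Finset.mem_union, Finset.mem_filter]
  obtain ⟨k, hk⟩ := h2
  have h6 : cardFactors m = 0 ∨ cardFactors m = 2 ∨ cardFactors m = 4 := by omega
  rcases h6 with h6 | h6 | h6
  · left; left; exact ⟨h1, h6⟩
  · left; right; exact ⟨h1, h6⟩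
  · right; exact ⟨h1, h6⟩

lemma Rw_ge {x w : ℝ} : 2 * ((rk 2 x w).card : ℝ) ≤ Rw x w := by
  unfold Rw
  have := Finset.card_le_card (rk_two_subset (x := x) (w := w))
  have h : ((rk 2 x w).card : ℝ) ≤
      (((roughN x w).filter (fun m => Even (cardFactors m))).card : ℝ) := by exact_mod_cast this
  linarith

lemma Rw_le {x w : ℝ} (hw : 2 ≤ w) (hx : 0 ≤ x) (h : x < w ^ 6) :
    Rw x w ≤ 2 * (1 + (rk 2 x w).card + (rk 4 x w).card) := by
  classical
  unfold Rw
  have h1 := Finset.card_le_card (even_subset hw hx h)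
  have h2 := Finset.card_union_le (rk 0 x w ∪ rk 2 x w) (rk 4 x w)
  have h3 := Finset.card_union_le (rk 0 x w) (rk 2 x w)
  have h4 := card_rk_zero (x := x) (w := w) hx
  have h5 : ((roughN x w).filter (fun m => Even (cardFactors m))).card ≤
      1 + (rk 2 x w).card + (rk 4 x w).card := by omega
  have h6 : ((((roughN x w).filter (fun m => Even (cardFactors m))).card : ℕ) : ℝ) ≤
      1 + (rk 2 x w).card + (rk 4 x w).card := by exact_mod_cast h5
  linarith

/-- upper bound for rough numbers with four prime factors -/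
theorem N4_upper (h : PNT2) : ∃ K : ℝ, 0 < K ∧ ∀ x w : ℝ, 2 ≤ w → w ^ 4 ≤ x →
    ((rk 4 x w).card : ℝ) ≤ K * x * (Real.log x - 4 * Real.log w + 19) ^ 3 /
      Real.log w ^ 4 := by
  classical
  obtain ⟨C, hC⟩ := h
  obtain ⟨K, hK0, hK⟩ := cheb hC
  refine ⟨K, hK0, ?_⟩
  intro x w hw hx
  have hw0 : 0 < w := by linarith
  have hw4 : 0 < w ^ 4 := by positivity
  have hx0 : 0 < x := lt_of_lt_of_le hw4 hx
  have hlw : 0 < Real.log w := Real.log_pos (by linarith)
  set y := (x / w ^ 3) ^ 2 with hy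
  have hxw : 0 ≤ x / w ^ 3 := by positivity
  have hsq : Real.sqrt y = x / w ^ 3 := Real.sqrt_sq hxw
  have hwx : w ≤ x / w ^ 3 := by
    rw [le_div_iff₀ (by positivity)]
    calc w * w ^ 3 = w ^ 4 := by ring
      _ ≤ x := hx
  have hwy : w ^ 2 ≤ y := pow_le_pow_left₀ hw0.le hwx 2
  set Q := Pq y w with hQ
  have hmemQ : ∀ q : ℕ, q ∈ Q ↔ (w ≤ q ∧ (q : ℝ) ≤ x / w ^ 3) ∧ q.Prime := by
    intro q
    rw [hQ, mem_Pq, hsq]
  have hrec := recip_Pq hw hwy
  rw [hsq] at hrec
  set κ := Real.log x - 4 * Real.log w with hκ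
  have hκ0 : 0 ≤ κ := by
    have := Real.log_le_log hw4 hx
    rw [Real.log_pow] at this
    push_cast at this
    linarith
  have hlogxw : Real.log (x / w ^ 3) = Real.log w + κ := by
    rw [Real.log_div hx0.ne' (by positivity), Real.log_pow]
    push_cast
    ring
  have hrec2 : ∑ q ∈ Q, 1 / (q : ℝ) ≤ (κ + 19) / Real.log w := by
    refine hrec.trans ?_
    rw [hlogxw, ← Real.log_div (by positivity) hlw.ne']
    have h1 := Real.log_le_sub_one_of_pos (x := (Real.log w + κ) / Real.log w) (by positivity)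
    have h2 : (Real.log w + κ) / Real.log w - 1 = κ / Real.log w := by
      field_simp
      ring
    rw [h2] at h1
    have e : (κ + 19) / Real.log w = κ / Real.log w + 19 / Real.log w := by ring
    rw [e]
    linarith
  -- covering
  let D : ℕ × ℕ × ℕ → Finset ℕ := fun t =>
    (Icc ⌈w⌉₊ ⌊x / ((t.1 : ℝ) * t.2.1 * t.2.2)⌋₊).filter Nat.Prime
  let S : Finset ℕ := (Q ×ˢ (Q ×ˢ Q)).biUnion (fun t =>
    (D t).image (fun d => t.1 * t.2.1 * t.2.2 * d))
  have hsub : rk 4 x w ⊆ S := by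
    intro m hm
    rw [mem_rk hx0.le] at hm
    obtain ⟨⟨hm1, hm2, hm3⟩, hm4⟩ := hm
    rw [cardFactors_apply] at hm4
    have hm0 : m ≠ 0 := by omega
    obtain ⟨a, b, c, d, hl⟩ : ∃ a b c d, m.primeFactorsList = [a, b, c, d] := by
      match hh : m.primeFactorsList, hm4 with
      | [a, b, c, d], _ => exact ⟨a, b, c, d, rfl⟩
    have hprod : m = a * b * c * d := by
      have := Nat.prod_primeFactorsList hm0
      rw [hl] at this
      simp only [List.prod_cons, List.prod_nil, mul_one] at this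
      rw [← this]; ring
    have hpr : ∀ p ∈ [a, b, c, d], p.Prime ∧ w ≤ (p : ℝ) := by
      intro p hp
      rw [← hl] at hp
      have h1 := Nat.prime_of_mem_primeFactorsList hp
      exact ⟨h1, hm3 p h1 (Nat.dvd_of_mem_primeFactorsList hp)⟩
    have ha := hpr a (by simp)
    have hb := hpr b (by simp)
    have hc := hpr c (by simp)
    have hd := hpr d (by simp)
    have hmr : (a : ℝ) * b * c * d ≤ x := by
      have : ((a * b * c * d : ℕ) : ℝ) ≤ x := by rw [← hprod]; exact hm2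
      push_cast at this
      exact this
    have hA : w ≤ (a : ℝ) := ha.2
    have hB : w ≤ (b : ℝ) := hb.2
    have hCc : w ≤ (c : ℝ) := hc.2
    have hD : w ≤ (d : ℝ) := hd.2
    have hA0 : (0 : ℝ) < a := by linarith
    have hB0 : (0 : ℝ) < b := by linarith
    have hC0 : (0 : ℝ) < c := by linarith
    have hD0 : (0 : ℝ) < d := by linarith
    have e2 : ∀ u v z t : ℝ, w ≤ v → w ≤ z → w ≤ t → 0 < u → u * v * z * t ≤ x →
        u ≤ x / w ^ 3 := by
      intro u v z t hv hz ht hu hxx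
      rw [le_div_iff₀ (by positivity)]
      refine le_trans ?_ hxx
      have h1 : w * w ≤ v * z := mul_le_mul hv hz hw0.le (by linarith)
      have h2 : w * w * w ≤ v * z * t := mul_le_mul h1 ht hw0.le (by nlinarith)
      calc u * w ^ 3 = u * (w * w * w) := by ring
        _ ≤ u * (v * z * t) := mul_le_mul_of_nonneg_left h2 hu.le
        _ = u * v * z * t := by ring
    rw [Finset.mem_biUnion]
    refine ⟨(a, b, c), ?_, ?_⟩
    · rw [Finset.mem_product, Finset.mem_product]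
      refine ⟨?_, ?_, ?_⟩
      · rw [hmemQ]
        exact ⟨⟨hA, e2 a b c d hB hCc hD hA0 hmr⟩, ha.1⟩
      · rw [hmemQ]
        refine ⟨⟨hB, e2 b a c d hA hCc hD hB0 ?_⟩, hb.1⟩
        calc (b : ℝ) * a * c * d = a * b * c * d := by ring
          _ ≤ x := hmr
      · rw [hmemQ]
        refine ⟨⟨hCc, e2 c b a d hB hA hD hC0 ?_⟩, hc.1⟩
        calc (c : ℝ) * b * a * d = a * b * c * d := by ring
          _ ≤ x := hmr
    · rw [Finset.mem_image]
      refine ⟨d, ?_, hprod.symm⟩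
      simp only [D]
      rw [Finset.mem_filter, Finset.mem_Icc, Nat.ceil_le]
      refine ⟨⟨hD, ?_⟩, hd.1⟩
      apply Nat.le_floor
      rw [le_div_iff₀ (by positivity)]
      calc (d : ℝ) * (a * b * c) = a * b * c * d := by ring
        _ ≤ x := hmr
  have hDcard : ∀ t ∈ Q ×ˢ (Q ×ˢ Q), ((D t).card : ℝ) ≤
      K * x / Real.log w * ((1 / (t.1 : ℝ)) * ((1 / (t.2.1 : ℝ)) * (1 / (t.2.2 : ℝ)))) := by
    intro t ht
    rw [Finset.mem_product, Finset.mem_product, hmemQ, hmemQ, hmemQ] at ht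
    obtain ⟨⟨⟨h1, _⟩, _⟩, ⟨⟨h2, _⟩, _⟩, ⟨⟨h3, _⟩, _⟩⟩ := ht
    have ht1 : (0 : ℝ) < t.1 := by linarith
    have ht2 : (0 : ℝ) < t.2.1 := by linarith
    have ht3 : (0 : ℝ) < t.2.2 := by linarith
    set z := x / ((t.1 : ℝ) * t.2.1 * t.2.2) with hz
    have hz0 : 0 < z := by positivity
    by_cases hzw : w ≤ z
    · have hz2 : 2 ≤ z := hw.trans hzw
      have h5 := hK z hz2
      have h6 : ((D t).card : ℝ) ≤ Nat.primeCounting ⌊z⌋₊ := by
        have h7 : D t ⊆ (Icc 1 ⌊z⌋₊).filter Nat.Prime := by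
          intro q hq
          simp only [D] at hq
          rw [Finset.mem_filter, Finset.mem_Icc] at hq ⊢
          exact ⟨⟨hq.2.pos, hq.1.2⟩, hq.2⟩
        have h8 := card_primes_Icc (a := 1) (b := ⌊z⌋₊) le_rfl (by omega)
        simp only [Nat.sub_self, Nat.primeCounting_zero, Nat.cast_zero, sub_zero] at h8
        rw [← h8]
        exact_mod_cast Finset.card_le_card h7
      refine h6.trans (h5.trans ?_)
      calc K * z / Real.log z ≤ K * z / Real.log w := by
            apply div_le_div_of_nonneg_left (by positivity) hlw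
            exact Real.log_le_log hw0 hzw
        _ = _ := by rw [hz]; field_simp
    · have h6 : D t = ∅ := by
        simp only [D]
        rw [Finset.filter_eq_empty_iff]
        intro q hq
        rw [Finset.mem_Icc, Nat.ceil_le, Nat.le_floor_iff hz0.le] at hq
        exact absurd (hq.1.trans hq.2) hzw
      rw [h6]
      simp only [Finset.card_empty, Nat.cast_zero]
      positivity
  have hmain : ((rk 4 x w).card : ℝ) ≤ K * x / Real.log w * (∑ q ∈ Q, 1 / (q : ℝ)) ^ 3 := by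
    have h1 : (rk 4 x w).card ≤ ∑ t ∈ Q ×ˢ (Q ×ˢ Q), (D t).card := by
      refine (Finset.card_le_card hsub).trans ?_
      refine Finset.card_biUnion_le.trans ?_
      exact Finset.sum_le_sum (fun t _ => Finset.card_image_le)
    have h2 : ((rk 4 x w).card : ℝ) ≤ ∑ t ∈ Q ×ˢ (Q ×ˢ Q), ((D t).card : ℝ) := by
      exact_mod_cast h1
    refine h2.trans ((Finset.sum_le_sum hDcard).trans (le_of_eq ?_))
    rw [← Finset.mul_sum]
    congr 1
    have e0 : ∑ t ∈ Q ×ˢ Q, (1 / (t.1 : ℝ)) * (1 / (t.2 : ℝ)) =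
        (∑ q ∈ Q, 1 / (q : ℝ)) * (∑ q ∈ Q, 1 / (q : ℝ)) := by
      rw [Finset.sum_mul_sum, Finset.sum_product]
    calc ∑ t ∈ Q ×ˢ (Q ×ˢ Q), (1 / (t.1 : ℝ)) * ((1 / (t.2.1 : ℝ)) * (1 / (t.2.2 : ℝ)))
        = ∑ a ∈ Q, ∑ t ∈ Q ×ˢ Q, (1 / (a : ℝ)) * ((1 / (t.1 : ℝ)) * (1 / (t.2 : ℝ))) := by
          rw [Finset.sum_product]
      _ = ∑ a ∈ Q, (1 / (a : ℝ)) *
          ((∑ q ∈ Q, 1 / (q : ℝ)) * (∑ q ∈ Q, 1 / (q : ℝ))) := by
          apply Finset.sum_congr rfl
          intro a _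
          rw [← Finset.mul_sum, e0]
      _ = (∑ q ∈ Q, 1 / (q : ℝ)) ^ 3 := by
          rw [← Finset.sum_mul]
          ring
  have hSnn : 0 ≤ ∑ q ∈ Q, 1 / (q : ℝ) := Finset.sum_nonneg (fun q _ => by positivity)
  refine hmain.trans ?_
  calc K * x / Real.log w * (∑ q ∈ Q, 1 / (q : ℝ)) ^ 3
      ≤ K * x / Real.log w * ((κ + 19) / Real.log w) ^ 3 := by
        apply mul_le_mul_of_nonneg_left _ (by positivity)
        exact pow_le_pow_left₀ hSnn hrec2 3
    _ = _ := by
        field_simp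

end Crest.Agent.R001.F1
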