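import Crest.Agent.R001.FLCor
import Crest.Agent.SW.PsiAP301

-- ▼ part R001/Fin1_571
section

set_option autoImplicit false

namespace Crest.Agent.R001.Fin571

open Finset Crest.Agent.Lib.Mertens Crest.Agent.R001.FL

/-- the odd primes `≤ w` -/
noncomputable def PP (w : ℝ) : Finset ℕ := (Finset.Icc 3 ⌊w⌋₊).filter Nat.Prime

lemma mem_PP {w : ℝ} (hw : 0 ≤ w) {p : ℕ} : p ∈ PP w ↔ p.Prime ∧ 3 ≤ p ∧ (p : ℝ) ≤ w := by
  rw [PP, Finset.mem_filter, Finset.mem_Icc, Nat.le_floor_iff hw]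
  tauto

lemma PP_prime {w : ℝ} {p : ℕ} (hp : p ∈ PP w) : p.Prime := (Finset.mem_filter.1 hp).2

lemma PP_three {w : ℝ} {p : ℕ} (hp : p ∈ PP w) : 3 ≤ p :=
  (Finset.mem_Icc.1 (Finset.mem_filter.1 hp).1).1

lemma PP_le {w : ℝ} {p : ℕ} (hp : p ∈ PP w) : (p : ℝ) ≤ w := by
  have h1 := (Finset.mem_Icc.1 (Finset.mem_filter.1 hp).1).2
  have h3 := PP_three hp
  have h2 : ⌊w⌋₊ ≠ 0 := by omega
  have h4 : 0 ≤ w := by
    by_contra h
    exact h2 (Nat.floor_of_nonpos (by linarith))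
  exact (Nat.le_floor_iff h4).1 h1

/-- the density factor -/
noncomputable def FF (w : ℝ) (V b : ℕ) (r : ℕ → ℤ) : ℝ :=
  ∏ p ∈ (PP w).filter (fun p => ¬ p ∣ V ∧ ¬ (p : ℤ) ∣ (V : ℤ) * r p + b), (1 - 1 / (p : ℝ))

/-- sums over `i < H` in a class are differences of sums over a progression -/
lemma sum_prog (f : ℕ → ℝ) (V b H d v : ℕ) (hV : 0 < V) (hb : 0 < b) :
    ∑ i ∈ (range H).filter (fun i => i ≡ v [MOD d]), f (V * i + b) =
      ∑ n ∈ (Icc 1 (b + V * H - 1)).filter (fun n => n ≡ V * v + b [MOD V * d]), f n -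
      ∑ n ∈ (Icc 1 (b - 1)).filter (fun n => n ≡ V * v + b [MOD V * d]), f n := by
  classical
  have h1 : (Icc 1 (b + V * H - 1)).filter (fun n => n ≡ V * v + b [MOD V * d]) =
      (Icc 1 (b - 1)).filter (fun n => n ≡ V * v + b [MOD V * d]) ∪
      (Icc b (b + V * H - 1)).filter (fun n => n ≡ V * v + b [MOD V * d]) := by
    rw [← Finset.filter_union]
    congr 1
    ext n
    simp only [Finset.mem_union, Finset.mem_Icc]
    have : 0 ≤ V * H := Nat.zero_le _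
    omega
  have h2 : Disjoint ((Icc 1 (b - 1)).filter (fun n => n ≡ V * v + b [MOD V * d]))
      ((Icc b (b + V * H - 1)).filter (fun n => n ≡ V * v + b [MOD V * d])) := by
    rw [Finset.disjoint_left]
    intro n h3 h4
    rw [Finset.mem_filter, Finset.mem_Icc] at h3 h4
    omega
  rw [h1, Finset.sum_union h2, add_sub_cancel_left]
  refine Finset.sum_bij (fun i _ => V * i + b) ?_ ?_ ?_ ?_
  · intro i hi
    rw [Finset.mem_filter, Finset.mem_range] at hi
    rw [Finset.mem_filter, Finset.mem_Icc]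
    refine ⟨⟨by omega, ?_⟩, ?_⟩
    · have h5 : V * (i + 1) ≤ V * H := Nat.mul_le_mul_left V hi.1
      have h6 : V * (i + 1) = V * i + V := by ring
      omega
    · exact Nat.ModEq.add_right b (Nat.ModEq.mul_left' V hi.2)
  · intro i _ j _ hij
    have : V * i = V * j := by omega
    exact Nat.eq_of_mul_eq_mul_left hV this
  · intro n hn
    rw [Finset.mem_filter, Finset.mem_Icc] at hn
    obtain ⟨⟨h3, h4⟩, h5⟩ := hn
    have h6 : n ≡ V * v + b [MOD V] := h5.of_dvd (Dvd.intro d rfl)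
    have h7 : n ≡ b [MOD V] := by
      refine h6.trans ?_
      have : V * v + b ≡ 0 + b [MOD V] :=
        Nat.ModEq.add_right b ((Nat.modEq_zero_iff_dvd).2 (Dvd.intro v rfl))
      rwa [zero_add] at this
    have h8 : V ∣ n - b := (Nat.modEq_iff_dvd' h3).1 h7.symm
    obtain ⟨i, hi⟩ := h8
    have h9 : n = V * i + b := by omega
    refine ⟨i, ?_, h9.symm⟩
    rw [Finset.mem_filter, Finset.mem_range]
    constructor
    · by_contra hc
      have h10 : V * H ≤ V * i := Nat.mul_le_mul_left V (by omega)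
      have h11 : 0 < V * H ∨ V * H = 0 := by omega
      omega
    · rw [h9] at h5
      have h10 : V * i ≡ V * v [MOD V * d] := Nat.ModEq.add_right_cancel' b h5
      exact Nat.ModEq.mul_left_cancel' hV.ne' h10
  · intro i _
    rfl

/-- totient of `V * ∏ D` -/
lemma totient_mul_prod (V : ℕ) (D : Finset ℕ) (hD : ∀ p ∈ D, p.Prime) :
    ((V * ∏ p ∈ D, p).totient : ℝ) =
      (V.totient : ℝ) * ∏ p ∈ D, (if p ∣ V then (p : ℝ) else (p : ℝ) - 1) := by
  classical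
  induction D using Finset.induction_on with
  | empty => simp
  | insert p D hp ih =>
    have hpp := hD p (Finset.mem_insert_self p D)
    have ih' := ih fun q hq => hD q (Finset.mem_insert_of_mem hq)
    rw [Finset.prod_insert hp, Finset.prod_insert hp]
    have e1 : V * (p * ∏ q ∈ D, q) = p * (V * ∏ q ∈ D, q) := by ring
    have hnd : ¬ p ∣ ∏ q ∈ D, q := by
      intro h
      obtain ⟨q, hq, h2⟩ := (Nat.Prime.prime hpp).exists_mem_finset_dvd h
      have h3 := (Nat.prime_dvd_prime_iff_eq hpp (hD q (Finset.mem_insert_of_mem hq))).1 h2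
      exact hp (h3 ▸ hq)
    rw [e1]
    split_ifs with h
    · rw [Nat.totient_mul_of_prime_of_dvd hpp (Dvd.dvd.mul_right h _)]
      push_cast
      rw [ih']
      ring
    · have h2 : ¬ p ∣ V * ∏ q ∈ D, q := by
        intro h3
        rcases (Nat.Prime.dvd_mul hpp).1 h3 with h4 | h4
        · exact h h4
        · exact hnd h4
      rw [Nat.totient_mul_of_prime_of_not_dvd hpp h2]
      have h3 : 1 ≤ p := hpp.one_lt.le
      push_cast [Nat.cast_sub h3]
      rw [ih']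
      ring

end Crest.Agent.R001.Fin571
end

-- ▼ part R001/Fin2_571
section

set_option autoImplicit false

namespace Crest.Agent.R001.Fin571

open Finset Crest.Agent.Lib.Mertens Crest.Agent.R001.FL

/-- the convergent product -/
lemma prod_sq_ge (S : Finset ℕ) (hS : ∀ p ∈ S, 3 ≤ p) :
    (1 / 2 : ℝ) ≤ ∏ p ∈ S, (1 - 1 / ((p : ℝ) - 1) ^ 2) := by
  classical
  have h1 : ∀ n : ℕ, 2 ≤ n → ∏ p ∈ Finset.Icc 3 n, (1 - 1 / ((p : ℝ) - 1) ^ 2) =
      (n : ℝ) / (2 * ((n : ℝ) - 1)) := by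
    intro n hn
    induction n, hn using Nat.le_induction with
    | base => norm_num
    | succ n hn ih =>
      rw [Finset.prod_Icc_succ_top (by omega), ih]
      have h2 : (2 : ℝ) ≤ n := by exact_mod_cast hn
      have h3 : (n : ℝ) - 1 ≠ 0 := by linarith
      have h4 : (n : ℝ) ≠ 0 := by linarith
      push_cast
      have h5 : (n : ℝ) + 1 - 1 = n := by ring
      rw [h5]
      field_simp
      ring
  have hfac : ∀ p : ℕ, 3 ≤ p → 0 ≤ 1 - 1 / ((p : ℝ) - 1) ^ 2 ∧ 1 - 1 / ((p : ℝ) - 1) ^ 2 ≤ 1 := by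
    intro p hp
    have h2 : (3 : ℝ) ≤ p := by exact_mod_cast hp
    have h3 : (1 : ℝ) ≤ ((p : ℝ) - 1) ^ 2 := by nlinarith
    constructor
    · rw [sub_nonneg, div_le_one (by linarith)]; exact h3
    · have : (0 : ℝ) ≤ 1 / ((p : ℝ) - 1) ^ 2 := by positivity
      linarith
  set n := max 2 (S.sup id) with hn
  have hsub : S ⊆ Finset.Icc 3 n := by
    intro p hp
    have h2 : p ≤ S.sup id := Finset.le_sup (f := id) hp
    rw [Finset.mem_Icc]
    exact ⟨hS p hp, h2.trans (le_max_right _ _)⟩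
  have h2n : 2 ≤ n := le_max_left _ _
  have h2n' : (2 : ℝ) ≤ n := by exact_mod_cast h2n
  calc (1 / 2 : ℝ) ≤ (n : ℝ) / (2 * ((n : ℝ) - 1)) := by
        rw [div_le_div_iff₀ (by norm_num) (by linarith)]
        linarith
    _ = ∏ p ∈ Finset.Icc 3 n, (1 - 1 / ((p : ℝ) - 1) ^ 2) := (h1 n h2n).symm
    _ ≤ ∏ p ∈ S, (1 - 1 / ((p : ℝ) - 1) ^ 2) := by
        rw [← Finset.prod_sdiff hsub]
        have h3 : ∏ x ∈ Finset.Icc 3 n \ S, (1 - 1 / ((x : ℝ) - 1) ^ 2) ≤ 1 :=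
          Finset.prod_le_one
            (fun p hp => (hfac p (Finset.mem_Icc.1 (Finset.mem_sdiff.1 hp).1).1).1)
            (fun p hp => (hfac p (Finset.mem_Icc.1 (Finset.mem_sdiff.1 hp).1).1).2)
        have h4 : 0 ≤ ∏ p ∈ S, (1 - 1 / ((p : ℝ) - 1) ^ 2) :=
          Finset.prod_nonneg fun p hp => (hfac p (hS p hp)).1
        nlinarith

/-- `V / φ(V)` against primes of a subset -/
lemma prod_dvd_le (V : ℕ) (hV : 0 < V) (S : Finset ℕ) (hS : ∀ p ∈ S, p.Prime ∧ p ∣ V) :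
    1 ≤ (V : ℝ) / (V.totient : ℝ) * ∏ p ∈ S, (1 - 1 / (p : ℝ)) := by
  classical
  have h1 : (V.totient : ℝ) = V * ∏ p ∈ V.primeFactors, (1 - 1 / (p : ℝ)) := by
    have := Nat.totient_eq_mul_prod_factors V
    have h2 : ((V.totient : ℚ) : ℝ) = (((V : ℚ) * ∏ p ∈ V.primeFactors, (1 - (p : ℚ)⁻¹) : ℚ) : ℝ) := by
      rw [this]
    push_cast at h2
    rw [h2]
    simp only [one_div]
  have hfac : ∀ p ∈ V.primeFactors, 0 < 1 - 1 / (p : ℝ) ∧ 1 - 1 / (p : ℝ) ≤ 1 := by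
    intro p hp
    have h2 : (2 : ℝ) ≤ p := by exact_mod_cast (Nat.prime_of_mem_primeFactors hp).two_le
    constructor
    · rw [sub_pos, div_lt_one (by linarith)]; linarith
    · have : (0 : ℝ) ≤ 1 / p := by positivity
      linarith
  have hsub : S ⊆ V.primeFactors := fun p hp =>
    Nat.mem_primeFactors.2 ⟨(hS p hp).1, (hS p hp).2, hV.ne'⟩
  have hpos : 0 < (V.totient : ℝ) := by exact_mod_cast Nat.totient_pos.2 hV
  have h3 : ∏ p ∈ V.primeFactors, (1 - 1 / (p : ℝ)) ≤ ∏ p ∈ S, (1 - 1 / (p : ℝ)) := by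
    rw [← Finset.prod_sdiff hsub]
    have h3 : ∏ x ∈ V.primeFactors \ S, (1 - 1 / (x : ℝ)) ≤ 1 :=
      Finset.prod_le_one
        (fun p hp => (hfac p (Finset.mem_sdiff.1 hp).1).1.le)
        (fun p hp => (hfac p (Finset.mem_sdiff.1 hp).1).2)
    have h4 : 0 ≤ ∏ p ∈ S, (1 - 1 / (p : ℝ)) :=
      Finset.prod_nonneg fun p hp => (hfac p (hsub hp)).1.le
    nlinarith
  have h4 : (V : ℝ) / (V.totient : ℝ) * ∏ p ∈ V.primeFactors, (1 - 1 / (p : ℝ)) = 1 := by
    rw [div_mul_eq_mul_div, ← h1, div_self hpos.ne']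
  calc (1 : ℝ) = (V : ℝ) / (V.totient : ℝ) * ∏ p ∈ V.primeFactors, (1 - 1 / (p : ℝ)) := h4.symm
    _ ≤ (V : ℝ) / (V.totient : ℝ) * ∏ p ∈ S, (1 - 1 / (p : ℝ)) :=
        mul_le_mul_of_nonneg_left h3 (by positivity)

/-- the singular series lower bound -/
lemma sing_lower (w : ℝ) (V b : ℕ) (hV : 0 < V) (hb : b.Coprime V) (r : ℕ → ℤ) :
    (1 / 2) * FF w V b r ≤ (V : ℝ) / (V.totient : ℝ) *
      ∏ p ∈ (PP w).filter (fun p : ℕ => ¬ (p : ℤ) ∣ (V : ℤ) * r p + b),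
        (1 - 1 / (if p ∣ V then (p : ℝ) else (p : ℝ) - 1)) := by
  classical
  have h1 : (PP w).filter (fun p : ℕ => ¬ (p : ℤ) ∣ (V : ℤ) * r p + b) =
      ((PP w).filter (fun p => p ∣ V)) ∪
      (PP w).filter (fun p => ¬ p ∣ V ∧ ¬ (p : ℤ) ∣ (V : ℤ) * r p + b) := by
    ext p
    simp only [Finset.mem_union, Finset.mem_filter]
    constructor
    · rintro ⟨h2, h3⟩
      by_cases h4 : p ∣ V
      · left; exact ⟨h2, h4⟩
      · right; exact ⟨h2, h4, h3⟩
    · rintro (⟨h2, h3⟩ | ⟨h2, _, h4⟩)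
      · refine ⟨h2, fun h5 => ?_⟩
        have h6 : (p : ℤ) ∣ (b : ℤ) := by
          have h7 : (p : ℤ) ∣ (V : ℤ) * r p := Dvd.dvd.mul_right (by exact_mod_cast h3) _
          exact (Int.dvd_add_right h7).1 h5
        have h7 : p ∣ b := by exact_mod_cast h6
        have h8 := Nat.dvd_gcd h7 h3
        rw [hb] at h8
        have := (PP_prime h2).one_lt
        have := Nat.le_of_dvd one_pos h8
        omega
      · exact ⟨h2, h4⟩
  have h2 : Disjoint ((PP w).filter (fun p => p ∣ V))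
      ((PP w).filter (fun p => ¬ p ∣ V ∧ ¬ (p : ℤ) ∣ (V : ℤ) * r p + b)) := by
    rw [Finset.disjoint_left]
    intro p h3 h4
    rw [Finset.mem_filter] at h3 h4
    exact h4.2.1 h3.2
  rw [h1, Finset.prod_union h2, ← mul_assoc]
  have h3 : ∏ p ∈ (PP w).filter (fun p => p ∣ V),
      (1 - 1 / (if p ∣ V then (p : ℝ) else (p : ℝ) - 1)) =
      ∏ p ∈ (PP w).filter (fun p => p ∣ V), (1 - 1 / (p : ℝ)) := by
    apply Finset.prod_congr rfl
    intro p hp
    rw [if_pos (Finset.mem_filter.1 hp).2]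
  have h4 := prod_dvd_le V hV ((PP w).filter (fun p => p ∣ V)) fun p hp =>
    ⟨PP_prime (Finset.mem_filter.1 hp).1, (Finset.mem_filter.1 hp).2⟩
  rw [h3]
  set S := (PP w).filter (fun p => ¬ p ∣ V ∧ ¬ (p : ℤ) ∣ (V : ℤ) * r p + b) with hS
  have h5 : ∏ p ∈ S, (1 - 1 / (if p ∣ V then (p : ℝ) else (p : ℝ) - 1)) =
      (∏ p ∈ S, (1 - 1 / ((p : ℝ) - 1) ^ 2)) * ∏ p ∈ S, (1 - 1 / (p : ℝ)) := by
    rw [← Finset.prod_mul_distrib]
    apply Finset.prod_congr rfl
    intro p hp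
    rw [hS, Finset.mem_filter] at hp
    rw [if_neg hp.2.1]
    have h6 : (3 : ℝ) ≤ p := by exact_mod_cast PP_three hp.1
    have h7 : (p : ℝ) - 1 ≠ 0 := by linarith
    have h8 : (p : ℝ) ≠ 0 := by linarith
    field_simp
    ring
  have h6 := prod_sq_ge S fun p hp => PP_three (Finset.mem_filter.1 hp).1
  have h7 : 0 ≤ ∏ p ∈ S, (1 - 1 / (p : ℝ)) := by
    apply Finset.prod_nonneg
    intro p hp
    have h8 : (3 : ℝ) ≤ p := by exact_mod_cast PP_three (Finset.mem_filter.1 hp).1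
    rw [sub_nonneg, div_le_one (by linarith)]
    linarith
  rw [h5]
  have h8 : FF w V b r = ∏ p ∈ S, (1 - 1 / (p : ℝ)) := rfl
  rw [h8]
  have h9 : (1 / 2) * ∏ p ∈ S, (1 - 1 / (p : ℝ)) ≤
      (∏ p ∈ S, (1 - 1 / ((p : ℝ) - 1) ^ 2)) * ∏ p ∈ S, (1 - 1 / (p : ℝ)) :=
    mul_le_mul_of_nonneg_right h6 h7
  have h10 : 0 ≤ (∏ p ∈ S, (1 - 1 / ((p : ℝ) - 1) ^ 2)) * ∏ p ∈ S, (1 - 1 / (p : ℝ)) := by
    refine le_trans ?_ h9
    positivity
  nlinarith

lemma FF_pos (w : ℝ) (V b : ℕ) (r : ℕ → ℤ) : 0 < FF w V b r := by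
  apply Finset.prod_pos
  intro p hp
  have h8 : (3 : ℝ) ≤ p := by exact_mod_cast PP_three (Finset.mem_filter.1 hp).1
  rw [sub_pos, div_lt_one (by linarith)]
  linarith

lemma FF_ge (w : ℝ) (hw : 2 ≤ w) (V b : ℕ) (r : ℕ → ℤ) : 1 / w ≤ FF w V b r := by
  apply prod_ge_inv _ _ w hw
  · intro p hp
    exact PP_le (Finset.mem_filter.1 hp).1
  · intro p hp
    have := PP_three (Finset.mem_filter.1 hp).1
    omega

end Crest.Agent.R001.Fin571
end

-- ▼ part R001/Fin3_571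
section

set_option autoImplicit false

namespace Crest.Agent.R001.Fin571

open Finset Crest.Agent.Lib.Mertens Crest.Agent.R001.FL ArithmeticFunction

/-- CRT with natural numbers -/
lemma crt_nat (D : Finset ℕ) (hD : ∀ p ∈ D, p.Prime) (r : ℕ → ℤ) :
    ∃ v : ℕ, (∀ p ∈ D, (v : ℤ) ≡ r p [ZMOD p]) ∧
      ∀ i : ℕ, (∀ p ∈ D, (i : ℤ) ≡ r p [ZMOD p]) ↔ i ≡ v [MOD ∏ p ∈ D, p] := by
  obtain ⟨v, hv⟩ := exists_crt D hD r
  have hpos : 0 < ∏ p ∈ D, p := Finset.prod_pos fun p hp => (hD p hp).pos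
  have hpos' : (0 : ℤ) < ((∏ p ∈ D, p : ℕ) : ℤ) := by exact_mod_cast hpos
  set v' : ℕ := (v % ((∏ p ∈ D, p : ℕ) : ℤ)).toNat with hv'
  have h1 : (v' : ℤ) = v % ((∏ p ∈ D, p : ℕ) : ℤ) :=
    Int.toNat_of_nonneg (Int.emod_nonneg _ hpos'.ne')
  have h2 : (v' : ℤ) ≡ v [ZMOD ((∏ p ∈ D, p : ℕ) : ℤ)] := by
    rw [h1]; exact Int.mod_modEq _ _
  refine ⟨v', (hv v').2 h2, fun i => ?_⟩
  rw [hv i]
  constructor
  · intro h
    exact Int.natCast_modEq_iff.1 (h.trans h2.symm)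
  · intro h
    exact (Int.natCast_modEq_iff.2 h).trans h2

lemma AD_est (V b H : ℕ) (hV : 0 < V) (hb : 0 < b) (hbV : b.Coprime V) (r : ℕ → ℤ) (E Q : ℝ)
    (h1 : ∀ q : ℕ, 1 ≤ q → (q : ℝ) ≤ Q → ∀ c : ℕ, c.Coprime q →
      |∑ n ∈ (Icc 1 (b + V * H - 1)).filter (fun n => n ≡ c [MOD q]), Λ n -
        ((b + V * H - 1 : ℕ) : ℝ) / (Nat.totient q : ℝ)| ≤ E)
    (h0 : ∀ q : ℕ, 1 ≤ q → (q : ℝ) ≤ Q → ∀ c : ℕ, c.Coprime q →
      |∑ n ∈ (Icc 1 (b - 1)).filter (fun n => n ≡ c [MOD q]), Λ n -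
        ((b - 1 : ℕ) : ℝ) / (Nat.totient q : ℝ)| ≤ E)
    (D : Finset ℕ) (hD : ∀ p ∈ D, p.Prime ∧ ¬ (p : ℤ) ∣ (V : ℤ) * r p + b)
    (hDQ : (V : ℝ) * ∏ p ∈ D, (p : ℝ) ≤ Q) :
    |∑ i ∈ (range H).filter (fun i : ℕ => ∀ p ∈ D, (i : ℤ) ≡ r p [ZMOD p]), Λ (V * i + b) -
      (∏ p ∈ D, (1 / (if p ∣ V then (p : ℝ) else (p : ℝ) - 1))) *
        ((V : ℝ) * H / (V.totient : ℝ))| ≤ 2 * E := by
  classical
  obtain ⟨v, hv, hiff⟩ := crt_nat D (fun p hp => (hD p hp).1) r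
  set d := ∏ p ∈ D, p with hd
  have hdpos : 0 < d := Finset.prod_pos fun p hp => (hD p hp).1.pos
  have hfil : (range H).filter (fun i : ℕ => ∀ p ∈ D, (i : ℤ) ≡ r p [ZMOD p]) =
      (range H).filter (fun i => i ≡ v [MOD d]) := by
    apply Finset.filter_congr
    intro i _
    exact hiff i
  rw [hfil, sum_prog (fun n => Λ n) V b H d v hV hb]
  have hcop : (V * v + b).Coprime (V * d) := by
    apply Nat.Coprime.mul_right
    · rw [Nat.coprime_mul_left_add_left]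
      exact hbV
    · rw [hd]
      apply Nat.Coprime.prod_right
      intro p hp
      rw [Nat.coprime_comm, Nat.Prime.coprime_iff_not_dvd (hD p hp).1]
      intro h
      apply (hD p hp).2
      have h3 : (p : ℤ) ∣ ((V * v + b : ℕ) : ℤ) := by exact_mod_cast h
      have h4 : (V : ℤ) * r p + b = ((V * v + b : ℕ) : ℤ) + V * (r p - v) := by
        push_cast; ring
      rw [h4]
      apply dvd_add h3
      apply Dvd.dvd.mul_left
      exact (Int.modEq_iff_dvd.1 (hv p hp))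
  have hq1 : 1 ≤ V * d := Nat.mul_pos hV hdpos
  have hqQ : ((V * d : ℕ) : ℝ) ≤ Q := by
    rw [hd]; push_cast; exact hDQ
  have a1 := h1 (V * d) hq1 hqQ (V * v + b) hcop
  have a0 := h0 (V * d) hq1 hqQ (V * v + b) hcop
  have htot := totient_mul_prod V D fun p hp => (hD p hp).1
  rw [← hd] at htot
  have hφV : (0 : ℝ) < (V.totient : ℝ) := by exact_mod_cast Nat.totient_pos.2 hV
  have hφ : (0 : ℝ) < ((V * d).totient : ℝ) := by exact_mod_cast Nat.totient_pos.2 hq1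
  have hprodpos : 0 < ∏ p ∈ D, (if p ∣ V then (p : ℝ) else (p : ℝ) - 1) := by
    by_contra hcon
    rw [htot] at hφ
    have := mul_nonpos_of_nonneg_of_nonpos hφV.le (not_lt.1 hcon)
    linarith
  have hmain : (∏ p ∈ D, (1 / (if p ∣ V then (p : ℝ) else (p : ℝ) - 1))) *
        ((V : ℝ) * H / (V.totient : ℝ)) =
      ((b + V * H - 1 : ℕ) : ℝ) / ((V * d).totient : ℝ) -
        ((b - 1 : ℕ) : ℝ) / ((V * d).totient : ℝ) := by
    rw [← sub_div]
    have e1 : ((b + V * H - 1 : ℕ) : ℝ) - ((b - 1 : ℕ) : ℝ) = V * H := by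
      rw [Nat.cast_sub (by omega), Nat.cast_sub (by omega)]
      push_cast
      ring
    rw [e1, htot, Finset.prod_div_distrib, Finset.prod_const_one]
    field_simp
  rw [hmain]
  rw [abs_le] at a1 a0 ⊢
  constructor <;> linarith [a1.1, a1.2, a0.1, a0.2]

/-- prime powers are negligible -/
lemma nonprime_le (V b H : ℕ) (hV : 0 < V) (hb : 0 < b) (x : ℕ) (hx : b + V * H ≤ x + 1) (hx1 : 1 ≤ x) :
    ∑ i ∈ (range H).filter (fun i => ¬ (V * i + b).Prime), Λ (V * i + b) ≤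
      2 * Real.sqrt x * Real.log x := by
  classical
  have h1 : ∑ i ∈ (range H).filter (fun i => ¬ (V * i + b).Prime), Λ (V * i + b) =
      ∑ n ∈ ((range H).filter (fun i => ¬ (V * i + b).Prime)).image (fun i => V * i + b), Λ n := by
    rw [Finset.sum_image]
    intro i _ j _ hij
    have : V * i = V * j := by
      have h2 : V * i + b = V * j + b := hij
      omega
    exact Nat.eq_of_mul_eq_mul_left hV this
  rw [h1]
  have h2 := Chebyshev.psi_sub_theta_le (x := (x : ℝ)) (by exact_mod_cast hx1)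
  rw [Chebyshev.psi_sub_theta_eq_sum_not_prime, Nat.floor_natCast] at h2
  refine le_trans (Finset.sum_le_sum_of_subset_of_nonneg ?_ ?_) h2
  · intro n hn
    rw [Finset.mem_image] at hn
    obtain ⟨i, hi, rfl⟩ := hn
    rw [Finset.mem_filter, Finset.mem_range] at hi
    rw [Finset.mem_filter, Finset.mem_Ioc]
    refine ⟨⟨by omega, ?_⟩, hi.2⟩
    have h5 : V * (i + 1) ≤ V * H := Nat.mul_le_mul_left V hi.1
    have h6 : V * (i + 1) = V * i + V := by ring
    omega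
  · intro n _ _
    exact vonMangoldt_nonneg

end Crest.Agent.R001.Fin571
end

-- ▼ part R001/Fin4_571
section

set_option autoImplicit false

namespace Crest.Agent.R001.Fin571

open Finset Crest.Agent.Lib.Mertens Crest.Agent.R001.FL ArithmeticFunction

/-- end of the proof of the lower bound: from the sieve output to the number of primes. -/
lemma lower_tail {X L w : ℝ} (hL1 : 1 ≤ L) (hw2 : 2 ≤ w) (hXpos : 0 < X)
    (V b H x1 s A : ℕ) (r : ℕ → ℤ) (C : ℝ)
    (hV : 0 < V) (hb : 0 < b) (hbV : b.Coprime V)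
    (hx1 : b + V * H ≤ x1 + 1) (hx1L : Real.log x1 ≤ 2 * L) (hx1X : (x1 : ℝ) ≤ 6 * X * w)
    (hx11 : 1 ≤ x1)
    (hbw : w < b) (hH : X / 32 ≤ H)
    (hwA : w ^ (s + 2) * L ≤ L ^ A)
    (hC : 12 * 512 * |C| * 2 ^ A ≤ L)
    (hX3 : 2048 ^ 2 * 6 * (w ^ 3 * L ^ 2) ≤ X)
    (P1 : Finset ℕ) (hP1 : P1 = (PP w).filter (fun p : ℕ => ¬ (p : ℤ) ∣ (V : ℤ) * r p + b))
    (h2 : (1 - 1 / 2) * (∏ p ∈ P1, (1 - 1 / (if p ∣ V then (p : ℝ) else (p : ℝ) - 1))) *
        ((V : ℝ) * H / (V.totient : ℝ)) - 2 * (|C| * x1 / (L / 2) ^ A) * w ^ s ≤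
        ∑ i ∈ (range H).filter (fun i : ℕ => P1.filter (fun p : ℕ => (i : ℤ) ≡ r p [ZMOD p]) = ∅),
          Λ (V * i + b)) :
    (1 / 16) * (H / L) * FF w V b r ≤
        (((range H).filter (fun i : ℕ => (V * i + b).Prime ∧
          ∀ p ∈ PP w, ¬ (i : ℤ) ≡ r p [ZMOD p])).card : ℝ) := by
  classical
  have hL0 : 0 < L := by linarith
  have hw0 : 0 < w := by linarith
  set F := FF w V b r with hF
  have hF0 : 0 < F := FF_pos _ _ _ _
  have hFw : 1 / w ≤ F := FF_ge w hw2 _ _ _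
  have hFH : X / (32 * w) ≤ F * H := by
    calc X / (32 * w) = 1 / w * (X / 32) := by field_simp
      _ ≤ F * H := mul_le_mul hFw hH (by positivity) hF0.le
  -- error one
  have e1 : 2 * (|C| * x1 / (L / 2) ^ A) * w ^ s ≤ F * H / 16 := by
    have a1 : 2 * (|C| * x1 / (L / 2) ^ A) * w ^ s ≤
        2 * (|C| * (6 * X * w) / (L / 2) ^ A) * w ^ s := by gcongr
    have a2 : 2 * (|C| * (6 * X * w) / (L / 2) ^ A) * w ^ s =
        (12 * |C| * 2 ^ A) * (X * w ^ (s + 1)) / L ^ A := by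
      rw [div_pow]
      field_simp
      ring
    have a3 : (12 * |C| * 2 ^ A) * (X * w ^ (s + 1)) / L ^ A ≤
        (L / 512) * (X * w ^ (s + 1)) / (w ^ (s + 2) * L) := by
      have : 12 * |C| * 2 ^ A ≤ L / 512 := by
        rw [le_div_iff₀ (by norm_num)]
        linarith
      gcongr
    have a4 : (L / 512) * (X * w ^ (s + 1)) / (w ^ (s + 2) * L) = X / (32 * w) / 16 := by
      field_simp
      ring
    rw [a4] at a3
    rw [a2] at a1
    linarith
  -- error two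
  have e2 : 2 * Real.sqrt x1 * Real.log x1 ≤ F * H / 16 := by
    have b1 : Real.sqrt x1 ≤ X / (2048 * w * L) := by
      rw [Real.sqrt_le_iff]
      refine ⟨by positivity, hx1X.trans ?_⟩
      rw [div_pow, le_div_iff₀ (by positivity)]
      have : 6 * X * w * (2048 * w * L) ^ 2 = X * (2048 ^ 2 * 6 * (w ^ 3 * L ^ 2)) := by ring
      rw [this, sq X]
      exact mul_le_mul_of_nonneg_left hX3 hXpos.le
    have b2 : 0 ≤ Real.log x1 := Real.log_natCast_nonneg _
    calc 2 * Real.sqrt x1 * Real.log x1 ≤ 2 * (X / (2048 * w * L)) * (2 * L) := by gcongr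
      _ = X / (32 * w) / 16 := by field_simp; ring
      _ ≤ F * H / 16 := by linarith
  -- main
  have m1 := sing_lower w V b hV hbV r
  rw [← hP1, ← hF] at m1
  have m2 : (1 - 1 / 2) * (∏ p ∈ P1, (1 - 1 / (if p ∣ V then (p : ℝ) else (p : ℝ) - 1))) *
        ((V : ℝ) * H / (V.totient : ℝ)) =
      (1 / 2) * H * ((V : ℝ) / (V.totient : ℝ) *
        ∏ p ∈ P1, (1 - 1 / (if p ∣ V then (p : ℝ) else (p : ℝ) - 1))) := by ring
  have m3 : (1 / 2) * H * ((1 / 2) * F) ≤ (1 / 2) * H * ((V : ℝ) / (V.totient : ℝ) *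
        ∏ p ∈ P1, (1 - 1 / (if p ∣ V then (p : ℝ) else (p : ℝ) - 1))) :=
    mul_le_mul_of_nonneg_left m1 (by positivity)
  -- splitting
  set T : Finset ℕ := (range H).filter
    (fun i : ℕ => P1.filter (fun p : ℕ => (i : ℤ) ≡ r p [ZMOD p]) = ∅) with hT
  have sp : ∑ i ∈ T, Λ (V * i + b) = ∑ i ∈ T.filter (fun i => (V * i + b).Prime), Λ (V * i + b) +
      ∑ i ∈ T.filter (fun i => ¬ (V * i + b).Prime), Λ (V * i + b) :=
    (Finset.sum_filter_add_sum_filter_not _ _ _).symm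
  have sp2 : ∑ i ∈ T.filter (fun i => ¬ (V * i + b).Prime), Λ (V * i + b) ≤ F * H / 16 := by
    refine le_trans ?_ ((nonprime_le V b H hV hb x1 hx1 hx11).trans e2)
    apply Finset.sum_le_sum_of_subset_of_nonneg
    · apply Finset.filter_subset_filter
      exact Finset.filter_subset _ _
    · intro i _ _
      exact vonMangoldt_nonneg
  have hin : ∀ i < H, V * i + b ≤ x1 := by
    intro i hi
    have h5 : V * (i + 1) ≤ V * H := Nat.mul_le_mul_left V hi
    have h6 : V * (i + 1) = V * i + V := by ring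
    omega
  have sp3 : ∑ i ∈ T.filter (fun i => (V * i + b).Prime), Λ (V * i + b) ≤
      ((T.filter (fun i => (V * i + b).Prime)).card : ℝ) * (2 * L) := by
    rw [← nsmul_eq_mul]
    apply Finset.sum_le_card_nsmul
    intro i hi
    rw [Finset.mem_filter, hT, Finset.mem_filter, Finset.mem_range] at hi
    rw [vonMangoldt_apply_prime hi.2]
    refine le_trans (Real.log_le_log ?_ ?_) hx1L
    · exact_mod_cast hi.2.pos
    · exact_mod_cast hin i hi.1.1
  have sp4 : ((T.filter (fun i => (V * i + b).Prime)).card : ℝ) ≤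
      (((range H).filter (fun i : ℕ => (V * i + b).Prime ∧
          ∀ p ∈ PP w, ¬ (i : ℤ) ≡ r p [ZMOD p])).card : ℝ) := by
    have : (T.filter (fun i => (V * i + b).Prime)) ⊆ ((range H).filter (fun i : ℕ =>
        (V * i + b).Prime ∧ ∀ p ∈ PP w, ¬ (i : ℤ) ≡ r p [ZMOD p])) := by
      intro i hi
      rw [Finset.mem_filter, hT, Finset.mem_filter, Finset.filter_eq_empty_iff] at hi
      rw [Finset.mem_filter]
      refine ⟨hi.1.1, hi.2, fun p hp hip => ?_⟩
      by_cases hc : (p : ℤ) ∣ (V : ℤ) * r p + b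
      · have h3 : (p : ℤ) ∣ ((V * i + b : ℕ) : ℤ) := by
          have h4 : ((V * i + b : ℕ) : ℤ) = (V : ℤ) * r p + b + V * (i - r p) := by
            push_cast; ring
          rw [h4]
          apply dvd_add hc
          apply Dvd.dvd.mul_left
          exact Int.modEq_iff_dvd.1 hip.symm
        have h5 : p ∣ V * i + b := by exact_mod_cast h3
        have h6 := (Nat.prime_dvd_prime_iff_eq (PP_prime hp) hi.2).1 h5
        have h7 : (b : ℝ) ≤ p := by
          rw [h6]; push_cast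
          have : (0 : ℝ) ≤ (V : ℝ) * i := by positivity
          linarith
        linarith [PP_le hp]
      · exact hi.1.2 (by rw [hP1, Finset.mem_filter]; exact ⟨hp, hc⟩) hip
    exact_mod_cast Finset.card_le_card this
  rw [m2] at h2
  have fin1 : F * H / 8 ≤ (((range H).filter (fun i : ℕ => (V * i + b).Prime ∧
          ∀ p ∈ PP w, ¬ (i : ℤ) ≡ r p [ZMOD p])).card : ℝ) * (2 * L) := by
    have h5 := mul_le_mul_of_nonneg_right sp4 (by positivity : 0 ≤ 2 * L)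
    linarith
  have fin2 : (1 / 16) * (H / L) * F = (F * H / 8) / (2 * L) := by
    field_simp
    ring
  rw [fin2, div_le_iff₀ (by positivity)]
  exact fin1

end Crest.Agent.R001.Fin571
end

-- ▼ part R001/Fin5_571

set_option autoImplicit false

namespace Crest.Agent.R001.Fin571

open Finset Crest.Agent.Lib.Mertens Crest.Agent.R001.FL ArithmeticFunction

lemma ev_log (M : ℝ) : ∃ X0 : ℝ, ∀ X : ℝ, X0 ≤ X → M ≤ Real.log X := by
  have h := Real.tendsto_log_atTop.eventually_ge_atTop M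
  obtain ⟨X0, h0⟩ := Filter.eventually_atTop.1 h
  exact ⟨X0, fun X hX => h0 X hX⟩

lemma ev_pow (n : ℕ) (M : ℝ) : ∃ X0 : ℝ, ∀ X : ℝ, X0 ≤ X → M * (Real.log X) ^ n ≤ X := by
  have h := (Real.isLittleO_pow_log_id_atTop (n := n)).def (c := 1 / (|M| + 1)) (by positivity)
  obtain ⟨X0, h0⟩ := Filter.eventually_atTop.1 h
  refine ⟨max X0 1, fun X hX => ?_⟩
  have h1 := h0 X ((le_max_left _ _).trans hX)
  have hX1 : 1 ≤ X := (le_max_right _ _).trans hX
  have hl : 0 ≤ Real.log X := Real.log_nonneg hX1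
  rw [Real.norm_of_nonneg (by positivity), id, Real.norm_of_nonneg (by linarith)] at h1
  have h2 : (|M| + 1) * (Real.log X) ^ n ≤ X := by
    calc (|M| + 1) * (Real.log X) ^ n ≤ (|M| + 1) * (1 / (|M| + 1) * X) := by gcongr
      _ = X := by field_simp
  have h3 : M * (Real.log X) ^ n ≤ (|M| + 1) * (Real.log X) ^ n := by
    gcongr
    linarith [le_abs_self M]
  exact h3.trans h2

/-- **(A)** the lower bound -/
theorem lower (hSW : Crest.Agent.SW.PsiAP) (C1 : ℕ) (hC1 : 1 ≤ C1) :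
    ∃ X0 : ℝ, ∀ X : ℝ, X0 ≤ X → ∀ (V b H : ℕ) (r : ℕ → ℤ),
      0 < V → b.Coprime V → (V : ℝ) ≤ 4 * (Real.log X) ^ C1 → X / 32 ≤ H → (H : ℝ) ≤ X →
      X / 8 ≤ b → (b : ℝ) ≤ 2 * X * (Real.log X) ^ C1 →
      (1 / 16) * (H / Real.log X) * FF ((Real.log X) ^ C1) V b r ≤
        (((range H).filter (fun i : ℕ => (V * i + b).Prime ∧
          ∀ p ∈ PP ((Real.log X) ^ C1), ¬ (i : ℤ) ≡ r p [ZMOD p])).card : ℝ) := by
  classical
  obtain ⟨K, hK, hdim⟩ := dim_of 1 2 (1 / 2) (by norm_num) (by norm_num) (by norm_num)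
  obtain ⟨s, hs, Hs⟩ := sieve_weighted 1 K (1 / 2) (by norm_num) hK (by norm_num)
  set A : ℕ := C1 * (s + 2) + 1 with hA
  set B : ℕ := C1 * (s + 1) + 1 with hB
  obtain ⟨C, hC⟩ := hSW (A : ℝ) (B : ℝ)
  obtain ⟨X1, hX1⟩ := ev_log (max (max 2 (2 * Real.log 16)) (max (4 * 2 ^ B) (12 * 512 * |C| * 2 ^ A)))
  obtain ⟨X2, hX2⟩ := ev_pow (3 * C1 + 2) (2048 ^ 2 * 6)
  refine ⟨max (max X1 X2) 32, fun X hX V b H r hV hbV hV4 hH1 hH2 hb1 hb2 => ?_⟩
  have hX1' := hX1 X ((le_max_left _ _).trans ((le_max_left _ _).trans hX))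
  have hX2' := hX2 X ((le_max_right _ _).trans ((le_max_left _ _).trans hX))
  have hX32 : 32 ≤ X := (le_max_right _ _).trans hX
  set L := Real.log X with hL
  have hL2 : 2 ≤ L := (le_max_left _ _).trans ((le_max_left _ _).trans hX1')
  have hL16 : 2 * Real.log 16 ≤ L := (le_max_right _ _).trans ((le_max_left _ _).trans hX1')
  have hLB : 4 * 2 ^ B ≤ L := (le_max_left _ _).trans ((le_max_right _ _).trans hX1')
  have hLA : 12 * 512 * |C| * 2 ^ A ≤ L := (le_max_right _ _).trans ((le_max_right _ _).trans hX1')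
  have hL1 : 1 ≤ L := by linarith
  have hL0 : 0 < L := by linarith
  set w := L ^ C1 with hw
  have hwL : L ≤ w := by
    calc L = L ^ 1 := (pow_one L).symm
      _ ≤ L ^ C1 := pow_le_pow_right₀ hL1 hC1
  have hw2 : 2 ≤ w := by linarith
  have hw1 : 1 ≤ w := by linarith
  have hw0 : 0 < w := by linarith
  have hXpos : 0 < X := by linarith
  -- w^3 L^2 bound
  have hX3 : 2048 ^ 2 * 6 * (w ^ 3 * L ^ 2) ≤ X := by
    have : w ^ 3 * L ^ 2 = L ^ (3 * C1 + 2) := by rw [hw]; ring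
    rw [this]; exact hX2'
  have hw3 : w ≤ w ^ 3 * L ^ 2 := by
    have h1 : 1 ≤ w ^ 2 * L ^ 2 :=
      one_le_mul_of_one_le_of_one_le (one_le_pow₀ hw1) (one_le_pow₀ hL1)
    have e : w ^ 3 * L ^ 2 = w * (w ^ 2 * L ^ 2) := by ring
    rw [e]
    exact le_mul_of_one_le_right hw0.le h1
  have hwX : 2048 * w ≤ X := by linarith
  -- the endpoints
  set x1 : ℕ := b + V * H - 1 with hx1
  set x0 : ℕ := b - 1 with hx0
  have hbpos : 0 < b := by
    have : (0 : ℝ) < b := by linarith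
    exact_mod_cast this
  have hb4 : (4 : ℝ) ≤ b := by linarith
  have hx0r : (x0 : ℝ) = b - 1 := by
    rw [hx0, Nat.cast_sub (by omega)]; norm_num
  have hx0X : X / 16 ≤ x0 := by rw [hx0r]; linarith
  have hx02 : (2 : ℝ) ≤ x0 := by linarith
  have hVH : (V : ℝ) * H ≤ 4 * w * X := mul_le_mul hV4 hH2 (by positivity) (by positivity)
  have hx1r : (x1 : ℝ) = b + V * H - 1 := by
    rw [hx1, Nat.cast_sub (by omega)]; push_cast; ring
  have hx1X : (x1 : ℝ) ≤ 6 * X * w := by rw [hx1r]; linarith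
  have hx01 : (x0 : ℝ) ≤ x1 := by
    rw [hx0r, hx1r]
    have : (0 : ℝ) ≤ V * H := by positivity
    linarith
  have hlogx0 : L / 2 ≤ Real.log x0 := by
    have h1 : Real.log (X / 16) ≤ Real.log x0 := Real.log_le_log (by positivity) hx0X
    rw [Real.log_div (by positivity) (by norm_num)] at h1
    linarith
  have hlogx1 : L / 2 ≤ Real.log x1 :=
    hlogx0.trans (Real.log_le_log (by linarith) hx01)
  have hlogx1' : Real.log x1 ≤ 2 * L := by
    have h1 : (x1 : ℝ) ≤ X ^ 2 := by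
      have := mul_nonneg hXpos.le (by linarith : 0 ≤ X - 6 * w)
      have e : X * (X - 6 * w) = X ^ 2 - 6 * X * w := by ring
      linarith
    have h2 : Real.log x1 ≤ Real.log (X ^ 2) := Real.log_le_log (by linarith) h1
    rw [Real.log_pow] at h2
    push_cast at h2
    exact h2
  -- the error
  set E : ℝ := |C| * x1 / (L / 2) ^ A with hE
  have hE0 : 0 ≤ E := by positivity
  set Q : ℝ := 4 * w * w ^ s with hQ
  have hQB : ∀ y : ℝ, L / 2 ≤ Real.log y → Q ≤ (Real.log y) ^ (B : ℝ) := by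
    intro y hy
    rw [Real.rpow_natCast]
    have h1 : (L / 2) ^ B ≤ (Real.log y) ^ B := pow_le_pow_left₀ (by positivity) hy B
    refine le_trans ?_ h1
    have h2 : Q = 4 * L ^ (C1 * (s + 1)) := by rw [hQ, hw]; ring
    have h3 : (L / 2) ^ B = L ^ (C1 * (s + 1)) * L / 2 ^ B := by
      rw [div_pow, hB, pow_succ]
    rw [h2, h3, le_div_iff₀ (by positivity)]
    have h4 : 0 < L ^ (C1 * (s + 1)) := by positivity
    calc 4 * L ^ (C1 * (s + 1)) * 2 ^ B = L ^ (C1 * (s + 1)) * (4 * 2 ^ B) := by ring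
      _ ≤ L ^ (C1 * (s + 1)) * L := mul_le_mul_of_nonneg_left hLB h4.le
  have hEb : ∀ y : ℕ, L / 2 ≤ Real.log y → (y : ℝ) ≤ x1 →
      C * y / (Real.log y) ^ (A : ℝ) ≤ E := by
    intro y hy hyx
    rw [Real.rpow_natCast, hE]
    have h1 : (L / 2) ^ A ≤ (Real.log y) ^ A := pow_le_pow_left₀ (by positivity) hy A
    have h2 : C * y ≤ |C| * x1 := by
      calc C * y ≤ |C| * y := by gcongr; exact le_abs_self C
        _ ≤ |C| * x1 := by gcongr
    calc C * y / (Real.log y) ^ A ≤ |C| * x1 / (Real.log y) ^ A := by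
          gcongr
      _ ≤ |C| * x1 / (L / 2) ^ A := by
          gcongr
  have hp1 : ∀ q : ℕ, 1 ≤ q → (q : ℝ) ≤ Q → ∀ c : ℕ, c.Coprime q →
      |∑ n ∈ (Icc 1 (b + V * H - 1)).filter (fun n => n ≡ c [MOD q]), Λ n -
        ((b + V * H - 1 : ℕ) : ℝ) / (Nat.totient q : ℝ)| ≤ E := by
    intro q hq hqQ c hc
    have h1 := hC (x1 : ℝ) (by linarith) q hq (hqQ.trans (hQB _ hlogx1)) c hc
    rw [Nat.floor_natCast] at h1
    exact h1.trans (hEb x1 hlogx1 le_rfl)
  have hp0 : ∀ q : ℕ, 1 ≤ q → (q : ℝ) ≤ Q → ∀ c : ℕ, c.Coprime q →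
      |∑ n ∈ (Icc 1 (b - 1)).filter (fun n => n ≡ c [MOD q]), Λ n -
        ((b - 1 : ℕ) : ℝ) / (Nat.totient q : ℝ)| ≤ E := by
    intro q hq hqQ c hc
    have h1 := hC (x0 : ℝ) hx02 q hq (hqQ.trans (hQB _ hlogx0)) c hc
    rw [Nat.floor_natCast] at h1
    exact h1.trans (hEb x0 hlogx0 hx01)
  -- the sieve
  set P1 := (PP w).filter (fun p : ℕ => ¬ (p : ℤ) ∣ (V : ℤ) * r p + b) with hP1
  set g : ℕ → ℝ := fun p => 1 / (if p ∣ V then (p : ℝ) else (p : ℝ) - 1) with hg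
  have hP1mem : ∀ p ∈ P1, p.Prime ∧ 3 ≤ p ∧ (p : ℝ) ≤ w ∧ ¬ (p : ℤ) ∣ (V : ℤ) * r p + b := by
    intro p hp
    rw [hP1, Finset.mem_filter] at hp
    exact ⟨PP_prime hp.1, PP_three hp.1, PP_le hp.1, hp.2⟩
  have hh : ∀ p ∈ P1, (p : ℝ) - 1 ≤ (if p ∣ V then (p : ℝ) else (p : ℝ) - 1) := by
    intro p _
    split_ifs <;> linarith
  have h3r : ∀ p ∈ P1, (3 : ℝ) ≤ p := fun p hp => by exact_mod_cast (hP1mem p hp).2.1
  have hg0 : ∀ p ∈ P1, 0 ≤ g p := by
    intro p hp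
    have h1 := hh p hp
    have h2 := h3r p hp
    simp only [hg]
    apply div_nonneg zero_le_one
    linarith
  have hgle : ∀ p ∈ P1, g p ≤ 1 / ((p : ℝ) - 1) := by
    intro p hp
    have h1 := hh p hp
    have h2 := h3r p hp
    simp only [hg]
    exact one_div_le_one_div_of_le (by linarith) h1
  have hgh : ∀ p ∈ P1, g p ≤ 1 - 1 / 2 := by
    intro p hp
    have h2 := h3r p hp
    refine (hgle p hp).trans ?_
    rw [div_le_iff₀ (by linarith)]
    linarith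
  have hg1 : ∀ p ∈ P1, g p < 1 := fun p hp => by linarith [hgh p hp]
  have hdm := hdim P1 g (fun p hp => (hP1mem p hp).1) hg0 hgh (fun p hp => by
    refine (hgle p hp).trans ?_
    have h2 := h3r p hp
    rw [div_add_div _ _ (by linarith) (by positivity), div_le_div_iff₀ (by linarith) (by positivity)]
    have h5 : (0 : ℝ) ≤ (p : ℝ) * (p - 2) := mul_nonneg (by linarith) (by linarith)
    have e1 : 1 * ((p : ℝ) * (p : ℝ) ^ 2) = (p : ℝ) ^ 3 := by ring
    have e2 : (1 * (p : ℝ) ^ 2 + (p : ℝ) * 2) * ((p : ℝ) - 1) = (p : ℝ) ^ 3 + (p : ℝ) * (p - 2) := by ring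
    rw [e1, e2]
    linarith)
  have h2 := Hs w hw2 P1 g (fun p hp => ⟨by have := (hP1mem p hp).2.1; omega, (hP1mem p hp).2.2.1⟩)
    hg0 hg1 hdm (range H) (fun i => Λ (V * i + b))
    (fun i => P1.filter (fun p : ℕ => (i : ℤ) ≡ r p [ZMOD p]))
    ((V : ℝ) * H / (V.totient : ℝ)) (fun _ => 2 * E)
    (fun _ _ => vonMangoldt_nonneg) (fun _ _ => Finset.filter_subset _ _) (by positivity) ?_
  · have hlev := card_level P1 (fun p hp => (hP1mem p hp).1) (w ^ s) (by positivity)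
    have hsum : ∑ D ∈ P1.powerset.filter (fun D : Finset ℕ => ∏ p ∈ D, (p : ℝ) ≤ w ^ s), 2 * E ≤
        2 * (|C| * x1 / (L / 2) ^ A) * w ^ s := by
      rw [Finset.sum_const, nsmul_eq_mul, mul_comm]
      exact mul_le_mul_of_nonneg_left hlev (by positivity)
    refine lower_tail hL1 hw2 hXpos V b H x1 s A r C hV hbpos hbV (by omega) hlogx1' hx1X
      ?_ (by linarith) hH1 ?_ hLA hX3 P1 hP1 ?_
    · have : (1 : ℝ) ≤ x1 := by linarith
      exact_mod_cast this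
    · rw [hw, hA]
      apply le_of_eq
      ring
    · have h5 := h2.1
      linarith
  · intro D hD hDs
    have h3 := AD_est V b H hV hbpos hbV r E Q hp1 hp0 D
      (fun p hp => ⟨(hP1mem p (hD hp)).1, (hP1mem p (hD hp)).2.2.2⟩) (by
        rw [hQ]
        exact mul_le_mul hV4 hDs (Finset.prod_nonneg fun p _ => Nat.cast_nonneg p) (by positivity))
    have h4 : (range H).filter (fun i : ℕ => D ⊆ P1.filter (fun p : ℕ => (i : ℤ) ≡ r p [ZMOD p])) =
        (range H).filter (fun i : ℕ => ∀ p ∈ D, (i : ℤ) ≡ r p [ZMOD p]) := by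
      apply Finset.filter_congr
      intro i _
      constructor
      · intro h p hp
        exact (Finset.mem_filter.1 (h hp)).2
      · intro h p hp
        exact Finset.mem_filter.2 ⟨hD hp, h p hp⟩
    rw [h4]
    exact h3

end Crest.Agent.R001.Fin571
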