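import Mathlib
import Crest.Agent.Lib.Mertens

/-!
# R1, block HIT (uniqueness + first hit): line sums over the Rosser tree.  helper621

States `(d, w)`: `d` is the product of the primes chosen so far (an even node), `w` is the strict
upper bound for the next primes (the last prime chosen).
-/

set_option autoImplicit false

namespace Crest.Agent.R001.Hit

open Finset

/-- primes below `w` -/
def pb (w : ℕ) : Finset ℕ := (range w).filter Nat.Prime

lemma mem_pb {w p : ℕ} : p ∈ pb w ↔ p < w ∧ p.Prime := by simp [pb]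

open Classical in
/-- line sum: sum of `f` over the first descendants (of the even type) of the state `(d, w)`
which satisfy `stop`. -/
noncomputable def ls (D : ℝ) (stop : ℕ → ℕ → Prop) (f : ℕ → ℕ → ℝ) (d w : ℕ) : ℝ :=
  if stop d w then f d w
  else ∑ p ∈ (pb w).attach, ∑ q ∈ (pb p.1).attach,
    if (d : ℝ) * (p.1 : ℝ) * (q.1 : ℝ) ^ 3 < D then ls D stop f (d * p.1 * q.1) q.1 else 0
termination_by w
decreasing_by
  have h1 := (mem_pb.1 p.2).1
  have h2 := (mem_pb.1 q.2).1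
  omega

/-- one-step sum over the children of the state `(d, w)` -/
noncomputable def cs (D : ℝ) (g : ℕ → ℕ → ℝ) (d w : ℕ) : ℝ :=
  ∑ p ∈ pb w, ∑ q ∈ pb p, if (d : ℝ) * p * (q : ℝ) ^ 3 < D then g (d * p * q) q else 0

lemma ls_stop {D : ℝ} {stop : ℕ → ℕ → Prop} {f : ℕ → ℕ → ℝ} {d w : ℕ} (h : stop d w) :
    ls D stop f d w = f d w := by
  rw [ls, if_pos h]

lemma ls_step {D : ℝ} {stop : ℕ → ℕ → Prop} {f : ℕ → ℕ → ℝ} {d w : ℕ} (h : ¬ stop d w) :
    ls D stop f d w = cs D (ls D stop f) d w := by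
  rw [ls, if_neg h, cs]
  rw [← Finset.sum_attach (pb w)]
  refine Finset.sum_congr rfl fun p _ => ?_
  rw [← Finset.sum_attach (pb p.1)]

/-- children -/
def IsChild (D : ℝ) (d w p q : ℕ) : Prop :=
  p < w ∧ p.Prime ∧ q < p ∧ q.Prime ∧ (d : ℝ) * p * (q : ℝ) ^ 3 < D

lemma cs_le_cs {D : ℝ} {g h : ℕ → ℕ → ℝ} {d w : ℕ}
    (H : ∀ p q, IsChild D d w p q → g (d * p * q) q ≤ h (d * p * q) q) :
    cs D g d w ≤ cs D h d w := by
  unfold cs
  refine Finset.sum_le_sum fun p hp => Finset.sum_le_sum fun q hq => ?_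
  rw [mem_pb] at hp hq
  split_ifs with ht
  · exact H p q ⟨hp.1, hp.2, hq.1, hq.2, ht⟩
  · exact le_rfl

lemma cs_congr {D : ℝ} {g h : ℕ → ℕ → ℝ} {d w : ℕ}
    (H : ∀ p q, IsChild D d w p q → g (d * p * q) q = h (d * p * q) q) :
    cs D g d w = cs D h d w :=
  le_antisymm (cs_le_cs fun p q hc => (H p q hc).le) (cs_le_cs fun p q hc => (H p q hc).ge)

lemma cs_nonneg {D : ℝ} {g : ℕ → ℕ → ℝ} {d w : ℕ}
    (H : ∀ p q, IsChild D d w p q → 0 ≤ g (d * p * q) q) : 0 ≤ cs D g d w := by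
  have h := cs_le_cs (g := fun _ _ => 0) (h := g) H
  have h0 : cs D (fun _ _ => (0 : ℝ)) d w = 0 := by simp [cs]
  rwa [h0] at h

lemma cs_add {D : ℝ} {g h : ℕ → ℕ → ℝ} {d w : ℕ} :
    cs D (fun d w => g d w + h d w) d w = cs D g d w + cs D h d w := by
  unfold cs
  rw [← Finset.sum_add_distrib]
  refine Finset.sum_congr rfl fun p _ => ?_
  rw [← Finset.sum_add_distrib]
  refine Finset.sum_congr rfl fun q _ => ?_
  split_ifs <;> simp

lemma cs_mul {D : ℝ} {g : ℕ → ℕ → ℝ} {d w : ℕ} (c : ℝ) :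
    cs D (fun d w => c * g d w) d w = c * cs D g d w := by
  unfold cs
  rw [Finset.mul_sum]
  refine Finset.sum_congr rfl fun p _ => ?_
  rw [Finset.mul_sum]
  refine Finset.sum_congr rfl fun q _ => ?_
  split_ifs <;> simp

lemma cs_sum {ι : Type*} {D : ℝ} (s : Finset ι) (g : ι → ℕ → ℕ → ℝ) {d w : ℕ} :
    cs D (fun d w => ∑ i ∈ s, g i d w) d w = ∑ i ∈ s, cs D (g i) d w := by
  classical
  induction s using Finset.induction_on with
  | empty => simp [cs]
  | insert a s ha ih =>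
    simp only [Finset.sum_insert ha]
    rw [cs_add, ih]

/-- An invariant of the states. -/
structure Inv (D : ℝ) (d w : ℕ) : Prop where
  one_le : 1 ≤ d
  sq_le : (d : ℝ) * (w : ℝ) ^ 2 ≤ D

lemma Inv.child {D : ℝ} {d w p q : ℕ} (h : Inv D d w) (hc : IsChild D d w p q) :
    Inv D (d * p * q) q := by
  obtain ⟨h1, h2, h3, h4, h5⟩ := hc
  refine ⟨Nat.mul_pos (Nat.mul_pos h.one_le h2.pos) h4.pos, ?_⟩
  push_cast
  nlinarith

/-- induction along the tree -/
lemma tree_ind {D : ℝ} {P : ℕ → ℕ → Prop}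
    (H : ∀ d w, Inv D d w → (∀ p q, IsChild D d w p q → P (d * p * q) q) → P d w) :
    ∀ d w, Inv D d w → P d w := by
  have key : ∀ n, ∀ w, w ≤ n → ∀ d, Inv D d w → P d w := by
    intro n
    induction n with
    | zero =>
      intro w hw d hi
      apply H d w hi
      intro p q hc
      have h1 := hc.1
      omega
    | succ n ih =>
      intro w hw d hi
      apply H d w hi
      intro p q hc
      have h1 := hc.1
      have h2 := hc.2.2.1
      exact ih q (by omega) _ (hi.child hc)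
  intro d w hi
  exact key w w le_rfl d hi

/-- induction along the tree with an extra invariant -/
lemma tree_ind' {D : ℝ} {J : ℕ → ℕ → Prop} {P : ℕ → ℕ → Prop}
    (hJ : ∀ d w p q, Inv D d w → J d w → IsChild D d w p q → J (d * p * q) q)
    (H : ∀ d w, Inv D d w → J d w →
      (∀ p q, IsChild D d w p q → P (d * p * q) q) → P d w) :
    ∀ d w, Inv D d w → J d w → P d w := by
  apply tree_ind (P := fun d w => J d w → P d w)
  intro d w hi ih hj
  exact H d w hi hj fun p q hc => ih p q hc (hJ d w p q hi hj hc)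

lemma ls_mono' {D : ℝ} {stop : ℕ → ℕ → Prop} {f g : ℕ → ℕ → ℝ} {J : ℕ → ℕ → Prop}
    (hJ : ∀ d w p q, Inv D d w → J d w → IsChild D d w p q → J (d * p * q) q)
    (H : ∀ d w, Inv D d w → J d w → stop d w → f d w ≤ g d w) (d w : ℕ) (hi : Inv D d w)
    (hj : J d w) : ls D stop f d w ≤ ls D stop g d w := by
  refine tree_ind' (P := fun d w => ls D stop f d w ≤ ls D stop g d w) hJ ?_ d w hi hj
  intro d w hi hj ih
  by_cases hs : stop d w
  · rw [ls_stop hs, ls_stop hs]; exact H d w hi hj hs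
  · rw [ls_step hs, ls_step hs]; exact cs_le_cs ih

lemma ls_mono {D : ℝ} {stop : ℕ → ℕ → Prop} {f g : ℕ → ℕ → ℝ}
    (H : ∀ d w, Inv D d w → stop d w → f d w ≤ g d w) (d w : ℕ) (hi : Inv D d w) :
    ls D stop f d w ≤ ls D stop g d w :=
  ls_mono' (J := fun _ _ => True) (fun _ _ _ _ _ _ _ => trivial)
    (fun d w hi _ hs => H d w hi hs) d w hi trivial

lemma ls_nonneg {D : ℝ} {stop : ℕ → ℕ → Prop} {f : ℕ → ℕ → ℝ}
    (H : ∀ d w, Inv D d w → stop d w → 0 ≤ f d w) (d w : ℕ) (hi : Inv D d w) :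
    0 ≤ ls D stop f d w := by
  refine tree_ind (P := fun d w => 0 ≤ ls D stop f d w) ?_ d w hi
  intro d w hi ih
  by_cases hs : stop d w
  · rw [ls_stop hs]; exact H d w hi hs
  · rw [ls_step hs]; exact cs_nonneg ih

lemma ls_add {D : ℝ} {stop : ℕ → ℕ → Prop} {f g : ℕ → ℕ → ℝ} (d w : ℕ) (hi : Inv D d w) :
    ls D stop (fun d w => f d w + g d w) d w = ls D stop f d w + ls D stop g d w := by
  refine tree_ind (P := fun d w => ls D stop (fun d w => f d w + g d w) d w =
    ls D stop f d w + ls D stop g d w) ?_ d w hi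
  intro d w hi ih
  by_cases hs : stop d w
  · rw [ls_stop hs, ls_stop hs, ls_stop hs]
  · rw [ls_step hs, ls_step hs, ls_step hs, ← cs_add]; exact cs_congr ih

lemma ls_mul {D : ℝ} {stop : ℕ → ℕ → Prop} {f : ℕ → ℕ → ℝ} (c : ℝ) (d w : ℕ)
    (hi : Inv D d w) :
    ls D stop (fun d w => c * f d w) d w = c * ls D stop f d w := by
  refine tree_ind (P := fun d w => ls D stop (fun d w => c * f d w) d w =
    c * ls D stop f d w) ?_ d w hi
  intro d w hi ih
  by_cases hs : stop d w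
  · rw [ls_stop hs, ls_stop hs]
  · rw [ls_step hs, ls_step hs, ← cs_mul]; exact cs_congr ih

/-- `v(d) = log (D / d)` -/
noncomputable def vv (D : ℝ) (d : ℕ) : ℝ := Real.log (D / d)

/-- The stopping rule of `line(V)`: good states with `v ≤ V`. -/
def Stop (D V : ℝ) (d w : ℕ) : Prop := vv D d < 4 * Real.log w ∧ vv D d ≤ V

/-- Mass of `line(V)` below the state. -/
noncomputable def FF (D V : ℝ) (d w : ℕ) : ℝ := ls D (Stop D V) (fun d _ => 1 / (d : ℝ)) d w

/-- upper bounds for the mass -/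
def UP (C V1 : ℝ) : Prop :=
  ∀ D V : ℝ, V1 ≤ V → ∀ d w : ℕ, Inv D d w → V ≤ vv D d →
    FF D V d w ≤ C * V ^ 2 / (d * vv D d ^ 2)

/-- lower bounds for the mass below states with `v < S log w` -/
def LOW (S c V1 B : ℝ) : Prop :=
  ∀ D V : ℝ, V1 ≤ V → ∀ d w : ℕ, Inv D d w → vv D d < S * Real.log w → B * V ≤ vv D d →
    c * V ^ 2 / (d * vv D d ^ 2) ≤ FF D V d w

lemma FF_nonneg {D V : ℝ} (d w : ℕ) (hi : Inv D d w) : 0 ≤ FF D V d w :=
  ls_nonneg (fun d w _ _ => by positivity) d w hi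

lemma vv_child {D : ℝ} {d w p q : ℕ} (hi : Inv D d w) (hc : IsChild D d w p q) :
    vv D (d * p * q) = vv D d - Real.log p - Real.log q := by
  obtain ⟨h1, h2, h3, h4, h5⟩ := hc
  have hd : (0 : ℝ) < d := by exact_mod_cast hi.one_le
  have hp : (0 : ℝ) < p := by exact_mod_cast h2.pos
  have hq : (0 : ℝ) < q := by exact_mod_cast h4.pos
  have hD : 0 < D := lt_of_le_of_lt (by positivity) h5
  unfold vv
  push_cast
  rw [Real.log_div hD.ne' (by positivity), Real.log_div hD.ne' hd.ne',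
    Real.log_mul (by positivity) hq.ne', Real.log_mul hd.ne' hp.ne']
  ring

lemma isChild_iff_log {D : ℝ} {d w p q : ℕ} (hD : 0 < D) (hi : Inv D d w) (hpw : p < w)
    (hp : p.Prime) (hqp : q < p) (hq : q.Prime)
    (h : Real.log p + 3 * Real.log q < vv D d) : IsChild D d w p q := by
  refine ⟨hpw, hp, hqp, hq, ?_⟩
  have hd : (0 : ℝ) < d := by exact_mod_cast hi.one_le
  have hp0 : (0 : ℝ) < p := by exact_mod_cast hp.pos
  have hq0 : (0 : ℝ) < q := by exact_mod_cast hq.pos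
  rw [← Real.log_lt_log_iff (by positivity) hD, Real.log_mul (by positivity) (by positivity),
    Real.log_mul hd.ne' hp0.ne', Real.log_pow]
  unfold vv at h
  rw [Real.log_div hD.ne' hd.ne'] at h
  push_cast
  linarith

/-- lower bound for the sum over the children by a sum over a rectangle of pairs -/
lemma cs_ge_rect {D : ℝ} {g : ℕ → ℕ → ℝ} {d w : ℕ} (W1 : Finset ℕ) (W2 : Finset ℕ) (K : ℝ)
    (hnn : ∀ p q, IsChild D d w p q → 0 ≤ g (d * p * q) q)
    (hch : ∀ p ∈ W1, ∀ q ∈ W2, IsChild D d w p q)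
    (hK : ∀ p ∈ W1, ∀ q ∈ W2, K * (1 / (p : ℝ)) * (1 / (q : ℝ)) ≤ g (d * p * q) q) :
    K * (∑ p ∈ W1, 1 / (p : ℝ)) * (∑ q ∈ W2, 1 / (q : ℝ)) ≤ cs D g d w := by
  classical
  rcases W2.eq_empty_or_nonempty with h2 | ⟨q0, hq0⟩
  · subst h2
    simpa using cs_nonneg hnn
  have hsub1 : W1 ⊆ pb w := fun p hp => by
    have := hch p hp q0 hq0
    exact mem_pb.2 ⟨this.1, this.2.1⟩
  unfold cs
  calc K * (∑ p ∈ W1, 1 / (p : ℝ)) * (∑ q ∈ W2, 1 / (q : ℝ))
      = ∑ p ∈ W1, ∑ q ∈ W2, K * (1 / (p : ℝ)) * (1 / (q : ℝ)) := by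
        rw [mul_assoc, Finset.sum_mul_sum, Finset.mul_sum]
        refine Finset.sum_congr rfl fun p _ => ?_
        rw [Finset.mul_sum]
        refine Finset.sum_congr rfl fun q _ => ?_
        ring
    _ ≤ ∑ p ∈ W1, ∑ q ∈ pb p,
        if (d : ℝ) * p * (q : ℝ) ^ 3 < D then g (d * p * q) q else 0 := by
        refine Finset.sum_le_sum fun p hp => ?_
        have hsub2 : W2 ⊆ pb p := fun q hq => by
          have := hch p hp q hq
          exact mem_pb.2 ⟨this.2.2.1, this.2.2.2.1⟩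
        calc ∑ q ∈ W2, K * (1 / (p : ℝ)) * (1 / (q : ℝ))
            ≤ ∑ q ∈ W2, if (d : ℝ) * p * (q : ℝ) ^ 3 < D then g (d * p * q) q else 0 := by
              refine Finset.sum_le_sum fun q hq => ?_
              rw [if_pos (hch p hp q hq).2.2.2.2]
              exact hK p hp q hq
          _ ≤ _ := by
              refine Finset.sum_le_sum_of_subset_of_nonneg hsub2 fun q hq _ => ?_
              have hp' := mem_pb.1 (hsub1 hp)
              have hq' := mem_pb.1 hq
              split_ifs with ht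
              · exact hnn p q ⟨hp'.1, hp'.2, hq'.1, hq'.2, ht⟩
              · exact le_rfl
    _ ≤ _ := by
        refine Finset.sum_le_sum_of_subset_of_nonneg hsub1 fun p hp _ => ?_
        refine Finset.sum_nonneg fun q hq => ?_
        have hp' := mem_pb.1 hp
        have hq' := mem_pb.1 hq
        split_ifs with ht
        · exact hnn p q ⟨hp'.1, hp'.2, hq'.1, hq'.2, ht⟩
        · exact le_rfl

/-- window of primes `p` with `a < log p ≤ b` -/
noncomputable def win (a b : ℝ) : Finset ℕ := Lib.Mertens.pr (Real.exp a) (Real.exp b)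

lemma mem_win {a b : ℝ} {p : ℕ} : p ∈ win a b ↔ (a < Real.log p ∧ Real.log p ≤ b) ∧ p.Prime := by
  unfold win
  rw [Lib.Mertens.mem_pr (Real.exp_pos a).le (Real.exp_pos b).le]
  constructor
  · rintro ⟨⟨h1, h2⟩, h3⟩
    have hp : (0 : ℝ) < p := by exact_mod_cast h3.pos
    exact ⟨⟨(Real.lt_log_iff_exp_lt hp).2 h1, (Real.log_le_iff_le_exp hp).2 h2⟩, h3⟩
  · rintro ⟨⟨h1, h2⟩, h3⟩
    have hp : (0 : ℝ) < p := by exact_mod_cast h3.pos
    exact ⟨⟨(Real.lt_log_iff_exp_lt hp).1 h1, (Real.log_le_iff_le_exp hp).1 h2⟩, h3⟩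

lemma sum_win_bounds {a b : ℝ} (ha : 1 ≤ a) (hab : a ≤ b) :
    |∑ p ∈ win a b, 1 / (p : ℝ) - Real.log (b / a)| ≤ 18 / a := by
  have h2 : (2 : ℝ) ≤ Real.exp a := by
    have := Real.add_one_le_exp a
    linarith
  have h := Lib.Mertens.mertens_two (Real.exp a) (Real.exp b) h2 (Real.exp_le_exp.2 hab)
  rw [Real.log_exp, Real.log_exp] at h
  rw [Real.log_div (by linarith) (by linarith)]
  exact h

lemma sum_win_ge {a b : ℝ} (ha : 1 ≤ a) (hab : a ≤ b) :
    Real.log (b / a) - 18 / a ≤ ∑ p ∈ win a b, 1 / (p : ℝ) := by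
  have := (abs_le.1 (sum_win_bounds ha hab)).1
  linarith


/-- windows with a fixed ratio have a fixed mass -/
lemma sum_win_ge_half {a b η : ℝ} (ha : 1 ≤ a) (hη : 0 < η) (hab : η ≤ Real.log (b / a))
    (hb : 0 < b) (ha2 : 36 / η ≤ a) : η / 2 ≤ ∑ p ∈ win a b, 1 / (p : ℝ) := by
  have h1 : a ≤ b := by
    by_contra hlt
    push Not at hlt
    have : Real.log (b / a) ≤ 0 := by
      apply Real.log_nonpos (by positivity)
      rw [div_le_one (by linarith)]
      exact hlt.le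
    linarith
  have h2 := sum_win_ge ha h1
  have h3 : 18 / a ≤ η / 2 := by
    rw [div_le_iff₀ (by linarith)]
    rw [div_le_iff₀ hη] at ha2
    linarith
  linarith

end Crest.Agent.R001.Hit
private theorem rz_87a5d26ef2 : type_of% @_root_.Crest.Agent.R001.Hit.ls.eq_1 := @_root_.Crest.Agent.R001.Hit.ls.eq_1 -- L25
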