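import Crest.Agent.R001.Hit621b

-- ▼ part R001/Hit621c
section

/-!
# R1, block HIT: reach lemma and first-hit lemma.  helper621
-/

set_option autoImplicit false

namespace Crest.Agent.R001.Hit

open Finset Classical

/-- mass of the part of `line(K u)` with `5 u ≤ v`, weighted with the mass of `line(V)` below -/
noncomputable def GA (D V K u : ℝ) (d w : ℕ) : ℝ :=
  ls D (Stop D (K * u)) (fun d w => if 5 * u ≤ vv D d then FF D V d w else 0) d w

/-- REACH: a positive proportion of the mass of `line(V)` below a state passes through good states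
with `5 u ≤ v ≤ 5 A u`. -/
theorem reach {CU c4 c10 V1 B A : ℝ} (hCU : 0 < CU) (hc4 : 0 < c4) (hc10 : 0 < c10)
    (hV1 : 0 < V1) (hB : 1 ≤ B) (hA : 1 ≤ A) (hA2 : 2 * CU ≤ c10 * A ^ 2)
    (hUP : UP CU V1) (hL4 : LOW 4 c4 V1 B) (hL10 : LOW 10 c10 V1 B)
    {D V u : ℝ} (hV : V1 ≤ V) (hu : B * V ≤ u) {d w : ℕ} (hi : Inv D d w)
    (hv : vv D d < 10 * Real.log w) (hBv : B * (5 * A * u) ≤ vv D d) :
    c4 * c10 / (2 * CU) * FF D V d w ≤ GA D V (5 * A) u d w := by
  have hVp : 0 < V := by linarith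
  have hup : 0 < u := lt_of_lt_of_le (by positivity) hu
  have hVu : V ≤ u := le_trans (by nlinarith) hu
  set V' : ℝ := 5 * A * u with hV'
  have hV'5 : 5 * u ≤ V' := by rw [hV']; nlinarith
  have hV'p : 0 < V' := by linarith
  have hdp : (0 : ℝ) < d := by exact_mod_cast hi.one_le
  have hvV' : V' ≤ vv D d := le_trans (by nlinarith) hBv
  have hvp : 0 < vv D d := by linarith
  -- splitting of the line sum
  set Sg := ls D (Stop D V') (fun d _ => if 5 * u ≤ vv D d then 1 / (d : ℝ) else 0) d w with hSg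
  set Sl := ls D (Stop D V') (fun d _ => if 5 * u ≤ vv D d then 0 else 1 / (d : ℝ)) d w with hSl
  have hsplit : FF D V' d w = Sg + Sl := by
    rw [hSg, hSl, ← ls_add d w hi]
    unfold FF
    congr 1
    funext d w
    split_ifs <;> simp
  -- the small part
  have hsmall : Sl ≤ FF D (5 * u) d w := by
    have key : ∀ d w, Inv D d w →
        ls D (Stop D V') (fun d _ => if 5 * u ≤ vv D d then 0 else 1 / (d : ℝ)) d w ≤
          FF D (5 * u) d w := by
      apply tree_ind
      intro d w hi ih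
      by_cases hs : Stop D V' d w
      · rw [ls_stop hs]
        split_ifs with h5
        · exact FF_nonneg _ _ hi
        · push Not at h5
          have hs2 : Stop D (5 * u) d w := ⟨hs.1, h5.le⟩
          unfold FF
          rw [ls_stop hs2]
      · have hs2 : ¬ Stop D (5 * u) d w := fun h => hs ⟨h.1, h.2.trans hV'5⟩
        unfold FF
        rw [ls_step hs, ls_step hs2]
        exact cs_le_cs ih
    exact key d w hi
  have hup5 := hUP D (5 * u) (by linarith) d w hi (by linarith)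
  have hlow := hL10 D V' (by linarith) d w hi hv hBv
  have hSg_ge : c10 / 2 * V' ^ 2 / (d * vv D d ^ 2) ≤ Sg := by
    have h1 : c10 * V' ^ 2 / (d * vv D d ^ 2) - CU * (5 * u) ^ 2 / (d * vv D d ^ 2) ≤ Sg := by
      linarith
    refine le_trans ?_ h1
    rw [← sub_div]
    apply div_le_div_of_nonneg_right _ (by positivity)
    rw [hV']
    nlinarith [mul_pos hup hup]
  -- pointwise lower bound at the stopped states
  have hpt : c4 * V ^ 2 / V' ^ 2 * Sg ≤ GA D V (5 * A) u d w := by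
    rw [hSg, ← ls_mul _ d w hi]
    unfold GA
    apply ls_mono _ d w hi
    intro d w hi hs
    split_ifs with h5
    · have hdp : (0 : ℝ) < d := by exact_mod_cast hi.one_le
      have hvp : 0 < vv D d := by linarith
      have h4 := hL4 D V hV d w hi hs.1 (by linarith)
      refine le_trans ?_ h4
      have hs2 : vv D d ≤ V' := hs.2
      rw [div_mul_div_comm, mul_one]
      rw [div_le_div_iff₀ (by positivity) (by positivity)]
      have : vv D d ^ 2 ≤ V' ^ 2 := by gcongr
      have h0 : 0 ≤ c4 * V ^ 2 * d := by positivity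
      nlinarith
    · simp
  have hupσ := hUP D V hV d w hi (by linarith)
  calc c4 * c10 / (2 * CU) * FF D V d w
      ≤ c4 * c10 / (2 * CU) * (CU * V ^ 2 / (d * vv D d ^ 2)) := by gcongr
    _ = c4 * V ^ 2 / V' ^ 2 * (c10 / 2 * V' ^ 2 / (d * vv D d ^ 2)) := by
        field_simp
    _ ≤ c4 * V ^ 2 / V' ^ 2 * Sg := by gcongr
    _ ≤ _ := hpt

/-- hit: some prime of `XX` divides `d` -/
def hit (XX : Finset ℕ) (d : ℕ) : Prop := ∃ p ∈ XX, p ∣ d

/-- mass of the elements of `line(V)` which are hit -/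
noncomputable def HH (D V : ℝ) (XX : Finset ℕ) (d w : ℕ) : ℝ :=
  ls D (Stop D V) (fun d _ => if hit XX d then 1 / (d : ℝ) else 0) d w

/-- the not yet hit part of `GA` -/
noncomputable def GN (D V K : ℝ) (XX : Finset ℕ) (u : ℝ) (d w : ℕ) : ℝ :=
  ls D (Stop D (K * u))
    (fun d w => if 5 * u ≤ vv D d ∧ ¬ hit XX d then FF D V d w else 0) d w

lemma hit_child {XX : Finset ℕ} {d p q : ℕ} (h : hit XX d) : hit XX (d * p * q) := by
  obtain ⟨r, hr, hrd⟩ := h
  exact ⟨r, hr, (hrd.mul_right _).mul_right _⟩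

lemma HH_nonneg {D V : ℝ} {XX : Finset ℕ} (d w : ℕ) (hi : Inv D d w) : 0 ≤ HH D V XX d w :=
  ls_nonneg (fun d w _ _ => by split_ifs <;> positivity) d w hi

lemma HH_le_FF {D V : ℝ} {XX : Finset ℕ} (d w : ℕ) (hi : Inv D d w) :
    HH D V XX d w ≤ FF D V d w :=
  ls_mono (fun d w _ _ => by split_ifs <;> first | exact le_rfl | positivity) d w hi

lemma HH_of_hit {D V : ℝ} {XX : Finset ℕ} (d w : ℕ) (hi : Inv D d w) (h : hit XX d) :
    HH D V XX d w = FF D V d w := by
  apply le_antisymm (HH_le_FF d w hi)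
  refine ls_mono' (J := fun d _ => hit XX d) (fun d w p q _ hj _ => hit_child hj) ?_ d w hi h
  intro d w _ hj _
  simp [hj]

lemma GN_nonneg {D V K : ℝ} {XX : Finset ℕ} {u : ℝ} (d w : ℕ) (hi : Inv D d w) :
    0 ≤ GN D V K XX u d w :=
  ls_nonneg (fun d w hi _ => by
    split_ifs
    · exact FF_nonneg _ _ hi
    · exact le_rfl) d w hi

lemma GN_of_hit {D V K : ℝ} {XX : Finset ℕ} {u : ℝ} (d w : ℕ) (hi : Inv D d w)
    (h : hit XX d) : GN D V K XX u d w = 0 := by
  apply le_antisymm _ (GN_nonneg d w hi)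
  have h0 : ls D (Stop D (K * u)) (fun _ _ => (0 : ℝ)) d w = 0 := by
    have := ls_mul (D := D) (stop := Stop D (K * u)) (f := fun _ _ => (0 : ℝ)) 0 d w hi
    simpa using this
  rw [← h0]
  refine ls_mono' (J := fun d _ => hit XX d) (fun d w p q _ hj _ => hit_child hj) ?_ d w hi h
  intro d w _ hj _
  simp [hj]

/-- covering: `GA ≤ GN + HH` -/
lemma GA_le {D V K : ℝ} {XX : Finset ℕ} {u : ℝ} (hVK : V ≤ K * u) (d w : ℕ) (hi : Inv D d w) :
    GA D V K u d w ≤ GN D V K XX u d w + HH D V XX d w := by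
  refine tree_ind (P := fun d w => GA D V K u d w ≤ GN D V K XX u d w + HH D V XX d w) ?_ d w hi
  intro d w hi ih
  by_cases hs : Stop D (K * u) d w
  · have hH := HH_nonneg (V := V) (XX := XX) d w hi
    by_cases hh : hit XX d
    · have e1 : GA D V K u d w ≤ FF D V d w := by
        unfold GA
        rw [ls_stop hs]
        split_ifs
        · exact le_rfl
        · exact FF_nonneg _ _ hi
      rw [← HH_of_hit (XX := XX) d w hi hh] at e1
      have := GN_nonneg (V := V) (K := K) (XX := XX) (u := u) d w hi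
      linarith
    · have e1 : GA D V K u d w = GN D V K XX u d w := by
        unfold GA GN
        rw [ls_stop hs, ls_stop hs]
        simp [hh]
      linarith
  · have hs2 : ¬ Stop D V d w := fun h => hs ⟨h.1, h.2.trans hVK⟩
    have e1 : GA D V K u d w = cs D (GA D V K u) d w := ls_step hs
    have e2 : GN D V K XX u d w = cs D (GN D V K XX u) d w := ls_step hs
    have e3 : HH D V XX d w = cs D (HH D V XX) d w := ls_step hs2
    rw [e1, e2, e3, ← cs_add]
    exact cs_le_cs ih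

/-- FIRST HIT (recursion form). -/
theorem first_hit {CU cK V1 B K : ℝ} (hCU : 0 < CU) (hcK : 0 < cK) (hV1 : 0 < V1) (hB : 1 ≤ B)
    (hK : 5 ≤ K) (hUP : UP CU V1) (hLK : LOW K cK V1 B)
    {D V : ℝ} (hV : V1 ≤ V) {XX : Finset ℕ}
    (hXX : ∀ p ∈ XX, p.Prime ∧ B * V ≤ Real.log p ∧ 2 + 36 / Real.log (8 / 7) ≤ Real.log p) :
    ∀ d w, Inv D d w → ∀ T ⊆ XX, ¬ hit XX d →
      cK / CU * (Real.log (8 / 7) / 2) * ∑ p ∈ T, 1 / (p : ℝ) * GN D V K XX (Real.log p) d w ≤
        HH D V XX d w := by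
  have hη : 0 < Real.log (8 / 7) := Real.log_pos (by norm_num)
  have hVp : 0 < V := by linarith
  set c1 := cK / CU * (Real.log (8 / 7) / 2) with hc1
  have hc1p : 0 < c1 := by positivity
  refine tree_ind (P := fun d w => ∀ T ⊆ XX, ¬ hit XX d →
      c1 * ∑ p ∈ T, 1 / (p : ℝ) * GN D V K XX (Real.log p) d w ≤ HH D V XX d w) ?_
  intro d w hi ih T hT hh
  have hdp : (0 : ℝ) < d := by exact_mod_cast hi.one_le
  by_cases hs : Stop D V d w
  · -- everything vanishes
    have h0 : ∑ p ∈ T, 1 / (p : ℝ) * GN D V K XX (Real.log p) d w = 0 := by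
      refine Finset.sum_eq_zero fun p hp => ?_
      obtain ⟨hpp, hp1, hp2⟩ := hXX p (hT hp)
      have hlp : V ≤ Real.log p := by nlinarith
      have hs2 : Stop D (K * Real.log p) d w := ⟨hs.1, hs.2.trans (by nlinarith)⟩
      have : GN D V K XX (Real.log p) d w = 0 := by
        unfold GN
        rw [ls_stop hs2, if_neg]
        rintro ⟨h5, _⟩
        have := hs.2
        linarith
      rw [this, mul_zero]
    rw [h0, mul_zero]
    exact HH_nonneg d w hi
  · have hHcs : HH D V XX d w = cs D (HH D V XX) d w := ls_step hs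
    set T0 := T.filter (fun p : ℕ => Stop D (K * Real.log p) d w ∧ 5 * Real.log p ≤ vv D d)
      with hT0
    set T1 := T.filter (fun p : ℕ => ¬ Stop D (K * Real.log p) d w) with hT1
    have hT0X : ∀ q ∈ T0, q ∈ XX := fun q hq => hT (Finset.mem_filter.1 hq).1
    have hT1X : T1 ⊆ XX := fun q hq => hT (Finset.mem_filter.1 hq).1
    -- the sum over `T`
    have hsum : ∑ p ∈ T, 1 / (p : ℝ) * GN D V K XX (Real.log p) d w =
        ∑ q ∈ T0, 1 / (q : ℝ) * FF D V d w +
        ∑ p ∈ T1, 1 / (p : ℝ) * cs D (GN D V K XX (Real.log p)) d w := by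
      rw [hT0, hT1, Finset.sum_filter, Finset.sum_filter, ← Finset.sum_add_distrib]
      refine Finset.sum_congr rfl fun p hp => ?_
      by_cases hs2 : Stop D (K * Real.log p) d w
      · rw [if_neg (not_not.2 hs2), add_zero]
        unfold GN
        rw [ls_stop hs2]
        by_cases h5 : 5 * Real.log p ≤ vv D d
        · rw [if_pos ⟨h5, hh⟩, if_pos ⟨hs2, h5⟩]
        · rw [if_neg (fun h => h5 h.1), if_neg (fun h => h5 h.2), mul_zero]
      · rw [if_pos hs2, if_neg (fun h => hs2 h.1), zero_add]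
        congr 1
        exact ls_step hs2
    -- the comparison function
    set A : ℕ → ℕ → ℝ := fun d' w' => ∑ q ∈ T0, if w' = q then FF D V d' w' else 0 with hA
    have hcomp : cs D (fun d' w' => A d' w' +
        c1 * ∑ p ∈ T1, 1 / (p : ℝ) * GN D V K XX (Real.log p) d' w') d w ≤
        cs D (HH D V XX) d w := by
      refine cs_le_cs fun p q hc => ?_
      have hic := hi.child hc
      by_cases hhc : hit XX (d * p * q)
      · have h0 : ∑ p' ∈ T1, 1 / (p' : ℝ) * GN D V K XX (Real.log p') (d * p * q) q = 0 :=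
          Finset.sum_eq_zero fun p' _ => by rw [GN_of_hit _ _ hic hhc, mul_zero]
        rw [h0, mul_zero, add_zero, HH_of_hit _ _ hic hhc]
        simp only [hA]
        rw [Finset.sum_ite_eq T0 q (fun _ => FF D V (d * p * q) q)]
        split_ifs
        · exact le_rfl
        · exact FF_nonneg _ _ hic
      · have hq : q ∉ T0 := fun hq => hhc ⟨q, hT0X q hq, dvd_mul_left _ _⟩
        simp only [hA]
        rw [Finset.sum_ite_eq T0 q (fun _ => FF D V (d * p * q) q), if_neg hq, zero_add]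
        exact ih p q hc T1 hT1X hhc
    rw [hHcs]
    refine le_trans ?_ hcomp
    have e2 : cs D (fun d' w' => ∑ p ∈ T1, 1 / (p : ℝ) * GN D V K XX (Real.log p) d' w') d w =
        ∑ p ∈ T1, 1 / (p : ℝ) * cs D (GN D V K XX (Real.log p)) d w := by
      rw [cs_sum]
      exact Finset.sum_congr rfl fun i _ => cs_mul _
    rw [cs_add, cs_mul, e2, hsum, mul_add]
    refine add_le_add ?_ le_rfl
    rw [hA, cs_sum, Finset.mul_sum]
    refine Finset.sum_le_sum fun q0 hq0 => ?_
    obtain ⟨hqT, hqs, hq5⟩ := Finset.mem_filter.1 hq0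
    obtain ⟨hqp, hqB, hqbig⟩ := hXX q0 (hT hqT)
    set u := Real.log q0 with hu
    have hup : 0 < u := lt_of_lt_of_le (by positivity) hqbig
    have hq00 : (0 : ℝ) < q0 := by exact_mod_cast hqp.pos
    have hVu : V ≤ u := by nlinarith
    have hvp : 0 < vv D d := by linarith
    have hwlog : 5 / 4 * u < Real.log w := by
      have := hqs.1
      linarith
    have hw1 : 1 ≤ w := one_le_of_log_pos (by linarith)
    have hDp : 0 < D := D_pos hi hw1
    set W1 := win (21 / 20 * u) (6 / 5 * u) with hW1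
    have hs1 : Real.log (8 / 7) / 2 ≤ ∑ p ∈ W1, 1 / (p : ℝ) := by
      have h36 : 0 < 36 / Real.log (8 / 7) := by positivity
      apply sum_win_ge_half
      · linarith
      · exact hη
      · apply le_of_eq
        congr 1
        field_simp
        norm_num
      · positivity
      · linarith
    have hchild : ∀ p ∈ W1, ∀ q ∈ ({q0} : Finset ℕ), IsChild D d w p q := by
      intro p hp q hq
      rw [Finset.mem_singleton] at hq
      subst hq
      rw [hW1, mem_win] at hp
      obtain ⟨⟨hp1, hp2⟩, hpp⟩ := hp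
      have hp0 : (0 : ℝ) < p := by exact_mod_cast hpp.pos
      have hw0 : (0 : ℝ) < w := by exact_mod_cast hw1
      apply isChild_iff_log hDp hi
      · have : Real.log p < Real.log w := by linarith
        exact_mod_cast (Real.log_lt_log_iff hp0 hw0).1 this
      · exact hpp
      · have : Real.log q < Real.log p := by rw [← hu]; linarith
        exact_mod_cast (Real.log_lt_log_iff hq00 hp0).1 this
      · exact hqp
      · rw [← hu]; linarith
    have hrect := cs_ge_rect (D := D) (g := fun d' w' => if w' = q0 then FF D V d' w' else 0)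
      (d := d) (w := w) W1 {q0} (cK * V ^ 2 / (d * vv D d ^ 2)) ?_ hchild ?_
    · refine le_trans ?_ hrect
      rw [Finset.sum_singleton]
      have hupd := hUP D V hV d w hi (by linarith)
      calc c1 * (1 / (q0 : ℝ) * FF D V d w)
          ≤ c1 * (1 / (q0 : ℝ) * (CU * V ^ 2 / (d * vv D d ^ 2))) := by gcongr
        _ = cK * V ^ 2 / (d * vv D d ^ 2) * (Real.log (8 / 7) / 2) * (1 / (q0 : ℝ)) := by
            rw [hc1]
            field_simp
        _ ≤ _ := by gcongr
    · intro p q hc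
      split_ifs
      · exact FF_nonneg _ _ (hi.child hc)
      · exact le_rfl
    · intro p hp q hq
      have hc := hchild p hp q hq
      rw [Finset.mem_singleton] at hq
      subst hq
      have hic := hi.child hc
      have hvc := vv_child hi hc
      rw [hW1, mem_win] at hp
      obtain ⟨⟨hp1, hp2⟩, hpp⟩ := hp
      have hp0 : (0 : ℝ) < p := by exact_mod_cast hpp.pos
      rw [if_pos rfl]
      rw [← hu] at hvc
      have hqs2 : vv D d ≤ K * u := hqs.2
      have hvc0 : 2 * u ≤ vv D (d * p * q) := by rw [hvc]; linarith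
      have hlow := hLK D V hV (d * p * q) q hic (by rw [hvc, ← hu]; linarith) (by linarith)
      refine le_trans ?_ hlow
      push_cast
      rw [show cK * V ^ 2 / (d * vv D d ^ 2) * (1 / (p : ℝ)) * (1 / (q : ℝ)) =
        cK * V ^ 2 / (d * p * q * vv D d ^ 2) by field_simp]
      have h3 : 0 < vv D (d * p * q) := by linarith
      have h4 : vv D (d * p * q) ≤ vv D d := by rw [hvc]; linarith
      gcongr

end Crest.Agent.R001.Hit
end

-- ▼ part R001/Hit621d
section

/-!
# R1, block HIT: uniqueness of the class and the final statement.  helper621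
-/

set_option autoImplicit false

namespace Crest.Agent.R001.Hit

open Finset Classical

/-- lower bound for the sum over the children by a sum over pairs -/
lemma cs_ge_pairs {D : ℝ} {g : ℕ → ℕ → ℝ} {d w : ℕ} (W1 : Finset ℕ) (W2 : Finset ℕ)
    (h : ℕ → ℕ → ℝ)
    (hnn : ∀ p q, IsChild D d w p q → 0 ≤ g (d * p * q) q)
    (hch : ∀ p ∈ W1, ∀ q ∈ W2, IsChild D d w p q)
    (hK : ∀ p ∈ W1, ∀ q ∈ W2, h p q ≤ g (d * p * q) q) :
    ∑ p ∈ W1, ∑ q ∈ W2, h p q ≤ cs D g d w := by
  rcases W2.eq_empty_or_nonempty with h2 | ⟨q0, hq0⟩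
  · subst h2
    simpa using cs_nonneg hnn
  have hsub1 : W1 ⊆ pb w := fun p hp => by
    have := hch p hp q0 hq0
    exact mem_pb.2 ⟨this.1, this.2.1⟩
  unfold cs
  calc ∑ p ∈ W1, ∑ q ∈ W2, h p q
      ≤ ∑ p ∈ W1, ∑ q ∈ pb p,
        if (d : ℝ) * p * (q : ℝ) ^ 3 < D then g (d * p * q) q else 0 := by
        refine Finset.sum_le_sum fun p hp => ?_
        have hsub2 : W2 ⊆ pb p := fun q hq => by
          have := hch p hp q hq
          exact mem_pb.2 ⟨this.2.2.1, this.2.2.2.1⟩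
        calc ∑ q ∈ W2, h p q
            ≤ ∑ q ∈ W2, if (d : ℝ) * p * (q : ℝ) ^ 3 < D then g (d * p * q) q else 0 := by
              refine Finset.sum_le_sum fun q hq => ?_
              rw [if_pos (hch p hp q hq).2.2.2.2]
              exact hK p hp q hq
          _ ≤ _ := by
              refine Finset.sum_le_sum_of_subset_of_nonneg hsub2 fun q hq _ => ?_
              have hp' := mem_pb.1 (hsub1 hp)
              have hq' := mem_pb.1 hq
              split_ifs with ht
              · exact hnn p q ⟨hp'.1, hp'.2, hq'.1, hq'.2, ht⟩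
              · exact le_rfl
    _ ≤ _ := by
        refine Finset.sum_le_sum_of_subset_of_nonneg hsub1 fun p hp _ => ?_
        refine Finset.sum_nonneg fun q hq => ?_
        have hp' := mem_pb.1 hp
        have hq' := mem_pb.1 hq
        split_ifs with ht
        · exact hnn p q ⟨hp'.1, hp'.2, hq'.1, hq'.2, ht⟩
        · exact le_rfl

/-- mass of the elements of `line(V)` with the property `Un` -/
noncomputable def UU (D V : ℝ) (Un : ℕ → Prop) (d w : ℕ) : ℝ :=
  ls D (Stop D V) (fun d _ => if Un d then 1 / (d : ℝ) else 0) d w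

lemma UU_nonneg {D V : ℝ} {Un : ℕ → Prop} (d w : ℕ) (hi : Inv D d w) : 0 ≤ UU D V Un d w :=
  ls_nonneg (fun d w _ _ => by split_ifs <;> positivity) d w hi

/-- below a pair `p, q` all of whose multiples are `Un`, `UU = FF`. -/
lemma FF_le_UU {D V : ℝ} {Un : ℕ → Prop} {p q : ℕ} (hU : ∀ d, p ∣ d → q ∣ d → Un d)
    (d w : ℕ) (hi : Inv D d w) (hp : p ∣ d) (hq : q ∣ d) : FF D V d w ≤ UU D V Un d w := by
  refine ls_mono' (J := fun d _ => p ∣ d ∧ q ∣ d)
    (fun d w p' q' _ hj _ => ⟨(hj.1.mul_right _).mul_right _, (hj.2.mul_right _).mul_right _⟩) ?_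
    d w hi ⟨hp, hq⟩
  intro d w _ hj _
  rw [if_pos (hU d hj.1 hj.2)]

/-- If hit multiples of `p` are `Un`. -/
lemma HH_le_UU {D V : ℝ} {Un : ℕ → Prop} {XX : Finset ℕ} {p : ℕ}
    (hU : ∀ d, p ∣ d → hit XX d → Un d)
    (d w : ℕ) (hi : Inv D d w) (hp : p ∣ d) : HH D V XX d w ≤ UU D V Un d w := by
  refine ls_mono' (J := fun d _ => p ∣ d)
    (fun d w p' q' _ hj _ => (hj.mul_right _).mul_right _) ?_ d w hi hp
  intro d w _ hj _
  by_cases hh : hit XX d
  · rw [if_pos hh, if_pos (hU d hj hh)]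
  · rw [if_neg hh]
    split_ifs <;> positivity

/-- The pair inequality `(★)`. -/
lemma star {D V κ : ℝ} {Un : ℕ → Prop} {d w : ℕ} (hi : Inv D d w) (hs : ¬ Stop D V d w)
    (W1 W2 : Finset ℕ) (nc : ℕ → ℕ → Prop)
    (hch : ∀ p ∈ W1, ∀ q ∈ W2, IsChild D d w p q)
    (hlow : ∀ p ∈ W1, ∀ q ∈ W2, κ * ((1 / (p : ℝ)) * (1 / (q : ℝ))) ≤ FF D V (d * p * q) q)
    (hnc : ∀ p ∈ W1, ∀ q ∈ W2, nc p q → ∀ m, p ∣ m → q ∣ m → Un m) :
    κ * ∑ p ∈ W1, ∑ q ∈ W2, (if nc p q then (1 / (p : ℝ)) * (1 / (q : ℝ)) else 0) ≤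
      UU D V Un d w := by
  have e : UU D V Un d w = cs D (UU D V Un) d w := ls_step hs
  rw [e]
  have h := cs_ge_pairs (D := D) (g := UU D V Un) (d := d) (w := w) W1 W2
    (fun p q => κ * (if nc p q then (1 / (p : ℝ)) * (1 / (q : ℝ)) else 0))
    (fun p q hc => UU_nonneg _ _ (hi.child hc)) hch ?_
  · refine le_trans (le_of_eq ?_) h
    rw [Finset.mul_sum]
    refine Finset.sum_congr rfl fun p _ => ?_
    rw [Finset.mul_sum]
  · intro p hp q hq
    have hic := hi.child (hch p hp q hq)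
    split_ifs with hn
    · refine (hlow p hp q hq).trans ?_
      exact FF_le_UU (hnc p hp q hq hn) _ _ hic ((dvd_mul_left p d).mul_right q)
        (dvd_mul_left q (d * p))
    · rw [mul_zero]
      exact UU_nonneg _ _ hic

/-- `d` has a prime factor with `log p ≥ t` and, for every class `P i`, a prime factor `p` with
`T0 < log p` outside of `P i`. -/
def Unst {ι : Type*} (T0 t : ℝ) (I : Finset ι) (P : ι → ℕ → Prop) (d : ℕ) : Prop :=
  (∃ p, p.Prime ∧ p ∣ d ∧ t ≤ Real.log p) ∧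
    ∀ i ∈ I, ∃ p, p.Prime ∧ p ∣ d ∧ T0 < Real.log p ∧ ¬ P i p

lemma log_three_half : (1 : ℝ) / 3 ≤ Real.log (3 / 2) := by
  have h1 : Real.log (2 / 3) ≤ 2 / 3 - 1 := Real.log_le_sub_one_of_pos (by norm_num)
  have h2 : Real.log (3 / 2) = -Real.log (2 / 3) := by
    rw [← Real.log_inv]; norm_num
  rw [h2]
  linarith

/-- abstract averaging: if the weighted sum of `N` is small then `N` is small somewhere -/
lemma exists_small {S : Finset ℕ} {N : ℕ → ℝ} {a e : ℝ} (hS : a ≤ ∑ p ∈ S, 1 / (p : ℝ))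
    (ha : 0 < a) (hpos : ∀ p ∈ S, 0 < p) (he : 0 ≤ e)
    (h : ∑ p ∈ S, 1 / (p : ℝ) * N p ≤ e) : ∃ p ∈ S, N p ≤ e / a := by
  by_contra hcon
  push Not at hcon
  have hne : S.Nonempty := by
    rw [Finset.nonempty_iff_ne_empty]
    rintro rfl
    simp at hS
    linarith
  have h1 : ∑ p ∈ S, 1 / (p : ℝ) * (e / a) < ∑ p ∈ S, 1 / (p : ℝ) * N p := by
    refine Finset.sum_lt_sum_of_nonempty hne fun p hp => ?_
    have : (0 : ℝ) < p := by exact_mod_cast hpos p hp
    have h2 := hcon p hp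
    have h3 : (0 : ℝ) < 1 / p := by positivity
    exact mul_lt_mul_of_pos_left h2 h3
  rw [← Finset.sum_mul] at h1
  have h4 : e ≤ (∑ p ∈ S, 1 / (p : ℝ)) * (e / a) := by
    calc e = a * (e / a) := by field_simp
      _ ≤ _ := by
        apply mul_le_mul_of_nonneg_right hS
        positivity
  linarith

end Crest.Agent.R001.Hit
end

-- ▼ part R001/Hit621e

/-!
# R1, block HIT: the final statement.  helper621
-/

set_option autoImplicit false

namespace Crest.Agent.R001.Hit

open Finset Classical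



lemma sum_le_of_subset {S T : Finset ℕ} (h : S ⊆ T) :
    ∑ p ∈ S, 1 / (p : ℝ) ≤ ∑ p ∈ T, 1 / (p : ℝ) :=
  Finset.sum_le_sum_of_subset_of_nonneg h fun p _ _ => by positivity

/-- The geometric facts at the root. -/
structure Setup (D V L : ℝ) (w0 : ℕ) : Prop where
  L_def : Real.log D = L
  L_big : 10000 ≤ L
  V_pos : 0 < V
  V_lt : V < L
  inv : Inv D 1 w0
  w0_big : 9 / 20 * L ≤ Real.log w0

namespace Setup

variable {D V L : ℝ} {w0 : ℕ}

lemma vv_one (h : Setup D V L w0) : vv D 1 = L := by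
  unfold vv; simp [h.L_def]

lemma w0_one (h : Setup D V L w0) : 1 ≤ w0 := one_le_of_log_pos (by
  have := h.w0_big
  have := h.L_big
  linarith)

lemma D_pos (h : Setup D V L w0) : 0 < D := Hit.D_pos h.inv h.w0_one

lemma log_w0_le (h : Setup D V L w0) : Real.log w0 ≤ L / 2 := by
  have := two_log_le h.inv h.w0_one
  rw [h.vv_one] at this
  linarith

lemma lt_w0 (h : Setup D V L w0) {p : ℕ} (hp : p.Prime) (hlt : Real.log p < 9 / 20 * L) :
    p < w0 := by
  have hp0 : (0 : ℝ) < p := by exact_mod_cast hp.pos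
  have hw0 : (0 : ℝ) < w0 := by exact_mod_cast h.w0_one
  have : Real.log p < Real.log w0 := lt_of_lt_of_le hlt h.w0_big
  exact_mod_cast (Real.log_lt_log_iff hp0 hw0).1 this

lemma log_lt (h : Setup D V L w0) {p : ℕ} (hp : p.Prime) (hlt : p < w0) :
    Real.log p < L / 2 := by
  have hp0 : (0 : ℝ) < p := by exact_mod_cast hp.pos
  have : Real.log p < Real.log w0 := Real.log_lt_log hp0 (by exact_mod_cast hlt)
  exact lt_of_lt_of_le this h.log_w0_le

lemma not_stop (h : Setup D V L w0) : ¬ Stop D V 1 w0 := by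
  intro hs
  have := hs.2
  rw [h.vv_one] at this
  linarith [h.V_lt]

lemma isChild (h : Setup D V L w0) {p q : ℕ} (hp : p.Prime) (hq : q.Prime) (hpw : p < w0)
    (hlt : Real.log q < Real.log p) (ht : Real.log p + 3 * Real.log q < L) :
    IsChild D 1 w0 p q := by
  have hp0 : (0 : ℝ) < p := by exact_mod_cast hp.pos
  have hq0 : (0 : ℝ) < q := by exact_mod_cast hq.pos
  apply isChild_iff_log h.D_pos h.inv hpw hp _ hq
  · rw [h.vv_one]; exact ht
  · exact_mod_cast (Real.log_lt_log_iff hq0 hp0).1 hlt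

lemma vv_child (h : Setup D V L w0) {p q : ℕ} (hc : IsChild D 1 w0 p q) :
    vv D (1 * p * q) = L - Real.log p - Real.log q := by
  rw [Hit.vv_child h.inv hc, h.vv_one]

/-- lower bound for the mass below a child of the root -/
lemma low_child (h : Setup D V L w0) {S c V1 B : ℝ} (hc0 : 0 < c) (hL : LOW S c V1 B)
    (hV : V1 ≤ V) {p q : ℕ} (hc : IsChild D 1 w0 p q)
    (h1 : L - Real.log p - Real.log q < S * Real.log q)
    (h2 : B * V ≤ L - Real.log p - Real.log q) (h3 : 0 < L - Real.log p - Real.log q) :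
    c * V ^ 2 / L ^ 2 * ((1 / (p : ℝ)) * (1 / (q : ℝ))) ≤ FF D V (1 * p * q) q := by
  have hic := h.inv.child hc
  have hvc := h.vv_child hc
  have hp0 : (0 : ℝ) < p := by exact_mod_cast hc.2.1.pos
  have hq0 : (0 : ℝ) < q := by exact_mod_cast hc.2.2.2.1.pos
  have hlp : 0 ≤ Real.log p := Real.log_natCast_nonneg p
  have hlq : 0 ≤ Real.log q := Real.log_natCast_nonneg q
  have hlow := hL D V hV (1 * p * q) q hic (by rw [hvc]; exact h1) (by rw [hvc]; exact h2)
  refine le_trans ?_ hlow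
  push_cast
  rw [show c * V ^ 2 / L ^ 2 * ((1 / (p : ℝ)) * (1 / (q : ℝ))) =
    c * V ^ 2 / (1 * p * q * L ^ 2) by field_simp]
  have h4 : 0 < vv D (1 * p * q) := by rw [hvc]; exact h3
  have h5 : vv D (1 * p * q) ≤ L := by rw [hvc]; linarith
  have hV0 := h.V_pos
  gcongr

end Setup

lemma win_mass {L : ℝ} (hL : 10000 ≤ L) :
    13 / 20 ≤ ∑ p ∈ win (L / 5) (2 * L / 5), 1 / (p : ℝ) := by
  have h1 := sum_win_ge (a := L / 5) (b := 2 * L / 5) (by linarith) (by linarith)
  have h2 : 2 * L / 5 / (L / 5) = 2 := by field_simp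
  rw [h2] at h1
  have h3 := Real.log_two_gt_d9
  have h4 : 18 / (L / 5) ≤ 1 / 100 := by
    rw [div_le_iff₀ (by linarith)]
    linarith
  linarith

lemma R_mass {L : ℝ} (hL : 10000 ≤ L) :
    3 / 10 ≤ ∑ p ∈ win (L / 10) (3 * L / 20), 1 / (p : ℝ) := by
  have h1 := sum_win_ge (a := L / 10) (b := 3 * L / 20) (by linarith) (by linarith)
  have h2 : 3 * L / 20 / (L / 10) = 3 / 2 := by field_simp; norm_num
  rw [h2] at h1
  have h3 := log_three_half
  have h4 : 18 / (L / 10) ≤ 1 / 50 := by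
    rw [div_le_iff₀ (by linarith)]
    linarith
  linarith

/-- A class captures almost everything at the top. -/
theorem uniq {ι : Type*} {D V L : ℝ} {w0 : ℕ} (h : Setup D V L w0)
    {c10 V1 B : ℝ} (hc10 : 0 < c10) (hL10 : LOW 10 c10 V1 B) (hV1 : V1 ≤ V)
    (hBV : B * V ≤ 7 / 20 * L) {T0 : ℝ} (hT0 : T0 < L / 10)
    (I : Finset ι) (P : ι → ℕ → Prop) {ε : ℝ} (hε : 0 ≤ ε)
    (hε1 : ε ≤ 1 / 50) (hε2 : ε / c10 ≤ 1 / 50)
    (hov : ∑ p ∈ (pb w0).filter (fun p : ℕ => T0 < Real.log p ∧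
      ∃ i ∈ I, ∃ j ∈ I, i ≠ j ∧ P i p ∧ P j p), 1 / (p : ℝ) ≤ ε)
    (hU : UU D V (Unst T0 (L / 5) I P) 1 w0 ≤ ε * (V ^ 2 / L ^ 2)) :
    ∃ i ∈ I, ∑ p ∈ (pb w0).filter (fun p : ℕ => L / 5 ≤ Real.log p ∧ ¬ P i p), 1 / (p : ℝ) ≤
      5 * (ε / c10) + ε := by
  have hLp : 0 < L := by linarith [h.L_big]
  have hVp := h.V_pos
  set O : ℕ → Prop := fun p => ∃ i ∈ I, ∃ j ∈ I, i ≠ j ∧ P i p ∧ P j p with hO
  set W1 := (pb w0).filter (fun p : ℕ => L / 5 ≤ Real.log p) with hW1
  set R := win (L / 10) (3 * L / 20) with hR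
  set nc : ℕ → ℕ → Prop := fun p q => ∀ i ∈ I, ¬ (P i p ∧ P i q) with hnc
  have memW1 : ∀ p ∈ W1, p < w0 ∧ p.Prime ∧ L / 5 ≤ Real.log p ∧ Real.log p < L / 2 := by
    intro p hp
    rw [hW1, Finset.mem_filter, mem_pb] at hp
    exact ⟨hp.1.1, hp.1.2, hp.2, h.log_lt hp.1.2 hp.1.1⟩
  have memR : ∀ q ∈ R, q.Prime ∧ L / 10 < Real.log q ∧ Real.log q ≤ 3 * L / 20 := by
    intro q hq
    rw [hR, mem_win] at hq
    exact ⟨hq.2, hq.1.1, hq.1.2⟩
  have hch : ∀ p ∈ W1, ∀ q ∈ R, IsChild D 1 w0 p q := by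
    intro p hp q hq
    obtain ⟨a1, a2, a3, a4⟩ := memW1 p hp
    obtain ⟨b1, b2, b3⟩ := memR q hq
    exact h.isChild a2 b1 a1 (by linarith) (by linarith)
  have hlow : ∀ p ∈ W1, ∀ q ∈ R,
      c10 * V ^ 2 / L ^ 2 * ((1 / (p : ℝ)) * (1 / (q : ℝ))) ≤ FF D V (1 * p * q) q := by
    intro p hp q hq
    obtain ⟨a1, a2, a3, a4⟩ := memW1 p hp
    obtain ⟨b1, b2, b3⟩ := memR q hq
    exact h.low_child hc10 hL10 hV1 (hch p hp q hq) (by linarith) (by linarith) (by linarith)
  have hun : ∀ p ∈ W1, ∀ q ∈ R, nc p q → ∀ m, p ∣ m → q ∣ m → Unst T0 (L / 5) I P m := by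
    intro p hp q hq hn m hpm hqm
    obtain ⟨a1, a2, a3, a4⟩ := memW1 p hp
    obtain ⟨b1, b2, b3⟩ := memR q hq
    refine ⟨⟨p, a2, hpm, a3⟩, fun i hi => ?_⟩
    by_cases hpi : P i p
    · exact ⟨q, b1, hqm, by linarith, fun hqi => hn i hi ⟨hpi, hqi⟩⟩
    · exact ⟨p, a2, hpm, by linarith, hpi⟩
  have hstar := star h.inv h.not_stop W1 R nc hch hlow hun
  -- the pair sum is at most `ε / c10`
  have hVL : 0 < V ^ 2 / L ^ 2 := by positivity
  have hpair : ∑ p ∈ W1, ∑ q ∈ R, (if nc p q then (1 / (p : ℝ)) * (1 / (q : ℝ)) else 0) ≤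
      ε / c10 := by
    rw [le_div_iff₀ hc10]
    have h1 := hstar.trans hU
    have h2 : c10 * V ^ 2 / L ^ 2 = c10 * (V ^ 2 / L ^ 2) := by ring
    rw [h2] at h1
    have h3 : (c10 * ∑ p ∈ W1, ∑ q ∈ R, (if nc p q then (1 / (p : ℝ)) * (1 / (q : ℝ)) else 0)) *
        (V ^ 2 / L ^ 2) ≤ ε * (V ^ 2 / L ^ 2) := by
      refine le_trans (le_of_eq ?_) h1
      ring
    have h4 := le_of_mul_le_mul_right h3 hVL
    refine le_trans (le_of_eq ?_) h4
    ring
  set e1 := ε / c10 with he1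
  have he10 : 0 ≤ e1 := by positivity
  -- `N p`
  set N : ℕ → ℝ := fun p => ∑ q ∈ R, (if nc p q then 1 / (q : ℝ) else 0) with hN
  have hNnn : ∀ p, 0 ≤ N p := fun p => Finset.sum_nonneg fun q _ => by
    split_ifs <;> positivity
  have hpairN : ∑ p ∈ W1, 1 / (p : ℝ) * N p ≤ e1 := by
    refine le_trans (le_of_eq ?_) hpair
    refine Finset.sum_congr rfl fun p _ => ?_
    rw [hN, Finset.mul_sum]
    refine Finset.sum_congr rfl fun q _ => ?_
    split_ifs <;> simp
  -- masses
  have hwin : 13 / 20 ≤ ∑ p ∈ win (L / 5) (2 * L / 5), 1 / (p : ℝ) := win_mass h.L_big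
  have hR3 : 3 / 10 ≤ ∑ q ∈ R, 1 / (q : ℝ) := R_mass h.L_big
  have hW1ge : 13 / 20 ≤ ∑ p ∈ W1, 1 / (p : ℝ) := by
    refine hwin.trans (sum_le_of_subset ?_)
    intro p hp
    rw [mem_win] at hp
    rw [hW1, Finset.mem_filter, mem_pb]
    exact ⟨⟨h.lt_w0 hp.2 (by linarith), hp.2⟩, hp.1.1.le⟩
  -- the primes in `W1` outside of the overlap
  set S1 := W1.filter (fun p => ¬ O p) with hS1
  have hOW1 : ∑ p ∈ W1.filter (fun p => O p), 1 / (p : ℝ) ≤ ε := by
    refine le_trans (sum_le_of_subset ?_) hov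
    intro p hp
    rw [Finset.mem_filter] at hp
    obtain ⟨a1, a2, a3, a4⟩ := memW1 p hp.1
    rw [Finset.mem_filter, mem_pb]
    exact ⟨⟨a1, a2⟩, by linarith, hp.2⟩
  have hsplit1 : ∑ p ∈ W1, 1 / (p : ℝ) =
      ∑ p ∈ W1.filter (fun p => O p), 1 / (p : ℝ) + ∑ p ∈ S1, 1 / (p : ℝ) := by
    rw [hS1, Finset.sum_filter_add_sum_filter_not]
  have hS1ge : 1 / 2 ≤ ∑ p ∈ S1, 1 / (p : ℝ) := by linarith
  have hS1N : ∑ p ∈ S1, 1 / (p : ℝ) * N p ≤ e1 := by
    refine le_trans (Finset.sum_le_sum_of_subset_of_nonneg (Finset.filter_subset _ _) ?_) hpairN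
    intro p _ _
    have := hNnn p
    positivity
  obtain ⟨ps, hps, hpsN⟩ := exists_small hS1ge (by norm_num)
    (fun p hp => (memW1 p (Finset.mem_filter.1 hp).1).2.1.pos) he10 hS1N
  have hps' := Finset.mem_filter.1 hps
  have hpsO : ¬ O ps := hps'.2
  have hN2 : N ps ≤ 2 * e1 := by
    refine hpsN.trans (le_of_eq ?_)
    ring
  -- the class of `ps`
  have hex : ∃ i ∈ I, P i ps := by
    by_contra hcon
    push Not at hcon
    have hall : ∀ q, nc ps q := fun q i hi hh => hcon i hi hh.1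
    have : N ps = ∑ q ∈ R, 1 / (q : ℝ) := by
      rw [hN]
      exact Finset.sum_congr rfl fun q _ => if_pos (hall q)
    linarith
  obtain ⟨i0, hi0, hPi0⟩ := hex
  refine ⟨i0, hi0, ?_⟩
  have hRnot : ∑ q ∈ R.filter (fun q => ¬ P i0 q), 1 / (q : ℝ) ≤ 2 * e1 := by
    refine le_trans ?_ hN2
    rw [Finset.sum_filter, hN]
    refine Finset.sum_le_sum fun q _ => ?_
    by_cases hq : P i0 q
    · rw [if_neg (not_not.2 hq)]
      split_ifs <;> positivity
    · rw [if_pos hq, if_pos]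
      intro i hi hh
      by_cases hii : i = i0
      · subst hii; exact hq hh.2
      · exact hpsO ⟨i, hi, i0, hi0, hii, hh.1, hPi0⟩
  have hRO : ∑ q ∈ R.filter (fun q => O q), 1 / (q : ℝ) ≤ ε := by
    refine le_trans (sum_le_of_subset ?_) hov
    intro q hq
    rw [Finset.mem_filter] at hq
    obtain ⟨b1, b2, b3⟩ := memR q hq.1
    rw [Finset.mem_filter, mem_pb]
    exact ⟨⟨h.lt_w0 b1 (by linarith), b1⟩, by linarith, hq.2⟩
  -- the primes of `S1` outside of the class
  set S2 := S1.filter (fun p => ¬ P i0 p) with hS2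
  have hN5 : ∀ p ∈ S2, 1 / 5 ≤ N p := by
    intro p hp
    rw [hS2, Finset.mem_filter] at hp
    have hpO : ¬ O p := (Finset.mem_filter.1 hp.1).2
    have h1 : ∑ q ∈ R, 1 / (q : ℝ) ≤ N p + ∑ q ∈ R.filter (fun q => ¬ P i0 q), 1 / (q : ℝ) +
        ∑ q ∈ R.filter (fun q => O q), 1 / (q : ℝ) := by
      rw [Finset.sum_filter, Finset.sum_filter, hN, ← Finset.sum_add_distrib,
        ← Finset.sum_add_distrib]
      refine Finset.sum_le_sum fun q _ => ?_
      have hq0 : (0 : ℝ) ≤ 1 / (q : ℝ) := by positivity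
      by_cases hq1 : P i0 q
      · by_cases hq2 : O q
        · rw [if_pos hq2]
          have : (0 : ℝ) ≤ (if nc p q then 1 / (q : ℝ) else 0) := by split_ifs <;> positivity
          have : (0 : ℝ) ≤ (if ¬ P i0 q then 1 / (q : ℝ) else 0) := by split_ifs <;> positivity
          linarith
        · have hncpq : nc p q := by
            intro i hi hh
            by_cases hii : i = i0
            · subst hii; exact hp.2 hh.1
            · exact hq2 ⟨i, hi, i0, hi0, hii, hh.2, hq1⟩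
          rw [if_pos hncpq, if_neg (not_not.2 hq1), if_neg hq2]
          linarith
      · rw [if_pos hq1]
        have : (0 : ℝ) ≤ (if nc p q then 1 / (q : ℝ) else 0) := by split_ifs <;> positivity
        have : (0 : ℝ) ≤ (if O q then 1 / (q : ℝ) else 0) := by split_ifs <;> positivity
        linarith
    linarith
  have hS2le : ∑ p ∈ S2, 1 / (p : ℝ) ≤ 5 * e1 := by
    have h1 : ∑ p ∈ S2, 1 / (p : ℝ) * (1 / 5) ≤ ∑ p ∈ S2, 1 / (p : ℝ) * N p :=
      Finset.sum_le_sum fun p hp => mul_le_mul_of_nonneg_left (hN5 p hp) (by positivity)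
    have h2 : ∑ p ∈ S2, 1 / (p : ℝ) * N p ≤ ∑ p ∈ S1, 1 / (p : ℝ) * N p := by
      refine Finset.sum_le_sum_of_subset_of_nonneg (Finset.filter_subset _ _) ?_
      intro p _ _
      have := hNnn p
      positivity
    rw [← Finset.sum_mul] at h1
    linarith
  calc ∑ p ∈ (pb w0).filter (fun p : ℕ => L / 5 ≤ Real.log p ∧ ¬ P i0 p), 1 / (p : ℝ)
      ≤ ∑ p ∈ W1.filter (fun p => O p), 1 / (p : ℝ) + ∑ p ∈ S2, 1 / (p : ℝ) := by
        rw [hS2, hS1, hW1, Finset.filter_filter, Finset.filter_filter, Finset.filter_filter,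
          Finset.sum_filter, Finset.sum_filter, Finset.sum_filter, ← Finset.sum_add_distrib]
        refine Finset.sum_le_sum fun p _ => ?_
        by_cases a1 : L / 5 ≤ Real.log p <;> by_cases a2 : P i0 p <;> by_cases a3 : O p <;>
          simp [a1, a2, a3]
    _ ≤ _ := by linarith

end Crest.Agent.R001.Hit
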