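import Crest.Agent.R001.MassB664

-- ▼ part R001/MassC664
section

/-! Row 1 (S0001), block (1), file C: contraction on the non-good nodes. -/

set_option autoImplicit false

namespace Crest.Agent.R001.Mass

open Finset Crest.Agent.Lib.Mertens

theorem log_inv_le {X Λ : ℝ} (hX : 0 < X) (hΛ0 : 0 ≤ Λ) (h : 1 / X ≤ 1 + Λ + Λ ^ 2 / 2) :
    -Real.log X ≤ Λ := by
  rw [← Real.log_inv, ← Real.log_exp Λ]
  apply Real.log_le_log (by positivity)
  rw [one_div] at h
  exact h.trans (Real.quadratic_le_exp_of_nonneg hΛ0)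

theorem rpow_cell {M R : ℝ} (hM : 0 < M) (hR : 0 < R) (h : M ^ 25 ≤ R ^ 4) :
    M ^ (25 / 4 : ℝ) ≤ R := by
  have h1 : M ^ (25 / 4 : ℝ) = (M ^ 25) ^ (1 / 4 : ℝ) := by
    rw [← Real.rpow_natCast, ← Real.rpow_mul hM.le]
    norm_num
  have h2 : R = (R ^ 4) ^ (1 / 4 : ℝ) := by
    rw [← Real.rpow_natCast, ← Real.rpow_mul hR.le]
    norm_num
  rw [h1]
  conv_rhs => rw [h2]
  exact Real.rpow_le_rpow (by positivity) h (by norm_num)

/-- crude one-generation bound: `Op Xi ≤ C Xi` on all nodes -/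
theorem Op_Xi_le : ∃ C : ℝ, 0 < C ∧ ∀ y w, Inv y w → Op Xi y w ≤ C * Xi y w := by
  refine ⟨3 ^ (25 / 4 : ℝ) * 300, by positivity, ?_⟩
  intro y w hI
  have hu := hI.log_two_le
  have hu0 := hI.log_w_pos
  have hv := hI.log_y_pos
  have h1 := Op_core (h := Xi) hI (M := 3) (x := Real.log w) (Λ := 0) (by norm_num) hu le_rfl
    (by simp) le_rfl (by
      intro p q hc
      have hl := hc.logs hI
      rw [if_pos (hl.2.1.trans hl.2.2.1)]
      unfold Xi
      refine mul_le_mul_of_nonneg_left ?_ (by positivity)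
      have h3 := hc.third hI
      exact rpow_level hv (by linarith) (by norm_num) (by linarith))
  refine h1.trans ?_
  unfold Xi
  set u := Real.log w
  have hl2 : (0.69 : ℝ) ≤ u := by
    have := Real.log_two_gt_d9
    linarith
  have h2 : u ^ 4 * (1 / 16 + 0 / 4) + u ^ 3 * (12 + 6 * 0) + 120 * u ^ 2 ≤ 300 * u ^ 4 := by
    have h3 : u ^ 2 ≤ 2.2 * u ^ 4 := by
      have : (0.47 : ℝ) ≤ u ^ 2 := by nlinarith
      nlinarith [sq_nonneg u]
    have h4 : u ^ 3 ≤ 1.5 * u ^ 4 := by
      have : 0 < u ^ 3 := by positivity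
      nlinarith
    have h5 : 0 < u ^ 4 := by positivity
    linarith
  have h6 : 0 < (3 : ℝ) ^ (25 / 4 : ℝ) * Real.log y ^ (-(25 / 4) : ℝ) := by positivity
  nlinarith [mul_le_mul_of_nonneg_left h2 h6.le]

open Classical in
/-- the potential restricted to the non-good nodes -/
noncomputable def XiB (y : ℝ) (w : ℕ) : ℝ := if Good y w then 0 else Xi y w

/-- one cell of the contraction estimate -/
theorem cell {y : ℝ} {w : ℕ} (hI : Inv y w) {s0 s1 M X Λ R : ℝ} (hs0 : 4 ≤ s0) (hs1 : s0 ≤ s1)
    (h0 : s0 * Real.log w ≤ Real.log y) (h1 : Real.log y ≤ s1 * Real.log w ∨ X = 1)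
    (hM : M = 5 / 4 * s0 / (s0 - 1)) (hX : s1 / 6 ≤ X ∨ X = 1) (hX7 : 0.7 ≤ X) (hX1 : X ≤ 1)
    (hΛ0 : 0 ≤ Λ) (hΛ1 : Λ ≤ 1) (hΛ : 1 / X ≤ 1 + Λ + Λ ^ 2 / 2) (hR : 0 < R)
    (hR25 : R ≤ 25) (hMR : M ^ 25 ≤ R ^ 4)
    (hval : R * (X ^ 4 * (1 / 16 + Λ / 4)) ≤ 0.93) (hu : 100000 ≤ Real.log w) :
    Op XiB y w ≤ 49 / 50 * Xi y w := by
  set u := Real.log w with hu'
  set v := Real.log y with hv'
  have hu0 : 0 < u := by linarith
  have hv0 : 0 < v := hI.log_y_pos
  have hX0 : 0 < X := by linarith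
  have hs01 : 0 < s0 - 1 := by linarith
  have hM0 : 0 < M := by rw [hM]; positivity
  have hlog2 : Real.log 2 ≤ X * u := by
    have := Real.log_two_lt_d9
    nlinarith
  have hxw : X * u ≤ u := by nlinarith
  have h2 := Op_core (h := XiB) hI (M := M) (x := X * u) (Λ := Λ) hM0 hlog2 hxw
    (by
      rw [Real.log_mul hX0.ne' hu0.ne']
      have := log_inv_le hX0 hΛ0 hΛ
      linarith) hΛ0 (by
      intro p q hc
      have hl := hc.logs hI
      have hIc := inv_closed y w p q hI hc
      have hpos : 0 ≤ Real.log q ^ 4 * (M ^ (25 / 4 : ℝ) * v ^ (-(25 / 4) : ℝ)) := by positivity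
      unfold XiB
      by_cases hg : Good (y / ((p : ℝ) * q)) q
      · rw [if_pos hg]
        split_ifs
        · exact hpos
        · exact le_rfl
      · rw [if_neg hg]
        have hng : 4 * Real.log q ≤ Real.log (y / ((p : ℝ) * q)) := by
          unfold Good at hg
          linarith
        have hch := hc.log_child hI
        have hq6 : Real.log q ≤ X * u := by
          have h6 : 6 * Real.log q ≤ v := by
            rw [hch] at hng
            linarith [hl.2.1]
          rcases h1 with h1 | h1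
          · rcases hX with hX | hX
            · have : s1 / 6 * u ≤ X * u := mul_le_mul_of_nonneg_right hX hu0.le
              linarith
            · rw [hX, one_mul]; exact hl.2.1.trans hl.2.2.1
          · rw [h1, one_mul]; exact hl.2.1.trans hl.2.2.1
        rw [if_pos hq6]
        unfold Xi
        refine mul_le_mul_of_nonneg_left ?_ (by positivity)
        refine rpow_level hv0 hIc.log_y_pos hM0 ?_
        -- v ≤ M v'
        have h5 : 4 * (v - u) ≤ 5 * Real.log (y / ((p : ℝ) * q)) := by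
          rw [hch] at hng ⊢
          linarith [hl.2.2.1]
        have h7 : (s0 - 1) * v ≤ s0 * (v - u) := by linarith
        rw [hM, div_mul_eq_mul_div, le_div_iff₀ hs01]
        have hs00 : 0 ≤ s0 := by linarith
        nlinarith [mul_le_mul_of_nonneg_left h5 hs00])
  refine h2.trans ?_
  have hMR' := rpow_cell hM0 hR hMR
  have hJ : (X * u) ^ 4 * (1 / 16 + Λ / 4) + (X * u) ^ 3 * (12 + 6 * Λ) + 120 * (X * u) ^ 2 ≤
      (X ^ 4 * (1 / 16 + Λ / 4) + 0.002) * u ^ 4 := by
    have e1 : (X * u) ^ 3 ≤ u ^ 3 := pow_le_pow_left₀ (by positivity) hxw 3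
    have e2 : (X * u) ^ 2 ≤ u ^ 2 := pow_le_pow_left₀ (by positivity) hxw 2
    have e3 : u ^ 3 * 100000 ≤ u ^ 4 := by
      have : 0 < u ^ 3 := by positivity
      nlinarith
    have e4 : u ^ 2 * 100000 ≤ u ^ 3 := by
      have : 0 < u ^ 2 := by positivity
      nlinarith
    have e5 : (X * u) ^ 3 * (12 + 6 * Λ) ≤ u ^ 3 * 18 := by
      have : 12 + 6 * Λ ≤ 18 := by linarith
      have h0 : 0 ≤ (X * u) ^ 3 := by positivity
      nlinarith
    have e6 : 0 < u ^ 4 := by positivity
    have e7 : (X * u) ^ 4 = X ^ 4 * u ^ 4 := by ring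
    rw [e7]
    nlinarith
  have hJ0 : 0 ≤ (X ^ 4 * (1 / 16 + Λ / 4) + 0.002) * u ^ 4 := by positivity
  have hY0 : 0 < v ^ (-(25 / 4) : ℝ) := by positivity
  calc M ^ (25 / 4 : ℝ) * v ^ (-(25 / 4) : ℝ) *
        ((X * u) ^ 4 * (1 / 16 + Λ / 4) + (X * u) ^ 3 * (12 + 6 * Λ) + 120 * (X * u) ^ 2)
      ≤ M ^ (25 / 4 : ℝ) * v ^ (-(25 / 4) : ℝ) *
        ((X ^ 4 * (1 / 16 + Λ / 4) + 0.002) * u ^ 4) :=
        mul_le_mul_of_nonneg_left hJ (by positivity)
    _ ≤ R * v ^ (-(25 / 4) : ℝ) * ((X ^ 4 * (1 / 16 + Λ / 4) + 0.002) * u ^ 4) :=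
        mul_le_mul_of_nonneg_right (mul_le_mul_of_nonneg_right hMR' hY0.le) hJ0
    _ = (R * (X ^ 4 * (1 / 16 + Λ / 4)) + R * 0.002) * (u ^ 4 * v ^ (-(25 / 4) : ℝ)) := by ring
    _ ≤ 49 / 50 * (u ^ 4 * v ^ (-(25 / 4) : ℝ)) := by
        refine mul_le_mul_of_nonneg_right ?_ (by positivity)
        linarith
    _ = 49 / 50 * Xi y w := rfl

/-- **contraction** on the non-good nodes -/
theorem Op_XiB_le : ∃ W : ℕ, 2 ≤ W ∧ ∀ y w, Inv y w → W ≤ w → ¬ Good y w →
    Op XiB y w ≤ 49 / 50 * Xi y w := by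
  refine ⟨⌈Real.exp 100000⌉₊, ?_, ?_⟩
  · have h1 : (2 : ℝ) ≤ Real.exp 100000 := by
      have := Real.add_one_le_exp (100000 : ℝ)
      linarith
    have h2 := Nat.le_ceil (Real.exp 100000)
    exact_mod_cast h1.trans h2
  · intro y w hI hw hg
    have hu : 100000 ≤ Real.log w := by
      rw [Real.le_log_iff_exp_le (by exact_mod_cast (by have := hI.1; omega : 0 < w))]
      exact (Nat.le_ceil _).trans (by exact_mod_cast hw)
    have hu0 : 0 < Real.log w := by linarith
    have hng : 4 * Real.log w ≤ Real.log y := by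
      unfold Good at hg
      linarith
    set u := Real.log w with hu'
    set v := Real.log y with hv'
    rcases le_or_gt v (17 / 4 * u) with h | h
    · exact cell hI (s0 := 4) (s1 := 17 / 4) (M := 5 / 3) (X := 17 / 24) (Λ := 351 / 1000)
        (R := 609 / 25) (by norm_num) (by norm_num) (by linarith) (Or.inl h) (by norm_num)
        (Or.inl (by norm_num)) (by norm_num) (by norm_num) (by norm_num) (by norm_num)
        (by norm_num) (by norm_num) (by norm_num) (by norm_num) (by norm_num) hu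
    rcases le_or_gt v (9 / 2 * u) with h' | h'
    · exact cell hI (s0 := 17 / 4) (s1 := 9 / 2) (M := 85 / 52) (X := 3 / 4) (Λ := 291 / 1000)
        (R := 2157 / 100) (by norm_num) (by norm_num) (by linarith) (Or.inl h') (by norm_num)
        (Or.inl (by norm_num)) (by norm_num) (by norm_num) (by norm_num) (by norm_num)
        (by norm_num) (by norm_num) (by norm_num) (by norm_num) (by norm_num) hu
    clear h
    rcases le_or_gt v (19 / 4 * u) with h | h
    · exact cell hI (s0 := 9 / 2) (s1 := 19 / 4) (M := 45 / 28) (X := 19 / 24) (Λ := 59 / 250)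
        (R := 1941 / 100) (by norm_num) (by norm_num) (by linarith) (Or.inl h) (by norm_num)
        (Or.inl (by norm_num)) (by norm_num) (by norm_num) (by norm_num) (by norm_num)
        (by norm_num) (by norm_num) (by norm_num) (by norm_num) (by norm_num) hu
    clear h'
    rcases le_or_gt v (5 * u) with h' | h'
    · exact cell hI (s0 := 19 / 4) (s1 := 5) (M := 19 / 12) (X := 5 / 6) (Λ := 23 / 125)
        (R := 442 / 25) (by norm_num) (by norm_num) (by linarith) (Or.inl h') (by norm_num)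
        (Or.inl (by norm_num)) (by norm_num) (by norm_num) (by norm_num) (by norm_num)
        (by norm_num) (by norm_num) (by norm_num) (by norm_num) (by norm_num) hu
    clear h
    rcases le_or_gt v (21 / 4 * u) with h | h
    · exact cell hI (s0 := 5) (s1 := 21 / 4) (M := 25 / 16) (X := 7 / 8) (Λ := 67 / 500)
        (R := 1627 / 100) (by norm_num) (by norm_num) (by linarith) (Or.inl h) (by norm_num)
        (Or.inl (by norm_num)) (by norm_num) (by norm_num) (by norm_num) (by norm_num)
        (by norm_num) (by norm_num) (by norm_num) (by norm_num) (by norm_num) hu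
    clear h'
    rcases le_or_gt v (11 / 2 * u) with h' | h'
    · exact cell hI (s0 := 21 / 4) (s1 := 11 / 2) (M := 105 / 68) (X := 11 / 12) (Λ := 11 / 125)
        (R := 1511 / 100) (by norm_num) (by norm_num) (by linarith) (Or.inl h') (by norm_num)
        (Or.inl (by norm_num)) (by norm_num) (by norm_num) (by norm_num) (by norm_num)
        (by norm_num) (by norm_num) (by norm_num) (by norm_num) (by norm_num) hu
    clear h
    rcases le_or_gt v (23 / 4 * u) with h | h
    · exact cell hI (s0 := 11 / 2) (s1 := 23 / 4) (M := 55 / 36) (X := 23 / 24) (Λ := 43 / 1000)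
        (R := 707 / 50) (by norm_num) (by norm_num) (by linarith) (Or.inl h) (by norm_num)
        (Or.inl (by norm_num)) (by norm_num) (by norm_num) (by norm_num) (by norm_num)
        (by norm_num) (by norm_num) (by norm_num) (by norm_num) (by norm_num) hu
    clear h'
    rcases le_or_gt v (6 * u) with h' | h'
    · exact cell hI (s0 := 23 / 4) (s1 := 6) (M := 115 / 76) (X := 1) (Λ := 0)
        (R := 333 / 25) (by norm_num) (by norm_num) (by linarith) (Or.inl h') (by norm_num)
        (Or.inl (by norm_num)) (by norm_num) (by norm_num) (by norm_num) (by norm_num)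
        (by norm_num) (by norm_num) (by norm_num) (by norm_num) (by norm_num) hu
    · exact cell hI (s0 := 6) (s1 := 6) (M := 3 / 2) (X := 1) (Λ := 0)
        (R := 1261 / 100) (by norm_num) (by norm_num) (by linarith) (Or.inr rfl) (by norm_num)
        (Or.inr rfl) (by norm_num) (by norm_num) (by norm_num) (by norm_num)
        (by norm_num) (by norm_num) (by norm_num) (by norm_num) (by norm_num) hu

end Crest.Agent.R001.Mass
end

-- ▼ part R001/MassD664

/-! Row 1 (S0001), block (1), file D: the closing argument, part 1 (potential theory). -/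

set_option autoImplicit false

namespace Crest.Agent.R001.Mass

open Finset Classical

/-- nodes with level at most `e^V` -/
def InvV (V : ℝ) (y : ℝ) (w : ℕ) : Prop := Inv y w ∧ Real.log y ≤ V

theorem invV_closed (V : ℝ) : Closed (InvV V) := by
  rintro y w p q ⟨hI, hV⟩ hc
  exact ⟨inv_closed y w p q hI hc, (hc.lt hI).le.trans hV⟩

/-- vanishing below a level -/
theorem T0_zero {f : ℝ → ℕ → ℝ} {V : ℝ} (hf : ∀ y w, InvV V y w → f y w = 0) :
    ∀ y w, InvV V y w → T0 f y w = 0 := by
  refine tree_induction (invV_closed V) ?_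
  intro y w h ih
  rw [T0_eq, hf y w h, zero_add]
  have : Op (T0 f) y w = Op (fun _ _ => 0) y w := Op_congr ih
  rw [this]
  unfold Op
  simp

theorem T0_nonneg {f : ℝ → ℕ → ℝ} (hf : ∀ y w, Inv y w → 0 ≤ f y w) :
    ∀ y w, Inv y w → 0 ≤ T0 f y w :=
  T_nonneg inv_closed hf (fun _ _ _ => le_rfl)

theorem T0_mono {f f' : ℝ → ℕ → ℝ} (hf : ∀ y w, Inv y w → f y w ≤ f' y w) :
    ∀ y w, Inv y w → T0 f y w ≤ T0 f' y w :=
  T_mono inv_closed (fun y w h _ => hf y w h) (fun _ _ _ _ => le_rfl)

/-- small `w` -/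
theorem small_w (W : ℕ) : ∃ C : ℝ, 0 < C ∧ ∀ y w, Inv y w → w < W → T0 Xi y w ≤ C * Xi y w := by
  obtain ⟨C1, hC1, h1⟩ := Op_Xi_le
  have key : ∀ y w, Inv y w → T0 Xi y w ≤ (1 + C1) ^ w * Xi y w := by
    refine tree_induction inv_closed ?_
    intro y w hI ih
    rw [T0_eq]
    have hw := hI.1
    have h2 : Op (T0 Xi) y w ≤ Op (fun y w' => (1 + C1) ^ (w - 1) * Xi y w') y w := by
      refine Op_mono fun p q hc => (ih p q hc).trans ?_
      refine mul_le_mul_of_nonneg_right ?_ (Xi_pos (inv_closed y w p q hI hc)).le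
      apply pow_le_pow_right₀ (by linarith)
      have := hc.q_lt
      omega
    rw [Op_smul] at h2
    have h3 := h1 y w hI
    have h4 : 0 ≤ (1 + C1) ^ (w - 1) := by positivity
    have h5 := mul_le_mul_of_nonneg_left h3 h4
    have h6 : (1 : ℝ) ≤ (1 + C1) ^ (w - 1) := one_le_pow₀ (by linarith)
    have h7 : (1 + C1) ^ w = (1 + C1) ^ (w - 1) * (1 + C1) := by
      rw [← pow_succ]; congr 1; omega
    have h8 := Xi_pos hI
    rw [h7]
    nlinarith
  refine ⟨(1 + C1) ^ W, by positivity, ?_⟩
  intro y w hI hw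
  refine (key y w hI).trans (mul_le_mul_of_nonneg_right ?_ (Xi_pos hI).le)
  exact pow_le_pow_right₀ (by linarith) hw.le

/-- the stopping rule: good nodes with level `≤ e^V` -/
def stopV (V : ℝ) (y : ℝ) (w : ℕ) : Prop := Good y w ∧ Real.log y ≤ V

/-- `Xi` on the nodes with level `> e^V` -/
noncomputable def XiV (V : ℝ) (y : ℝ) (w : ℕ) : ℝ := if V < Real.log y then Xi y w else 0

/-- `Xi` on the good nodes with level `> e^V` -/
noncomputable def XiG (V : ℝ) (y : ℝ) (w : ℕ) : ℝ :=
  if V < Real.log y ∧ Good y w then Xi y w else 0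

theorem XiB_nonneg {y : ℝ} {w : ℕ} (h : Inv y w) : 0 ≤ XiB y w := by
  unfold XiB
  split_ifs
  · exact le_rfl
  · exact (Xi_pos h).le

theorem XiB_le {y : ℝ} {w : ℕ} (h : Inv y w) : XiB y w ≤ Xi y w := by
  unfold XiB
  split_ifs
  · exact (Xi_pos h).le
  · exact le_rfl

theorem XiV_nonneg {V y : ℝ} {w : ℕ} (h : Inv y w) : 0 ≤ XiV V y w := by
  unfold XiV
  split_ifs
  · exact (Xi_pos h).le
  · exact le_rfl

theorem XiG_nonneg {V y : ℝ} {w : ℕ} (h : Inv y w) : 0 ≤ XiG V y w := by
  unfold XiG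
  split_ifs
  · exact (Xi_pos h).le
  · exact le_rfl

/-- package of constants -/
structure Consts where
  C1 : ℝ
  C3 : ℝ
  W : ℕ
  hC1 : 0 < C1
  hC3 : 50 ≤ C3
  op : ∀ y w, Inv y w → Op Xi y w ≤ C1 * Xi y w
  contr : ∀ y w, Inv y w → W ≤ w → ¬ Good y w → Op XiB y w ≤ 49 / 50 * Xi y w
  small : ∀ y w, Inv y w → w < W → T0 Xi y w ≤ C3 * Xi y w

theorem exists_consts : Nonempty Consts := by
  obtain ⟨C1, hC1, h1⟩ := Op_Xi_le
  obtain ⟨W, -, h2⟩ := Op_XiB_le
  obtain ⟨C, -, h3⟩ := small_w W
  refine ⟨⟨C1, max 50 C, W, hC1, le_max_left _ _, h1, h2, ?_⟩⟩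
  intro y w hI hw
  exact (h3 y w hI hw).trans (mul_le_mul_of_nonneg_right (le_max_right _ _) (Xi_pos hI).le)

variable (c : Consts)

/-- below the level `e^V` -/
theorem below (V : ℝ) : ∀ y w, InvV V y w →
    T (stopV V) Xi (fun _ _ => 0) y w ≤ c.C3 * XiB y w := by
  refine tree_induction (invV_closed V) ?_
  rintro y w ⟨hI, hV⟩ ih
  have hC3 : 0 ≤ c.C3 := by linarith [c.hC3]
  by_cases hg : Good y w
  · rw [T_stop ⟨hg, hV⟩]
    exact mul_nonneg hC3 (XiB_nonneg hI)
  · have hns : ¬ stopV V y w := fun h => hg h.1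
    have hB : XiB y w = Xi y w := by unfold XiB; rw [if_neg hg]
    rw [hB]
    rcases lt_or_ge w c.W with hw | hw
    · exact (T_le_T0 inv_closed (fun y w h => (Xi_pos h).le) y w hI).trans (c.small y w hI hw)
    · rw [T_not hns]
      have h1 : Op (T (stopV V) Xi (fun _ _ => 0)) y w ≤ Op (fun y w => c.C3 * XiB y w) y w :=
        Op_mono ih
      rw [Op_smul] at h1
      have h2 := mul_le_mul_of_nonneg_left (c.contr y w hI hw hg) hC3
      have h3 := Xi_pos hI
      nlinarith [c.hC3]

/-- constant of `above` -/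
def Consts.C5 : ℝ := 1 + c.C3 * c.C1

theorem Consts.C5_pos : 0 < c.C5 := by
  unfold Consts.C5
  have := c.hC1
  have := c.hC3
  positivity

/-- the nodes above the line are controlled by the nodes with level `> e^V` -/
theorem above (V : ℝ) : ∀ y w, Inv y w →
    T (stopV V) Xi (fun _ _ => 0) y w ≤
      c.C5 * T0 (XiV V) y w + (if Real.log y ≤ V then c.C3 * XiB y w else 0) := by
  have hC3 : 0 ≤ c.C3 := by linarith [c.hC3]
  refine tree_induction inv_closed ?_
  intro y w hI ih
  by_cases hV : Real.log y ≤ V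
  · rw [if_pos hV]
    have h1 := below c V y w ⟨hI, hV⟩
    have h2 : 0 ≤ T0 (XiV V) y w := T0_nonneg (fun y w h => XiV_nonneg h) y w hI
    have := c.C5_pos
    nlinarith [mul_nonneg this.le h2]
  · rw [if_neg hV, add_zero]
    have hns : ¬ stopV V y w := fun h => hV h.2
    rw [T_not hns, T0_eq]
    have h1 : Op (T (stopV V) Xi (fun _ _ => 0)) y w ≤
        Op (fun y w => c.C5 * T0 (XiV V) y w + c.C3 * Xi y w) y w := by
      refine Op_mono fun p q hc => (ih p q hc).trans ?_
      have hIc := inv_closed y w p q hI hc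
      refine add_le_add_right ?_ _
      split_ifs
      · exact mul_le_mul_of_nonneg_left (XiB_le hIc) hC3
      · exact mul_nonneg hC3 (Xi_pos hIc).le
    rw [Op_add (fun y w => c.C5 * T0 (XiV V) y w) (fun y w => c.C3 * Xi y w), Op_smul, Op_smul] at h1
    have h2 := mul_le_mul_of_nonneg_left (c.op y w hI) hC3
    have h3 : XiV V y w = Xi y w := by unfold XiV; rw [if_pos (not_le.1 hV)]
    rw [h3]
    have h4 := Xi_pos hI
    unfold Consts.C5 at *
    nlinarith

/-- the nodes with level `> e^V` are controlled by the good ones -/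
theorem by_good (V : ℝ) : ∀ y w, Inv y w →
    T0 (XiV V) y w ≤ c.C5 * T0 (XiG V) y w +
      (if V < Real.log y then c.C3 * XiB y w else 0) := by
  have hC3 : 0 ≤ c.C3 := by linarith [c.hC3]
  have hC5 := c.C5_pos
  refine tree_induction inv_closed ?_
  intro y w hI ih
  have hG0 : 0 ≤ T0 (XiG V) y w := T0_nonneg (fun y w h => XiG_nonneg h) y w hI
  by_cases hV : V < Real.log y
  · rw [if_pos hV]
    have hX : XiV V y w = Xi y w := by unfold XiV; rw [if_pos hV]
    by_cases hg : Good y w
    · have hG : XiG V y w = Xi y w := by unfold XiG; rw [if_pos ⟨hV, hg⟩]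
      rw [T0_eq, T0_eq, hX, hG]
      have h1 : Op (T0 (XiV V)) y w ≤
          Op (fun y w => c.C5 * T0 (XiG V) y w + c.C3 * Xi y w) y w := by
        refine Op_mono fun p q hc => (ih p q hc).trans ?_
        have hIc := inv_closed y w p q hI hc
        refine add_le_add_right ?_ _
        split_ifs
        · exact mul_le_mul_of_nonneg_left (XiB_le hIc) hC3
        · exact mul_nonneg hC3 (Xi_pos hIc).le
      rw [Op_add (fun y w => c.C5 * T0 (XiG V) y w) (fun y w => c.C3 * Xi y w), Op_smul,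
        Op_smul] at h1
      have h2 := mul_le_mul_of_nonneg_left (c.op y w hI) hC3
      have h4 := Xi_pos hI
      have h5 := mul_nonneg hC3 (XiB_nonneg hI)
      unfold Consts.C5 at *
      nlinarith
    · have hB : XiB y w = Xi y w := by unfold XiB; rw [if_neg hg]
      rw [hB]
      rcases lt_or_ge w c.W with hw | hw
      · have h1 : T0 (XiV V) y w ≤ T0 Xi y w := by
          refine T0_mono (fun y w h => ?_) y w hI
          unfold XiV
          split_ifs
          · exact le_rfl
          · exact (Xi_pos h).le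
        have h2 := c.small y w hI hw
        have h3 := mul_nonneg hC5.le hG0
        linarith
      · have hG : XiG V y w = 0 := by unfold XiG; rw [if_neg (fun h => hg h.2)]
        rw [T0_eq, T0_eq, hX, hG, zero_add]
        have h1 : Op (T0 (XiV V)) y w ≤
            Op (fun y w => c.C5 * T0 (XiG V) y w + c.C3 * XiB y w) y w := by
          refine Op_mono fun p q hc => (ih p q hc).trans ?_
          have hIc := inv_closed y w p q hI hc
          refine add_le_add_right ?_ _
          split_ifs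
          · exact le_rfl
          · exact mul_nonneg hC3 (XiB_nonneg hIc)
        rw [Op_add (fun y w => c.C5 * T0 (XiG V) y w) (fun y w => c.C3 * XiB y w), Op_smul,
          Op_smul] at h1
        have h2 := mul_le_mul_of_nonneg_left (c.contr y w hI hw hg) hC3
        have h3 := Xi_pos hI
        nlinarith [c.hC3]
  · rw [if_neg hV, add_zero]
    have h0 : T0 (XiV V) y w = 0 := by
      refine T0_zero (V := V) ?_ y w ⟨hI, not_lt.1 hV⟩
      rintro y w ⟨-, h⟩
      unfold XiV
      rw [if_neg (not_lt.2 h)]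
    rw [h0]
    exact mul_nonneg hC5.le hG0

end Crest.Agent.R001.Mass
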