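import Crest.Agent.R001.MassG664
import Crest.Agent.R001.Par2
import Crest.Agent.R001.BdBound

-- ▼ part R001/MassH664
section

/-! Row 1 (S0001), block (1), file H: the instance. -/

set_option autoImplicit false

namespace Crest.Agent.R001.Mass

open Finset Classical
open Crest.Agent.R001.F1 (Rw roughN mem_roughN F1a F1b)

/-- the test function -/
noncomputable def Kf (κ : ℝ) (y : ℝ) (w : ℕ) : ℝ :=
  Rw (y * Real.exp κ) w / (y * Real.exp κ) - Rw y w / y

/-- boundary terms -/
noncomputable def BdR (x y : ℝ) (w : ℕ) : ℝ :=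
  ∑ p ∈ P w, ∑ q ∈ P p, if (p : ℝ) * (q : ℝ) ^ 3 < y then 0 else Rw (x / ((p : ℝ) * q)) q / x

/-- the counting function of the boundary -/
noncomputable def Bb (y : ℝ) (w : ℕ) : ℝ :=
  ∑ p ∈ P w, ∑ q ∈ P p, if (p : ℝ) * (q : ℝ) ^ 3 < y then 0 else 1 / y

theorem P_eq_pr (w : ℕ) : P w = Tree.pr w := by
  ext p
  rw [mem_P, Tree.mem_pr]

/-- Buchstab, two steps -/
theorem two_step {M : ℝ} (hM : 0 < M) (w : ℕ) :
    Rw M w = Tree.intF (Par.Am M) 1 w + ∑ p ∈ P w, ∑ q ∈ P p, Rw (M / ((p : ℝ) * q)) q := by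
  have h := (Par.buch_m M).two_step (Tree.rgh_one w)
  rw [Par.Sm_one M hM.le] at h
  rw [h]
  congr 1
  unfold Tree.ch
  rw [P_eq_pr]
  refine Finset.sum_congr rfl fun p hp => ?_
  rw [P_eq_pr]
  refine Finset.sum_congr rfl fun q hq => ?_
  have hpp := Tree.prime_of_mem_pr hp
  have hqp := Tree.prime_of_mem_pr hq
  have h1 := Par.Sm_eq M hM.le (d := 1 * p * q) (w := q) (by
    have := hpp.pos; have := hqp.pos; positivity) ((Tree.rgh_one w).child hp hq) (by
      rw [Crest.Agent.SW.lam_mul, Crest.Agent.SW.lam_mul, Crest.Agent.SW.lam_one,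
        Par.lam_prime hpp, Par.lam_prime hqp]
      norm_num)
  rw [h1]
  push_cast
  rw [one_mul]

/-- exact recursion for `Kf` -/
theorem Kf_rec (κ : ℝ) {y : ℝ} (hy : 0 < y) (w : ℕ) :
    Kf κ y w = (Tree.intF (Par.Am (y * Real.exp κ)) 1 w / (y * Real.exp κ) -
      Tree.intF (Par.Am y) 1 w / y) + Op (Kf κ) y w + BdR (y * Real.exp κ) y w - BdR y y w := by
  have he : 0 < Real.exp κ := Real.exp_pos κ
  have h1 := two_step (M := y * Real.exp κ) (by positivity) w
  have h2 := two_step hy w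
  have h3 : Op (Kf κ) y w + BdR (y * Real.exp κ) y w - BdR y y w =
      (∑ p ∈ P w, ∑ q ∈ P p, Rw (y * Real.exp κ / ((p : ℝ) * q)) q) / (y * Real.exp κ) -
        (∑ p ∈ P w, ∑ q ∈ P p, Rw (y / ((p : ℝ) * q)) q) / y := by
    unfold Op BdR
    rw [← Finset.sum_add_distrib, ← Finset.sum_sub_distrib, Finset.sum_div, Finset.sum_div,
      ← Finset.sum_sub_distrib]
    refine Finset.sum_congr rfl fun p hp => ?_
    rw [← Finset.sum_add_distrib, ← Finset.sum_sub_distrib, Finset.sum_div, Finset.sum_div,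
      ← Finset.sum_sub_distrib]
    refine Finset.sum_congr rfl fun q hq => ?_
    have hp0 : (0 : ℝ) < p := by exact_mod_cast (mem_P.1 hp).2.pos
    have hq0 : (0 : ℝ) < q := by exact_mod_cast (mem_P.1 hq).2.pos
    split_ifs with hacc
    · unfold Kf
      have e : y / ((p : ℝ) * q) * Real.exp κ = y * Real.exp κ / ((p : ℝ) * q) := by ring
      rw [e]
      field_simp
      ring
    · ring
  unfold Kf at h3 ⊢
  rw [h1, h2, add_div, add_div]
  linarith

theorem Rw_le_two {x w : ℝ} (hx : 0 ≤ x) : Rw x w ≤ 2 * x := by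
  unfold Rw
  have h1 : ((((roughN x w).filter (fun m => Even (ArithmeticFunction.cardFactors m))).card : ℕ) : ℝ)
      ≤ (⌊x⌋₊ : ℝ) := by
    have h2 : ((roughN x w).filter (fun m => Even (ArithmeticFunction.cardFactors m))).card ≤
        ⌊x⌋₊ := by
      refine (Finset.card_filter_le _ _).trans ?_
      have h3 : roughN x w ⊆ Finset.Icc 1 ⌊x⌋₊ := by
        intro m hm
        rw [mem_roughN hx] at hm
        rw [Finset.mem_Icc, Nat.le_floor_iff hx]
        exact ⟨hm.1, hm.2.1⟩
      have h4 := Finset.card_le_card h3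
      rwa [Nat.card_Icc, Nat.add_sub_cancel] at h4
    exact_mod_cast h2
  have h2 := Nat.floor_le hx
  linarith

theorem BdR_nonneg {x y : ℝ} (hx : 0 < x) (w : ℕ) : 0 ≤ BdR x y w := by
  unfold BdR
  refine Finset.sum_nonneg fun p _ => Finset.sum_nonneg fun q _ => ?_
  split_ifs
  · exact le_rfl
  · exact div_nonneg (Par.Rw_nonneg _ _) hx.le

theorem Bb_nonneg {y : ℝ} (hy : 0 < y) (w : ℕ) : 0 ≤ Bb y w := by
  unfold Bb
  refine Finset.sum_nonneg fun p _ => Finset.sum_nonneg fun q _ => ?_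
  split_ifs
  · exact le_rfl
  · positivity

theorem BdR_le {y : ℝ} (hy : 0 < y) (w : ℕ) : BdR y y w ≤ 4 * Bb y w := by
  unfold BdR Bb
  rw [Finset.mul_sum]
  refine Finset.sum_le_sum fun p hp => ?_
  rw [Finset.mul_sum]
  refine Finset.sum_le_sum fun q hq => ?_
  have hp0 : (0 : ℝ) < p := by exact_mod_cast (mem_P.1 hp).2.pos
  have hq2 : (2 : ℝ) ≤ q := by exact_mod_cast (mem_P.1 hq).2.two_le
  have hq0 : (0 : ℝ) < q := by linarith
  split_ifs with hacc
  · simp
  · rw [mul_one_div]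
    apply div_le_div_of_nonneg_right _ hy.le
    apply Par.Rw_le_four hq2 (by positivity)
    rw [div_le_iff₀ (by positivity)]
    linarith [not_lt.1 hacc]

/-- hypotheses on the boundary count (block BB) -/
def BBH : Prop := ∃ C : ℝ, 0 < C ∧ (∀ y w, Inv y w → Bb y w ≤ C / Real.log y ^ 2) ∧
  ∀ y w, Inv y w → Op Bb y w ≤ C * Xi y w

theorem Inv.one_le_log {y : ℝ} {w : ℕ} (h : Inv y w) : 1 ≤ Real.log y := by
  have h1 : Real.log 4 ≤ Real.log y := Real.log_le_log (by norm_num) h.y_ge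
  have h2 : Real.log 4 = 2 * Real.log 2 := by
    have : (4 : ℝ) = 2 ^ 2 := by norm_num
    rw [this, Real.log_pow]; push_cast; ring
  have h3 : 0.6931471803 < Real.log 2 := Real.log_two_gt_d9
  linarith

theorem err_Xi : ∃ C : ℝ, 0 < C ∧ ∀ y w, Inv y w → ∀ κ : ℝ, 0 ≤ κ →
    |Tree.intF (Par.Am (y * Real.exp κ)) 1 w / (y * Real.exp κ) -
      Tree.intF (Par.Am y) 1 w / y| ≤ C * Xi y w := by
  obtain ⟨C, hC, h⟩ := Par.errF_le 7
  refine ⟨2 * C * 16, by positivity, ?_⟩
  intro y w hI κ hκ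
  have hy := hI.y_ge
  have hv := hI.log_y_pos
  have he : 1 ≤ Real.exp κ := Real.one_le_exp hκ
  have hye : y ≤ y * Real.exp κ := by nlinarith
  have h1 := Par.abs_intF_sub_le (M := y * Real.exp κ) (d := 1) (w := w) (by positivity) one_pos
  have h2 := Par.abs_intF_sub_le (M := y) (d := 1) (w := w) (by linarith) one_pos
  have h3 := h (y * Real.exp κ) 1 w one_pos hI.1 (by push_cast; linarith [hI.2])
  have h4 := h y 1 w one_pos hI.1 (by push_cast; linarith [hI.2])
  have h5 : C / (((1 : ℕ) : ℝ) * Real.log (y * Real.exp κ / ((1 : ℕ) : ℝ)) ^ (7 : ℝ)) ≤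
      C / Real.log y ^ (7 : ℝ) := by
    push_cast
    rw [one_mul, div_one]
    apply div_le_div_of_nonneg_left hC.le (by positivity)
    apply Real.rpow_le_rpow hv.le _ (by norm_num)
    exact Real.log_le_log (by linarith) hye
  have h6 : C / (((1 : ℕ) : ℝ) * Real.log (y / ((1 : ℕ) : ℝ)) ^ (7 : ℝ)) =
      C / Real.log y ^ (7 : ℝ) := by
    push_cast
    rw [one_mul, div_one]
  have h7 : C / Real.log y ^ (7 : ℝ) ≤ C * 16 * Xi y w := by
    rw [div_eq_mul_inv, ← Real.rpow_neg hv.le, mul_assoc]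
    apply mul_le_mul_of_nonneg_left _ hC.le
    unfold Xi
    have e1 : Real.log y ^ (-7 : ℝ) ≤ Real.log y ^ (-(25 / 4) : ℝ) :=
      Real.rpow_le_rpow_of_exponent_le hI.one_le_log (by norm_num)
    have e2 : (1 : ℝ) ≤ 16 * Real.log w ^ 4 := by
      have e3 : (1 / 2 : ℝ) ≤ Real.log w := by
        have := hI.log_two_le
        have := Real.log_two_gt_d9
        linarith
      have e4 := pow_le_pow_left₀ (by norm_num) e3 4
      linarith
    have e3 : 0 ≤ Real.log y ^ (-(25 / 4) : ℝ) := by positivity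
    nlinarith
  have h8 : |Tree.intF (Par.Am (y * Real.exp κ)) 1 w / (y * Real.exp κ) -
      Tree.intF (Par.Am y) 1 w / y| ≤ Par.errF (y * Real.exp κ) 1 w + Par.errF y 1 w := by
    have e : Tree.intF (Par.Am (y * Real.exp κ)) 1 w / (y * Real.exp κ) -
      Tree.intF (Par.Am y) 1 w / y = (Tree.intF (Par.Am (y * Real.exp κ)) 1 w / (y * Real.exp κ) -
      Tree.intF Par.rec 1 w) - (Tree.intF (Par.Am y) 1 w / y - Tree.intF Par.rec 1 w) := by ring
    rw [e]
    exact (abs_sub _ _).trans (add_le_add h1 h2)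
  rw [h6] at h4
  linarith

/-- lower bound at good nodes -/
theorem Kf_good : ∃ κ cg : ℝ, ∃ Wg : ℕ, 1 ≤ κ ∧ 0 < cg ∧ 2 ≤ Wg ∧
    ∀ y w, Inv y w → Good y w → Wg ≤ w → cg / Real.log y ^ 2 ≤ Kf κ y w := by
  obtain ⟨c, η, κ, hc, hη, hκ, h⟩ := F1a Par.pnt2_holds
  refine ⟨κ, c * κ / (1 + κ) ^ 2, ⌈Real.exp (κ / η)⌉₊ + 2, hκ, by positivity, by omega, ?_⟩
  intro y w hI hG hw
  have hy := hI.y_ge
  have hy0 : 0 < y := by linarith
  have hv := hI.log_y_pos
  have hv1 := hI.one_le_log
  have hw2 : (2 : ℝ) ≤ w := by exact_mod_cast hI.1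
  have hw0 : (0 : ℝ) < w := by linarith
  have he : 1 ≤ Real.exp κ := Real.one_le_exp (by linarith)
  have hyw : y < (w : ℝ) ^ 4 := by
    unfold Good at hG
    rw [← Real.log_lt_log_iff hy0 (by positivity), Real.log_pow]
    exact_mod_cast hG
  have hwη : Real.exp κ ≤ (w : ℝ) ^ η := by
    have h1 : Real.exp (κ / η) ≤ w := by
      have h2 := Nat.le_ceil (Real.exp (κ / η))
      have h3 : ((⌈Real.exp (κ / η)⌉₊ + 2 : ℕ) : ℝ) ≤ w := by exact_mod_cast hw
      push_cast at h3
      linarith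
    have h2 := Real.rpow_le_rpow (Real.exp_pos _).le h1 hη.le
    rwa [← Real.exp_mul, div_mul_cancel₀ _ hη.ne'] at h2
  have hlog : Real.log (y * Real.exp κ / y) = κ := by
    rw [mul_div_cancel_left₀ _ hy0.ne', Real.log_exp]
  have h1 := h y (y * Real.exp κ) w hw2 hI.2 (by
      have : y ^ 2 ≤ (w : ℝ) ^ 4 * y := by nlinarith
      have h2 : (w : ℝ) ^ 4 * y ≤ (w : ℝ) ^ 4 * (y * Real.exp κ) := by
        apply mul_le_mul_of_nonneg_left _ (by positivity)
        nlinarith
      linarith) (by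
      rw [Real.rpow_add hw0]
      have h3 : (w : ℝ) ^ (4 : ℝ) = (w : ℝ) ^ 4 := by
        rw [← Real.rpow_natCast]
        norm_num
      rw [h3]
      exact mul_le_mul hyw.le hwη (by positivity) (by positivity)) (by rw [hlog])
  rw [hlog] at h1
  refine le_trans ?_ h1
  rw [Real.log_mul hy0.ne' (by positivity), Real.log_exp, div_div]
  apply div_le_div_of_nonneg_left (by positivity) (by positivity)
  have h2 : Real.log y + κ ≤ (1 + κ) * Real.log y := by nlinarith
  have h3 := pow_le_pow_left₀ (by positivity) h2 2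
  rwa [mul_pow] at h3

/-- upper bound at the root -/
theorem Kf_root {κ : ℝ} (hκ : 1 ≤ κ) : ∃ C Y0 : ℝ, 0 < C ∧ ∀ y : ℝ, 4 ≤ y → Y0 ≤ Real.log y →
    Kf κ y ⌊√y⌋₊ ≤ C / Real.log y ^ 2 := by
  obtain ⟨C, hC, h⟩ := F1b Par.pnt2_holds
  refine ⟨4 * (C * (κ + 1)), 4 * κ + 10, by positivity, ?_⟩
  intro y hy4 hy
  obtain ⟨hI, -⟩ := root_inv hy4
  have hv : 0 < Real.log y := by linarith
  have hy0 : 0 < y := by linarith
  set n := ⌊√y⌋₊ with hn
  have hn2 : (2 : ℝ) ≤ n := by exact_mod_cast hI.1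
  have hn0 : (0 : ℝ) < n := by linarith
  have h5 : √y < (n : ℝ) + 1 := Nat.lt_floor_add_one _
  have h6 : √y ^ 2 = y := Real.sq_sqrt (by linarith)
  have hyn : y ≤ 9 / 4 * (n : ℝ) ^ 2 := by
    have h7 : √y ≤ 3 / 2 * (n : ℝ) := by linarith
    have h8 := pow_le_pow_left₀ (Real.sqrt_nonneg y) h7 2
    nlinarith
  have hlog : Real.log (y / (n : ℝ) ^ 2) ≤ 1 := by
    have h7 : y / (n : ℝ) ^ 2 ≤ Real.exp 1 := by
      rw [div_le_iff₀ (by positivity)]
      have := Real.exp_one_gt_d9
      nlinarith [sq_nonneg (n : ℝ)]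
    have h8 := Real.log_le_log (by positivity) h7
    rwa [Real.log_exp] at h8
  have hlog0 : 0 ≤ Real.log (y / (n : ℝ) ^ 2) := by
    apply Real.log_nonneg
    rw [le_div_iff₀ (by positivity), one_mul]
    exact hI.2
  have hlogy : Real.log y = 2 * Real.log n + Real.log (y / (n : ℝ) ^ 2) := by
    rw [Real.log_div hy0.ne' (by positivity), Real.log_pow]
    push_cast
    ring
  have hκ' : 1 ≤ κ + Real.log (y / (n : ℝ) ^ 2) := by linarith
  have h1 := h ((n : ℝ) ^ 2) n (κ + Real.log (y / (n : ℝ) ^ 2)) (by nlinarith)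
    (by rw [Real.sqrt_sq hn0.le]) hκ' (by
      have e : ((n : ℝ) ^ 2) ^ (1 / 4 : ℝ) = Real.exp (Real.log n / 2) := by
        rw [← Real.rpow_natCast, ← Real.rpow_mul hn0.le, Real.rpow_def_of_pos hn0]
        norm_num
        ring_nf
      rw [e]
      apply Real.exp_le_exp.2
      linarith)
  have e : (n : ℝ) ^ 2 * Real.exp (κ + Real.log (y / (n : ℝ) ^ 2)) = y * Real.exp κ := by
    rw [Real.exp_add, Real.exp_log (by positivity)]
    field_simp
  rw [e] at h1
  have h2 : 0 ≤ Rw y n / y := div_nonneg (Par.Rw_nonneg _ _) hy0.le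
  have h3 : Kf κ y n ≤ C * (κ + Real.log (y / (n : ℝ) ^ 2)) / Real.log ((n : ℝ) ^ 2) ^ 2 := by
    unfold Kf
    linarith
  refine h3.trans ?_
  rw [Real.log_pow]
  push_cast
  have h4 : Real.log y / 2 ≤ 2 * Real.log n := by linarith
  have h7 : Real.log y ^ 2 / 4 ≤ (2 * Real.log n) ^ 2 := by
    have := pow_le_pow_left₀ (by linarith : 0 ≤ Real.log y / 2) h4 2
    linarith [(by ring : (Real.log y / 2) ^ 2 = Real.log y ^ 2 / 4)]
  calc C * (κ + Real.log (y / (n : ℝ) ^ 2)) / (2 * Real.log n) ^ 2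
      ≤ C * (κ + 1) / (Real.log y ^ 2 / 4) := by
        apply div_le_div₀ (by positivity) _ (by positivity) h7
        apply mul_le_mul_of_nonneg_left _ hC.le
        linarith
    _ = 4 * (C * (κ + 1)) / Real.log y ^ 2 := by
        field_simp

/-- the instance of the abstract data -/
theorem exists_KData (hB : BBH) : Nonempty KData := by
  obtain ⟨Cb, hCb, hb1, hb2⟩ := hB
  obtain ⟨κ, cg, Wg, hκ, hcg, hWg, hgood⟩ := Kf_good
  obtain ⟨Cr, Y0, hCr, hroot⟩ := Kf_root hκ
  obtain ⟨Ce, hCe, herr⟩ := err_Xi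
  refine ⟨{
    K := Kf κ
    B := fun y w => 4 * Bb y w
    Ce := Ce + 4 * Cb + Cr + 2
    cg := cg
    Wg := Wg
    Y0 := Y0
    hCe := by positivity
    hcg := hcg
    hWg := hWg
    hrec := ?_
    hB0 := ?_
    hBop := ?_
    hgood := hgood
    hlow := ?_
    hroot := ?_ }⟩
  · intro y w hI
    have hy : 0 < y := by linarith [hI.y_ge]
    have h1 := Kf_rec κ hy w
    have h2 := herr y w hI κ (by linarith)
    have h3 := BdR_nonneg (x := y * Real.exp κ) (y := y) (by positivity) w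
    have h4 := BdR_le hy w
    have h5 := (abs_le.1 h2).1
    have h6 := Xi_pos hI
    nlinarith
  · intro y w hI
    have hy : 0 < y := by linarith [hI.y_ge]
    exact mul_nonneg (by norm_num) (Bb_nonneg hy w)
  · intro y w hI
    rw [Op_smul]
    have h1 := hb2 y w hI
    have h6 := Xi_pos hI
    nlinarith
  · intro y w hI
    have hy : 0 < y := by linarith [hI.y_ge]
    have h1 := Rw_le_two (w := w) hy.le
    have h2 : 0 ≤ Rw (y * Real.exp κ) w / (y * Real.exp κ) :=
      div_nonneg (Par.Rw_nonneg _ _) (by positivity)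
    have h3 : Rw y w / y ≤ 2 := by
      rw [div_le_iff₀ hy]
      exact h1
    unfold Kf
    linarith
  · intro y hy4 hy
    obtain ⟨hI, -⟩ := root_inv hy4
    have h1 := hroot y hy4 hy
    have h2 := hb1 y _ hI
    have hv := hI.log_y_pos
    have e : (Ce + 4 * Cb + Cr + 2) / Real.log y ^ 2 =
        (Ce + 2) / Real.log y ^ 2 + 4 * (Cb / Real.log y ^ 2) + Cr / Real.log y ^ 2 := by ring
    have h3 : 0 ≤ (Ce + 2) / Real.log y ^ 2 := by positivity
    rw [e]
    linarith

end Crest.Agent.R001.Mass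
end

-- ▼ part R001/MassI664
section

/-! Row 1 (S0001), block (1), file I: unconditional mass theorem, line masses. -/

set_option autoImplicit false

namespace Crest.Agent.R001.Mass

open Finset Classical

theorem Bb_eq {y : ℝ} {w : ℕ} (hI : Inv y w) : Bb y w = Bridge.B y w := by
  unfold Bb Bridge.B Bridge.BdOp Bridge.hb
  refine Finset.sum_congr rfl fun p hp => Finset.sum_congr rfl fun q hq => ?_
  have hp0 : (0 : ℝ) < p := by exact_mod_cast (mem_P.1 hp).2.pos
  have hq0 : (0 : ℝ) < q := by exact_mod_cast (mem_P.1 hq).2.pos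
  have hpw : (p : ℝ) ≤ w := by exact_mod_cast (mem_P.1 hp).1.le
  have hqw : (q : ℝ) ≤ w := by
    have h1 := (mem_P.1 hp).1
    have h2 := (mem_P.1 hq).1
    exact_mod_cast (by omega : q ≤ w)
  have hy0 : 0 < y := by linarith [hI.y_ge]
  by_cases hacc : (p : ℝ) * (q : ℝ) ^ 3 < y
  · rw [if_pos hacc, if_neg (not_le.2 hacc)]
  · rw [if_neg hacc, if_pos (not_lt.1 hacc)]
    have h1 : 1 ≤ y / ((p : ℝ) * q) := by
      rw [le_div_iff₀ (by positivity), one_mul]
      refine le_trans ?_ hI.2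
      rw [sq]
      exact mul_le_mul hpw hqw hq0.le (by positivity)
    rw [if_pos h1]
    field_simp

theorem bbh : BBH := by
  obtain ⟨K, hK0, hK⟩ := Bridge.B_le'
  obtain ⟨K', hK0', hK'⟩ := Bridge.OpB_le
  refine ⟨K + K', by positivity, ?_, ?_⟩
  · intro y w hI
    rw [Bb_eq hI]
    refine (hK y w hI).trans ?_
    have := hI.log_y_pos
    apply div_le_div_of_nonneg_right _ (by positivity)
    linarith
  · intro y w hI
    have h1 : Op Bb y w = Op Bridge.B y w :=
      Op_congr fun p q hc => Bb_eq (inv_closed y w p q hI hc)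
    rw [h1]
    refine (hK' y w hI).trans ?_
    have hv := hI.log_y_pos
    have h2 : Real.log w ^ 4 / Real.log y ^ 7 ≤ Xi y w := by
      unfold Xi
      rw [div_eq_mul_inv]
      apply mul_le_mul_of_nonneg_left _ (by positivity)
      rw [← Real.rpow_natCast, ← Real.rpow_neg hv.le]
      apply Real.rpow_le_rpow_of_exponent_le hI.one_le_log
      norm_num
    have h3 := Xi_pos hI
    nlinarith

/-- **mass theorem** -/
theorem mass : ∃ C V1 : ℝ, 0 < C ∧ 1 ≤ V1 ∧ ∀ V : ℝ, V1 ≤ V → ∀ y w, Inv y w →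
    T0 (XiV V) y w ≤ C * (Real.log y / V) ^ (1 / 4 : ℝ) * Xi y w := by
  obtain ⟨k⟩ := exists_KData bbh
  exact k.mass

/-- the potential, without restriction on the level -/
theorem mass_all : ∃ C : ℝ, 0 < C ∧ ∀ y w, Inv y w →
    T0 Xi y w ≤ C * Real.log y ^ (1 / 4 : ℝ) * Xi y w := by
  obtain ⟨c⟩ := exists_consts
  obtain ⟨C, V1, hC, hV1, h⟩ := mass
  obtain ⟨Cs, hCs, hsm⟩ := small_w (⌈Real.exp V1⌉₊ + 1)
  have hC1 := c.hC1
  -- below `V1`, `w` is bounded
  have hlow : ∀ y w, InvV V1 y w → T0 Xi y w ≤ Cs * Xi y w := by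
    rintro y w ⟨hI, hv⟩
    apply hsm y w hI
    have h1 : (w : ℝ) ≤ Real.exp V1 := by
      have h2 := hI.two_log_le
      have h3 := hI.log_w_pos
      have hw : (0 : ℝ) < w := by exact_mod_cast (by have := hI.1; omega : 0 < w)
      rw [← Real.exp_log hw]
      exact Real.exp_le_exp.2 (by linarith)
    have h2 : w ≤ ⌈Real.exp V1⌉₊ := by
      have := h1.trans (Nat.le_ceil _)
      exact_mod_cast this
    omega
  have key : ∀ y w, Inv y w → T0 Xi y w ≤ (1 + Cs * c.C1) * T0 (XiV V1) y w +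
      (if Real.log y ≤ V1 then Cs * Xi y w else 0) := by
    refine tree_induction inv_closed ?_
    intro y w hI ih
    have hX := Xi_pos hI
    by_cases hle : Real.log y ≤ V1
    · rw [if_pos hle, XiV_zero hI hle, mul_zero, zero_add]
      exact hlow y w ⟨hI, hle⟩
    · rw [if_neg hle, add_zero, T0_eq, T0_eq]
      have h1 : Op (T0 Xi) y w ≤
          Op (fun y w => (1 + Cs * c.C1) * T0 (XiV V1) y w + Cs * Xi y w) y w := by
        refine Op_mono fun p q hc => (ih p q hc).trans ?_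
        have hIc := inv_closed y w p q hI hc
        refine add_le_add_right ?_ _
        split_ifs
        · exact le_rfl
        · exact mul_nonneg hCs.le (Xi_pos hIc).le
      rw [Op_add (fun y w => (1 + Cs * c.C1) * T0 (XiV V1) y w) (fun y w => Cs * Xi y w),
        Op_smul, Op_smul] at h1
      have h2 := mul_le_mul_of_nonneg_left (c.op y w hI) hCs.le
      have h3 : XiV V1 y w = Xi y w := by unfold XiV; rw [if_pos (not_le.1 hle)]
      rw [h3]
      nlinarith
  refine ⟨(1 + Cs * c.C1) * C + Cs, by positivity, ?_⟩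
  intro y w hI
  have hX := Xi_pos hI
  have hv := hI.log_y_pos
  have h1 := key y w hI
  have h2 := h V1 le_rfl y w hI
  have h3 : (Real.log y / V1) ^ (1 / 4 : ℝ) ≤ Real.log y ^ (1 / 4 : ℝ) := by
    apply Real.rpow_le_rpow (by positivity) _ (by norm_num)
    exact div_le_self hv.le hV1
  have h4 : (1 : ℝ) ≤ Real.log y ^ (1 / 4 : ℝ) := Real.one_le_rpow hI.one_le_log (by norm_num)
  have h5 : (if Real.log y ≤ V1 then Cs * Xi y w else 0) ≤ Cs * Xi y w := by
    split_ifs
    · exact le_rfl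
    · positivity
  have h6 : C * (Real.log y / V1) ^ (1 / 4 : ℝ) * Xi y w ≤
      C * Real.log y ^ (1 / 4 : ℝ) * Xi y w := by gcongr
  have h7 : 0 ≤ 1 + Cs * c.C1 := by positivity
  have h8 := mul_le_mul_of_nonneg_left (h2.trans h6) h7
  have h9 : Cs * Xi y w ≤ Cs * Real.log y ^ (1 / 4 : ℝ) * Xi y w := by
    have := mul_le_mul_of_nonneg_left h4 (by positivity : 0 ≤ Cs * Xi y w)
    nlinarith
  nlinarith

/-- `v^(1/4) Xi = ω⁴ / v⁶` -/
theorem quarter_Xi {y : ℝ} {w : ℕ} (hI : Inv y w) :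
    Real.log y ^ (1 / 4 : ℝ) * Xi y w = Real.log w ^ 4 / Real.log y ^ 6 := by
  have hv := hI.log_y_pos
  unfold Xi
  have e : Real.log y ^ (1 / 4 : ℝ) * (Real.log w ^ 4 * Real.log y ^ (-(25 / 4) : ℝ)) =
      Real.log w ^ 4 * (Real.log y ^ (1 / 4 : ℝ) * Real.log y ^ (-(25 / 4) : ℝ)) := by ring
  have e2 : Real.log y ^ (1 / 4 : ℝ) * Real.log y ^ (-(25 / 4) : ℝ) = 1 / Real.log y ^ 6 := by
    have e3 : (1 : ℝ) / Real.log y ^ 6 = Real.log y ^ (-6 : ℝ) := by
      rw [Real.rpow_neg hv.le, one_div]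
      norm_num
    rw [← Real.rpow_add hv, e3]
    norm_num
  rw [e, e2, mul_one_div]

theorem om_le {y : ℝ} {w : ℕ} (hI : Inv y w) :
    Real.log w ^ 4 / Real.log y ^ 6 ≤ 1 / Real.log y ^ 2 := by
  have hv := hI.log_y_pos
  have h1 := hI.two_log_le
  have h2 := hI.log_w_pos
  rw [div_le_div_iff₀ (by positivity) (by positivity), one_mul]
  have h3 := pow_le_pow_left₀ h2.le (by linarith : Real.log w ≤ Real.log y) 4
  calc Real.log w ^ 4 * Real.log y ^ 2 ≤ Real.log y ^ 4 * Real.log y ^ 2 :=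
        mul_le_mul_of_nonneg_right h3 (by positivity)
    _ = Real.log y ^ 6 := by ring

theorem xiH : Bridge.XiH := by
  obtain ⟨C, hC, h⟩ := mass_all
  refine ⟨C, fun y w hI => (h y w hI).trans ?_⟩
  rw [mul_assoc, quarter_Xi hI, div_eq_mul_one_div C]
  exact mul_le_mul_of_nonneg_left (om_le hI) hC.le

end Crest.Agent.R001.Mass
end

-- ▼ part R001/MassJ664
section

/-! Row 1 (S0001), block (1), file J: line masses, upper bounds. -/

set_option autoImplicit false

namespace Crest.Agent.R001.Mass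

open Finset Classical

/-- `Xi` summed over the nodes above the line -/
theorem above_Xi : ∃ C V1 : ℝ, 0 < C ∧ 1 ≤ V1 ∧ ∀ V : ℝ, V1 ≤ V → ∀ y w, Inv y w →
    V < Real.log y →
    T (stopV V) Xi (fun _ _ => 0) y w ≤ C * (Real.log y / V) ^ (1 / 4 : ℝ) * Xi y w := by
  obtain ⟨c⟩ := exists_consts
  obtain ⟨C, V1, hC, hV1, h⟩ := mass
  have hC5 := c.C5_pos
  refine ⟨c.C5 * C, V1, by positivity, hV1, ?_⟩
  intro V hV y w hI hlt
  have h1 := above c V y w hI
  rw [if_neg (not_le.2 hlt), add_zero] at h1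
  have h2 := mul_le_mul_of_nonneg_left (h V hV y w hI) hC5.le
  refine h1.trans (h2.trans (le_of_eq ?_))
  ring

/-- general line mass: `g ≤ A Xi` on the line -/
theorem line_upper : ∃ C V1 : ℝ, 0 < C ∧ 1 ≤ V1 ∧ ∀ V : ℝ, V1 ≤ V → ∀ (g : ℝ → ℕ → ℝ) (A : ℝ),
    0 ≤ A → (∀ y w, Inv y w → stopV V y w → g y w ≤ A * Xi y w) →
    ∀ y w, Inv y w → V < Real.log y →
    T (stopV V) (fun _ _ => 0) g y w ≤ A * (C * (Real.log y / V) ^ (1 / 4 : ℝ) * Xi y w) := by
  obtain ⟨c⟩ := exists_consts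
  obtain ⟨C, V1, hC, hV1, h⟩ := above_Xi
  have hC1 := c.hC1
  refine ⟨c.C1 * C, V1, by positivity, hV1, ?_⟩
  intro V hV g A hA hg y w hI hlt
  have hs : ¬ stopV V y w := fun h' => absurd h'.2 (not_le.2 hlt)
  have h1 := line_le c (stopV V) hA hg hI hs
  have h2 := mul_le_mul_of_nonneg_left (h V hV y w hI hlt) (by positivity : 0 ≤ A * c.C1)
  refine h1.trans (h2.trans (le_of_eq ?_))
  ring

/-- the number of nodes on the line: `≤ C V² ω⁴ / v⁶` -/
theorem line_one : ∃ C V1 : ℝ, 0 < C ∧ 1 ≤ V1 ∧ ∀ V : ℝ, V1 ≤ V → ∀ y w, Inv y w →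
    V < Real.log y →
    T (stopV V) (fun _ _ => 0) (fun _ _ => 1) y w ≤
      C * V ^ 2 * (Real.log w ^ 4 / Real.log y ^ 6) := by
  obtain ⟨C, V1, hC, hV1, h⟩ := line_upper
  refine ⟨256 * C, V1, by positivity, hV1, ?_⟩
  intro V hV y w hI hlt
  have hV0 : 0 < V := by linarith
  have hv := hI.log_y_pos
  have h1 := h V hV (fun _ _ => 1) (256 * V ^ (9 / 4 : ℝ)) (by positivity) (by
    rintro y w hI' ⟨hG, hle⟩
    have hv' := hI'.log_y_pos
    have h2 := good_Xi hI' hG
    have h3 : V ^ (-(9 / 4) : ℝ) ≤ Real.log y ^ (-(9 / 4) : ℝ) :=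
      Real.rpow_le_rpow_of_nonpos hv' hle (by norm_num)
    have h4 : V ^ (9 / 4 : ℝ) * V ^ (-(9 / 4) : ℝ) = 1 := by
      rw [← Real.rpow_add hV0]
      norm_num
    have h5 := mul_le_mul_of_nonneg_left (h3.trans h2) (by positivity : 0 ≤ V ^ (9 / 4 : ℝ))
    rw [h4] at h5
    linarith) y w hI hlt
  refine h1.trans (le_of_eq ?_)
  rw [← quarter_Xi hI, Real.div_rpow hv.le hV0.le]
  have h6 : V ^ (9 / 4 : ℝ) = V ^ 2 * V ^ (1 / 4 : ℝ) := by
    rw [← Real.rpow_natCast V 2, ← Real.rpow_add hV0]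
    norm_num
  rw [h6]
  have h7 : 0 < V ^ (1 / 4 : ℝ) := by positivity
  field_simp

/-- the nodes of level `≤ e^U` on the line, weighted with `1/v²`: `≤ C (U/V)^(1/4) ω⁴ / v⁶` -/
theorem line_sq : ∃ C V1 : ℝ, 0 < C ∧ 1 ≤ V1 ∧ ∀ V : ℝ, V1 ≤ V → ∀ U : ℝ, 0 ≤ U → 
    ∀ y w, Inv y w → V < Real.log y →
    T (stopV V) (fun _ _ => 0) (fun y _ => if Real.log y ≤ U then 1 / Real.log y ^ 2 else 0) y w ≤
      C * (U / V) ^ (1 / 4 : ℝ) * (Real.log w ^ 4 / Real.log y ^ 6) := by
  obtain ⟨C, V1, hC, hV1, h⟩ := line_upper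
  refine ⟨256 * C, V1, by positivity, hV1, ?_⟩
  intro V hV U hU y w hI hlt
  have hV0 : 0 < V := by linarith
  have hv := hI.log_y_pos
  have h1 := h V hV (fun y _ => if Real.log y ≤ U then 1 / Real.log y ^ 2 else 0)
    (256 * U ^ (1 / 4 : ℝ)) (by positivity) (by
    rintro y w hI' ⟨hG, -⟩
    have hv' := hI'.log_y_pos
    have hX := Xi_pos hI'
    by_cases hle : Real.log y ≤ U
    · rw [if_pos hle]
      have h2 := good_Xi hI' hG
      have h3 : 1 / Real.log y ^ 2 = Real.log y ^ (1 / 4 : ℝ) * Real.log y ^ (-(9 / 4) : ℝ) := by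
        rw [← Real.rpow_add hv']
        have e3 : (1 : ℝ) / Real.log y ^ 2 = Real.log y ^ (-2 : ℝ) := by
          rw [Real.rpow_neg hv'.le, one_div]
          norm_num
        rw [e3]
        norm_num
      rw [h3]
      have h4 : Real.log y ^ (1 / 4 : ℝ) ≤ U ^ (1 / 4 : ℝ) :=
        Real.rpow_le_rpow hv'.le hle (by norm_num)
      calc Real.log y ^ (1 / 4 : ℝ) * Real.log y ^ (-(9 / 4) : ℝ)
          ≤ U ^ (1 / 4 : ℝ) * (256 * Xi y w) :=
            mul_le_mul h4 h2 (by positivity) (by positivity)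
        _ = _ := by ring
    · rw [if_neg hle]
      positivity) y w hI hlt
  refine h1.trans (le_of_eq ?_)
  rw [← quarter_Xi hI, Real.div_rpow hv.le hV0.le, Real.div_rpow hU hV0.le]
  ring

end Crest.Agent.R001.Mass
end

-- ▼ part R001/MassK664
section

/-! Row 1 (S0001), block (1), file K: lower bound for the line mass. -/

set_option autoImplicit false

namespace Crest.Agent.R001.Mass

open Finset Classical
open Crest.Agent.R001.F1 (Rw rk rk_empty Rw_le N2_upper F1c)

/-- rough numbers just above `w²` -/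
theorem Rw_small {κ : ℝ} (hκ : 0 ≤ κ) : ∃ C : ℝ, 0 < C ∧ ∀ x w : ℝ, 2 ≤ w → 0 ≤ x →
    x ≤ Real.exp κ * w ^ 2 →
    Rw x w ≤ 2 + (if w ^ 2 ≤ x then C * (w ^ 2 / Real.log w ^ 2) else 0) := by
  obtain ⟨K, hK, h⟩ := N2_upper Par.pnt2_holds
  have he := Real.exp_pos κ
  refine ⟨K * Real.exp κ * (κ / 2 + 19) + Real.exp κ * κ ^ 2 + 1, by positivity, ?_⟩
  intro x w hw hx hxw
  have hw0 : 0 < w := by linarith
  have hω : 0 < Real.log w := Real.log_pos (by linarith)
  have hw1 : 1 ≤ w := by linarith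
  by_cases hle : w ^ 2 ≤ x
  swap
  · rw [if_neg hle, add_zero]
    have h1 : x < w ^ 2 := not_le.1 hle
    have h4 : w ^ 2 ≤ w ^ 4 := pow_le_pow_right₀ hw1 (by norm_num)
    have h6 : w ^ 2 ≤ w ^ 6 := pow_le_pow_right₀ hw1 (by norm_num)
    have h2 := Rw_le hw hx (h1.trans_le h6)
    rw [rk_empty hw0.le hx h1, rk_empty hw0.le hx (h1.trans_le h4)] at h2
    simpa using h2
  rw [if_pos hle]
  have hx0 : 0 < x := lt_of_lt_of_le (by positivity) hle
  by_cases hk : Real.exp κ < w ^ 2
  · have h1 : x < w ^ 4 := by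
      refine hxw.trans_lt ?_
      have : w ^ 4 = w ^ 2 * w ^ 2 := by ring
      rw [this]
      exact mul_lt_mul_of_pos_right hk (by positivity)
    have h6 : w ^ 4 ≤ w ^ 6 := pow_le_pow_right₀ hw1 (by norm_num)
    have h2 := Rw_le hw hx (h1.trans_le h6)
    rw [rk_empty hw0.le hx h1] at h2
    have h3 := h x w hw hle
    have hs0 : 0 < Real.sqrt x := Real.sqrt_pos.2 hx0
    have hlx : 2 * Real.log w ≤ Real.log x := by
      have := Real.log_le_log (by positivity) hle
      rw [Real.log_pow] at this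
      exact_mod_cast this
    have hlx0 : 0 < Real.log x := by linarith
    have hls : Real.log (Real.sqrt x) = Real.log x / 2 := Real.log_sqrt hx0.le
    have hlx2 : Real.log x ≤ κ + 2 * Real.log w := by
      have := Real.log_le_log hx0 hxw
      rw [Real.log_mul he.ne' (by positivity), Real.log_exp, Real.log_pow] at this
      exact_mod_cast this
    have h4 : Real.log (Real.log (Real.sqrt x)) - Real.log (Real.log w) ≤
        (κ / 2) / Real.log w := by
      rw [hls, ← Real.log_div (by positivity) hω.ne']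
      have h5 := Real.log_le_sub_one_of_pos (x := Real.log x / 2 / Real.log w) (by positivity)
      refine h5.trans ?_
      have h6 : Real.log x / 2 / Real.log w ≤ (κ / 2 + Real.log w) / Real.log w := by
        apply div_le_div_of_nonneg_right _ hω.le
        linarith
      have h7 : (κ / 2 + Real.log w) / Real.log w = (κ / 2) / Real.log w + 1 := by
        field_simp
      linarith
    have h5 : K * x / Real.log x ≤ K * (Real.exp κ * w ^ 2) / (2 * Real.log w) := by
      apply div_le_div₀ (by positivity) _ (by positivity) hlx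
      exact mul_le_mul_of_nonneg_left hxw hK.le
    have h7 : ((rk 2 x w).card : ℝ) ≤
        K * (Real.exp κ * w ^ 2) / (2 * Real.log w) * ((κ / 2 + 19) / Real.log w) := by
      refine h3.trans ?_
      apply mul_le_mul h5 _ _ (by positivity)
      · have : (κ / 2 + 19) / Real.log w = (κ / 2) / Real.log w + 19 / Real.log w := by ring
        rw [this]
        linarith
      · have : 0 ≤ Real.log (Real.log (Real.sqrt x)) - Real.log (Real.log w) := by
          rw [sub_nonneg]
          apply Real.log_le_log hω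
          rw [hls]
          linarith
        positivity
    have h8 : K * (Real.exp κ * w ^ 2) / (2 * Real.log w) * ((κ / 2 + 19) / Real.log w) =
        K * Real.exp κ * (κ / 2 + 19) * (w ^ 2 / Real.log w ^ 2) / 2 := by
      field_simp
    rw [h8] at h7
    have h9 : 0 ≤ (Real.exp κ * κ ^ 2 + 1) * (w ^ 2 / Real.log w ^ 2) := by positivity
    simp only [Finset.card_empty, Nat.cast_zero, add_zero] at h2
    linarith
  · have h1 := Rw_le_two (x := x) (w := w) hx
    have h2 : Real.log w ≤ κ / 2 := by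
      have := Real.log_le_log (by positivity) (not_lt.1 hk)
      rw [Real.log_pow, Real.log_exp] at this
      push_cast at this
      linarith
    have h3 : 1 ≤ (κ ^ 2 / 4) / Real.log w ^ 2 := by
      rw [le_div_iff₀ (by positivity), one_mul]
      have := pow_le_pow_left₀ hω.le h2 2
      linarith [(by ring : (κ / 2) ^ 2 = κ ^ 2 / 4)]
    have h4 : 2 * (Real.exp κ * w ^ 2) ≤ Real.exp κ * κ ^ 2 * (w ^ 2 / Real.log w ^ 2) := by
      have h5 := mul_le_mul_of_nonneg_left h3 (by positivity : 0 ≤ 2 * (Real.exp κ * w ^ 2))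
      have h6 : 2 * (Real.exp κ * w ^ 2) * (κ ^ 2 / 4 / Real.log w ^ 2) =
          Real.exp κ * κ ^ 2 * (w ^ 2 / Real.log w ^ 2) / 2 := by
        ring
      have h7 : 0 ≤ Real.exp κ * κ ^ 2 * (w ^ 2 / Real.log w ^ 2) := by positivity
      linarith
    have h5 : 0 ≤ (K * Real.exp κ * (κ / 2 + 19) + 1) * (w ^ 2 / Real.log w ^ 2) := by positivity
    linarith

/-- sum of reciprocals of the large primes -/
theorem sum_PG_le {y : ℝ} {w : ℕ} (hI : Inv y w) : ∑ p ∈ PG w (Real.log y / 6), 1 / (p : ℝ) ≤ 30 := by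
  have hw2 : (2 : ℝ) ≤ w := by exact_mod_cast hI.1
  have hlw := hI.log_w_pos
  set L := Real.log y with hL
  by_cases hne : (PG w (L / 6)) = ∅
  · rw [hne, Finset.sum_empty]
    norm_num
  obtain ⟨p0, hp0⟩ := Finset.nonempty_iff_ne_empty.mpr hne
  rw [mem_PG] at hp0
  have hp00 : (0 : ℝ) < p0 := by exact_mod_cast hp0.1.2.pos
  have h1 : Real.log p0 ≤ Real.log w := Real.log_le_log hp00 (by exact_mod_cast hp0.1.1.le)
  have hL6w : L / 6 ≤ Real.log w := by linarith [hp0.2]
  have hl2 : 0.6931471803 < Real.log 2 := Real.log_two_gt_d9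
  have hl2' : Real.log 2 < 0.6931471808 := Real.log_two_lt_d9
  set x' := max (Real.log 2) (L / 6) with hx'
  have hx2 : Real.log 2 ≤ x' := le_max_left _ _
  have hxL : L / 6 ≤ x' := le_max_right _ _
  have hxw : x' ≤ Real.log w := max_le (Real.log_le_log (by norm_num) hw2) hL6w
  have hx0 : 0 < x' := by linarith
  have h2mem : 2 ∉ PG w x' := by
    intro h
    rw [mem_PG] at h
    have := h.2
    push_cast at this
    linarith
  have h3 : PG w (L / 6) ⊆ insert 2 (PG w x') := by
    intro p hp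
    rw [Finset.mem_insert]
    by_cases hp2 : p = 2
    · left; exact hp2
    · right
      rw [mem_PG] at hp ⊢
      refine ⟨hp.1, ?_⟩
      rw [hx', max_lt_iff]
      refine ⟨?_, hp.2⟩
      apply Real.log_lt_log (by norm_num)
      have := hp.1.2.two_le
      have : 2 < p := by omega
      exact_mod_cast this
  have h4 := Finset.sum_le_sum_of_subset_of_nonneg (f := fun p : ℕ => 1 / (p : ℝ)) h3
    (fun _ _ _ => by positivity)
  rw [Finset.sum_insert h2mem] at h4
  have h5 := sum_inv_le w hI.1 hx2 hxw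
  have h6 : Real.log (Real.log w) - Real.log x' ≤ 2 := by
    rw [← Real.log_div hlw.ne' hx0.ne']
    refine (Real.log_le_sub_one_of_pos (by positivity)).trans ?_
    have h2w := hI.two_log_le
    have : Real.log w / x' ≤ 3 := by
      rw [div_le_iff₀ hx0]
      linarith
    linarith
  have h7 : 18 / x' ≤ 26 := by
    rw [div_le_iff₀ hx0]
    nlinarith
  push_cast at h4
  linarith

/-- the boundary terms of the upper level -/
theorem BdR_exp_le {κ : ℝ} (hκ : 0 ≤ κ) : ∃ C : ℝ, 0 < C ∧ ∀ y w, Inv y w →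
    BdR (y * Real.exp κ) y w ≤ 2 * Bb y w + (if Good y w then C / Real.log y ^ 3 else 0) := by
  obtain ⟨C, hC, hsm⟩ := Rw_small hκ
  obtain ⟨K, hK, hcard⟩ := Bridge.card_P_le
  have he : 0 < Real.exp κ := Real.exp_pos κ
  have he1 : 1 ≤ Real.exp κ := Real.one_le_exp hκ
  refine ⟨C * 36 * (6 * K * Real.exp κ) * 30, by positivity, ?_⟩
  intro y w hI
  have hy4 := hI.y_ge
  have hy0 : 0 < y := by linarith
  have hv := hI.log_y_pos
  have h2w := hI.two_log_le
  set L := Real.log y with hL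
  by_cases hG : Good y w
  swap
  · -- all pairs are accepted
    rw [if_neg hG, add_zero]
    have h0 : BdR (y * Real.exp κ) y w = 0 := by
      unfold BdR
      refine Finset.sum_eq_zero fun p hp => Finset.sum_eq_zero fun q hq => ?_
      rw [if_pos]
      have hp' := mem_P.1 hp
      have hq' := mem_P.1 hq
      have h2 : (p : ℝ) < w := by exact_mod_cast hp'.1
      have h3 : (q : ℝ) < w := by exact_mod_cast (lt_trans hq'.1 hp'.1)
      have h4 : (0 : ℝ) < p := by exact_mod_cast hp'.2.pos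
      have h5 : (0 : ℝ) < q := by exact_mod_cast hq'.2.pos
      have h6 : (q : ℝ) ^ 3 < (w : ℝ) ^ 3 := pow_lt_pow_left₀ h3 h5.le (by norm_num)
      have h7 : (p : ℝ) * (q : ℝ) ^ 3 < w * (w : ℝ) ^ 3 := mul_lt_mul'' h2 h6 h4.le (by positivity)
      have h8 : (w : ℝ) * (w : ℝ) ^ 3 = (w : ℝ) ^ 4 := by ring
      have h9 : (w : ℝ) ^ 4 ≤ y := by
        unfold Good at hG
        have hw0 : (0 : ℝ) < w := by linarith
        rw [← Real.log_le_log_iff (by positivity) hy0, Real.log_pow]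
        push_cast
        linarith
      linarith
    rw [h0]
    exact mul_nonneg (by norm_num) (Bb_nonneg hy0 w)
  rw [if_pos hG]
  -- split
  have h1 : BdR (y * Real.exp κ) y w ≤ 2 * Bb y w + ∑ p ∈ P w, ∑ q ∈ P p,
      (if y ≤ (p : ℝ) * (q : ℝ) ^ 3 ∧ (p : ℝ) * (q : ℝ) ^ 3 ≤ y * Real.exp κ then
        C / ((p : ℝ) * q * Real.log q ^ 2) else 0) := by
    unfold BdR Bb
    rw [Finset.mul_sum, ← Finset.sum_add_distrib]
    refine Finset.sum_le_sum fun p hp => ?_
    rw [Finset.mul_sum, ← Finset.sum_add_distrib]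
    refine Finset.sum_le_sum fun q hq => ?_
    have hp0 : (0 : ℝ) < p := by exact_mod_cast (mem_P.1 hp).2.pos
    have hq2 : (2 : ℝ) ≤ q := by exact_mod_cast (mem_P.1 hq).2.two_le
    have hq0 : (0 : ℝ) < q := by linarith
    have hlq : 0 < Real.log q := Real.log_pos (by linarith)
    by_cases hacc : (p : ℝ) * (q : ℝ) ^ 3 < y
    · rw [if_pos hacc, if_pos hacc, if_neg (fun h => absurd h.1 (not_le.2 hacc))]
      simp
    · rw [if_neg hacc, if_neg hacc]
      have hacc' := not_lt.1 hacc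
      have h2 := hsm (y * Real.exp κ / ((p : ℝ) * q)) q hq2 (by positivity) (by
        rw [div_le_iff₀ (by positivity)]
        have : Real.exp κ * (q : ℝ) ^ 2 * (p * q) = (p * (q : ℝ) ^ 3) * Real.exp κ := by ring
        rw [this]
        exact mul_le_mul_of_nonneg_right hacc' he.le)
      have h3 := div_le_div_of_nonneg_right h2 (by positivity : 0 ≤ y * Real.exp κ)
      refine h3.trans ?_
      rw [add_div]
      refine add_le_add ?_ ?_
      · rw [mul_one_div]
        apply div_le_div_of_nonneg_left (by norm_num) hy0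
        nlinarith
      · by_cases hle : (q : ℝ) ^ 2 ≤ y * Real.exp κ / ((p : ℝ) * q)
        · rw [if_pos hle]
          rw [le_div_iff₀ (by positivity)] at hle
          have h4 : (p : ℝ) * (q : ℝ) ^ 3 ≤ y * Real.exp κ := by
            have : (q : ℝ) ^ 2 * (p * q) = p * (q : ℝ) ^ 3 := by ring
            linarith
          rw [if_pos ⟨hacc', h4⟩]
          have e : C / ((p : ℝ) * q * Real.log q ^ 2) =
              C * ((q : ℝ) ^ 2 / Real.log q ^ 2) / (p * (q : ℝ) ^ 3) := by
            field_simp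
          rw [e]
          exact div_le_div_of_nonneg_left (by positivity) (by positivity) h4
        · rw [if_neg hle, zero_div]
          split_ifs
          · positivity
          · exact le_rfl
  refine h1.trans (add_le_add_right ?_ _)
  -- the inner sums
  have hinner : ∀ p ∈ P w, (∑ q ∈ P p,
      (if y ≤ (p : ℝ) * (q : ℝ) ^ 3 ∧ (p : ℝ) * (q : ℝ) ^ 3 ≤ y * Real.exp κ then
        C / ((p : ℝ) * q * Real.log q ^ 2) else 0)) ≤
      if L / 6 < Real.log p then C * 36 * (6 * K * Real.exp κ) / L ^ 3 * (1 / (p : ℝ)) else 0 := by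
    intro p hp
    have hp' := mem_P.1 hp
    have hp0 : (0 : ℝ) < p := by exact_mod_cast hp'.2.pos
    have hpw : (p : ℝ) < w := by exact_mod_cast hp'.1
    have hp2 : (2 : ℝ) ≤ p := by exact_mod_cast hp'.2.two_le
    have hlpw : Real.log p ≤ Real.log w := Real.log_le_log hp0 hpw.le
    rw [← Finset.sum_filter]
    set S := (P p).filter (fun q : ℕ => y ≤ (p : ℝ) * (q : ℝ) ^ 3 ∧
      (p : ℝ) * (q : ℝ) ^ 3 ≤ y * Real.exp κ) with hS
    by_cases hSe : S = ∅
    · rw [hSe, Finset.sum_empty]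
      split_ifs
      · positivity
      · exact le_rfl
    -- lower bound for `q`
    have hqlow : ∀ q ∈ S, (0 : ℝ) < q ∧ L / 6 ≤ Real.log q ∧ y ≤ (p : ℝ) * (q : ℝ) ^ 3 ∧
        (p : ℝ) * (q : ℝ) ^ 3 ≤ y * Real.exp κ ∧ q < p ∧ q.Prime := by
      intro q hq
      rw [hS, Finset.mem_filter] at hq
      have hq' := mem_P.1 hq.1
      have hq0 : (0 : ℝ) < q := by exact_mod_cast hq'.2.pos
      refine ⟨hq0, ?_, hq.2.1, hq.2.2, hq'.1, hq'.2⟩
      have h2 := Real.log_le_log hy0 hq.2.1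
      rw [Real.log_mul hp0.ne' (by positivity), Real.log_pow] at h2
      push_cast at h2
      linarith
    obtain ⟨q0, hq0⟩ := Finset.nonempty_iff_ne_empty.mpr hSe
    obtain ⟨hq00, hq01, hq02, hq03, hq04, hq05⟩ := hqlow q0 hq0
    have hlp : L / 6 < Real.log p := by
      refine hq01.trans_lt (Real.log_lt_log hq00 (by exact_mod_cast hq04))
    rw [if_pos hlp]
    set Z := (y * Real.exp κ / p) ^ (1 / 3 : ℝ) with hZ
    have hyp : 0 < y * Real.exp κ / p := by positivity
    have hZ0 : 0 < Z := Real.rpow_pos_of_pos hyp _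
    have hZ3 : Z ^ 3 = y * Real.exp κ / p := by
      rw [hZ, ← Real.rpow_natCast, ← Real.rpow_mul hyp.le]
      norm_num
    have hqZ : ∀ q ∈ S, (q : ℝ) ≤ Z := by
      intro q hq
      obtain ⟨h2, -, -, h5, -, -⟩ := hqlow q hq
      have h1 : (q : ℝ) ^ 3 ≤ Z ^ 3 := by
        rw [hZ3, le_div_iff₀ hp0]
        linarith [mul_comm (p : ℝ) ((q : ℝ) ^ 3)]
      exact le_of_pow_le_pow_left₀ (by norm_num) hZ0.le h1
    have hqZ' : ∀ q ∈ S, Z ≤ Real.exp κ * q := by
      intro q hq
      obtain ⟨h2, -, h4, -, -, -⟩ := hqlow q hq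
      have h1 : Z ^ 3 ≤ (Real.exp κ * q) ^ 3 := by
        rw [hZ3, div_le_iff₀ hp0, mul_pow]
        have h6 : Real.exp κ ≤ Real.exp κ ^ 3 := by
          calc Real.exp κ = Real.exp κ ^ 1 := (pow_one _).symm
            _ ≤ Real.exp κ ^ 3 := pow_le_pow_right₀ he1 (by norm_num)
        calc y * Real.exp κ ≤ (p * (q : ℝ) ^ 3) * Real.exp κ ^ 3 :=
              mul_le_mul h4 h6 he.le (by positivity)
          _ = Real.exp κ ^ 3 * (q : ℝ) ^ 3 * p := by ring
      exact le_of_pow_le_pow_left₀ (by norm_num) (by positivity) h1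
    have hZ2 : 2 ≤ Z := by
      have h3 : (2 : ℝ) ≤ q0 := by exact_mod_cast hq05.two_le
      linarith [hqZ q0 hq0]
    have hcardS : (S.card : ℝ) ≤ K * Z / Real.log Z := by
      apply hcard Z hZ2
      intro q hq
      exact ⟨(hqlow q hq).2.2.2.2.2, hqZ q hq⟩
    have hlZ : L / 6 ≤ Real.log Z := hq01.trans (Real.log_le_log hq00 (hqZ q0 hq0))
    have hlZ0 : 0 < Real.log Z := by linarith [div_pos hv (by norm_num : (0:ℝ) < 6)]
    calc ∑ q ∈ S, C / ((p : ℝ) * q * Real.log q ^ 2)
        ≤ ∑ q ∈ S, C * 36 / (p * L ^ 2) * (Real.exp κ / Z) := by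
          refine Finset.sum_le_sum fun q hq => ?_
          obtain ⟨h2, h3, -, -, -, -⟩ := hqlow q hq
          have h4 := hqZ' q hq
          have h5 : L ^ 2 / 36 ≤ Real.log q ^ 2 := by
            have := pow_le_pow_left₀ (by positivity : 0 ≤ L / 6) h3 2
            linarith [(by ring : (L / 6) ^ 2 = L ^ 2 / 36)]
          have h6 : Z / Real.exp κ ≤ q := by
            rw [div_le_iff₀ he]
            linarith [mul_comm (Real.exp κ) (q : ℝ)]
          calc C / ((p : ℝ) * q * Real.log q ^ 2)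
              ≤ C / ((p : ℝ) * (Z / Real.exp κ) * (L ^ 2 / 36)) := by
                apply div_le_div_of_nonneg_left hC.le (by positivity)
                exact mul_le_mul (mul_le_mul_of_nonneg_left h6 hp0.le) h5 (by positivity)
                  (by positivity)
            _ = C * 36 / (p * L ^ 2) * (Real.exp κ / Z) := by
                field_simp
      _ = S.card * (C * 36 / (p * L ^ 2) * (Real.exp κ / Z)) := by
          rw [Finset.sum_const, nsmul_eq_mul]
      _ ≤ (K * Z / Real.log Z) * (C * 36 / (p * L ^ 2) * (Real.exp κ / Z)) :=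
          mul_le_mul_of_nonneg_right hcardS (by positivity)
      _ ≤ (K * Z / (L / 6)) * (C * 36 / (p * L ^ 2) * (Real.exp κ / Z)) := by
          apply mul_le_mul_of_nonneg_right _ (by positivity)
          exact div_le_div_of_nonneg_left (by positivity) (by positivity) hlZ
      _ = C * 36 * (6 * K * Real.exp κ) / L ^ 3 * (1 / (p : ℝ)) := by
          field_simp
  refine (Finset.sum_le_sum hinner).trans ?_
  rw [← Finset.sum_filter]
  have hfe : (P w).filter (fun p : ℕ => L / 6 < Real.log p) = PG w (L / 6) := rfl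
  rw [hfe, ← Finset.mul_sum]
  have h2 := sum_PG_le hI
  have h3 := mul_le_mul_of_nonneg_left h2
    (by positivity : 0 ≤ C * 36 * (6 * K * Real.exp κ) / L ^ 3)
  refine h3.trans (le_of_eq ?_)
  ring

end Crest.Agent.R001.Mass
end

-- ▼ part R001/MassL664

/-! Row 1 (S0001), block (1), file L: lower bound for the line mass (D2). -/

set_option autoImplicit false

namespace Crest.Agent.R001.Mass

open Finset Classical
open Crest.Agent.R001.F1 (Rw F1c)

/-- upper bound for `Kf` at the good nodes -/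
theorem Kf_up {κ : ℝ} (hκ : 1 ≤ κ) : ∃ C : ℝ, 0 < C ∧ ∀ y w, Inv y w → Good y w →
    Kf κ y w ≤ C / Real.log y ^ 2 := by
  obtain ⟨C, hC, h⟩ := F1c Par.pnt2_holds
  have he := Real.exp_pos κ
  refine ⟨4 * κ + 2 * C + C * κ ^ 3 + 32 * κ ^ 2, by positivity, ?_⟩
  intro y w hI hG
  have hy4 := hI.y_ge
  have hy0 : 0 < y := by linarith
  have hv := hI.log_y_pos
  have hv1 := hI.one_le_log
  have hω := hI.log_w_pos
  have h2w := hI.two_log_le
  have hw2 : (2 : ℝ) ≤ w := by exact_mod_cast hI.1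
  have hw0 : (0 : ℝ) < w := by linarith
  unfold Good at hG
  set v := Real.log y with hvd
  set ω := Real.log w with hωd
  by_cases hwk : Real.exp κ ≤ w
  · have hlogx : Real.log (y * Real.exp κ) = v + κ := by
      rw [Real.log_mul hy0.ne' he.ne', Real.log_exp]
    have hyw4 : y < (w : ℝ) ^ 4 := by
      rw [← Real.log_lt_log_iff hy0 (by positivity), Real.log_pow]
      push_cast
      linarith
    have h1 := (h (y * Real.exp κ) w hw2 (by nlinarith [hI.2, Real.one_le_exp (by linarith : 0 ≤ κ)])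
      (by
        have : (w : ℝ) ^ 5 = (w : ℝ) ^ 4 * w := by ring
        rw [this]
        exact mul_le_mul hyw4.le hwk he.le (by positivity))).2
    have h2 := (h y w hw2 hI.2 (by
        have : (w : ℝ) ^ 4 ≤ (w : ℝ) ^ 5 := pow_le_pow_right₀ (by linarith) (by norm_num)
        linarith)).1
    rw [hlogx] at h1
    -- the main terms
    have h3 : 0 ≤ Real.log ((v + κ - ω) / ω) := by
      apply Real.log_nonneg
      rw [le_div_iff₀ hω]
      linarith
    have h4 : 2 * Real.log ((v + κ - ω) / ω) / (v + κ) ≤ 2 * Real.log ((v + κ - ω) / ω) / v := by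
      apply div_le_div_of_nonneg_left (by positivity) hv
      linarith
    have h5 : Real.log ((v + κ - ω) / ω) - Real.log ((v - ω) / ω) ≤ 2 * κ / v := by
      rw [← Real.log_div (by
        have : 0 < v + κ - ω := by linarith
        positivity) (by
        have : 0 < v - ω := by linarith
        positivity)]
      have e : (v + κ - ω) / ω / ((v - ω) / ω) = 1 + κ / (v - ω) := by
        have : v - ω ≠ 0 := by
          have : 0 < v - ω := by linarith
          exact this.ne'
        field_simp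
        ring
      rw [e]
      have h6 := Real.log_le_sub_one_of_pos (x := 1 + κ / (v - ω)) (by
        have : 0 < v - ω := by linarith
        positivity)
      refine h6.trans ?_
      rw [add_sub_cancel_left]
      rw [div_le_div_iff₀ (by linarith) hv]
      nlinarith
    have h6 : 2 * Real.log ((v + κ - ω) / ω) / v - 2 * Real.log ((v - ω) / ω) / v ≤ 4 * κ / v ^ 2 := by
      rw [← sub_div, ← mul_sub]
      have h7 := div_le_div_of_nonneg_right (mul_le_mul_of_nonneg_left h5 (by norm_num : (0:ℝ) ≤ 2))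
        hv.le
      refine h7.trans (le_of_eq ?_)
      field_simp
      ring
    have h7 : C / (v + κ) ^ 2 ≤ C / v ^ 2 := by
      apply div_le_div_of_nonneg_left hC.le (by positivity)
      exact pow_le_pow_left₀ hv.le (by linarith) 2
    have h8 : C * (max 0 (v + κ - 4 * ω)) ^ 3 / (v + κ) ^ 4 ≤ C * κ ^ 3 / v ^ 2 := by
      apply div_le_div₀ (by positivity) _ (by positivity)
      · calc v ^ 2 ≤ v ^ 2 * v ^ 2 := by
              have h0 : (1 : ℝ) ≤ v ^ 2 := one_le_pow₀ hv1
              nlinarith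
          _ = v ^ 4 := by ring
          _ ≤ (v + κ) ^ 4 := pow_le_pow_left₀ hv.le (by linarith) 4
      · apply mul_le_mul_of_nonneg_left _ hC.le
        apply pow_le_pow_left₀ (le_max_left _ _)
        exact max_le (by linarith) (by linarith)
    have h9 : Kf κ y w ≤ (4 * κ + 2 * C + C * κ ^ 3) / v ^ 2 := by
      unfold Kf
      have e : (4 * κ + 2 * C + C * κ ^ 3) / v ^ 2 =
          4 * κ / v ^ 2 + C / v ^ 2 + C / v ^ 2 + C * κ ^ 3 / v ^ 2 := by ring
      rw [e]
      linarith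
    refine h9.trans ?_
    apply div_le_div_of_nonneg_right _ (by positivity)
    have : 0 ≤ 32 * κ ^ 2 := by positivity
    linarith
  · have h1 : Kf κ y w ≤ 2 := by
      have h2 := Rw_le_two (x := y * Real.exp κ) (w := w) (by positivity)
      have h3 : 0 ≤ Rw y w / y := div_nonneg (Par.Rw_nonneg _ _) hy0.le
      have h4 : Rw (y * Real.exp κ) w / (y * Real.exp κ) ≤ 2 := by
        rw [div_le_iff₀ (by positivity)]
        exact h2
      unfold Kf
      linarith
    refine h1.trans ?_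
    rw [le_div_iff₀ (by positivity)]
    have h2 : ω ≤ κ := by
      rw [hωd, ← Real.log_exp κ]
      exact Real.log_le_log hw0 (not_le.1 hwk).le
    have h3 : v ≤ 4 * κ := by linarith
    have h4 := pow_le_pow_left₀ hv.le h3 2
    have h5 : 0 ≤ C * κ ^ 3 := by positivity
    nlinarith

/-- abstract lower step -/
theorem step_low {K B : ℝ → ℕ → ℝ} {Ce : ℝ} (stop : ℝ → ℕ → Prop)
    (hrec : ∀ y w, Inv y w → K y w ≤ Op K y w + (Ce * Xi y w + B y w))
    (hB0 : ∀ y w, Inv y w → 0 ≤ B y w) (hBop : ∀ y w, Inv y w → Op B y w ≤ Ce * Xi y w) :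
    ∀ y w, Inv y w → K y w ≤ T stop (fun _ _ => 0) K y w + B y w +
      2 * Ce * T stop Xi (fun _ _ => 0) y w := by
  have ha : ∀ y w, Inv y w → K y w ≤ T stop (fun _ _ => 0) K y w +
      T stop (fun y w => Ce * Xi y w + B y w) (fun _ _ => 0) y w := by
    refine tree_induction inv_closed ?_
    intro y w hI ih
    by_cases hs : stop y w
    · rw [T_stop hs, T_stop hs, add_zero]
    · rw [T_not hs, T_not hs, zero_add]
      have h1 := Op_mono (h₁ := K) (h₂ := fun y w => T stop (fun _ _ => 0) K y w +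
        T stop (fun y w => Ce * Xi y w + B y w) (fun _ _ => 0) y w) ih
      rw [Op_add (T stop (fun _ _ => 0) K)] at h1
      have h2 := hrec y w hI
      linarith
  intro y w hI
  have h1 := ha y w hI
  have h2 : T stop (fun y w => Ce * Xi y w + B y w) (fun _ _ => 0) y w =
      Ce * T stop Xi (fun _ _ => 0) y w + T stop B (fun _ _ => 0) y w := by
    have e := T_add (stop := stop) (f := fun y w => Ce * Xi y w) (g := fun _ _ => 0)
      (f' := B) (g' := fun _ _ => 0) y w
    simp only [add_zero] at e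
    rw [e, T_smul']
  have h3 := T_shift (stop := stop) inv_closed hB0 y w hI
  have h4 : T stop (Op B) (fun _ _ => 0) y w ≤ Ce * T stop Xi (fun _ _ => 0) y w := by
    rw [← T_smul']
    exact T_mono inv_closed (fun y w h _ => hBop y w h) (fun _ _ _ _ => le_rfl) y w hI
  linarith

/-- lower bound of the line mass for roots with `w⁵ ≤ y²` -/
theorem lower0 : ∃ c V2 : ℝ, 0 < c ∧ 1 ≤ V2 ∧ ∀ V : ℝ, V2 ≤ V → ∀ y w, Inv y w → Good y w →
    V < Real.log y → (w : ℝ) ^ 5 ≤ y ^ 2 →
    c / Real.log y ^ 2 ≤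
      T (stopV V) (fun _ _ => 0) (fun y _ => 1 / Real.log y ^ 2) y w := by
  obtain ⟨κ, cg, Wg, hκ, hcg, hWg, hgood⟩ := Kf_good
  obtain ⟨Ck, hCk, hup⟩ := Kf_up hκ
  obtain ⟨Ce, hCe, herr⟩ := err_Xi
  obtain ⟨Cb, hCb, hb1, hb2⟩ := bbh
  obtain ⟨Cx, hCx, hx⟩ := BdR_exp_le (κ := κ) (by linarith)
  obtain ⟨Kb, hKb, hKb'⟩ := Bridge.B_le
  obtain ⟨C, V1, hC, hV1, hab⟩ := above_Xi
  obtain ⟨cc⟩ := exists_consts
  have hC1 := cc.hC1
  set B' : ℝ → ℕ → ℝ := fun y w => BdR (y * Real.exp κ) y w with hB'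
  set Ce' : ℝ := Ce + 2 * Cb + 256 * Cx * cc.C1 with hCe'
  have hCe'0 : 0 < Ce' := by positivity
  -- `B'` is small after one generation
  have hBop : ∀ y w, Inv y w → Op B' y w ≤ Ce' * Xi y w := by
    intro y w hI
    have hX := Xi_pos hI
    have h1 : Op B' y w ≤ Op (fun y w => 2 * Bb y w + 256 * Cx * Xi y w) y w := by
      refine Op_mono fun p q hc => ?_
      have hIc := inv_closed y w p q hI hc
      refine (hx _ _ hIc).trans (add_le_add_right ?_ _)
      have hXc := Xi_pos hIc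
      by_cases hG : Good (y / ((p : ℝ) * q)) q
      · rw [if_pos hG]
        have h2 := good_Xi hIc hG
        have h3 := hIc.one_le_log
        have h4 : Cx / Real.log (y / ((p : ℝ) * q)) ^ 3 ≤
            Cx * Real.log (y / ((p : ℝ) * q)) ^ (-(9 / 4) : ℝ) := by
          rw [div_eq_mul_inv]
          apply mul_le_mul_of_nonneg_left _ hCx.le
          rw [← Real.rpow_natCast, ← Real.rpow_neg (by linarith)]
          exact Real.rpow_le_rpow_of_exponent_le h3 (by norm_num)
        have h5 := mul_le_mul_of_nonneg_left h2 hCx.le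
        linarith
      · rw [if_neg hG]
        positivity
    rw [Op_add (fun y w => 2 * Bb y w) (fun y w => 256 * Cx * Xi y w), Op_smul, Op_smul] at h1
    have h2 := hb2 y w hI
    have h3 := mul_le_mul_of_nonneg_left (cc.op y w hI) (by positivity : 0 ≤ 256 * Cx)
    rw [hCe']
    nlinarith
  have hB0 : ∀ y w, Inv y w → 0 ≤ B' y w := by
    intro y w hI
    have hy0 : 0 < y := by linarith [hI.y_ge]
    exact BdR_nonneg (by positivity) w
  have hrec : ∀ y w, Inv y w → Kf κ y w ≤ Op (Kf κ) y w + (Ce' * Xi y w + B' y w) := by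
    intro y w hI
    have hy0 : 0 < y := by linarith [hI.y_ge]
    have h1 := Kf_rec κ hy0 w
    have h2 := (abs_le.1 (herr y w hI κ (by linarith))).2
    have h3 := BdR_nonneg (x := y) (y := y) hy0 w
    have hX := Xi_pos hI
    have h4 : Ce * Xi y w ≤ Ce' * Xi y w := by
      apply mul_le_mul_of_nonneg_right _ hX.le
      rw [hCe']
      have : 0 < 2 * Cb + 256 * Cx * cc.C1 := by positivity
      linarith
    rw [h1]
    simp only [hB']
    linarith
  set C4 : ℝ := 2 * Ce' * C with hC4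
  -- the threshold
  obtain ⟨V2, hV2a, hV2b, hV2c, hV2d⟩ : ∃ V2 : ℝ, V1 ≤ V2 ∧ 4 * Real.log Wg ≤ V2 ∧
      4 * (10 * Kb + Cx) / cg ≤ V2 ∧ (4 * C4 / cg) ^ 4 ≤ V2 := by
    refine ⟨max V1 (max (4 * Real.log Wg) (max (4 * (10 * Kb + Cx) / cg) ((4 * C4 / cg) ^ 4))),
      ?_, ?_, ?_, ?_⟩
    · exact le_max_left _ _
    · exact (le_max_left _ _).trans (le_max_right _ _)
    · exact (le_max_left _ _).trans ((le_max_right _ _).trans (le_max_right _ _))
    · exact (le_max_right _ _).trans ((le_max_right _ _).trans (le_max_right _ _))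
  refine ⟨cg / (2 * Ck), V2, by positivity, by linarith, ?_⟩
  intro V hV y w hI hG hlt hw5
  have hV0 : 0 < V := by linarith
  have hv := hI.log_y_pos
  have hv1 := hI.one_le_log
  have hy4 := hI.y_ge
  have hy0 : 0 < y := by linarith
  have hw0 : (0 : ℝ) < w := by exact_mod_cast (by have := hI.1; omega : 0 < w)
  set v := Real.log y with hvd
  -- `w` is large
  have hwW : Wg ≤ w := by
    unfold Good at hG
    have h1 : Real.log Wg ≤ Real.log w := by linarith
    have h2 : (Wg : ℝ) ≤ w := by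
      rwa [Real.log_le_log_iff (by exact_mod_cast (by omega : 0 < Wg)) hw0] at h1
    exact_mod_cast h2
  have h1 := hgood y w hI hG hwW
  have h2 := step_low (stopV V) hrec hB0 hBop y w hI
  -- the boundary at the root
  have h3 : B' y w ≤ (10 * Kb + Cx) / v ^ 3 := by
    have h4 := hx y w hI
    rw [if_pos hG] at h4
    have h5 : Bb y w ≤ 5 * Kb / v ^ 3 := by
      rw [Bb_eq hI]
      refine (hKb' y w hI).trans ?_
      split_ifs
      · -- `w² / y ≤ y^(-1/5) ≤ 5 / v`
        have h6 : (w : ℝ) ^ 2 / y ≤ 5 / v := by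
          have h7 : ((w : ℝ) ^ 2 / y) ^ 5 ≤ (5 / v) ^ 5 := by
            have h8 : ((w : ℝ) ^ 2 / y) ^ 5 ≤ 1 / y := by
              rw [div_pow, div_le_div_iff₀ (by positivity) hy0]
              calc ((w : ℝ) ^ 2) ^ 5 * y = ((w : ℝ) ^ 5) ^ 2 * y := by ring
                _ ≤ (y ^ 2) ^ 2 * y := by
                    apply mul_le_mul_of_nonneg_right _ hy0.le
                    exact pow_le_pow_left₀ (by positivity) hw5 2
                _ = 1 * y ^ 5 := by ring
            refine h8.trans ?_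
            rw [div_pow, div_le_div_iff₀ hy0 (by positivity), one_mul]
            have h9 : v / 5 ≤ y ^ (1 / 5 : ℝ) := by
              have := Real.add_one_le_exp (v / 5)
              have e : Real.exp (v / 5) = y ^ (1 / 5 : ℝ) := by
                rw [Real.rpow_def_of_pos hy0]
                ring_nf
                rw [hvd]
              linarith
            have h10 := pow_le_pow_left₀ (by positivity) h9 5
            rw [← Real.rpow_natCast (y ^ (1 / 5 : ℝ)), ← Real.rpow_mul hy0.le] at h10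
            norm_num at h10
            nlinarith
          exact le_of_pow_le_pow_left₀ (by norm_num) (by positivity) h7
        have h11 : Kb * (w : ℝ) ^ 2 / (y * v ^ 2) = Kb / v ^ 2 * ((w : ℝ) ^ 2 / y) := by
          field_simp
        rw [h11]
        have h12 := mul_le_mul_of_nonneg_left h6 (by positivity : 0 ≤ Kb / v ^ 2)
        refine h12.trans (le_of_eq ?_)
        field_simp
      · positivity
    have e : (10 * Kb + Cx) / v ^ 3 = 2 * (5 * Kb / v ^ 3) + Cx / v ^ 3 := by ring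
    rw [e]
    linarith
  have h4 : (10 * Kb + Cx) / v ^ 3 ≤ cg / 4 / v ^ 2 := by
    rw [div_le_div_iff₀ (by positivity) (by positivity)]
    have h5 : 4 * (10 * Kb + Cx) ≤ v * cg := by
      have := hV2c
      rw [div_le_iff₀ hcg] at this
      nlinarith
    have h6 : 0 ≤ v ^ 2 := by positivity
    nlinarith
  -- the potential
  have h5 := hab V (by linarith) y w hI hlt
  have h6 : (v / V) ^ (1 / 4 : ℝ) * Xi y w ≤ V ^ (-(1 / 4) : ℝ) / v ^ 2 := by
    rw [Real.div_rpow hv.le hV0.le, Real.rpow_neg hV0.le]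
    have h7 := om_le hI
    rw [← quarter_Xi hI, ← hvd] at h7
    rw [div_mul_eq_mul_div, div_le_iff₀ (by positivity)]
    refine h7.trans (le_of_eq ?_)
    field_simp
  have h7 : 2 * Ce' * T (stopV V) Xi (fun _ _ => 0) y w ≤ cg / 4 / v ^ 2 := by
    have h8 : 2 * Ce' * T (stopV V) Xi (fun _ _ => 0) y w ≤ C4 * (V ^ (-(1 / 4) : ℝ) / v ^ 2) := by
      calc 2 * Ce' * T (stopV V) Xi (fun _ _ => 0) y w
          ≤ 2 * Ce' * (C * (v / V) ^ (1 / 4 : ℝ) * Xi y w) :=
            mul_le_mul_of_nonneg_left h5 (by positivity)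
        _ = C4 * ((v / V) ^ (1 / 4 : ℝ) * Xi y w) := by rw [hC4]; ring
        _ ≤ _ := mul_le_mul_of_nonneg_left h6 (by positivity)
    refine h8.trans ?_
    have h9 : 4 * C4 / cg ≤ V ^ (1 / 4 : ℝ) := by
      have h10 : 4 * C4 / cg = ((4 * C4 / cg) ^ 4) ^ (1 / 4 : ℝ) := by
        rw [← Real.rpow_natCast, ← Real.rpow_mul (by positivity)]
        norm_num
      rw [h10]
      exact Real.rpow_le_rpow (by positivity) (by linarith) (by norm_num)
    rw [div_le_iff₀ hcg] at h9
    rw [← mul_div_assoc]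
    apply div_le_div_of_nonneg_right _ (by positivity)
    rw [Real.rpow_neg hV0.le, ← div_eq_mul_inv, div_le_iff₀ (by positivity)]
    linarith
  -- conclusion
  have h8 : cg / 2 / v ^ 2 ≤ T (stopV V) (fun _ _ => 0) (Kf κ) y w := by
    have e : cg / v ^ 2 = cg / 2 / v ^ 2 + cg / 4 / v ^ 2 + cg / 4 / v ^ 2 := by ring
    rw [e] at h1
    linarith
  have h9 : T (stopV V) (fun _ _ => 0) (Kf κ) y w ≤
      Ck * T (stopV V) (fun _ _ => 0) (fun y _ => 1 / Real.log y ^ 2) y w := by
    have e := T_smul (stop := stopV V) (f := fun _ _ => 0)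
      (g := fun y _ => 1 / Real.log y ^ 2) Ck y w
    simp only [mul_zero] at e
    rw [← e]
    refine T_mono inv_closed (fun _ _ _ _ => le_rfl) (fun y w h hs => ?_) y w hI
    rw [mul_one_div]
    exact hup y w h hs.1
  have h10 : cg / (2 * Ck) / v ^ 2 = cg / 2 / v ^ 2 / Ck := by
    field_simp
  rw [h10, div_le_iff₀ hCk]
  linarith

/-- the line mass is monotone in `w` (roots above the line) -/
theorem line_mono_w {V : ℝ} {g : ℝ → ℕ → ℝ} (hg : ∀ y w, Inv y w → 0 ≤ g y w) {y : ℝ} {w w' : ℕ}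
    (hI' : Inv y w') (hw : w ≤ w') (hlt : V < Real.log y) :
    T (stopV V) (fun _ _ => 0) g y w ≤ T (stopV V) (fun _ _ => 0) g y w' := by
  have h1 : ¬ stopV V y w := fun h => absurd h.2 (not_le.2 hlt)
  have h2 : ¬ stopV V y w' := fun h => absurd h.2 (not_le.2 hlt)
  rw [T_not h1, T_not h2, zero_add, zero_add]
  refine Op_mono_w hw fun p q hc => ?_
  exact T_nonneg inv_closed (fun _ _ _ => le_rfl) hg _ _ (inv_closed y w' p q hI' hc)

/-- lower bound of the line mass, all good roots -/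
theorem lower1 : ∃ c V2 : ℝ, 0 < c ∧ 1 ≤ V2 ∧ ∀ V : ℝ, V2 ≤ V → ∀ y w, Inv y w → Good y w →
    V < Real.log y →
    c / Real.log y ^ 2 ≤
      T (stopV V) (fun _ _ => 0) (fun y _ => 1 / Real.log y ^ 2) y w := by
  obtain ⟨c, V2, hc, hV2, h⟩ := lower0
  refine ⟨c, max V2 20, hc, le_trans hV2 (le_max_left _ _), ?_⟩
  intro V hV y w hI hG hlt
  have hVa : V2 ≤ V := (le_max_left _ _).trans hV
  have hVb : 20 ≤ V := (le_max_right _ _).trans hV
  by_cases hw5 : (w : ℝ) ^ 5 ≤ y ^ 2
  · exact h V hVa y w hI hG hlt hw5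
  push Not at hw5
  have hy4 := hI.y_ge
  have hy0 : 0 < y := by linarith
  have hv := hI.log_y_pos
  have hw0 : (0 : ℝ) < w := by exact_mod_cast (by have := hI.1; omega : 0 < w)
  -- `t = y^(1/20)`
  set t : ℝ := y ^ (1 / 20 : ℝ) with ht
  have ht0 : 0 < t := Real.rpow_pos_of_pos hy0 _
  have ht20 : t ^ 20 = y := by
    rw [ht, ← Real.rpow_natCast, ← Real.rpow_mul hy0.le]
    norm_num
  have ht2 : 2 ≤ t := by
    have h1 : Real.exp 1 ≤ t := by
      rw [ht, Real.rpow_def_of_pos hy0]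
      apply Real.exp_le_exp.2
      linarith
    have := Real.exp_one_gt_d9
    linarith
  set w' : ℕ := ⌊t ^ 8⌋₊ with hw'
  have hw'le : (w' : ℝ) ≤ t ^ 8 := Nat.floor_le (by positivity)
  have hw'gt : t ^ 8 < (w' : ℝ) + 1 := Nat.lt_floor_add_one _
  have ht58 : t ^ 5 + 1 ≤ t ^ 8 := by
    have h1 : 2 ^ 3 ≤ t ^ 3 := pow_le_pow_left₀ (by norm_num) ht2 3
    have h2 : (2 : ℝ) ^ 5 ≤ t ^ 5 := pow_le_pow_left₀ (by norm_num) ht2 5
    have h3 : t ^ 8 = t ^ 5 * t ^ 3 := by ring
    rw [h3]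
    nlinarith
  have hw't5 : t ^ 5 < (w' : ℝ) := by linarith
  have hw'0 : (0 : ℝ) < w' := lt_trans (by positivity) hw't5
  have hw'5 : (w' : ℝ) ^ 5 ≤ y ^ 2 := by
    have h1 := pow_le_pow_left₀ hw'0.le hw'le 5
    calc (w' : ℝ) ^ 5 ≤ (t ^ 8) ^ 5 := h1
      _ = (t ^ 20) ^ 2 := by ring
      _ = y ^ 2 := by rw [ht20]
  have hww' : w' ≤ w := by
    have h1 : (w' : ℝ) ^ 5 < (w : ℝ) ^ 5 := lt_of_le_of_lt hw'5 hw5
    have h2 := lt_of_pow_lt_pow_left₀ 5 hw0.le h1
    exact_mod_cast h2.le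
  have hI' : Inv y w' := by
    refine ⟨?_, ?_⟩
    · have h1 : (2 : ℝ) ^ 5 ≤ t ^ 5 := pow_le_pow_left₀ (by norm_num) ht2 5
      have h2 : (2 : ℝ) < w' := by linarith
      have h3 : 2 < w' := by exact_mod_cast h2
      omega
    · have h1 : (w' : ℝ) ≤ w := by exact_mod_cast hww'
      have h2 := pow_le_pow_left₀ hw'0.le h1 2
      linarith [hI.2]
  have hG' : Good y w' := by
    unfold Good
    have h1 : y < (w' : ℝ) ^ 4 := by
      have h2 := pow_lt_pow_left₀ hw't5 (by positivity) (n := 4) (by norm_num)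
      calc y = (t ^ 5) ^ 4 := by rw [← ht20]; ring
        _ < (w' : ℝ) ^ 4 := h2
    have h2 := Real.log_lt_log hy0 h1
    rw [Real.log_pow] at h2
    exact_mod_cast h2
  refine (h V hVa y w' hI' hG' hlt hw'5).trans ?_
  exact line_mono_w (fun y w h => by have := h.log_y_pos; positivity) hI hww' hlt

/-- **(D2)** lower bound of the line mass -/
theorem lower : ∃ c V2 η : ℝ, 0 < c ∧ 1 ≤ V2 ∧ 0 < η ∧ η < 1 ∧ ∀ V : ℝ, V2 ≤ V → ∀ y w, Inv y w →
    Good y w → V < Real.log y →
    c / Real.log y ^ 2 ≤ T (stopV V) (fun _ _ => 0)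
      (fun y _ => if η * V < Real.log y then 1 / Real.log y ^ 2 else 0) y w := by
  obtain ⟨c, V2, hc, hV2, h⟩ := lower1
  obtain ⟨C, V1, hC, hV1, hsq⟩ := line_sq
  set η : ℝ := min (1 / 2) ((c / (2 * C)) ^ 4) with hη
  have hη0 : 0 < η := lt_min (by norm_num) (by positivity)
  have hη1 : η < 1 := lt_of_le_of_lt (min_le_left _ _) (by norm_num)
  refine ⟨c / 2, max V1 V2, η, by positivity, le_trans hV1 (le_max_left _ _), hη0, hη1, ?_⟩
  intro V hV y w hI hG hlt
  have hVa : V1 ≤ V := (le_max_left _ _).trans hV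
  have hVb : V2 ≤ V := (le_max_right _ _).trans hV
  have hV0 : 0 < V := by linarith
  have hv := hI.log_y_pos
  have h1 := h V hVb y w hI hG hlt
  have h2 := hsq V hVa (η * V) (by positivity) y w hI hlt
  have h3 : T (stopV V) (fun _ _ => 0) (fun y _ => 1 / Real.log y ^ 2) y w =
      T (stopV V) (fun _ _ => 0)
        (fun y _ => if η * V < Real.log y then 1 / Real.log y ^ 2 else 0) y w +
      T (stopV V) (fun _ _ => 0)
        (fun y _ => if Real.log y ≤ η * V then 1 / Real.log y ^ 2 else 0) y w := by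
    have e := T_add (stop := stopV V) (f := fun _ _ => 0)
      (g := fun y _ => if η * V < Real.log y then 1 / Real.log y ^ 2 else 0)
      (f' := fun _ _ => 0)
      (g' := fun y _ => if Real.log y ≤ η * V then 1 / Real.log y ^ 2 else 0) y w
    rw [← e]
    congr 1
    · funext y w
      simp
    · funext y w
      by_cases h : η * V < Real.log y
      · rw [if_pos h, if_neg (not_le.2 h), add_zero]
      · rw [if_neg h, if_pos (not_lt.1 h), zero_add]
  have h4 : (η * V / V) ^ (1 / 4 : ℝ) ≤ c / (2 * C) := by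
    rw [mul_div_cancel_right₀ _ hV0.ne']
    have h5 : c / (2 * C) = ((c / (2 * C)) ^ 4) ^ (1 / 4 : ℝ) := by
      rw [← Real.rpow_natCast, ← Real.rpow_mul (by positivity)]
      norm_num
    rw [h5]
    exact Real.rpow_le_rpow hη0.le (min_le_right _ _) (by norm_num)
  have h5 : C * (η * V / V) ^ (1 / 4 : ℝ) * (Real.log w ^ 4 / Real.log y ^ 6) ≤
      c / 2 / Real.log y ^ 2 := by
    have h6 := om_le hI
    calc C * (η * V / V) ^ (1 / 4 : ℝ) * (Real.log w ^ 4 / Real.log y ^ 6)
        ≤ C * (c / (2 * C)) * (1 / Real.log y ^ 2) := by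
          apply mul_le_mul (mul_le_mul_of_nonneg_left h4 hC.le) h6 _ (by positivity)
          have := hI.log_w_pos
          positivity
      _ = c / 2 / Real.log y ^ 2 := by field_simp
  have h6 : c / Real.log y ^ 2 = c / 2 / Real.log y ^ 2 + c / 2 / Real.log y ^ 2 := by ring
  rw [h6] at h1
  linarith

end Crest.Agent.R001.Mass
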