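import Crest.Agent.R001.TreeHyb
import Crest.Agent.R001.LS.Arith
import Crest.Agent.R001.EST1

-- ▼ part R001/Uns1
section

/-! R001, block UNS, part 1: the Rosser weights as a linear form and the path lemma. -/

set_option autoImplicit false

namespace Crest.Agent.R001.Uns

open Finset Crest.Agent.R001.Tree

/-- index set of the support of the Rosser tree of level `y` started at `(1, w)`:
even states `b` with `p = 1` and odd states `b * p`. -/
noncomputable def Idx (y : ℝ) (w : ℕ) : Finset (ℕ × ℕ) :=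
  (NS (bd y) 1 w).biUnion fun b => (insert 1 (pr (wOf 1 w b))).image fun p => (b, p)

def val (x : ℕ × ℕ) : ℕ := x.1 * x.2

noncomputable def sgn (x : ℕ × ℕ) : ℝ := if x.2 = 1 then 1 else -1

lemma mem_Idx {y : ℝ} {w : ℕ} {x : ℕ × ℕ} :
    x ∈ Idx y w ↔ x.1 ∈ NS (bd y) 1 w ∧ (x.2 = 1 ∨ x.2 ∈ pr (wOf 1 w x.1)) := by
  unfold Idx
  simp only [mem_biUnion, mem_image, mem_insert]
  constructor
  · rintro ⟨b, hb, p, hp, rfl⟩
    exact ⟨hb, hp⟩
  · rintro ⟨h1, h2⟩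
    exact ⟨x.1, h1, x.2, h2, rfl⟩

lemma abs_sgn (x : ℕ × ℕ) : |sgn x| = 1 := by
  unfold sgn; split_ifs <;> simp

lemma one_not_mem_pr (w : ℕ) : (1 : ℕ) ∉ pr w := by
  rw [mem_pr]; exact fun h => Nat.not_prime_one h.2

lemma sum_Idx (y : ℝ) (w : ℕ) (f : ℕ × ℕ → ℝ) :
    ∑ x ∈ Idx y w, f x =
      ∑ b ∈ NS (bd y) 1 w, (f (b, 1) + ∑ p ∈ pr (wOf 1 w b), f (b, p)) := by
  unfold Idx
  rw [sum_biUnion]
  · refine sum_congr rfl fun b _ => ?_
    rw [sum_image, sum_insert (one_not_mem_pr _)]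
    intro p _ q _ h
    exact (Prod.ext_iff.1 h).2
  · intro b _ b' _ hbb'
    rw [Function.onFun, disjoint_left]
    intro x hx hx'
    obtain ⟨p, _, rfl⟩ := mem_image.1 hx
    obtain ⟨q, _, h⟩ := mem_image.1 hx'
    exact hbb' (Prod.ext_iff.1 h).1.symm

/-- the linear form -/
lemma T_lin (y : ℝ) (w : ℕ) (A : ℕ → ℝ) :
    T (bd y) (intF A) (fun _ _ => 0) 1 w = ∑ x ∈ Idx y w, sgn x * A (val x) := by
  rw [T_eq_sum_NS (bd y) (intF A) one_pos (rgh_one w), sum_Idx]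
  refine sum_congr rfl fun b _ => ?_
  unfold intF sgn val
  simp only [if_true, mul_one, one_mul]
  rw [sub_eq_add_neg, ← sum_neg_distrib]
  congr 1
  refine sum_congr rfl fun p hp => ?_
  rw [if_neg, neg_one_mul]
  rintro rfl
  exact one_not_mem_pr _ hp

lemma card_Idx_le {y : ℝ} {w : ℕ} (h0 : Adm y 1 w) (hy : 1 < y) : ((Idx y w).card : ℝ) ≤ y := by
  have h1 : ((Idx y w).card : ℝ) = ∑ _x ∈ Idx y w, (1 : ℝ) := by simp
  rw [h1, sum_Idx]
  have h2 := count_support (stop := bd y) (fun _ _ h => h) one_pos h0 (by simpa using hy)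
  rw [T_split, T_eq_sum_NS (bd y) _ one_pos (rgh_one w)] at h2
  have h3 : 0 ≤ T (bd y) (fun _ _ => (0 : ℝ)) (fun _ _ => 1) 1 w :=
    T_nonneg 1 w (fun _ _ _ => le_rfl) (fun _ _ _ => zero_le_one)
  have h4 : ∑ b ∈ NS (bd y) 1 w, ((1 : ℝ) + ∑ _p ∈ pr (wOf 1 w b), (1 : ℝ)) =
      ∑ b ∈ NS (bd y) 1 w, (1 + ((pr (wOf 1 w b)).card : ℝ)) := by
    refine sum_congr rfl fun b _ => ?_
    simp
  rw [h4]
  simp only [Nat.cast_one, div_one] at h2
  linarith

/-- the node behind an element of the index set -/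
lemma node_of_mem {y : ℝ} {w : ℕ} {x : ℕ × ℕ} (hx : x ∈ Idx y w) :
    ∃ w', Node (bd y) 1 w x.1 w' ∧ (x.2 = 1 ∨ x.2 ∈ pr w') := by
  obtain ⟨h1, h2⟩ := mem_Idx.1 hx
  obtain ⟨w', hn⟩ := mem_NS.1 h1
  refine ⟨w', hn, ?_⟩
  rw [hn.wOf one_pos (rgh_one w)] at h2
  exact h2

lemma val_lt {y : ℝ} {w : ℕ} (h0 : Adm y 1 w) (hy : 1 < y) {x : ℕ × ℕ} (hx : x ∈ Idx y w) :
    (val x : ℝ) < y := by
  obtain ⟨w', hn, h⟩ := node_of_mem hx
  unfold val
  rcases h with h | h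
  · rw [h, mul_one]
    exact hn.lt h0 (by simpa using hy)
  · exact odd_lt (hn.adm h0) h

lemma node_sqf {stop : ℕ → ℕ → Prop} {w d w' : ℕ} (h : Node stop 1 w d w') :
    Squarefree d ∧ ∀ r, r.Prime → r ∣ d → r < w := by
  induction h with
  | root => exact ⟨squarefree_one, fun r hr h => absurd (Nat.dvd_one.1 h) hr.one_lt.ne'⟩
  | @step d w' p q hn hp hq _ ih =>
    have hr := hn.rgh (rgh_one w)
    have hpp := prime_of_mem_pr hp
    have hqp := prime_of_mem_pr hq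
    have hplt := lt_of_mem_pr hp
    have hqlt := lt_of_mem_pr hq
    have hpd : ¬ p ∣ d := hr p hpp hplt
    have hqd : ¬ q ∣ d := hr q hqp (by omega)
    have hww := hn.w_le
    refine ⟨?_, ?_⟩
    · have h1 : Nat.Coprime (d * p) q := by
        refine Nat.Coprime.symm ((Nat.Prime.coprime_iff_not_dvd hqp).2 ?_)
        intro h
        rcases (Nat.Prime.dvd_mul hqp).1 h with h | h
        · exact hqd h
        · have := (Nat.prime_dvd_prime_iff_eq hqp hpp).1 h; omega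
      have h2 : Nat.Coprime d p := ((Nat.Prime.coprime_iff_not_dvd hpp).2 hpd).symm
      rw [Nat.squarefree_mul h1, Nat.squarefree_mul h2]
      exact ⟨⟨ih.1, hpp.squarefree⟩, hqp.squarefree⟩
    · intro r hr' hdvd
      rcases (Nat.Prime.dvd_mul hr').1 hdvd with h3 | h3
      · rcases (Nat.Prime.dvd_mul hr').1 h3 with h4 | h4
        · exact ih.2 r hr' h4
        · have := (Nat.prime_dvd_prime_iff_eq hr' hpp).1 h4; omega
      · have := (Nat.prime_dvd_prime_iff_eq hr' hqp).1 h3; omega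

lemma val_sqf {y : ℝ} {w : ℕ} {x : ℕ × ℕ} (hx : x ∈ Idx y w) :
    Squarefree (val x) ∧ ∀ r, r.Prime → r ∣ val x → r < w := by
  obtain ⟨w', hn, h⟩ := node_of_mem hx
  obtain ⟨h1, h2⟩ := node_sqf hn
  unfold val
  rcases h with h | h
  · rw [h, mul_one]; exact ⟨h1, h2⟩
  · have hr := hn.rgh (rgh_one w)
    have hpp := prime_of_mem_pr h
    have hplt := lt_of_mem_pr h
    have hww := hn.w_le
    refine ⟨?_, ?_⟩
    · rw [Nat.squarefree_mul ((Nat.Prime.coprime_iff_not_dvd hpp).2 (hr _ hpp hplt)).symm]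
      exact ⟨h1, hpp.squarefree⟩
    · intro r hr' hdvd
      rcases (Nat.Prime.dvd_mul hr').1 hdvd with h3 | h3
      · exact h2 r hr' h3
      · have := (Nat.prime_dvd_prime_iff_eq hr' hpp).1 h3; omega

lemma val_pos {y : ℝ} {w : ℕ} {x : ℕ × ℕ} (hx : x ∈ Idx y w) : 0 < val x :=
  Nat.pos_of_ne_zero (val_sqf hx).1.ne_zero

/-- every integer has at most two representations -/
lemma val_fiber {y : ℝ} {w : ℕ} {x z : ℕ × ℕ} (hx : x ∈ Idx y w) (hz : z ∈ Idx y w)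
    (h : val x = val z) (h2 : (x.2 = 1) ↔ (z.2 = 1)) : x = z := by
  obtain ⟨w', hn, hx'⟩ := node_of_mem hx
  obtain ⟨w'', hn', hz'⟩ := node_of_mem hz
  unfold val at h
  by_cases h1 : x.2 = 1
  · have h3 := h2.1 h1
    rw [h1, h3, mul_one, mul_one] at h
    exact Prod.ext h (h1.trans h3.symm)
  · have h3 : z.2 ≠ 1 := fun h4 => h1 (h2.2 h4)
    have hxp := hx'.resolve_left h1
    have hzp := hz'.resolve_left h3
    have key : ∀ {b p c q v v' : ℕ}, Node (bd y) 1 w b v → p ∈ pr v → Node (bd y) 1 w c v' →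
        q ∈ pr v' → b * p = c * q → q ≤ p := by
      intro b p c q v v' _ hp hn2 hq he
      have hpp := prime_of_mem_pr hp
      have h5 : p ∣ c * q := he ▸ dvd_mul_left p b
      rcases (Nat.Prime.dvd_mul hpp).1 h5 with h6 | h6
      · by_contra h7
        push Not at h7
        exact hn2.rgh (rgh_one w) p hpp (h7.trans (lt_of_mem_pr hq)) h6
      · exact ((Nat.prime_dvd_prime_iff_eq hpp (prime_of_mem_pr hq)).1 h6).ge
    have h8 : z.2 ≤ x.2 := key hn hxp hn' hzp h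
    have h9 : x.2 ≤ z.2 := key hn' hzp hn hxp h.symm
    have h10 : x.2 = z.2 := le_antisymm h9 h8
    refine Prod.ext ?_ h10
    rw [h10] at h
    exact Nat.eq_of_mul_eq_mul_right (prime_of_mem_pr hzp).pos h

/-! ### the path lemma -/

/-- local factor -/
noncomputable def ff (t : ℕ) (Lam : ℝ) (q : ℕ) : ℝ := if t < q then (q : ℝ) / Lam else 1

noncomputable def ell (t : ℕ) (Lam : ℝ) (d : ℕ) : ℝ := ∏ q ∈ d.primeFactors, ff t Lam q

lemma ell_mul_prime (t : ℕ) (Lam : ℝ) {d p : ℕ} (hd : 0 < d) (hp : p.Prime) (hpd : ¬ p ∣ d) :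
    ell t Lam (d * p) = ell t Lam d * ff t Lam p := by
  unfold ell
  rw [Nat.primeFactors_mul hd.ne' hp.ne_zero, hp.primeFactors, prod_union, prod_singleton]
  rw [disjoint_singleton_right]
  intro h
  exact hpd (Nat.dvd_of_mem_primeFactors h)

/-- states all of whose primes are `> t` (with the number of primes) -/
lemma path {y : ℝ} {w t : ℕ} {Lam B0 : ℝ} {k : ℕ} (h0 : Adm y 1 w) (hy : 1 < y)
    (hLam : 1 ≤ Lam) (hB0 : 1 ≤ B0) (hk : B0 ≤ Lam ^ k) (hyB : B0 ^ (2 * 3 ^ k) ≤ y)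
    {d w' : ℕ} (hn : Node (bd y) 1 w d w') :
    (B0 * ell t Lam d ≤ y ∧ ∀ p ∈ pr w', B0 * ell t Lam (d * p) ≤ y) ∧
      (w' ≤ t ∨ ∃ j : ℕ, ell t Lam d = d / Lam ^ (2 * j) ∧ y ≤ (y / d) ^ (3 ^ j)) := by
  have hy0 : 0 < y := by linarith
  -- bounds for states with large primes only
  have even_bd : ∀ (d : ℕ) (w' : ℕ) (j : ℕ), 0 < d → Adm y d w' → (d : ℝ) < y →
      ell t Lam d = d / Lam ^ (2 * j) → y ≤ (y / d) ^ (3 ^ j) →
      B0 ≤ Lam ^ (2 * j) * (y / d) ∧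
        ∀ p ∈ pr w', B0 ≤ Lam ^ (2 * j + 1) * (y / (d * p)) := by
    intro d w' j hd hadm hdy _ hj
    have hd' : (0 : ℝ) < d := by exact_mod_cast hd
    have hyd : 1 ≤ y / d := by rw [le_div_iff₀ hd']; linarith
    by_cases hjk : k ≤ 2 * j
    · have h1 : B0 ≤ Lam ^ (2 * j) := hk.trans (pow_le_pow_right₀ hLam hjk)
      refine ⟨?_, fun p hp => ?_⟩
      · calc B0 ≤ Lam ^ (2 * j) * 1 := by linarith
          _ ≤ _ := mul_le_mul_of_nonneg_left hyd (by positivity)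
      · have hp0 : (0 : ℝ) < p := by exact_mod_cast (prime_of_mem_pr hp).pos
        have h2 := odd_lt hadm hp
        push_cast at h2
        have h3 : 1 ≤ y / (d * p) := by rw [le_div_iff₀ (by positivity)]; linarith
        calc B0 ≤ Lam ^ (2 * j) * 1 := by linarith
          _ ≤ Lam ^ (2 * j + 1) * 1 := by
              have : Lam ^ (2 * j) ≤ Lam ^ (2 * j + 1) := pow_le_pow_right₀ hLam (by omega)
              linarith
          _ ≤ _ := mul_le_mul_of_nonneg_left h3 (by positivity)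
    · push Not at hjk
      have h3j : (3 : ℕ) ^ j ≤ 3 ^ k := Nat.pow_le_pow_right (by norm_num) (by omega)
      -- `(y/d) ≥ B0^2`
      have h1 : B0 ^ 2 ≤ y / d := by
        by_contra hcon
        push Not at hcon
        have h2 : (y / d) ^ (3 ^ j) < (B0 ^ 2) ^ (3 ^ j) :=
          pow_lt_pow_left₀ hcon (by linarith) (by positivity)
        have h3 : (B0 ^ 2) ^ (3 ^ j) ≤ B0 ^ (2 * 3 ^ k) := by
          rw [← pow_mul]
          exact pow_le_pow_right₀ hB0 (by omega)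
        linarith
      have hLj : 1 ≤ Lam ^ (2 * j) := one_le_pow₀ hLam
      have hLj' : 1 ≤ Lam ^ (2 * j + 1) := one_le_pow₀ hLam
      have hBB : B0 ≤ B0 ^ 2 := by nlinarith
      refine ⟨?_, fun p hp => ?_⟩
      · calc B0 ≤ 1 * (y / d) := by linarith
          _ ≤ _ := mul_le_mul_of_nonneg_right hLj (by positivity)
      · have hp0 : (0 : ℝ) < p := by exact_mod_cast (prime_of_mem_pr hp).pos
        have h2 : (d : ℝ) * (p : ℝ) ^ 2 < y := hadm p hp
        -- `p ≤ sqrt (y/d)` so `y/(dp) ≥ sqrt (y/d) ≥ B0`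
        have h4 : B0 ≤ y / (d * p) := by
          rw [le_div_iff₀ (by positivity)]
          have h5 : (B0 * (d * p)) ^ 2 ≤ y ^ 2 := by
            have h6 : B0 ^ 2 * d ≤ y := by
              rw [le_div_iff₀ hd'] at h1; exact h1
            calc (B0 * (d * p)) ^ 2 = (B0 ^ 2 * d) * (d * (p : ℝ) ^ 2) := by ring
              _ ≤ y * y := mul_le_mul h6 h2.le (by positivity) hy0.le
              _ = y ^ 2 := by ring
          exact le_of_sq_le_sq h5 hy0.le
        calc B0 ≤ 1 * (y / (d * p)) := by linarith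
          _ ≤ _ := mul_le_mul_of_nonneg_right hLj' (by positivity)
  have hLam0 : 0 < Lam := by linarith
  have final : ∀ (d w' j : ℕ), 0 < d → Adm y d w' → (d : ℝ) < y → Rgh d w' →
      ell t Lam d = d / Lam ^ (2 * j) → y ≤ (y / d) ^ (3 ^ j) →
      B0 * ell t Lam d ≤ y ∧ ∀ p ∈ pr w', B0 * ell t Lam (d * p) ≤ y := by
    intro d w' j hd hadm hdy hr he hj
    have hd' : (0 : ℝ) < d := by exact_mod_cast hd
    obtain ⟨h1, h2⟩ := even_bd d w' j hd hadm hdy he hj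
    have h3 : B0 * ell t Lam d ≤ y := by
      rw [he]
      have h4 : B0 * (d / Lam ^ (2 * j)) ≤ (Lam ^ (2 * j) * (y / d)) * (d / Lam ^ (2 * j)) :=
        mul_le_mul_of_nonneg_right h1 (by positivity)
      refine h4.trans (le_of_eq ?_)
      field_simp
    refine ⟨h3, fun p hp => ?_⟩
    have hpp := prime_of_mem_pr hp
    have hp0 : (0 : ℝ) < p := by exact_mod_cast hpp.pos
    rw [ell_mul_prime t Lam hd hpp (hr p hpp (lt_of_mem_pr hp))]
    unfold ff
    split_ifs with ht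
    · rw [he]
      have h4 : B0 * (d / Lam ^ (2 * j) * (p / Lam)) ≤
          (Lam ^ (2 * j + 1) * (y / (d * p))) * (d / Lam ^ (2 * j) * (p / Lam)) :=
        mul_le_mul_of_nonneg_right (h2 p hp) (by positivity)
      refine h4.trans (le_of_eq ?_)
      rw [pow_succ]
      field_simp
    · rw [mul_one]; exact h3
  induction hn with
  | root =>
    have he : ell t Lam 1 = ((1 : ℕ) : ℝ) / Lam ^ (2 * 0) := by simp [ell]
    have hj : y ≤ (y / ((1 : ℕ) : ℝ)) ^ (3 ^ 0) := by simp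
    exact ⟨final 1 w 0 one_pos h0 (by simpa using hy) (rgh_one w) he hj, Or.inr ⟨0, he, hj⟩⟩
  | @step d w' p q hn hp hq hs ih =>
    have hr := hn.rgh (rgh_one w)
    have hadm := hn.adm h0
    have hd := hn.pos one_pos
    have hd' : (0 : ℝ) < d := by exact_mod_cast hd
    have hpp := prime_of_mem_pr hp
    have hqp := prime_of_mem_pr hq
    have hplt := lt_of_mem_pr hp
    have hqlt := lt_of_mem_pr hq
    have hpd : ¬ p ∣ d := hr p hpp hplt
    have hqdp : ¬ q ∣ d * p := by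
      intro h
      rcases (Nat.Prime.dvd_mul hqp).1 h with h | h
      · exact hr q hqp (by omega) h
      · have := (Nat.prime_dvd_prime_iff_eq hqp hpp).1 h; omega
    have hn2 : Node (bd y) 1 w (d * p * q) q := Node.step hn hp hq hs
    have hr2 := hn2.rgh (rgh_one w)
    have hadm2 := hn2.adm h0
    have hd2 := hn2.pos one_pos
    have hlt2 := hn2.lt h0 (by simpa using hy)
    by_cases hqt : q ≤ t
    · -- the small case
      have e1 : ell t Lam (d * p * q) = ell t Lam (d * p) := by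
        rw [ell_mul_prime t Lam (Nat.mul_pos hd hpp.pos) hqp hqdp]
        unfold ff
        rw [if_neg (not_lt.2 hqt), mul_one]
      refine ⟨⟨?_, fun r hr' => ?_⟩, Or.inl hqt⟩
      · rw [e1]; exact ih.1.2 p hp
      · have hrp := prime_of_mem_pr hr'
        have hrlt := lt_of_mem_pr hr'
        rw [ell_mul_prime t Lam hd2 hrp (hr2 r hrp hrlt)]
        unfold ff
        rw [if_neg (by omega), mul_one, e1]
        exact ih.1.2 p hp
    · push Not at hqt
      -- then `w' > t`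
      obtain ⟨j, he, hj⟩ := ih.2.resolve_left (by omega)
      have he2 : ell t Lam (d * p * q) = ((d * p * q : ℕ) : ℝ) / Lam ^ (2 * (j + 1)) := by
        rw [ell_mul_prime t Lam (Nat.mul_pos hd hpp.pos) hqp hqdp,
          ell_mul_prime t Lam hd hpp hpd, he]
        unfold ff
        rw [if_pos hqt, if_pos (by omega)]
        push_cast
        rw [show 2 * (j + 1) = 2 * j + 2 by ring, pow_add]
        field_simp
      have hj2 : y ≤ (y / ((d * p * q : ℕ) : ℝ)) ^ (3 ^ (j + 1)) := by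
        have h3 := cube_le hd hadm hp hq hs
        calc y ≤ (y / d) ^ (3 ^ j) := hj
          _ ≤ ((y / ((d * p * q : ℕ) : ℝ)) ^ 3) ^ (3 ^ j) :=
              pow_le_pow_left₀ (by positivity) h3 _
          _ = _ := by rw [← pow_mul, pow_succ' 3 j]
      exact ⟨final _ q (j + 1) hd2 hadm2 hlt2 hr2 he2 hj2, Or.inr ⟨j + 1, he2, hj2⟩⟩

/-- **(U2)** -/
lemma weight_bound {y : ℝ} {w t : ℕ} {Lam B0 : ℝ} {k : ℕ} (h0 : Adm y 1 w) (hy : 1 < y)
    (hLam : 1 ≤ Lam) (hB0 : 1 ≤ B0) (hk : B0 ≤ Lam ^ k) (hyB : B0 ^ (2 * 3 ^ k) ≤ y)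
    {x : ℕ × ℕ} (hx : x ∈ Idx y w) : B0 * ell t Lam (val x) ≤ y := by
  obtain ⟨w', hn, h⟩ := node_of_mem hx
  have h1 := (path (t := t) h0 hy hLam hB0 hk hyB hn).1
  unfold val
  rcases h with h | h
  · rw [h, mul_one]; exact h1.1
  · exact h1.2 _ h

end Crest.Agent.R001.Uns
end

-- ▼ part R001/LS/Real
section

/-! R001, block LS: large sieve, real weights, residue classes as remainders in `range p`;
number of classes with a large deviation. -/

set_option autoImplicit false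

namespace Crest.Agent.R001.LS

open Finset

/-- sum of `w` over the elements of `I` congruent to `r` mod `p` -/
noncomputable def cs (I : Finset ℤ) (w : ℤ → ℝ) (p r : ℕ) : ℝ :=
  ∑ n ∈ I with n % (p : ℤ) = (r : ℤ), w n

theorem cls_cast (I : Finset ℤ) (w : ℤ → ℝ) (p : ℕ) [NeZero p] (r : ZMod p) :
    cls I (fun n => (w n : ℂ)) p r = ((cs I w p r.val : ℝ) : ℂ) := by
  unfold cls cs
  rw [Complex.ofReal_sum]
  apply sum_congr _ fun _ _ => rfl
  apply filter_congr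
  intro n _
  have hp : (0 : ℤ) < p := by exact_mod_cast Nat.pos_of_ne_zero (NeZero.ne p)
  constructor
  · rintro rfl
    rw [ZMod.val_intCast]
  · intro h
    have h1 : ((n % (p : ℤ) : ℤ) : ZMod p) = ((r.val : ℤ) : ZMod p) := by rw [h]
    rw [ZMod.intCast_mod] at h1
    rw [h1]
    simp

theorem sum_zmod_eq (p : ℕ) [NeZero p] (f : ℕ → ℝ) :
    ∑ r : ZMod p, f r.val = ∑ r ∈ range p, f r := by
  refine sum_bij (fun (r : ZMod p) _ => r.val) ?_ ?_ ?_ ?_
  · intro r _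
    rw [mem_range]
    exact ZMod.val_lt r
  · intro a _ b _ h
    exact ZMod.val_injective p h
  · intro b hb
    rw [mem_range] at hb
    refine ⟨(b : ZMod p), mem_univ _, ?_⟩
    rw [ZMod.val_natCast, Nat.mod_eq_of_lt hb]
  · intro r _
    rfl

/-- **Large sieve**, variance form, real weights. -/
theorem large_sieve_real (P : Finset ℕ) (hP : ∀ p ∈ P, p.Prime) (Q : ℕ) (hQ : ∀ p ∈ P, p ≤ Q)
    (w : ℤ → ℝ) (M : ℤ) (N : ℕ) :
    ∑ p ∈ P, (p : ℝ) * ∑ r ∈ range p,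
        (cs (Ioc M (M + N)) w p r - (∑ n ∈ Ioc M (M + N), w n) / p) ^ 2 ≤
      (2 * (N : ℝ) + 3 * (Q : ℝ) ^ 2) * ∑ n ∈ Ioc M (M + N), (w n) ^ 2 := by
  have h1 := farey P hP Q hQ (fun n => (w n : ℂ)) M N
  have h2 : ∑ n ∈ Ioc M (M + N), ‖((w n : ℝ) : ℂ)‖ ^ 2 = ∑ n ∈ Ioc M (M + N), (w n) ^ 2 := by
    refine sum_congr rfl fun n _ => ?_
    rw [Complex.norm_real, Real.norm_eq_abs, sq_abs]
  rw [h2] at h1
  refine le_trans (le_of_eq ?_) h1
  refine sum_congr rfl fun p hp => ?_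
  have : NeZero p := ⟨(hP p hp).ne_zero⟩
  rw [variance p]
  congr 1
  rw [← sum_zmod_eq p]
  refine sum_congr rfl fun r _ => ?_
  rw [cls_cast]
  have h3 : ((cs (Ioc M (M + N)) w p r.val : ℝ) : ℂ) - (∑ n ∈ Ioc M (M + N), ((w n : ℝ) : ℂ)) / p =
      ((cs (Ioc M (M + N)) w p r.val - (∑ n ∈ Ioc M (M + N), w n) / p : ℝ) : ℂ) := by
    push_cast
    ring
  rw [h3, Complex.norm_real, Real.norm_eq_abs, sq_abs]




end Crest.Agent.R001.LS
end

-- ▼ part R001/EST2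
section

/-! R001, block EST, part 2: the deterministic level-set argument (large sieve + structure
theorem in list form => first moment bound over unstructured pairs). -/

set_option autoImplicit false

namespace Crest.Agent.R001.EST

open Finset
open Crest.Agent.R001.LS (cs)

/-- Structure theorem in list form, as a hypothesis: few `e` have many bad unstructured `g`. -/
def ListHyp (a : ℤ) (EE : Finset ℤ) (GG : Finset ℕ) (Str : ℤ → ℕ → Prop) (K0 : ℕ)
    (Lf Thr : ℝ) : Prop :=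
  ∀ (R : ∀ g : ℕ, Finset (ZMod g)) (K : ℕ), K0 ≤ K →
    Lf * ∑ g ∈ GG, ((R g).card : ℝ) ≤ (K : ℝ) ^ 2 →
    ∀ EE' ⊆ EE, (∀ e ∈ EE', ∃ T ⊆ GG, K ≤ T.card ∧
      ∀ g ∈ T, ((a / e : ℤ) : ZMod g) ∈ R g ∧ ¬ Str e g) → (EE'.card : ℝ) ≤ Thr

/-- deviation of the sum over the multiples of `g` in the window `(A - H, A]`. -/
noncomputable def dev (w : ℤ → ℝ) (A : ℤ) (H : ℕ) (g : ℕ) : ℝ :=
  (∑ m ∈ Ioc (A - H) A with (g : ℤ) ∣ m, w m) - (∑ m ∈ Ioc (A - H) A, w m) / g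

lemma sum_shift (w : ℤ → ℝ) (M0 : ℤ) (hper : ∀ m k : ℤ, w (m + k * M0) = w m) (A A0 k : ℤ)
    (hA : A = A0 + k * M0) (H : ℕ) :
    ∑ m ∈ Ioc (A - H) A, w m = ∑ m ∈ Ioc (A0 - H) A0, w m := by
  refine sum_nbij' (fun m => m - k * M0) (fun n => n + k * M0) ?_ ?_ ?_ ?_ ?_
  · intro m hm
    rw [mem_Ioc] at hm ⊢
    constructor <;> linarith [hm.1, hm.2]
  · intro m hm
    rw [mem_Ioc] at hm ⊢
    constructor <;> linarith [hm.1, hm.2]
  · intro m _; ring
  · intro m _; ring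
  · intro m _
    conv_lhs => rw [show m = (m - k * M0) + k * M0 by ring]
    exact hper _ _

lemma sum_shift_dvd (w : ℤ → ℝ) (M0 : ℤ) (hper : ∀ m k : ℤ, w (m + k * M0) = w m) (A A0 k : ℤ)
    (hA : A = A0 + k * M0) (H : ℕ) (g : ℕ) (hg : 0 < g) :
    ∑ m ∈ Ioc (A - H) A with (g : ℤ) ∣ m, w m =
      cs (Ioc (A0 - H) A0) w g (((A0 - A) % (g : ℤ)).toNat) := by
  unfold cs
  have hg' : (0 : ℤ) < g := by exact_mod_cast hg
  have hkey : (((((A0 - A) % (g : ℤ)).toNat : ℕ)) : ℤ) = (A0 - A) % (g : ℤ) :=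
    Int.toNat_of_nonneg (Int.emod_nonneg _ hg'.ne')
  rw [hkey]
  have hcond : ∀ m : ℤ, (g : ℤ) ∣ m ↔ (m - k * M0) % (g : ℤ) = (A0 - A) % (g : ℤ) := by
    intro m
    have h1 : (m - k * M0) % (g : ℤ) = (A0 - A) % (g : ℤ) ↔
        (m - k * M0) ≡ (A0 - A) [ZMOD (g : ℤ)] := Iff.rfl
    rw [h1, Int.modEq_iff_dvd]
    have h2 : A0 - A - (m - k * M0) = - m := by rw [hA]; ring
    rw [h2, dvd_neg]
  refine sum_nbij' (fun m => m - k * M0) (fun n => n + k * M0) ?_ ?_ ?_ ?_ ?_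
  · intro m hm
    rw [mem_filter, mem_Ioc] at hm ⊢
    exact ⟨⟨by linarith [hm.1.1], by linarith [hm.1.2]⟩, (hcond m).1 hm.2⟩
  · intro m hm
    rw [mem_filter, mem_Ioc] at hm ⊢
    refine ⟨⟨by linarith [hm.1.1], by linarith [hm.1.2]⟩, (hcond _).2 ?_⟩
    rw [add_sub_cancel_right]
    exact hm.2
  · intro m _; ring
  · intro m _; ring
  · intro m _
    conv_lhs => rw [show m = (m - k * M0) + k * M0 by ring]
    exact hper _ _

/-- layer-cake inequality -/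
lemma layer (x t0 : ℝ) (ht0 : 0 < t0) (n : ℕ) (hx : x ≤ 2 ^ n * t0) :
    x ≤ t0 + ∑ k ∈ range n, 2 ^ k * t0 * (if 2 ^ k * t0 < x then 1 else 0) := by
  induction n with
  | zero => simpa using hx
  | succ n ih =>
    rw [sum_range_succ]
    by_cases h : x ≤ 2 ^ n * t0
    · have h1 := ih h
      rw [if_neg (not_lt.2 h)]
      linarith
    · push Not at h
      rw [if_pos h]
      have h2 : ∀ k ∈ range n, (2 : ℝ) ^ k * t0 * (if 2 ^ k * t0 < x then (1 : ℝ) else 0) =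
          2 ^ k * t0 := by
        intro k hk
        rw [if_pos, mul_one]
        refine lt_of_le_of_lt ?_ h
        refine mul_le_mul_of_nonneg_right ?_ ht0.le
        exact pow_le_pow_right₀ (by norm_num) (mem_range.1 hk).le
      rw [sum_congr rfl h2, ← sum_mul]
      have h3 : ∑ k ∈ range n, (2 : ℝ) ^ k = 2 ^ n - 1 := by
        rw [geom_sum_eq (by norm_num)]; norm_num
      rw [h3]
      rw [pow_succ] at hx
      linarith

/-- residue classes of `A` with a large deviation -/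
noncomputable def badR (I : Finset ℤ) (w : ℤ → ℝ) (A0 : ℤ) (τ : ℝ) (g : ℕ) : Finset (ZMod g) :=
  if hg : g = 0 then ∅ else
    haveI : NeZero g := ⟨hg⟩
    univ.filter fun x : ZMod g =>
      τ < |cs I w g ((A0 : ZMod g) - x).val - (∑ m ∈ I, w m) / g|

lemma card_badR (I : Finset ℤ) (w : ℤ → ℝ) (A0 : ℤ) (τ : ℝ) (hτ : 0 ≤ τ) (g : ℕ) (hg : 0 < g) :
    ((badR I w A0 τ g).card : ℝ) * τ ^ 2 ≤
      ∑ r ∈ range g, (cs I w g r - (∑ m ∈ I, w m) / g) ^ 2 := by
  have : NeZero g := ⟨hg.ne'⟩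
  have e1 : badR I w A0 τ g = univ.filter fun x : ZMod g =>
      τ < |cs I w g ((A0 : ZMod g) - x).val - (∑ m ∈ I, w m) / g| := by
    unfold badR
    rw [dif_neg hg.ne']
  rw [← LS.sum_zmod_eq g (fun r => (cs I w g r - (∑ m ∈ I, w m) / g) ^ 2)]
  have e2 : ∑ x : ZMod g, (cs I w g x.val - (∑ m ∈ I, w m) / g) ^ 2 =
      ∑ x : ZMod g, (cs I w g ((A0 : ZMod g) - x).val - (∑ m ∈ I, w m) / g) ^ 2 :=
    (Equiv.sum_comp (Equiv.subLeft (A0 : ZMod g))
      (fun x : ZMod g => (cs I w g x.val - (∑ m ∈ I, w m) / g) ^ 2)).symm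
  rw [e2, e1]
  calc ((univ.filter fun x : ZMod g =>
      τ < |cs I w g ((A0 : ZMod g) - x).val - (∑ m ∈ I, w m) / g|).card : ℝ) * τ ^ 2
      = ∑ _x ∈ univ.filter (fun x : ZMod g =>
      τ < |cs I w g ((A0 : ZMod g) - x).val - (∑ m ∈ I, w m) / g|), τ ^ 2 := by
        rw [sum_const, nsmul_eq_mul]
    _ ≤ ∑ x ∈ univ.filter (fun x : ZMod g =>
      τ < |cs I w g ((A0 : ZMod g) - x).val - (∑ m ∈ I, w m) / g|),
        (cs I w g ((A0 : ZMod g) - x).val - (∑ m ∈ I, w m) / g) ^ 2 := by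
        refine sum_le_sum fun x hx => ?_
        rw [← sq_abs (cs I w g ((A0 : ZMod g) - x).val - (∑ m ∈ I, w m) / g)]
        exact pow_le_pow_left₀ hτ (mem_filter.1 hx).2.le 2
    _ ≤ _ := sum_le_sum_of_subset_of_nonneg (filter_subset _ _) fun _ _ _ => sq_nonneg _

lemma mem_badR (w : ℤ → ℝ) (M0 : ℤ) (hper : ∀ m k : ℤ, w (m + k * M0) = w m) (A A0 k : ℤ)
    (hA : A = A0 + k * M0) (H : ℕ) (g : ℕ) (hg : 0 < g) (τ : ℝ) (h : τ < |dev w A H g|) :
    ((A : ℤ) : ZMod g) ∈ badR (Ioc (A0 - H) A0) w A0 τ g := by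
  have : NeZero g := ⟨hg.ne'⟩
  unfold badR
  rw [dif_neg hg.ne', mem_filter]
  refine ⟨mem_univ _, ?_⟩
  unfold dev at h
  rw [sum_shift_dvd w M0 hper A A0 k hA H g hg, sum_shift w M0 hper A A0 k hA H] at h
  have h1 : ((A0 : ZMod g) - (A : ZMod g)).val = ((A0 - A) % (g : ℤ)).toNat := by
    have h2 : ((((A0 - A : ℤ) : ZMod g)).val : ℤ) = (A0 - A) % (g : ℤ) := ZMod.val_intCast _
    have h3 : ((A0 : ZMod g) - (A : ZMod g)) = ((A0 - A : ℤ) : ZMod g) := by push_cast; ring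
    rw [h3]
    omega
  rw [h1]
  exact h

/-- threshold function -/
noncomputable def theta (w : ℤ → ℝ) (H Qm G : ℕ) (Lf : ℝ) (A : ℤ) : ℝ :=
  Real.sqrt (Lf * (2 * (H : ℝ) + 3 * (Qm : ℝ) ^ 2) * (∑ m ∈ Ioc (A - H) A, w m ^ 2) / G)

lemma theta_nonneg (w : ℤ → ℝ) (H Qm G : ℕ) (Lf : ℝ) (A : ℤ) : 0 ≤ theta w H Qm G Lf A :=
  Real.sqrt_nonneg _

lemma theta_shift (w : ℤ → ℝ) (M0 : ℤ) (hper : ∀ m k : ℤ, w (m + k * M0) = w m) (A A0 k : ℤ)
    (hA : A = A0 + k * M0) (H Qm G : ℕ) (Lf : ℝ) :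
    theta w H Qm G Lf A = theta w H Qm G Lf A0 := by
  unfold theta
  rw [sum_shift (fun m => w m ^ 2) M0 (fun m k => by simp only [hper]) A A0 k hA H]

/-- one level, one residue class -/
lemma level_class (a : ℤ) (EE : Finset ℤ) (GG : Finset ℕ) (hGG : ∀ g ∈ GG, g.Prime) (G Qm : ℕ)
    (hG0 : 0 < G) (hG : ∀ g ∈ GG, G ≤ g) (hQ : ∀ g ∈ GG, g ≤ Qm) (Str : ℤ → ℕ → Prop) (K0 : ℕ)
    (Lf Thr : ℝ) (hLf : 0 ≤ Lf) (hL : ListHyp a EE GG Str K0 Lf Thr)
    (w : ℤ → ℝ) (M0 : ℤ) (hper : ∀ m k : ℤ, w (m + k * M0) = w m) (H : ℕ) (τ : ℝ) (hτ : 0 < τ)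
    (γ : ℤ) (EE' : Finset ℤ) (hEE' : EE' ⊆ EE) (hcl : ∀ e ∈ EE', ∃ k : ℤ, a / e = γ + k * M0)
    (hbad : ∀ e ∈ EE', ∃ T ⊆ GG, ⌈theta w H Qm G Lf γ / τ⌉₊ + K0 ≤ T.card ∧
      ∀ g ∈ T, τ < |dev w (a / e) H g| ∧ ¬ Str e g) :
    (EE'.card : ℝ) ≤ Thr := by
  refine hL (fun g => badR (Ioc (γ - H) γ) w γ τ g) (⌈theta w H Qm G Lf γ / τ⌉₊ + K0)
    (Nat.le_add_left _ _) ?_ EE' hEE' ?_
  · -- the average number of bad classes
    have h1 := LS.large_sieve_real GG hGG Qm hQ w (γ - H) H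
    rw [sub_add_cancel] at h1
    set I := Ioc (γ - (H : ℤ)) γ with hI
    set W2 : ℝ := ∑ m ∈ I, w m ^ 2 with hW2
    have hG0' : (0 : ℝ) < G := by exact_mod_cast hG0
    have h2 : (G : ℝ) * (τ ^ 2 * ∑ g ∈ GG, ((badR I w γ τ g).card : ℝ)) ≤
        (2 * (H : ℝ) + 3 * (Qm : ℝ) ^ 2) * W2 := by
      refine le_trans ?_ h1
      rw [mul_sum, mul_sum]
      refine sum_le_sum fun g hg => ?_
      have hg0 : 0 < g := (hGG g hg).pos
      have h3 := card_badR I w γ τ hτ.le g hg0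
      have h4 : (G : ℝ) ≤ g := by exact_mod_cast hG g hg
      have h5 : (0 : ℝ) ≤ ∑ r ∈ range g, (cs I w g r - (∑ m ∈ I, w m) / g) ^ 2 :=
        sum_nonneg fun _ _ => sq_nonneg _
      calc (G : ℝ) * (τ ^ 2 * ((badR I w γ τ g).card : ℝ))
          ≤ G * ∑ r ∈ range g, (cs I w g r - (∑ m ∈ I, w m) / g) ^ 2 := by
            refine mul_le_mul_of_nonneg_left ?_ hG0'.le
            rw [mul_comm]; exact h3
        _ ≤ _ := mul_le_mul_of_nonneg_right h4 h5
    have hth : theta w H Qm G Lf γ ^ 2 = Lf * (2 * (H : ℝ) + 3 * (Qm : ℝ) ^ 2) * W2 / G := by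
      unfold theta
      rw [Real.sq_sqrt]
      have : 0 ≤ W2 := sum_nonneg fun _ _ => sq_nonneg _
      positivity
    have h6 : Lf * ∑ g ∈ GG, ((badR I w γ τ g).card : ℝ) ≤ (theta w H Qm G Lf γ / τ) ^ 2 := by
      rw [div_pow, hth, div_div, le_div_iff₀ (by positivity)]
      calc (Lf * ∑ g ∈ GG, ((badR I w γ τ g).card : ℝ)) * (G * τ ^ 2)
          = Lf * (G * (τ ^ 2 * ∑ g ∈ GG, ((badR I w γ τ g).card : ℝ))) := by ring
        _ ≤ Lf * ((2 * (H : ℝ) + 3 * (Qm : ℝ) ^ 2) * W2) := mul_le_mul_of_nonneg_left h2 hLf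
        _ = _ := by ring
    refine h6.trans ?_
    have h7 : 0 ≤ theta w H Qm G Lf γ / τ := div_nonneg (theta_nonneg _ _ _ _ _ _) hτ.le
    have h8 : theta w H Qm G Lf γ / τ ≤ ((⌈theta w H Qm G Lf γ / τ⌉₊ + K0 : ℕ) : ℝ) := by
      push_cast
      have := Nat.le_ceil (theta w H Qm G Lf γ / τ)
      have h9 : (0 : ℝ) ≤ K0 := Nat.cast_nonneg _
      linarith
    exact pow_le_pow_left₀ h7 h8 2
  · intro e he
    obtain ⟨T, hT1, hT2, hT3⟩ := hbad e he
    refine ⟨T, hT1, hT2, fun g hg => ⟨?_, (hT3 g hg).2⟩⟩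
    obtain ⟨k, hk⟩ := hcl e he
    exact mem_badR w M0 hper (a / e) γ k hk H g (hGG g (hT1 hg)).pos τ (hT3 g hg).1

/-- one level -/
lemma level (a : ℤ) (EE : Finset ℤ) (GG : Finset ℕ) (hGG : ∀ g ∈ GG, g.Prime) (G Qm : ℕ)
    (hG0 : 0 < G) (hG : ∀ g ∈ GG, G ≤ g) (hQ : ∀ g ∈ GG, g ≤ Qm) (Str : ℤ → ℕ → Prop) (K0 : ℕ)
    (Lf Thr : ℝ) (hLf : 0 ≤ Lf) (hL : ListHyp a EE GG Str K0 Lf Thr)
    (w : ℤ → ℝ) (M0 : ℕ) (hM0 : 0 < M0) (hper : ∀ m k : ℤ, w (m + k * (M0 : ℤ)) = w m) (H : ℕ)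
    (τ : ℝ) (hτ : 0 < τ) (N : ℤ → ℕ)
    (hN : ∀ e ∈ EE, ∃ T ⊆ GG, N e = T.card ∧ ∀ g ∈ T, τ < |dev w (a / e) H g| ∧ ¬ Str e g) :
    ∑ e ∈ EE, (N e : ℝ) ≤ ∑ e ∈ EE, (theta w H Qm G Lf (a / e) / τ + (K0 + 1)) +
      M0 * Thr * GG.card := by
  classical
  have hM0' : (0 : ℤ) < M0 := by exact_mod_cast hM0
  set kap : ℤ → ℕ := fun γ => ⌈theta w H Qm G Lf γ / τ⌉₊ + K0 with hkap
  -- exceptional elements
  set X : Finset ℤ := EE.filter (fun e => kap ((a / e) % M0) ≤ N e) with hX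
  have hXc : (X.card : ℝ) ≤ M0 * Thr := by
    have h1 : X.card = ∑ γ ∈ range M0, (X.filter (fun e => ((a / e) % (M0 : ℤ)).toNat = γ)).card := by
      refine card_eq_sum_card_fiberwise fun e _ => ?_
      rw [coe_range, Set.mem_Iio]
      have h2 := Int.emod_nonneg (a / e) hM0'.ne'
      have h3 := Int.emod_lt_of_pos (a / e) hM0'
      omega
    rw [h1]
    push_cast
    calc ∑ γ ∈ range M0, ((X.filter (fun e => ((a / e) % (M0 : ℤ)).toNat = γ)).card : ℝ)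
        ≤ ∑ _γ ∈ range M0, Thr := by
          refine sum_le_sum fun γ _ => ?_
          refine level_class a EE GG hGG G Qm hG0 hG hQ Str K0 Lf Thr hLf hL w M0 hper H τ hτ
            (γ : ℤ) _ ((filter_subset _ _).trans (filter_subset _ _)) ?_ ?_
          · intro e he
            have h2 := (mem_filter.1 he).2
            have h3 := Int.emod_nonneg (a / e) hM0'.ne'
            refine ⟨(a / e) / M0, ?_⟩
            have h4 := Int.emod_add_mul_ediv (a / e) (M0 : ℤ)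
            have h5 : (γ : ℤ) = (a / e) % (M0 : ℤ) := by omega
            rw [h5]
            linarith
          · intro e he
            obtain ⟨he1, he2⟩ := mem_filter.1 he
            obtain ⟨he3, he4⟩ := mem_filter.1 he1
            have h3 := Int.emod_nonneg (a / e) hM0'.ne'
            have h5 : (γ : ℤ) = (a / e) % (M0 : ℤ) := by omega
            obtain ⟨T, hT1, hT2, hT3⟩ := hN e he3
            refine ⟨T, hT1, ?_, hT3⟩
            rw [← hT2, h5]
            exact he4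
      _ = M0 * Thr := by rw [sum_const, card_range, nsmul_eq_mul]
  have hpt : ∀ e ∈ EE, (N e : ℝ) ≤ (theta w H Qm G Lf (a / e) / τ + (K0 + 1)) +
      (if e ∈ X then (GG.card : ℝ) else 0) := by
    intro e he
    have h0 : 0 ≤ theta w H Qm G Lf (a / e) / τ := div_nonneg (theta_nonneg _ _ _ _ _ _) hτ.le
    by_cases heX : e ∈ X
    · rw [if_pos heX]
      obtain ⟨T, hT1, hT2, _⟩ := hN e he
      have h1 : (N e : ℝ) ≤ GG.card := by
        rw [hT2]; exact_mod_cast card_le_card hT1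
      have h2 : (0 : ℝ) ≤ K0 := Nat.cast_nonneg _
      linarith
    · rw [if_neg heX, add_zero]
      have h1 : N e < kap ((a / e) % M0) := by
        by_contra hcon
        exact heX (mem_filter.2 ⟨he, not_lt.1 hcon⟩)
      have h2 : theta w H Qm G Lf (a / e) = theta w H Qm G Lf ((a / e) % M0) := by
        refine theta_shift w M0 hper (a / e) ((a / e) % M0) ((a / e) / M0) ?_ H Qm G Lf
        have h4 := Int.emod_add_mul_ediv (a / e) (M0 : ℤ)
        linarith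
      rw [h2] at h0 ⊢
      have h3 := (Nat.ceil_lt_add_one h0).le
      have h4 : (N e : ℝ) ≤ (kap ((a / e) % M0) : ℝ) := by exact_mod_cast h1.le
      simp only [hkap] at h4
      push_cast at h4
      linarith
  calc ∑ e ∈ EE, (N e : ℝ)
      ≤ ∑ e ∈ EE, ((theta w H Qm G Lf (a / e) / τ + (K0 + 1)) +
        (if e ∈ X then (GG.card : ℝ) else 0)) := sum_le_sum hpt
    _ = ∑ e ∈ EE, (theta w H Qm G Lf (a / e) / τ + (K0 + 1)) + X.card * GG.card := by
        have hXX : EE.filter (fun e => e ∈ X) = X := by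
          rw [filter_mem_eq_inter]
          exact inter_eq_right.2 (filter_subset _ _)
        rw [sum_add_distrib, ← sum_filter, sum_const, nsmul_eq_mul, hXX]
    _ ≤ _ := by
        have h1 : (0 : ℝ) ≤ GG.card := Nat.cast_nonneg _
        linarith [mul_le_mul_of_nonneg_right hXc h1]

open Classical in
/-- **(E3)** deterministic form: first moment over unstructured pairs. -/
theorem det (a : ℤ) (EE : Finset ℤ) (GG : Finset ℕ) (hGG : ∀ g ∈ GG, g.Prime) (G Qm : ℕ)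
    (hG0 : 0 < G) (hG : ∀ g ∈ GG, G ≤ g) (hQ : ∀ g ∈ GG, g ≤ Qm) (Str : ℤ → ℕ → Prop) (K0 : ℕ)
    (Lf Thr : ℝ) (hLf : 0 ≤ Lf) (hThr : 0 ≤ Thr) (hL : ListHyp a EE GG Str K0 Lf Thr)
    (w : ℤ → ℝ) (M0 : ℕ) (hM0 : 0 < M0) (hper : ∀ m k : ℤ, w (m + k * (M0 : ℤ)) = w m) (H : ℕ)
    (t0 : ℝ) (ht0 : 0 < t0) (n : ℕ)
    (hT : ∀ e ∈ EE, ∀ g ∈ GG, |dev w (a / e) H g| ≤ 2 ^ n * t0) :
    ∑ e ∈ EE, ∑ g ∈ GG with ¬ Str e g, |dev w (a / e) H g| ≤
      EE.card * GG.card * t0 +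
      n * ∑ e ∈ EE, (theta w H Qm G Lf (a / e) + 2 ^ n * t0 * (K0 + 1)) +
      2 ^ n * t0 * (M0 * Thr * GG.card) := by
  set Nk : ℕ → ℤ → Finset ℕ := fun k e =>
    GG.filter (fun g => ¬ Str e g ∧ 2 ^ k * t0 < |dev w (a / e) H g|) with hNk
  have h1 : ∀ e ∈ EE, ∑ g ∈ GG with ¬ Str e g, |dev w (a / e) H g| ≤
      GG.card * t0 + ∑ k ∈ range n, 2 ^ k * t0 * ((Nk k e).card : ℝ) := by
    intro e he
    calc ∑ g ∈ GG with ¬ Str e g, |dev w (a / e) H g|
        ≤ ∑ g ∈ GG with ¬ Str e g, (t0 + ∑ k ∈ range n, 2 ^ k * t0 *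
            (if 2 ^ k * t0 < |dev w (a / e) H g| then 1 else 0)) :=
          sum_le_sum fun g hg => layer _ t0 ht0 n (hT e he g (mem_filter.1 hg).1)
      _ = (GG.filter (fun g => ¬ Str e g)).card * t0 +
          ∑ k ∈ range n, 2 ^ k * t0 * ((Nk k e).card : ℝ) := by
          rw [sum_add_distrib, sum_const, nsmul_eq_mul, sum_comm]
          congr 1
          refine sum_congr rfl fun k _ => ?_
          rw [← mul_sum, ← sum_filter, filter_filter, sum_const, nsmul_eq_mul, mul_one]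
      _ ≤ _ := by
          have : ((GG.filter (fun g => ¬ Str e g)).card : ℝ) ≤ GG.card := by
            exact_mod_cast card_filter_le _ _
          have h2 := mul_le_mul_of_nonneg_right this ht0.le
          linarith
  have h2 : ∀ k ∈ range n, ∑ e ∈ EE, ((Nk k e).card : ℝ) ≤
      ∑ e ∈ EE, (theta w H Qm G Lf (a / e) / (2 ^ k * t0) + (K0 + 1)) + M0 * Thr * GG.card := by
    intro k _
    refine level a EE GG hGG G Qm hG0 hG hQ Str K0 Lf Thr hLf hL w M0 hM0 hper H (2 ^ k * t0)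
      (by positivity) (fun e => (Nk k e).card) ?_
    intro e _
    refine ⟨Nk k e, filter_subset _ _, rfl, fun g hg => ?_⟩
    have h3 := (mem_filter.1 hg).2
    exact ⟨h3.2, h3.1⟩
  calc ∑ e ∈ EE, ∑ g ∈ GG with ¬ Str e g, |dev w (a / e) H g|
      ≤ ∑ e ∈ EE, (GG.card * t0 + ∑ k ∈ range n, 2 ^ k * t0 * ((Nk k e).card : ℝ)) :=
        sum_le_sum h1
    _ = EE.card * GG.card * t0 + ∑ k ∈ range n, 2 ^ k * t0 * ∑ e ∈ EE, ((Nk k e).card : ℝ) := by
        rw [sum_add_distrib, sum_const, nsmul_eq_mul, sum_comm, mul_assoc]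
        congr 1
        refine sum_congr rfl fun k _ => ?_
        rw [mul_sum]
    _ ≤ EE.card * GG.card * t0 + ∑ k ∈ range n, 2 ^ k * t0 *
        (∑ e ∈ EE, (theta w H Qm G Lf (a / e) / (2 ^ k * t0) + (K0 + 1)) +
          M0 * Thr * GG.card) := by
        gcongr with k hk
        exact h2 k hk
    _ = EE.card * GG.card * t0 + (∑ k ∈ range n, ∑ e ∈ EE,
        (theta w H Qm G Lf (a / e) + 2 ^ k * t0 * (K0 + 1)) +
          (∑ k ∈ range n, 2 ^ k * t0) * (M0 * Thr * GG.card)) := by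
        rw [sum_mul, ← sum_add_distrib]
        congr 1
        refine sum_congr rfl fun k _ => ?_
        rw [mul_add, mul_sum]
        congr 1
        refine sum_congr rfl fun e _ => ?_
        rw [mul_add]
        congr 1
        field_simp
    _ ≤ EE.card * GG.card * t0 +
      (n * ∑ e ∈ EE, (theta w H Qm G Lf (a / e) + 2 ^ n * t0 * (K0 + 1)) +
      2 ^ n * t0 * (M0 * Thr * GG.card)) := by
        have h3 : ∑ k ∈ range n, ∑ e ∈ EE,
            (theta w H Qm G Lf (a / e) + 2 ^ k * t0 * (K0 + 1)) ≤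
            n * ∑ e ∈ EE, (theta w H Qm G Lf (a / e) + 2 ^ n * t0 * (K0 + 1)) := by
          calc ∑ k ∈ range n, ∑ e ∈ EE,
            (theta w H Qm G Lf (a / e) + 2 ^ k * t0 * (K0 + 1))
              ≤ ∑ _k ∈ range n, ∑ e ∈ EE,
                (theta w H Qm G Lf (a / e) + 2 ^ n * t0 * (K0 + 1)) := by
                refine sum_le_sum fun k hk => sum_le_sum fun e _ => ?_
                have : (2 : ℝ) ^ k ≤ 2 ^ n :=
                  pow_le_pow_right₀ (by norm_num) (mem_range.1 hk).le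
                gcongr
            _ = _ := by rw [sum_const, card_range, nsmul_eq_mul]
        have h4 : ∑ k ∈ range n, (2 : ℝ) ^ k * t0 ≤ 2 ^ n * t0 := by
          rw [← sum_mul, geom_sum_eq (by norm_num)]
          have : ((2 : ℝ) ^ n - 1) / (2 - 1) = 2 ^ n - 1 := by norm_num
          rw [this]
          nlinarith
        have h5 : 0 ≤ (M0 : ℝ) * Thr * GG.card := by positivity
        have h6 := mul_le_mul_of_nonneg_right h4 h5
        linarith
    _ = _ := by ring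

end Crest.Agent.R001.EST
end

-- ▼ part R001/EST3
section

/-! R001, block EST, part 3: the abstract unstructured first-moment theorem. -/

set_option autoImplicit false

namespace Crest.Agent.R001.EST

open Finset
open Crest.Agent.R001.LS (cs)

lemma card_mult_le (A : ℤ) (H g : ℕ) (hg : 0 < g) :
    (((Ioc (A - H) A).filter (fun m => (g : ℤ) ∣ m)).card : ℝ) ≤ H / g + 1 := by
  have hg' : (0 : ℤ) < g := by exact_mod_cast hg
  have h1 := Int.Ioc_filter_dvd_card (A - H) A hg'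
  have h2 : ((((Ioc (A - H) A).filter (fun m => (g : ℤ) ∣ m)).card : ℤ) : ℚ) ≤ H / g + 1 := by
    rw [h1]
    push_cast
    rw [max_le_iff]
    constructor
    · have h3 := Int.floor_le ((A : ℚ) / ((g : ℤ) : ℚ))
      have h4 := Int.lt_floor_add_one (((A : ℚ) - (H : ℚ)) / ((g : ℤ) : ℚ))
      have h5 : ((A : ℚ) - (H : ℚ)) / ((g : ℤ) : ℚ) = (A : ℚ) / ((g : ℤ) : ℚ) - H / g := by
        push_cast; ring
      push_cast at *
      linarith
    · positivity
  have h6 : ((((Ioc (A - H) A).filter (fun m => (g : ℤ) ∣ m)).card : ℚ) : ℝ) ≤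
      ((H / g + 1 : ℚ) : ℝ) := by exact_mod_cast h2
  push_cast at h6
  exact h6

lemma abs_dev_le (w : ℤ → ℝ) (wm : ℝ) (hw : ∀ m, |w m| ≤ wm) (A : ℤ) (H g G : ℕ) (hG : 0 < G)
    (hGg : G ≤ g) : |dev w A H g| ≤ wm * (2 * (H / G) + 1) := by
  have hg : 0 < g := lt_of_lt_of_le hG hGg
  have hwm : 0 ≤ wm := (abs_nonneg _).trans (hw 0)
  have hgr : (0 : ℝ) < g := by exact_mod_cast hg
  have hGr : (0 : ℝ) < G := by exact_mod_cast hG
  have hGgr : (G : ℝ) ≤ g := by exact_mod_cast hGg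
  have hH : (0 : ℝ) ≤ H := Nat.cast_nonneg _
  unfold dev
  have h1 : |∑ m ∈ Ioc (A - H) A with (g : ℤ) ∣ m, w m| ≤ wm * (H / g + 1) := by
    refine (abs_sum_le_sum_abs _ _).trans ?_
    calc ∑ m ∈ Ioc (A - H) A with (g : ℤ) ∣ m, |w m|
        ≤ ∑ _m ∈ Ioc (A - H) A with (g : ℤ) ∣ _m, wm := sum_le_sum fun m _ => hw m
      _ = (((Ioc (A - H) A).filter (fun m => (g : ℤ) ∣ m)).card : ℝ) * wm := by
          rw [sum_const, nsmul_eq_mul]
      _ ≤ (H / g + 1) * wm := mul_le_mul_of_nonneg_right (card_mult_le A H g hg) hwm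
      _ = _ := by ring
  have h2 : |(∑ m ∈ Ioc (A - H) A, w m) / g| ≤ wm * (H / g) := by
    rw [abs_div, abs_of_pos hgr, div_le_iff₀ hgr]
    refine (abs_sum_le_sum_abs _ _).trans ?_
    calc ∑ m ∈ Ioc (A - H) A, |w m| ≤ ∑ _m ∈ Ioc (A - H) A, wm := sum_le_sum fun m _ => hw m
      _ = H * wm := by
          rw [sum_const, nsmul_eq_mul, Int.card_Ioc]
          congr 1
          rw [sub_sub_cancel]
          simp
      _ = wm * (H / g) * g := by field_simp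
  have h3 : (H : ℝ) / g ≤ H / G := div_le_div_of_nonneg_left hH hGr hGgr
  calc |∑ m ∈ Ioc (A - H) A with (g : ℤ) ∣ m, w m - (∑ m ∈ Ioc (A - H) A, w m) / g|
      ≤ |∑ m ∈ Ioc (A - H) A with (g : ℤ) ∣ m, w m| + |(∑ m ∈ Ioc (A - H) A, w m) / g| :=
        abs_sub _ _
    _ ≤ wm * (H / g + 1) + wm * (H / g) := add_le_add h1 h2
    _ = wm * (2 * (H / g) + 1) := by ring
    _ ≤ _ := by gcongr

/-- the deviation of the total weight is the expectation of the deviation of the estimator -/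
lemma dev_tot (S : Finset ℕ) (p : ℕ → ℝ) (hp : ∀ q ∈ S, 0 < p q)
    (RR : Finset (Finset ℕ)) (hRR : ∀ R ∈ RR, R ⊆ S) (F : Finset ℕ → ℤ → ℝ)
    (A : ℤ) (H g : ℕ) :
    dev (tot RR F) A H g = ∑ Q ∈ S.powerset, Pr S p Q * dev (est RR p F Q) A H g := by
  unfold dev
  have h1 : ∀ I : Finset ℤ, ∑ m ∈ I, tot RR F m =
      ∑ Q ∈ S.powerset, Pr S p Q * ∑ m ∈ I, est RR p F Q m := by
    intro I
    calc ∑ m ∈ I, tot RR F m = ∑ m ∈ I, ∑ Q ∈ S.powerset, Pr S p Q * est RR p F Q m :=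
          sum_congr rfl fun m _ => (sum_est S p hp RR hRR F m).symm
      _ = _ := by
          rw [sum_comm]
          refine sum_congr rfl fun Q _ => ?_
          rw [mul_sum]
  rw [h1, h1, sum_div, ← sum_sub_distrib]
  refine sum_congr rfl fun Q _ => ?_
  ring

open Classical in
/-- **EST**, abstract form. -/
theorem est_main (S : Finset ℕ) (hS : ∀ q ∈ S, 0 < q) (p : ℕ → ℝ) (hp : ∀ q ∈ S, 0 < p q)
    (hp1 : ∀ q ∈ S, p q ≤ 1)
    (RR : Finset (Finset ℕ)) (hRR : ∀ R ∈ RR, R ⊆ S) (F : Finset ℕ → ℤ → ℝ)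
    (m0 : ℕ) (hm0 : 0 < m0)
    (hper : ∀ R ∈ RR, ∀ m k : ℤ, F R (m + k * ((m0 : ℤ) * ∏ q ∈ R, (q : ℤ))) = F R m)
    (Wt : ℝ) (hWt0 : 0 ≤ Wt) (hWt : ∀ R ∈ RR, ∏ q ∈ R, (p q)⁻¹ ≤ Wt)
    (Fm : ℝ) (hFm : ∀ m, ∑ R ∈ RR, |F R m| ≤ Fm)
    (a : ℤ) (EE : Finset ℤ) (GG : Finset ℕ) (hGG : ∀ g ∈ GG, g.Prime) (G Qm : ℕ)
    (hG0 : 0 < G) (hG : ∀ g ∈ GG, G ≤ g) (hQm : ∀ g ∈ GG, g ≤ Qm) (Str : ℤ → ℕ → Prop) (K0 : ℕ)
    (Lf Thr : ℝ) (hLf : 0 ≤ Lf) (hThr : 0 ≤ Thr) (hL : ListHyp a EE GG Str K0 Lf Thr)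
    (H : ℕ) (S2 : ℝ)
    (hS2 : ∀ e ∈ EE, ∑ m ∈ Ioc (a / e - H) (a / e), (∑ R ∈ RR, |F R m|) ^ 2 ≤ S2)
    (Mmax : ℕ) (pt : ℝ)
    (hpt : ∑ Q ∈ S.powerset with Mmax < m0 * ∏ q ∈ Q, q, Pr S p Q ≤ pt)
    (t0 : ℝ) (ht0 : 0 < t0) (n : ℕ) (hT : Wt * Fm * (2 * ((H : ℝ) / G) + 1) ≤ 2 ^ n * t0)
    (lam : ℝ) (hlam : 0 < lam) :
    ∑ e ∈ EE, ∑ g ∈ GG with ¬ Str e g, |dev (tot RR F) (a / e) H g| ≤
      EE.card * GG.card * t0 +
      n * (EE.card * ((Lf * (2 * (H : ℝ) + 3 * (Qm : ℝ) ^ 2) * (Wt * S2) / G) / lam + lam +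
        2 ^ n * t0 * (K0 + 1))) +
      2 ^ n * t0 * (Mmax * Thr * GG.card) + pt * (EE.card * GG.card * (2 ^ n * t0)) := by
  have hPr0 : ∀ Q ∈ S.powerset, 0 ≤ Pr S p Q := fun Q hQ =>
    Pr_nonneg S p (fun q hq => (hp q hq).le) hp1 Q (mem_powerset.1 hQ)
  -- bound of the deviations of the estimators
  have hwm : ∀ Q ∈ S.powerset, ∀ m, |est RR p F Q m| ≤ Wt * Fm := fun Q _ m =>
    (abs_est_le S p hp RR hRR F Wt hWt Q m).trans (mul_le_mul_of_nonneg_left (hFm m) hWt0)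
  have hTQ : ∀ Q ∈ S.powerset, ∀ e ∈ EE, ∀ g ∈ GG,
      |dev (est RR p F Q) (a / e) H g| ≤ 2 ^ n * t0 := fun Q hQ e _ g hg =>
    (abs_dev_le _ _ (hwm Q hQ) (a / e) H g G hG0 (hG g hg)).trans hT
  set D : Finset ℕ → ℝ := fun Q =>
    ∑ e ∈ EE, ∑ g ∈ GG with ¬ Str e g, |dev (est RR p F Q) (a / e) H g| with hD
  -- step 1: pass to the expectation
  have step1 : ∑ e ∈ EE, ∑ g ∈ GG with ¬ Str e g, |dev (tot RR F) (a / e) H g| ≤
      ∑ Q ∈ S.powerset, Pr S p Q * D Q := by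
    calc ∑ e ∈ EE, ∑ g ∈ GG with ¬ Str e g, |dev (tot RR F) (a / e) H g|
        ≤ ∑ e ∈ EE, ∑ g ∈ GG with ¬ Str e g, ∑ Q ∈ S.powerset,
            Pr S p Q * |dev (est RR p F Q) (a / e) H g| := by
          refine sum_le_sum fun e _ => sum_le_sum fun g _ => ?_
          rw [dev_tot S p hp RR hRR F]
          refine (abs_sum_le_sum_abs _ _).trans (le_of_eq ?_)
          refine sum_congr rfl fun Q hQ => ?_
          rw [abs_mul, abs_of_nonneg (hPr0 Q hQ)]
      _ = ∑ Q ∈ S.powerset, Pr S p Q * D Q := by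
          simp only [hD]
          rw [sum_congr rfl (fun e _ => sum_comm), sum_comm]
          refine sum_congr rfl fun Q _ => ?_
          rw [mul_sum]
          refine sum_congr rfl fun e _ => ?_
          rw [mul_sum]
  -- step 2: pointwise bounds of `D Q`
  set c1 : ℝ := EE.card * GG.card * t0 with hc1
  set c2 : ℝ := 2 ^ n * t0 * (K0 + 1) with hc2
  set c3 : ℝ := 2 ^ n * t0 * (Mmax * Thr * GG.card) with hc3
  set c4 : ℝ := EE.card * GG.card * (2 ^ n * t0) with hc4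
  have hc1' : 0 ≤ c1 := by positivity
  have hc2' : 0 ≤ c2 := by positivity
  have hc3' : 0 ≤ c3 := by positivity
  have hc4' : 0 ≤ c4 := by positivity
  set B : ℝ := Lf * (2 * (H : ℝ) + 3 * (Qm : ℝ) ^ 2) with hB
  have hB0 : 0 ≤ B := by positivity
  have hG0' : (0 : ℝ) < G := by exact_mod_cast hG0
  set V : Finset ℕ → ℤ → ℝ := fun Q e =>
    ∑ m ∈ Ioc (a / e - H) (a / e), est RR p F Q m ^ 2 with hV
  have hV0 : ∀ Q e, 0 ≤ V Q e := fun Q e => sum_nonneg fun _ _ => sq_nonneg _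
  have hth : ∀ Q e, theta (est RR p F Q) H Qm G Lf (a / e) ≤ B * V Q e / G / lam + lam := by
    intro Q e
    have h0 : 0 ≤ B * V Q e / G := div_nonneg (mul_nonneg hB0 (hV0 Q e)) hG0'.le
    have h1 : theta (est RR p F Q) H Qm G Lf (a / e) = Real.sqrt (B * V Q e / G) := rfl
    rw [h1]
    have h2 := Real.sq_sqrt h0
    set s := Real.sqrt (B * V Q e / G) with hs
    have hs0 : 0 ≤ s := Real.sqrt_nonneg _
    rw [← h2, ← sub_nonneg]
    have h3 : s ^ 2 / lam + lam - s = (s ^ 2 + lam ^ 2 - s * lam) / lam := by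
      field_simp
    rw [h3]
    refine div_nonneg ?_ hlam.le
    nlinarith [sq_nonneg (s - lam), mul_nonneg hs0 hlam.le]
  have step2 : ∀ Q ∈ S.powerset, D Q ≤ c1 + n * ∑ e ∈ EE, (B * V Q e / G / lam + lam + c2) + c3 +
      (if Mmax < m0 * ∏ q ∈ Q, q then c4 else 0) := by
    intro Q hQ
    have hsum0 : 0 ≤ (n : ℝ) * ∑ e ∈ EE, (B * V Q e / G / lam + lam + c2) := by
      refine mul_nonneg (Nat.cast_nonneg _) (sum_nonneg fun e _ => ?_)
      have := hV0 Q e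
      positivity
    split_ifs with hM
    · have h1 : D Q ≤ c4 := by
        simp only [hD, hc4]
        calc ∑ e ∈ EE, ∑ g ∈ GG with ¬ Str e g, |dev (est RR p F Q) (a / e) H g|
            ≤ ∑ _e ∈ EE, (GG.card : ℝ) * (2 ^ n * t0) := by
              refine sum_le_sum fun e he => ?_
              calc ∑ g ∈ GG with ¬ Str e g, |dev (est RR p F Q) (a / e) H g|
                  ≤ ∑ g ∈ GG, |dev (est RR p F Q) (a / e) H g| :=
                    sum_le_sum_of_subset_of_nonneg (filter_subset _ _) fun _ _ _ => abs_nonneg _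
                _ ≤ ∑ _g ∈ GG, 2 ^ n * t0 := sum_le_sum fun g hg => hTQ Q hQ e he g hg
                _ = _ := by rw [sum_const, nsmul_eq_mul]
          _ = _ := by rw [sum_const, nsmul_eq_mul]; ring
      linarith
    · push Not at hM
      have hQS := mem_powerset.1 hQ
      have hpos : 0 < m0 * ∏ q ∈ Q, q := Nat.mul_pos hm0 (prod_pos fun q hq => hS q (hQS hq))
      have h1 := det a EE GG hGG G Qm hG0 hG hQm Str K0 Lf Thr hLf hThr hL (est RR p F Q)
        (m0 * ∏ q ∈ Q, q) hpos (by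
          intro m k
          push_cast
          exact est_periodic RR p F m0 hper Q m k) H t0 ht0 n (hTQ Q ‹_›)
      have h2 : ∑ e ∈ EE, (theta (est RR p F Q) H Qm G Lf (a / e) + 2 ^ n * t0 * (K0 + 1)) ≤
          ∑ e ∈ EE, (B * V Q e / G / lam + lam + c2) :=
        sum_le_sum fun e _ => by
          have := hth Q e
          simp only [hc2]
          linarith
      have h3 : (2 : ℝ) ^ n * t0 * (((m0 * ∏ q ∈ Q, q : ℕ) : ℝ) * Thr * GG.card) ≤ c3 := by
        simp only [hc3]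
        have : ((m0 * ∏ q ∈ Q, q : ℕ) : ℝ) ≤ Mmax := by exact_mod_cast hM
        gcongr
      have h4 : (n : ℝ) * ∑ e ∈ EE,
          (theta (est RR p F Q) H Qm G Lf (a / e) + 2 ^ n * t0 * (K0 + 1)) ≤
          n * ∑ e ∈ EE, (B * V Q e / G / lam + lam + c2) :=
        mul_le_mul_of_nonneg_left h2 (Nat.cast_nonneg _)
      have h5 : D Q ≤ c1 + n * ∑ e ∈ EE,
          (theta (est RR p F Q) H Qm G Lf (a / e) + 2 ^ n * t0 * (K0 + 1)) +
          2 ^ n * t0 * (((m0 * ∏ q ∈ Q, q : ℕ) : ℝ) * Thr * GG.card) := h1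
      linarith
  -- step 3: average
  have hEV : ∀ e ∈ EE, ∑ Q ∈ S.powerset, Pr S p Q * V Q e ≤ Wt * S2 := fun e he =>
    (second_moment S p hp hp1 RR hRR F Wt hWt _).trans
      (mul_le_mul_of_nonneg_left (hS2 e he) hWt0)
  have hone := sum_Pr S p
  calc ∑ e ∈ EE, ∑ g ∈ GG with ¬ Str e g, |dev (tot RR F) (a / e) H g|
      ≤ ∑ Q ∈ S.powerset, Pr S p Q * D Q := step1
    _ ≤ ∑ Q ∈ S.powerset, Pr S p Q * (c1 + n * ∑ e ∈ EE, (B * V Q e / G / lam + lam + c2) + c3 +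
      (if Mmax < m0 * ∏ q ∈ Q, q then c4 else 0)) :=
        sum_le_sum fun Q hQ => mul_le_mul_of_nonneg_left (step2 Q hQ) (hPr0 Q hQ)
    _ = c1 + c3 + n * ∑ e ∈ EE, (B * (∑ Q ∈ S.powerset, Pr S p Q * V Q e) / G / lam + lam + c2) +
        (∑ Q ∈ S.powerset with Mmax < m0 * ∏ q ∈ Q, q, Pr S p Q) * c4 := by
        have e1 : ∀ Q ∈ S.powerset, Pr S p Q * (c1 + n * ∑ e ∈ EE,
            (B * V Q e / G / lam + lam + c2) + c3 +
            (if Mmax < m0 * ∏ q ∈ Q, q then c4 else 0)) =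
            Pr S p Q * (c1 + c3) + n * ∑ e ∈ EE, (B * (Pr S p Q * V Q e) / G / lam +
              Pr S p Q * (lam + c2)) +
            (if Mmax < m0 * ∏ q ∈ Q, q then Pr S p Q * c4 else 0) := by
          intro Q _
          have e2 : ∑ e ∈ EE, (B * (Pr S p Q * V Q e) / G / lam + Pr S p Q * (lam + c2)) =
              Pr S p Q * ∑ e ∈ EE, (B * V Q e / G / lam + lam + c2) := by
            rw [mul_sum]
            refine sum_congr rfl fun e _ => ?_
            ring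
          rw [e2]
          split_ifs <;> ring
        rw [sum_congr rfl e1, sum_add_distrib, sum_add_distrib, ← sum_mul, hone, one_mul,
          ← sum_filter, ← sum_mul, ← mul_sum, sum_comm]
        congr 3
        refine sum_congr rfl fun e _ => ?_
        rw [sum_add_distrib, ← sum_mul, hone, one_mul, ← sum_div, ← sum_div, ← mul_sum]
        ring
    _ ≤ c1 + c3 + n * ∑ _e ∈ EE, (B * (Wt * S2) / G / lam + lam + c2) + pt * c4 := by
        have h1 : ∑ e ∈ EE, (B * (∑ Q ∈ S.powerset, Pr S p Q * V Q e) / G / lam + lam + c2) ≤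
            ∑ _e ∈ EE, (B * (Wt * S2) / G / lam + lam + c2) := by
          refine sum_le_sum fun e he => ?_
          have := hEV e he
          gcongr
        have h2 := mul_le_mul_of_nonneg_left h1 (Nat.cast_nonneg (α := ℝ) n)
        have h3 := mul_le_mul_of_nonneg_right hpt hc4'
        linarith
    _ = _ := by
        rw [sum_const, nsmul_eq_mul]
        simp only [hB]
        ring

end Crest.Agent.R001.EST
end

-- ▼ part R001/E2
section

/-! R001, block E2: second moment over residue classes mod `g` (large sieve) of window sums of a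
linear form `w(t) = ∑_{D ∈ DD} lam D [D ∣ t]`. -/

set_option autoImplicit false

namespace Crest.Agent.R001.E2

open Finset Crest.Agent.R001.LS

/-- The linear form. -/
noncomputable def lin (DD : Finset ℕ) (lam : ℕ → ℝ) (t : ℤ) : ℝ :=
  ∑ D ∈ DD, if (D : ℤ) ∣ t then lam D else 0


/-- ℓ¹ norm of the coefficients -/
noncomputable def L1 (DD : Finset ℕ) (lam : ℕ → ℝ) : ℝ := ∑ D ∈ DD, |lam D|

/-- energy -/
noncomputable def energy (DD : Finset ℕ) (lam : ℕ → ℝ) : ℝ :=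
  ∑ D ∈ DD, ∑ D' ∈ DD, |lam D| * |lam D'| / (Nat.lcm D D' : ℕ)

theorem L1_nonneg (DD : Finset ℕ) (lam : ℕ → ℝ) : 0 ≤ L1 DD lam :=
  sum_nonneg fun _ _ => abs_nonneg _


/-- number of multiples of `D` in an interval of integers -/
theorem card_dvd_Ioc (D : ℕ) (hD : 0 < D) (A : ℤ) (H : ℕ) :
    |(((Ioc A (A + H)).filter fun t => (D : ℤ) ∣ t).card : ℝ) - H / D| ≤ 1 := by
  have hD' : (0 : ℤ) < D := by exact_mod_cast hD
  have hDr : (0 : ℝ) < D := by exact_mod_cast hD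
  have h1 : (((Ioc A (A + H)).filter fun t => (D : ℤ) ∣ t).card : ℤ) =
      (A + H) / D - A / D := by
    have h2 := Int.Ioc_filter_dvd_card A (A + H) hD'
    rw [h2]
    have h3 : ∀ n : ℤ, ⌊((n : ℚ) / ((D : ℤ) : ℚ))⌋ = n / (D : ℤ) := by
      intro n
      exact Rat.floor_intCast_div_natCast n D
    rw [h3, h3]
    rw [max_eq_left]
    have := Int.ediv_le_ediv hD' (show A ≤ A + H by omega)
    omega
  have h4 : (((Ioc A (A + H)).filter fun t => (D : ℤ) ∣ t).card : ℝ) =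
      (((A + H) / D : ℤ) : ℝ) - ((A / D : ℤ) : ℝ) := by
    have : ((((Ioc A (A + H)).filter fun t => (D : ℤ) ∣ t).card : ℤ) : ℝ) =
        (((A + H) / D - A / D : ℤ) : ℝ) := by rw [h1]
    push_cast at this
    exact this
  rw [h4]
  have h5 : ∀ n : ℤ, (n : ℝ) / D - 1 < ((n / (D : ℤ) : ℤ) : ℝ) ∧
      ((n / (D : ℤ) : ℤ) : ℝ) ≤ (n : ℝ) / D := by
    intro n
    have h6 := Int.emod_add_mul_ediv n D
    have h7 := Int.emod_nonneg n hD'.ne'
    have h8 := Int.emod_lt_of_pos n hD'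
    have h6' : ((n % (D : ℤ) : ℤ) : ℝ) + D * ((n / (D : ℤ) : ℤ) : ℝ) = n := by
      exact_mod_cast h6
    have h7' : (0 : ℝ) ≤ ((n % (D : ℤ) : ℤ) : ℝ) := by exact_mod_cast h7
    have h8' : ((n % (D : ℤ) : ℤ) : ℝ) < D := by exact_mod_cast h8
    constructor
    · rw [sub_lt_iff_lt_add, div_lt_iff₀ hDr]
      nlinarith
    · rw [le_div_iff₀ hDr]
      nlinarith
  have h9 := h5 A
  have h10 := h5 (A + H)
  push_cast at h10
  rw [abs_le]
  constructor
  · have : ((A : ℝ) + H) / D = A / D + H / D := by ring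
    linarith [h9.2, h10.1]
  · have : ((A : ℝ) + H) / D = A / D + H / D := by ring
    linarith [h9.1, h10.2]



/-- second moment on an interval -/
theorem sum_lin_sq (DD : Finset ℕ) (lam : ℕ → ℝ) (hDD : ∀ D ∈ DD, 0 < D) (A : ℤ) (H : ℕ) :
    ∑ t ∈ Ioc A (A + H), (lin DD lam t) ^ 2 ≤ H * energy DD lam + (L1 DD lam) ^ 2 := by
  have h1 : ∀ t : ℤ, (lin DD lam t) ^ 2 = ∑ D ∈ DD, ∑ D' ∈ DD,
      if ((Nat.lcm D D' : ℕ) : ℤ) ∣ t then lam D * lam D' else 0 := by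
    intro t
    unfold lin
    rw [sq, sum_mul_sum]
    refine sum_congr rfl fun D _ => sum_congr rfl fun D' _ => ?_
    have h2 : ((Nat.lcm D D' : ℕ) : ℤ) ∣ t ↔ (D : ℤ) ∣ t ∧ (D' : ℤ) ∣ t := by
      rw [Int.natCast_dvd, Int.natCast_dvd, Int.natCast_dvd, Nat.lcm_dvd_iff]
    by_cases h3 : (D : ℤ) ∣ t <;> by_cases h4 : (D' : ℤ) ∣ t <;> simp [h2, h3, h4]
  simp_rw [h1]
  rw [sum_comm]
  have h5 : ∀ D ∈ DD, ∑ t ∈ Ioc A (A + H), ∑ D' ∈ DD,
      (if ((Nat.lcm D D' : ℕ) : ℤ) ∣ t then lam D * lam D' else 0) ≤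
      ∑ D' ∈ DD, (|lam D| * |lam D'| * (H / (Nat.lcm D D' : ℕ)) + |lam D| * |lam D'|) := by
    intro D hD
    rw [sum_comm]
    refine sum_le_sum fun D' hD' => ?_
    rw [← sum_filter, sum_const, nsmul_eq_mul]
    have h6 := card_dvd_Ioc (Nat.lcm D D') (Nat.lcm_pos (hDD D hD) (hDD D' hD')) A H
    rw [abs_le] at h6
    have h7 : (((Ioc A (A + H)).filter fun t => ((Nat.lcm D D' : ℕ) : ℤ) ∣ t).card : ℝ) ≤
        H / (Nat.lcm D D' : ℕ) + 1 := by linarith [h6.2]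
    calc (((Ioc A (A + H)).filter fun t => ((Nat.lcm D D' : ℕ) : ℤ) ∣ t).card : ℝ) *
          (lam D * lam D')
        ≤ (((Ioc A (A + H)).filter fun t => ((Nat.lcm D D' : ℕ) : ℤ) ∣ t).card : ℝ) *
          |lam D * lam D'| := mul_le_mul_of_nonneg_left (le_abs_self _) (Nat.cast_nonneg _)
      _ ≤ (H / (Nat.lcm D D' : ℕ) + 1) * |lam D * lam D'| :=
          mul_le_mul_of_nonneg_right h7 (abs_nonneg _)
      _ = |lam D| * |lam D'| * (H / (Nat.lcm D D' : ℕ)) + |lam D| * |lam D'| := by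
          rw [abs_mul]; ring
  refine (sum_le_sum h5).trans (le_of_eq ?_)
  unfold energy L1
  rw [sq, sum_mul_sum, mul_sum, ← sum_add_distrib]
  refine sum_congr rfl fun D _ => ?_
  rw [mul_sum, ← sum_add_distrib]
  refine sum_congr rfl fun D' _ => ?_
  ring

/-- window sum in a residue class: `∑_{j < H, j ≡ r (g)} w(γ - j)` -/
noncomputable def Z (DD : Finset ℕ) (lam : ℕ → ℝ) (γ : ℤ) (H g r : ℕ) : ℝ :=
  ∑ j ∈ (range H).filter (fun j => j % g = r), lin DD lam (γ - j)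












end Crest.Agent.R001.E2
end

-- ▼ part R001/Uns2
section

/-! R001, block UNS, part 2: the Rosser weights on windows, energy, periodicity. -/

set_option autoImplicit false

namespace Crest.Agent.R001.Uns

open Finset Crest.Agent.R001.Tree Crest.Agent.R001.EST

/-- Rosser weight of level `y` for the primes `< w` -/
noncomputable def W (y : ℝ) (w : ℕ) (m : ℤ) : ℝ :=
  ∑ x ∈ Idx y w, if ((val x : ℕ) : ℤ) ∣ m then sgn x else 0

open Classical in
/-- pointwise lower bound sieve -/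
lemma W_le (y : ℝ) (w : ℕ) (m : ℤ) :
    W y w m ≤ if ∀ p : ℕ, p.Prime → p < w → ¬ (p : ℤ) ∣ m then 1 else 0 := by
  have hB : Buch (Aw {m} id (fun _ => (1 : ℝ))) (Sw {m} id (fun _ => (1 : ℝ))) := buch_w _ _ _
  have h1 := identity hB (bd y) (rgh_one w)
  have h2 : T (bd y) (intF (Aw {m} id (fun _ => (1 : ℝ)))) (fun _ _ => 0) 1 w ≤
      Sw {m} id (fun _ => (1 : ℝ)) 1 w := by
    rw [h1]
    exact T_mono 1 w (fun _ _ _ => le_rfl) (fun d' w' _ =>
      Sw_nonneg {m} id (fun _ => (1 : ℝ)) (fun _ _ => zero_le_one) d' w')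
  rw [T_lin] at h2
  have h3 : ∀ d : ℕ, Aw {m} id (fun _ => (1 : ℝ)) d = if ((d : ℕ) : ℤ) ∣ m then 1 else 0 := by
    intro d
    unfold Aw
    rw [filter_singleton]
    split_ifs with h h' h'
    · simp
    · exact absurd h h'
    · exact absurd h' h
    · simp
  have h4 : Sw {m} id (fun _ => (1 : ℝ)) 1 w =
      if ∀ p : ℕ, p.Prime → p < w → ¬ (p : ℤ) ∣ m then 1 else 0 := by
    unfold Sw
    rw [filter_singleton]
    simp only [Nat.cast_one, isUnit_one, IsUnit.dvd, id_eq, true_and]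
    split_ifs with h
    · simp
    · simp
  rw [h4] at h2
  refine le_trans (le_of_eq ?_) h2
  unfold W
  refine sum_congr rfl fun x _ => ?_
  rw [h3]
  split_ifs <;> ring

/-- `Θ` -/
noncomputable def Theta (y : ℝ) (w : ℕ) : ℝ := Th (bd y) 1 w

lemma Theta_eq (y : ℝ) (w : ℕ) : Theta y w = ∑ x ∈ Idx y w, sgn x / (val x : ℝ) := by
  unfold Theta Th
  rw [T_lin]
  refine sum_congr rfl fun x _ => ?_
  unfold inv
  ring

lemma abs_Theta_le (y : ℝ) (w : ℕ) : |Theta y w| ≤ (Idx y w).card := by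
  rw [Theta_eq]
  refine (abs_sum_le_sum_abs _ _).trans ?_
  calc ∑ x ∈ Idx y w, |sgn x / (val x : ℝ)| ≤ ∑ _x ∈ Idx y w, (1 : ℝ) := by
        refine sum_le_sum fun x hx => ?_
        rw [abs_div, abs_sgn]
        have h1 : (1 : ℝ) ≤ val x := by exact_mod_cast val_pos hx
        rw [abs_of_pos (by linarith), div_le_one (by linarith)]
        exact h1
    _ = _ := by simp

lemma sum_W_window (y : ℝ) (w : ℕ) (A : ℤ) (H : ℕ) :
    |∑ m ∈ Ioc (A - H) A, W y w m - H * Theta y w| ≤ (Idx y w).card := by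
  have h1 : ∑ m ∈ Ioc (A - H) A, W y w m =
      ∑ x ∈ Idx y w, sgn x * (((Ioc (A - H) A).filter (fun m => ((val x : ℕ) : ℤ) ∣ m)).card : ℝ) := by
    unfold W
    rw [sum_comm]
    refine sum_congr rfl fun x _ => ?_
    rw [← sum_filter, sum_const, nsmul_eq_mul, mul_comm]
  rw [h1, Theta_eq, mul_sum, ← sum_sub_distrib]
  refine (abs_sum_le_sum_abs _ _).trans ?_
  calc ∑ x ∈ Idx y w, |sgn x * (((Ioc (A - H) A).filter
        (fun m => ((val x : ℕ) : ℤ) ∣ m)).card : ℝ) - H * (sgn x / (val x : ℝ))|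
      ≤ ∑ _x ∈ Idx y w, (1 : ℝ) := by
        refine sum_le_sum fun x hx => ?_
        have h2 := E2.card_dvd_Ioc (val x) (val_pos hx) (A - H) H
        rw [sub_add_cancel] at h2
        have h3 : sgn x * (((Ioc (A - H) A).filter
            (fun m => ((val x : ℕ) : ℤ) ∣ m)).card : ℝ) - H * (sgn x / (val x : ℝ)) =
            sgn x * ((((Ioc (A - H) A).filter
            (fun m => ((val x : ℕ) : ℤ) ∣ m)).card : ℝ) - H / (val x : ℝ)) := by ring
        rw [h3, abs_mul, abs_sgn, one_mul]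
        exact h2
    _ = _ := by simp

/-- lower bound of the sifted count of a node by the window sum of the weights -/
lemma sI_ge (a : ℤ) (X e g w : ℕ) (he : 0 < e) (hew : Rgh e w) (y : ℝ) :
    ∑ m ∈ Ioc (a / e - (X / e : ℕ)) (a / e) with (g : ℤ) ∣ m, W y w m ≤ sI a X (e * g) w := by
  classical
  rw [sI_eq]
  have he' : (0 : ℤ) < e := by exact_mod_cast he
  set I := Ioc (a / (e : ℤ) - ((X / e : ℕ) : ℤ)) (a / (e : ℤ)) with hI
  calc ∑ m ∈ I with (g : ℤ) ∣ m, W y w m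
      ≤ ∑ m ∈ I with (g : ℤ) ∣ m,
          (if ∀ p : ℕ, p.Prime → p < w → ¬ (p : ℤ) ∣ m then (1 : ℝ) else 0) :=
        sum_le_sum fun m _ => W_le y w m
    _ = (((I.filter (fun m => (g : ℤ) ∣ m)).filter
          (fun m => ∀ p : ℕ, p.Prime → p < w → ¬ (p : ℤ) ∣ m)).card : ℝ) := by
        rw [← sum_filter, sum_const, nsmul_eq_mul, mul_one]
    _ ≤ _ := by
        norm_cast
        refine card_le_card_of_injOn (fun m => (e : ℤ) * m) ?_ ?_
        · intro m hm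
          rw [mem_coe, mem_filter, mem_filter, hI, mem_Ioc] at hm
          obtain ⟨⟨⟨hm1, hm2⟩, hm3⟩, hm4⟩ := hm
          rw [mem_coe, mem_filter, mem_Ioc]
          have h1 : (e : ℤ) * (a / e) ≤ a := Int.mul_ediv_self_le he'.ne'
          have h2 : a < (e : ℤ) * (a / e) + e := Int.lt_mul_ediv_self_add he'
          have h3 : (e : ℤ) * ((X / e : ℕ) : ℤ) ≤ X := by
            have := Nat.mul_div_le X e
            exact_mod_cast this
          have h4 : a / (e : ℤ) - ((X / e : ℕ) : ℤ) + 1 ≤ m := by omega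
          refine ⟨⟨?_, ?_⟩, ?_, ?_⟩
          · have h5 := mul_le_mul_of_nonneg_left h4 he'.le
            nlinarith
          · have h5 := mul_le_mul_of_nonneg_left hm2 he'.le
            linarith
          · push_cast
            exact mul_dvd_mul_left _ hm3
          · intro p hp hpw hdvd
            have hp' : Prime (p : ℤ) := Nat.prime_iff_prime_int.1 hp
            rcases hp'.dvd_or_dvd hdvd with h6 | h6
            · exact hew p hp hpw (by exact_mod_cast h6)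
            · exact hm4 p hp hpw h6
        · intro m _ m' _ h
          exact mul_left_cancel₀ he'.ne' h

/-- the node inequality -/
lemma node_ge (a : ℤ) (X e g w : ℕ) (he : 0 < e) (hg : 0 < g) (hew : Rgh e w) (y : ℝ) :
    (X : ℝ) / (e * g) * Theta y w - |dev (W y w) (a / e) (X / e) g| - 2 * (Idx y w).card / g ≤
      sI a X (e * g) w := by
  have h1 := sI_ge a X e g w he hew y
  have h2 := sum_W_window y w (a / e) (X / e)
  set I := Ioc (a / (e : ℤ) - ((X / e : ℕ) : ℤ)) (a / (e : ℤ)) with hI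
  have hg' : (0 : ℝ) < g := by exact_mod_cast hg
  have he' : (0 : ℝ) < e := by exact_mod_cast he
  have h3 : ∑ m ∈ I with (g : ℤ) ∣ m, W y w m =
      dev (W y w) (a / e) (X / e) g + (∑ m ∈ I, W y w m) / g := by
    unfold dev; ring
  rw [h3] at h1
  have h4 : -|dev (W y w) (a / e) (X / e) g| ≤ dev (W y w) (a / e) (X / e) g := neg_abs_le _
  have h5 : ((X / e : ℕ) : ℝ) * Theta y w - (Idx y w).card ≤ ∑ m ∈ I, W y w m := by
    have := (abs_le.1 h2).1
    linarith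
  have h6 : (((X / e : ℕ) : ℝ) * Theta y w - (Idx y w).card) / g ≤ (∑ m ∈ I, W y w m) / g :=
    div_le_div_of_nonneg_right h5 hg'.le
  have h7 : |(X : ℝ) / e - ((X / e : ℕ) : ℝ)| ≤ 1 := by
    have h8 : ((X / e : ℕ) : ℝ) ≤ (X : ℝ) / e := Nat.cast_div_le
    have h9 : (X : ℝ) / e < ((X / e : ℕ) : ℝ) + 1 := by
      rw [div_lt_iff₀ he']
      have := Nat.lt_mul_div_succ X he
      have h10 : (X : ℝ) < (e : ℝ) * (((X / e : ℕ) : ℝ) + 1) := by exact_mod_cast this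
      linarith
    rw [abs_of_nonneg (by linarith)]
    linarith
  have h8 : (X : ℝ) / (e * g) * Theta y w ≤
      (((X / e : ℕ) : ℝ) * Theta y w) / g + (Idx y w).card / g := by
    have h9 : (X : ℝ) / (e * g) * Theta y w - (((X / e : ℕ) : ℝ) * Theta y w) / g =
        ((X : ℝ) / e - ((X / e : ℕ) : ℝ)) * Theta y w / g := by
      field_simp
    have h10 : ((X : ℝ) / e - ((X / e : ℕ) : ℝ)) * Theta y w ≤ (Idx y w).card := by
      refine (le_abs_self _).trans ?_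
      rw [abs_mul]
      calc _ ≤ 1 * |Theta y w| := mul_le_mul_of_nonneg_right h7 (abs_nonneg _)
        _ ≤ _ := by rw [one_mul]; exact abs_Theta_le y w
    have h11 := div_le_div_of_nonneg_right h10 hg'.le
    linarith
  have h9 : (((X / e : ℕ) : ℝ) * Theta y w - (Idx y w).card) / g =
      (((X / e : ℕ) : ℝ) * Theta y w) / g - (Idx y w).card / g := by ring
  have h10 : 2 * ((Idx y w).card : ℝ) / g = (Idx y w).card / g + (Idx y w).card / g := by ring
  rw [h10]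
  linarith

/-! ### energy -/

lemma harm_le (Z : ℕ) : ∑ n ∈ Icc 1 Z, (1 : ℝ) / n ≤ 1 + Real.log Z := by
  have h := harmonic_le_one_add_log Z
  rw [harmonic_eq_sum_Icc] at h
  push_cast at h
  simpa [one_div] using h

lemma energy_le (BB : Finset ℕ) (Z : ℕ) (hBB : ∀ b ∈ BB, 1 ≤ b ∧ b ≤ Z) :
    E2.energy BB (fun _ => 1) ≤ (1 + Real.log Z) ^ 3 := by
  unfold E2.energy
  set f : ℕ × ℕ → ℕ × ℕ × ℕ := fun x => (Nat.gcd x.1 x.2, x.1 / Nat.gcd x.1 x.2,
    x.2 / Nat.gcd x.1 x.2) with hf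
  have h1 : ∑ D ∈ BB, ∑ D' ∈ BB, |(1 : ℝ)| * |(1 : ℝ)| / (Nat.lcm D D' : ℕ) =
      ∑ x ∈ BB ×ˢ BB, (1 : ℝ) / (Nat.lcm x.1 x.2 : ℕ) := by
    rw [sum_product]
    simp
  rw [h1]
  have hinj : Set.InjOn f (BB ×ˢ BB : Finset (ℕ × ℕ)) := by
    intro x hx z hz h
    rw [mem_coe, mem_product] at hx hz
    simp only [hf, Prod.mk.injEq] at h
    obtain ⟨h2, h3, h4⟩ := h
    have e1 := Nat.div_mul_cancel (Nat.gcd_dvd_left x.1 x.2)
    have e2 := Nat.div_mul_cancel (Nat.gcd_dvd_right x.1 x.2)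
    have e3 := Nat.div_mul_cancel (Nat.gcd_dvd_left z.1 z.2)
    have e4 := Nat.div_mul_cancel (Nat.gcd_dvd_right z.1 z.2)
    refine Prod.ext ?_ ?_
    · rw [← e1, ← e3, h3, h2]
    · rw [← e2, ← e4, h4, h2]
  have h2 : ∑ x ∈ BB ×ˢ BB, (1 : ℝ) / (Nat.lcm x.1 x.2 : ℕ) =
      ∑ u ∈ (BB ×ˢ BB).image f, (1 : ℝ) / u.1 * (1 / u.2.1 * (1 / u.2.2)) := by
    rw [sum_image hinj]
    refine sum_congr rfl fun x hx => ?_
    rw [mem_product] at hx
    simp only [hf]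
    have hx1 := (hBB _ hx.1).1
    have hx2 := (hBB _ hx.2).1
    have hg : 0 < Nat.gcd x.1 x.2 := Nat.gcd_pos_of_pos_left _ hx1
    have e1 := Nat.div_mul_cancel (Nat.gcd_dvd_left x.1 x.2)
    have e2 := Nat.div_mul_cancel (Nat.gcd_dvd_right x.1 x.2)
    have e3 := Nat.gcd_mul_lcm x.1 x.2
    set g := Nat.gcd x.1 x.2
    set b := x.1 / g
    set b' := x.2 / g
    have e4 : Nat.lcm x.1 x.2 = g * (b * b') := by
      have : g * Nat.lcm x.1 x.2 = g * (g * (b * b')) := by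
        rw [e3, ← e1, ← e2]; ring
      exact Nat.eq_of_mul_eq_mul_left hg this
    rw [e4]
    push_cast
    rw [one_div_mul_one_div, one_div_mul_one_div]
  rw [h2]
  have h3 : (BB ×ˢ BB).image f ⊆ Icc 1 Z ×ˢ (Icc 1 Z ×ˢ Icc 1 Z) := by
    intro u hu
    obtain ⟨x, hx, rfl⟩ := mem_image.1 hu
    rw [mem_product] at hx
    obtain ⟨hx1, hx1'⟩ := hBB _ hx.1
    obtain ⟨hx2, hx2'⟩ := hBB _ hx.2
    simp only [hf, mem_product, mem_Icc]
    have hg : 0 < Nat.gcd x.1 x.2 := Nat.gcd_pos_of_pos_left _ hx1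
    have hgle : Nat.gcd x.1 x.2 ≤ x.1 := Nat.le_of_dvd hx1 (Nat.gcd_dvd_left _ _)
    have hgle' : Nat.gcd x.1 x.2 ≤ x.2 := Nat.le_of_dvd hx2 (Nat.gcd_dvd_right _ _)
    exact ⟨⟨hg, by omega⟩, ⟨Nat.div_pos hgle hg, (Nat.div_le_self _ _).trans hx1'⟩,
      Nat.div_pos hgle' hg, (Nat.div_le_self _ _).trans hx2'⟩
  calc ∑ u ∈ (BB ×ˢ BB).image f, (1 : ℝ) / u.1 * (1 / u.2.1 * (1 / u.2.2))
      ≤ ∑ u ∈ Icc 1 Z ×ˢ (Icc 1 Z ×ˢ Icc 1 Z), (1 : ℝ) / u.1 * (1 / u.2.1 * (1 / u.2.2)) :=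
        sum_le_sum_of_subset_of_nonneg h3 fun _ _ _ => by positivity
    _ = (∑ n ∈ Icc 1 Z, (1 : ℝ) / n) ^ 3 := by
        rw [sum_product, pow_succ, sq, mul_assoc, sum_mul]
        refine sum_congr rfl fun u _ => ?_
        rw [sum_product, sum_mul, mul_sum]
        refine sum_congr rfl fun v _ => ?_
        rw [mul_sum, mul_sum]
    _ ≤ _ := by
        refine pow_le_pow_left₀ (sum_nonneg fun _ _ => by positivity) (harm_le Z) 3

/-- number of elements of the support dividing `m` -/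
noncomputable def cnt (y : ℝ) (w : ℕ) (m : ℤ) : ℝ :=
  ∑ x ∈ Idx y w, if ((val x : ℕ) : ℤ) ∣ m then (1 : ℝ) else 0

lemma cnt_le (y : ℝ) (w : ℕ) (m : ℤ) :
    cnt y w m ≤ 2 * E2.lin ((Idx y w).image val) (fun _ => 1) m := by
  classical
  unfold cnt E2.lin
  rw [← sum_fiberwise_of_maps_to (s := Idx y w) (t := (Idx y w).image val) (g := val)
    (fun x hx => mem_image_of_mem _ hx), mul_sum]
  refine sum_le_sum fun D _ => ?_
  have h1 : ∑ x ∈ Idx y w with val x = D, (if ((val x : ℕ) : ℤ) ∣ m then (1 : ℝ) else 0) =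
      ((Idx y w).filter (fun x => val x = D)).card * (if ((D : ℕ) : ℤ) ∣ m then (1 : ℝ) else 0) := by
    rw [← nsmul_eq_mul, ← sum_const]
    refine sum_congr rfl fun x hx => ?_
    rw [(mem_filter.1 hx).2]
  rw [h1]
  have h2 : (((Idx y w).filter (fun x => val x = D)).card : ℝ) ≤ 2 := by
    have h3 : ((Idx y w).filter (fun x => val x = D)).card ≤ (univ : Finset Bool).card := by
      refine card_le_card_of_injOn (fun x => decide (x.2 = 1)) (fun _ _ => mem_coe.2 (mem_univ _)) ?_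
      intro x hx z hz h
      rw [mem_coe, mem_filter] at hx hz
      exact val_fiber hx.1 hz.1 (hx.2.trans hz.2.symm) (by simpa using h)
    have h4 : (univ : Finset Bool).card = 2 := by decide
    rw [h4] at h3
    exact_mod_cast h3
  split_ifs
  · linarith
  · simp

lemma cnt_sq_window {y : ℝ} {w : ℕ} (h0 : Adm y 1 w) (hy : 1 < y) (A : ℤ) (H : ℕ) :
    ∑ m ∈ Ioc (A - H) A, cnt y w m ^ 2 ≤ 4 * (H * (1 + Real.log y) ^ 3 + y ^ 2) := by
  classical
  set BB := (Idx y w).image val with hBB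
  have hpos : ∀ D ∈ BB, 0 < D := by
    intro D hD
    obtain ⟨x, hx, rfl⟩ := mem_image.1 hD
    exact val_pos hx
  have h1 := E2.sum_lin_sq BB (fun _ => 1) hpos (A - H) H
  rw [sub_add_cancel] at h1
  have hZ : ∀ b ∈ BB, 1 ≤ b ∧ b ≤ ⌊y⌋₊ := by
    intro b hb
    refine ⟨hpos b hb, ?_⟩
    obtain ⟨x, hx, rfl⟩ := mem_image.1 hb
    exact Nat.le_floor (val_lt h0 hy hx).le
  have h2 := energy_le BB ⌊y⌋₊ hZ
  have hfl : 1 ≤ ⌊y⌋₊ := Nat.le_floor (by simpa using hy.le)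
  have h3 : Real.log ⌊y⌋₊ ≤ Real.log y :=
    Real.log_le_log (by exact_mod_cast hfl) (Nat.floor_le (by linarith))
  have h3' : 0 ≤ Real.log ⌊y⌋₊ := Real.log_nonneg (by exact_mod_cast hfl)
  have h4 : (1 + Real.log ⌊y⌋₊) ^ 3 ≤ (1 + Real.log y) ^ 3 :=
    pow_le_pow_left₀ (by linarith) (by linarith) 3
  have h5 : E2.L1 BB (fun _ => 1) ≤ y := by
    unfold E2.L1
    simp only [abs_one, sum_const, nsmul_eq_mul, mul_one]
    refine le_trans ?_ (card_Idx_le h0 hy)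
    exact_mod_cast card_image_le
  have h6 : E2.L1 BB (fun _ => 1) ^ 2 ≤ y ^ 2 := pow_le_pow_left₀ (E2.L1_nonneg _ _) h5 2
  calc ∑ m ∈ Ioc (A - H) A, cnt y w m ^ 2
      ≤ ∑ m ∈ Ioc (A - H) A, (2 * E2.lin BB (fun _ => 1) m) ^ 2 := by
        refine sum_le_sum fun m _ => pow_le_pow_left₀ ?_ (cnt_le y w m) 2
        exact sum_nonneg fun _ _ => by split_ifs <;> norm_num
    _ = 4 * ∑ m ∈ Ioc (A - H) A, E2.lin BB (fun _ => 1) m ^ 2 := by
        rw [mul_sum]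
        refine sum_congr rfl fun m _ => ?_
        ring
    _ ≤ _ := by
        have h7 : (H : ℝ) * E2.energy BB (fun _ => 1) ≤ H * (1 + Real.log y) ^ 3 :=
          mul_le_mul_of_nonneg_left (h2.trans h4) (Nat.cast_nonneg _)
        linarith

/-! ### the family `F R m` -/

/-- large primes of `val x` -/
def RR0 (t : ℕ) (x : ℕ × ℕ) : Finset ℕ := (val x).primeFactors.filter (fun q => t < q)

noncomputable def FF (y : ℝ) (w t : ℕ) (R : Finset ℕ) (m : ℤ) : ℝ :=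
  ∑ x ∈ Idx y w with RR0 t x = R, if ((val x : ℕ) : ℤ) ∣ m then sgn x else 0

noncomputable def RRs (y : ℝ) (w t : ℕ) : Finset (Finset ℕ) := (Idx y w).image (RR0 t)

lemma tot_FF (y : ℝ) (w t : ℕ) : tot (RRs y w t) (FF y w t) = W y w := by
  funext m
  unfold tot FF W RRs
  exact sum_fiberwise_of_maps_to (fun x hx => mem_image_of_mem _ hx) _

lemma sum_abs_FF_le (y : ℝ) (w t : ℕ) (m : ℤ) :
    ∑ R ∈ RRs y w t, |FF y w t R m| ≤ cnt y w m := by
  unfold cnt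
  rw [← sum_fiberwise_of_maps_to (s := Idx y w) (t := RRs y w t) (g := RR0 t)
    (fun x hx => mem_image_of_mem _ hx)]
  refine sum_le_sum fun R _ => ?_
  unfold FF
  refine (abs_sum_le_sum_abs _ _).trans (sum_le_sum fun x _ => ?_)
  split_ifs
  · rw [abs_sgn]
  · simp

lemma cnt_le_card (y : ℝ) (w : ℕ) (m : ℤ) : cnt y w m ≤ (Idx y w).card := by
  unfold cnt
  calc _ ≤ ∑ _x ∈ Idx y w, (1 : ℝ) := sum_le_sum fun x _ => by split_ifs <;> norm_num
    _ = _ := by simp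

lemma val_dvd {y : ℝ} {w : ℕ} (t : ℕ) {x : ℕ × ℕ} (hx : x ∈ Idx y w) :
    val x ∣ primorial t * ∏ q ∈ RR0 t x, q := by
  obtain ⟨hsq, _⟩ := val_sqf hx
  have h1 : ∏ p ∈ (val x).primeFactors, p =
      (∏ p ∈ (val x).primeFactors with ¬ t < p, p) * ∏ q ∈ RR0 t x, q := by
    unfold RR0
    rw [mul_comm, prod_filter_mul_prod_filter_not]
  have h2 : (∏ p ∈ (val x).primeFactors with ¬ t < p, p) ∣ primorial t := by
    unfold primorial
    refine prod_dvd_prod_of_subset _ _ _ ?_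
    intro p hp
    rw [mem_filter] at hp ⊢
    rw [mem_range]
    exact ⟨by omega, Nat.prime_of_mem_primeFactors hp.1⟩
  calc val x = ∏ p ∈ (val x).primeFactors, p := (Nat.prod_primeFactors_of_squarefree hsq).symm
    _ ∣ _ := by rw [h1]; exact mul_dvd_mul_right h2 _

lemma FF_periodic (y : ℝ) (w t : ℕ) (R : Finset ℕ) (m k : ℤ) :
    FF y w t R (m + k * ((primorial t : ℤ) * ∏ q ∈ R, (q : ℤ))) = FF y w t R m := by
  unfold FF
  refine sum_congr rfl fun x hx => ?_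
  obtain ⟨hx1, hx2⟩ := mem_filter.1 hx
  have h1 : ((val x : ℕ) : ℤ) ∣ k * ((primorial t : ℤ) * ∏ q ∈ R, (q : ℤ)) := by
    refine dvd_mul_of_dvd_right ?_ _
    have h2 := val_dvd t hx1
    rw [hx2] at h2
    have h4 : ((val x : ℕ) : ℤ) ∣ ((primorial t * ∏ q ∈ R, q : ℕ) : ℤ) := by exact_mod_cast h2
    push_cast at h4
    exact h4
  have h3 : ((val x : ℕ) : ℤ) ∣ m + k * ((primorial t : ℤ) * ∏ q ∈ R, (q : ℤ)) ↔
      ((val x : ℕ) : ℤ) ∣ m := by
    constructor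
    · intro h; exact (dvd_add_left h1).1 h
    · intro h; exact dvd_add h h1
  simp only [h3]

end Crest.Agent.R001.Uns
end

-- ▼ part R001/Uns3

/-! R001, block UNS, part 3: one class, explicit parameters. -/

set_option autoImplicit false

namespace Crest.Agent.R001.Uns

open Finset Crest.Agent.R001.Tree Crest.Agent.R001.EST

/-- primes in `(t, Z]` -/
def SP (t Z : ℕ) : Finset ℕ := (range (Z + 1)).filter (fun q => q.Prime ∧ t < q)

lemma mem_SP {t Z q : ℕ} : q ∈ SP t Z ↔ q ≤ Z ∧ q.Prime ∧ t < q := by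
  unfold SP; rw [mem_filter, mem_range, Nat.lt_succ_iff]

lemma prod_inv_eq_ell (t : ℕ) (Lam : ℝ) (x : ℕ × ℕ) :
    ∏ q ∈ RR0 t x, (Lam / q)⁻¹ = ell t Lam (val x) := by
  unfold RR0 ell ff
  rw [prod_filter]
  refine prod_congr rfl fun q _ => ?_
  split_ifs
  · rw [inv_div]
  · rfl

open Classical in
/-- one class -/
theorem cls (y : ℝ) (w t Z : ℕ) (Lam B0 : ℝ) (k : ℕ) (h0 : Adm y 1 w) (hy : 1 < y)
    (hLam : 1 ≤ Lam) (hLt : Lam ≤ t) (hB0 : 1 ≤ B0) (hk : B0 ≤ Lam ^ k)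
    (hyB : B0 ^ (2 * 3 ^ k) ≤ y) (hwZ : w ≤ Z + 1)
    (a : ℤ) (EE : Finset ℤ) (GG : Finset ℕ) (hGG : ∀ g ∈ GG, g.Prime) (G : ℕ)
    (hG0 : 0 < G) (hG : ∀ g ∈ GG, G ≤ g ∧ g ≤ 2 * G) (Str : ℤ → ℕ → Prop) (K0 : ℕ)
    (Lf Thr : ℝ) (hLf : 0 ≤ Lf) (hThr : 0 ≤ Thr) (hL : ListHyp a EE GG Str K0 Lf Thr)
    (H : ℕ) (Mmax : ℕ) (pt : ℝ)
    (hpt : ∑ Q ∈ (SP t Z).powerset with Mmax < primorial t * ∏ q ∈ Q, q,
      Pr (SP t Z) (fun q => Lam / q) Q ≤ pt)
    (t0 : ℝ) (ht0 : 0 < t0) (n : ℕ) (hT : y ^ 2 / B0 * (2 * ((H : ℝ) / G) + 1) ≤ 2 ^ n * t0)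
    (lam : ℝ) (hlam : 0 < lam) :
    ∑ e ∈ EE, ∑ g ∈ GG with ¬ Str e g, |dev (W y w) (a / e) H g| ≤
      EE.card * GG.card * t0 +
      n * (EE.card * ((Lf * (2 * (H : ℝ) + 12 * (G : ℝ) ^ 2) *
        (y / B0 * (4 * (H * (1 + Real.log y) ^ 3 + y ^ 2))) / G) / lam + lam +
        2 ^ n * t0 * (K0 + 1))) +
      2 ^ n * t0 * (Mmax * Thr * GG.card) + pt * (EE.card * GG.card * (2 ^ n * t0)) := by
  have hyp : 0 < y := by linarith
  have hB0' : 0 < B0 := by linarith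
  have hSpos : ∀ q ∈ SP t Z, 0 < q := fun q hq => (mem_SP.1 hq).2.1.pos
  have hLam0 : 0 < Lam := by linarith
  have hp : ∀ q ∈ SP t Z, 0 < Lam / (q : ℝ) := fun q hq => by
    have : (0 : ℝ) < q := by exact_mod_cast hSpos q hq
    positivity
  have hp1 : ∀ q ∈ SP t Z, Lam / (q : ℝ) ≤ 1 := fun q hq => by
    have h1 : (0 : ℝ) < q := by exact_mod_cast hSpos q hq
    have h2 : (t : ℝ) ≤ q := by exact_mod_cast (mem_SP.1 hq).2.2.le
    rw [div_le_one h1]
    linarith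
  have hRR : ∀ R ∈ RRs y w t, R ⊆ SP t Z := by
    intro R hR q hq
    obtain ⟨x, hx, rfl⟩ := mem_image.1 hR
    unfold RR0 at hq
    rw [mem_filter] at hq
    have h1 := Nat.prime_of_mem_primeFactors hq.1
    have h2 := (val_sqf hx).2 q h1 (Nat.dvd_of_mem_primeFactors hq.1)
    rw [mem_SP]
    exact ⟨by omega, h1, hq.2⟩
  have hWt : ∀ R ∈ RRs y w t, ∏ q ∈ R, (Lam / (q : ℝ))⁻¹ ≤ y / B0 := by
    intro R hR
    obtain ⟨x, hx, rfl⟩ := mem_image.1 hR
    rw [prod_inv_eq_ell, le_div_iff₀ hB0', mul_comm]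
    exact weight_bound h0 hy hLam hB0 hk hyB hx
  have hcard := card_Idx_le h0 hy
  have hmain := est_main (SP t Z) hSpos (fun q => Lam / (q : ℝ)) hp hp1 (RRs y w t) hRR
    (FF y w t) (primorial t) (primorial_pos t) (fun R _ m k => FF_periodic y w t R m k)
    (y / B0) (by positivity) hWt y
    (fun m => (sum_abs_FF_le y w t m).trans ((cnt_le_card y w m).trans hcard))
    a EE GG hGG G (2 * G) hG0 (fun g hg => (hG g hg).1) (fun g hg => (hG g hg).2) Str K0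
    Lf Thr hLf hThr hL H (4 * (H * (1 + Real.log y) ^ 3 + y ^ 2))
    (fun e _ => by
      refine le_trans ?_ (cnt_sq_window h0 hy (a / e) H)
      refine sum_le_sum fun m _ => pow_le_pow_left₀ (sum_nonneg fun _ _ => abs_nonneg _)
        (sum_abs_FF_le y w t m) 2)
    Mmax pt hpt t0 ht0 n (by
      refine le_trans (le_of_eq ?_) hT
      ring) lam hlam
  rw [tot_FF] at hmain
  refine hmain.trans (le_of_eq ?_)
  push_cast
  ring

end Crest.Agent.R001.Uns
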