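import Crest.Agent.R001.Str6
import Crest.Agent.R001.Uns3

-- ▼ part R001/Str7
section

/-!
# R001, block STR, part 7: convenience form
-/

set_option autoImplicit false
set_option maxHeartbeats 1000000

namespace Crest.Agent.R001.Str

open Finset

/-- Structured nodes of large height are equidistributed, `L²` form. -/
theorem STR (M0 Del0 : ℕ) (hM0 : 0 < M0) (hDel0 : 0 < Del0) (DD : Finset ℕ) (c : ℕ → ℝ)
    (hpos : ∀ δ ∈ DD, 0 < δ ∧ δ ≤ Del0) (hlcm : ∀ δ ∈ DD, ∀ δ' ∈ DD, Nat.lcm δ δ' ∣ M0)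
    (a U : ℤ) (Q d0 : ℕ) (hQ : 0 < Q) (hd0 : 0 < d0) (hcop : IsCoprime U (Q : ℤ))
    (P1 P2 : ℕ) (hP1 : 0 < P1) (hP : P1 ≤ P2) (hP2 : P2 ≤ 2 * P1)
    (d1 : ℕ) (hd1 : d1 = Int.gcd (d0 : ℤ) (Q * a - U)) (u : ℕ) (hu : u = d0 / d1)
    (N : Finset ℕ)
    (hN : ∀ n ∈ N, P1 < n ∧ n ≤ P2 ∧ Nat.Coprime n (Q * u * M0) ∧
      ((n * d1 : ℕ) : ℤ) ∣ Q * a - U)
    (N0 : ℝ) (hN0 : 0 ≤ N0)
    (hbig : Del0 ^ 2 ≤ Q * u ∨
      (Del0 : ℝ) ^ 2 * (N0 + 2) ≤ |(U : ℝ)| / d1 * ((P2 : ℝ) - P1) / (P1 * P2)) :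
    ∑ n ∈ N, (err DD c N0 ((a : ℝ) / (n * d0))) ^ 2
      ≤ 100 * (N0 + 1) * (((P2 : ℝ) - P1) + ((Q * u * M0 : ℕ) : ℝ) * (|(U : ℝ)| / d1 / P1 + 2))
          * vv DD c := by
  have hd1pos : 0 < d1 := by
    rw [hd1]; exact Int.gcd_pos_of_ne_zero_left _ (by exact_mod_cast hd0.ne')
  have hd1d0 : d1 ∣ d0 := by
    rw [hd1]
    have := Int.gcd_dvd_left (a := (d0 : ℤ)) (b := Q * a - U)
    exact_mod_cast this
  have hd1E : (d1 : ℤ) ∣ Q * a - U := by
    rw [hd1]; exact Int.gcd_dvd_right ..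
  have hud1 : u * d1 = d0 := by rw [hu]; exact Nat.div_mul_cancel hd1d0
  have hupos : 0 < u := by
    rcases Nat.eq_zero_or_pos u with h | h
    · rw [h, zero_mul] at hud1; omega
    · exact h
  obtain ⟨W, hW⟩ := hd1E
  set V : ℕ := Q * u with hV
  have hVpos : 0 < V := Nat.mul_pos hQ hupos
  set K : ℕ := Q * u * M0 with hK
  have hKpos : 0 < K := Nat.mul_pos hVpos hM0
  have hd1z : (d1 : ℤ) ≠ 0 := by exact_mod_cast hd1pos.ne'
  -- coprimality
  have hWu : IsCoprime W (u : ℤ) := by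
    rw [Int.isCoprime_iff_gcd_eq_one]
    have h1 : Int.gcd ((u : ℤ) * d1) (W * d1) = Int.gcd (u : ℤ) W * d1 := by
      rw [Int.gcd_mul_right]
      simp
    have h2 : (u : ℤ) * d1 = (d0 : ℤ) := by exact_mod_cast hud1
    have h3 : W * d1 = Q * a - U := by rw [hW]; ring
    rw [h2, h3, ← hd1] at h1
    have h4 : Int.gcd (u : ℤ) W = 1 :=
      Nat.eq_of_mul_eq_mul_right hd1pos (by rw [← h1, one_mul])
    rw [Int.gcd_comm]; exact h4
  have hWQ : IsCoprime W (Q : ℤ) := by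
    have h1 : IsCoprime (Q * a - U) (Q : ℤ) := by
      obtain ⟨p, q, hpq⟩ := hcop
      exact ⟨-p, q + p * a, by linear_combination hpq⟩
    rw [hW] at h1
    exact h1.of_mul_left_right
  have hWV : IsCoprime W (V : ℤ) := by
    rw [hV]; push_cast
    exact hWQ.mul_right hWu
  have hgcd : ∀ δ ∈ DD, ∀ δ' ∈ DD,
      Int.gcd W ((V * Nat.lcm δ δ' : ℕ) : ℤ) ≤ Del0 ^ 2 := by
    intro δ hδ δ' hδ'
    have h1 : Int.gcd W ((V * Nat.lcm δ δ' : ℕ) : ℤ) = Int.gcd W ((Nat.lcm δ δ' : ℕ) : ℤ) := by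
      push_cast
      have h2 : Nat.Coprime W.natAbs V := by
        have := Int.isCoprime_iff_gcd_eq_one.mp hWV
        rwa [Int.gcd_def, Int.natAbs_natCast] at this
      rw [Int.gcd_def, Int.gcd_def, Int.natAbs_mul, Int.natAbs_natCast]
      exact Nat.Coprime.gcd_mul_left_cancel_right _ h2.symm |> fun h => h
    rw [h1]
    have h3 : Int.gcd W ((Nat.lcm δ δ' : ℕ) : ℤ) ≤ Nat.lcm δ δ' := by
      apply Nat.le_of_dvd (Nat.lcm_pos (hpos δ hδ).1 (hpos δ' hδ').1)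
      have := Int.gcd_dvd_right (a := W) (b := ((Nat.lcm δ δ' : ℕ) : ℤ))
      exact_mod_cast this
    refine h3.trans ?_
    have h4 : Nat.lcm δ δ' ≤ δ * δ' :=
      Nat.le_of_dvd (Nat.mul_pos (hpos δ hδ).1 (hpos δ' hδ').1) (Nat.lcm_dvd_mul δ δ')
    refine h4.trans ?_
    rw [sq]
    exact Nat.mul_le_mul (hpos δ hδ).2 (hpos δ' hδ').2
  have hDK : ∀ δ ∈ DD, ∀ δ' ∈ DD, V * Nat.lcm δ δ' ∣ K := by
    intro δ hδ δ' hδ'
    rw [hK]
    exact mul_dvd_mul_left V (hlcm δ hδ δ' hδ')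
  have hP1r : (0 : ℝ) < P1 := by exact_mod_cast hP1
  have hPr : (P1 : ℝ) ≤ P2 := by exact_mod_cast hP
  have hP2r' : (P2 : ℝ) ≤ 2 * P1 := by exact_mod_cast hP2
  have hKr : (0 : ℝ) < K := by exact_mod_cast hKpos
  have hd1r : (0 : ℝ) < d1 := by exact_mod_cast hd1pos
  have hd0r : (0 : ℝ) < d0 := by exact_mod_cast hd0
  have hur : (0 : ℝ) < u := by exact_mod_cast hupos
  have hQr : (0 : ℝ) < Q := by exact_mod_cast hQ
  have hud1r : (u : ℝ) * d1 = d0 := by exact_mod_cast hud1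
  set β : ℝ := (U : ℝ) / d1 with hβ
  have habs : |β| = |(U : ℝ)| / d1 := by rw [hβ, abs_div, abs_of_pos hd1r]
  have hN' : ∀ n ∈ N, P1 < n ∧ n ≤ P2 ∧ Nat.Coprime n K ∧ (n : ℤ) ∣ W := by
    intro n hn
    obtain ⟨h1, h2, h3, h4⟩ := hN n hn
    refine ⟨h1, h2, h3, ?_⟩
    rw [hW] at h4
    push_cast at h4
    rw [mul_comm] at h4
    exact Int.dvd_of_mul_dvd_mul_left hd1z h4
  have hx : ∀ n ∈ N, (V : ℝ) * ((a : ℝ) / (n * d0)) = ((W / n : ℤ) : ℝ) + β / n := by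
    intro n hn
    obtain ⟨h1, h2, h3, q, hq⟩ := hN' n hn
    have hn0 : 0 < n := by omega
    have hnr : (0 : ℝ) < n := by exact_mod_cast hn0
    have hqe : W / (n : ℤ) = q := by
      rw [hq]; exact Int.mul_ediv_cancel_left _ (by exact_mod_cast hn0.ne')
    rw [hqe, hβ, hV]
    have hWr : (Q : ℝ) * a - U = d1 * ((n : ℝ) * q) := by
      have := hW
      rw [hq] at this
      have h5 : ((Q * a - U : ℤ) : ℝ) = ((d1 * (n * q) : ℤ) : ℝ) := by rw [this]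
      push_cast at h5
      exact h5
    have hQa : (Q : ℝ) * a = d1 * ((n : ℝ) * q) + U := by linarith
    push_cast
    rw [← hud1r]
    field_simp
    linear_combination hQa
  have hvv := vv_nonneg DD c
  rw [← habs]
  have hb0 : 0 ≤ |β| / P1 := by positivity
  rcases hbig with hbig | hbig
  · have h1 := STR1 K V hKpos hVpos DD c (fun δ hδ => (hpos δ hδ).1) W hDK P1 P2 hP1 hP N hN' β
      N0 hN0 (fun n => (a : ℝ) / (n * d0)) hx
      (fun δ hδ δ' hδ' => (hgcd δ hδ δ' hδ').trans hbig)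
    refine h1.trans ?_
    apply mul_le_mul_of_nonneg_right _ hvv
    have hX : 0 ≤ ((P2 : ℝ) - P1) := by linarith
    have hY : 0 ≤ (K : ℝ) * (|β| / P1 + 2) := by positivity
    nlinarith [mul_nonneg hX hN0, mul_nonneg hY hN0]
  · rw [← habs] at hbig
    have hD1 : (1 : ℝ) ≤ Del0 := by exact_mod_cast hDel0
    have hD2 : (1 : ℝ) ≤ (Del0 : ℝ) ^ 2 := one_le_pow₀ hD1
    have h1 := STR2 K V hKpos hVpos DD c (fun δ hδ => (hpos δ hδ).1) W hDK P1 P2 hP1 hP N hN' β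
      N0 hN0 (fun n => (a : ℝ) / (n * d0)) hx ((Del0 : ℝ) ^ 2) hP2
      (fun δ hδ δ' hδ' => by exact_mod_cast hgcd δ hδ δ' hδ') hbig
      (by nlinarith)
    refine h1.trans ?_
    apply mul_le_mul_of_nonneg_right _ hvv
    have hX : 0 ≤ ((P2 : ℝ) - P1) := by linarith
    have hY : ((P2 : ℝ) - P1) * (K * |β| / (P1 : ℝ) ^ 2) ≤ K * (|β| / P1 + 2) := by
      calc ((P2 : ℝ) - P1) * (K * |β| / (P1 : ℝ) ^ 2)
          ≤ (P1 : ℝ) * (K * |β| / (P1 : ℝ) ^ 2) := by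
            apply mul_le_mul_of_nonneg_right _ (by positivity)
            linarith
        _ = K * (|β| / P1) := by field_simp
        _ ≤ _ := by nlinarith
    have hZ : ((P2 : ℝ) - P1) * (1 + K * |β| / (P1 : ℝ) ^ 2)
        ≤ ((P2 : ℝ) - P1) + K * (|β| / P1 + 2) := by linarith
    calc 100 * ((P2 : ℝ) - P1) * (N0 + 1) * (1 + K * |β| / (P1 : ℝ) ^ 2)
        = 100 * (N0 + 1) * (((P2 : ℝ) - P1) * (1 + K * |β| / (P1 : ℝ) ^ 2)) := by ring
      _ ≤ _ := mul_le_mul_of_nonneg_left hZ (by positivity)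

end Crest.Agent.R001.Str
end

-- ▼ part R001/SE2

/-!
# R1, block SE, part 2 (helper301): one class

Randomisation of the Rosser weights over the sets `Q` of large primes, expectation of the
energy, first moment bound from an `L²` bound for every modulus `primorial t * ∏ Q ≤ Mmax`.
-/

set_option autoImplicit false

open Finset

namespace Crest.Agent.R001.SE

open Crest.Agent.R001.Tree Crest.Agent.R001.EST Crest.Agent.R001.Uns Crest.Agent.R001.Str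

/-- number of multiples of `δ` in the window `(x - N0, x]` -/
noncomputable def cw (N0 x : ℝ) (δ : ℕ) : ℝ :=
  (((Ioc ⌊x - N0⌋ ⌊x⌋).filter (fun s => (δ : ℤ) ∣ s)).card : ℝ)

/-- randomised coefficient of an element of the index set -/
noncomputable def co (p : ℕ → ℝ) (t : ℕ) (x : ℕ × ℕ) : ℝ := ∏ q ∈ RR0 t x, (p q)⁻¹

open Classical in
/-- the randomised error -/
noncomputable def errQ (y : ℝ) (w t : ℕ) (p : ℕ → ℝ) (Q : Finset ℕ) (N0 x : ℝ) : ℝ :=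
  ∑ z ∈ Idx y w with RR0 t z ⊆ Q, co p t z * sgn z * (cw N0 x (Uns.val z) - N0 / Uns.val z)

/-- the full error -/
noncomputable def errW (y : ℝ) (w : ℕ) (N0 x : ℝ) : ℝ :=
  ∑ z ∈ Idx y w, sgn z * (cw N0 x (Uns.val z) - N0 / Uns.val z)

lemma abs_cw_sub_le (N0 x : ℝ) (hN0 : 0 ≤ N0) {δ : ℕ} (hδ : 0 < δ) :
    |cw N0 x δ - N0 / δ| ≤ 1 := by
  have hδ' : (0 : ℤ) < δ := by exact_mod_cast hδ
  have hδr : (0 : ℝ) < δ := by exact_mod_cast hδ
  unfold cw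
  have h := Int.Ioc_filter_dvd_card ⌊x - N0⌋ ⌊x⌋ hδ'
  have h1 : ((((Ioc ⌊x - N0⌋ ⌊x⌋).filter (fun s => (δ : ℤ) ∣ s)).card : ℤ) : ℝ) =
      ((max (⌊(⌊x⌋ : ℚ) / (δ : ℤ)⌋ - ⌊(⌊x - N0⌋ : ℚ) / (δ : ℤ)⌋) 0 : ℤ) : ℝ) := by
    exact_mod_cast h
  have e1 : ⌊(⌊x⌋ : ℚ) / (δ : ℤ)⌋ = ⌊x⌋ / (δ : ℤ) := Rat.floor_intCast_div_natCast ⌊x⌋ δ
  have e2 : ⌊(⌊x - N0⌋ : ℚ) / (δ : ℤ)⌋ = ⌊x - N0⌋ / (δ : ℤ) :=
    Rat.floor_intCast_div_natCast ⌊x - N0⌋ δ
  have f1 : ⌊x⌋ / (δ : ℤ) = ⌊x / δ⌋ := (Int.floor_div_natCast x δ).symm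
  have f2 : ⌊x - N0⌋ / (δ : ℤ) = ⌊(x - N0) / δ⌋ := (Int.floor_div_natCast (x - N0) δ).symm
  rw [e1, e2, f1, f2] at h1
  have h2 : (((Ioc ⌊x - N0⌋ ⌊x⌋).filter (fun s => (δ : ℤ) ∣ s)).card : ℝ) =
      max ((⌊x / δ⌋ : ℝ) - ⌊(x - N0) / δ⌋) 0 := by
    have : ((((Ioc ⌊x - N0⌋ ⌊x⌋).filter (fun s => (δ : ℤ) ∣ s)).card : ℤ) : ℝ) =
      (((Ioc ⌊x - N0⌋ ⌊x⌋).filter (fun s => (δ : ℤ) ∣ s)).card : ℝ) := by push_cast; rfl
    rw [← this, h1]
    push_cast
    rfl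
  rw [h2]
  have g1 := Int.floor_le (x / δ)
  have g2 := Int.lt_floor_add_one (x / δ)
  have g3 := Int.floor_le ((x - N0) / δ)
  have g4 := Int.lt_floor_add_one ((x - N0) / δ)
  have g5 : (x - N0) / δ = x / δ - N0 / δ := by ring
  have g6 : (0 : ℝ) ≤ N0 / δ := by positivity
  have g7 : ⌊(x - N0) / δ⌋ ≤ ⌊x / δ⌋ := Int.floor_le_floor (by rw [g5]; linarith)
  have g8 : ((⌊(x - N0) / δ⌋ : ℤ) : ℝ) ≤ ⌊x / δ⌋ := by exact_mod_cast g7
  have g3' : ((⌊(x - N0) / δ⌋ : ℤ) : ℝ) ≤ x / δ - N0 / δ := by rw [← g5]; exact g3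
  have g4' : x / δ - N0 / δ < ((⌊(x - N0) / δ⌋ : ℤ) : ℝ) + 1 := by rw [← g5]; exact g4
  rw [max_eq_left (by linarith), abs_le]
  constructor <;> linarith

/-- unbiasedness -/
lemma errW_eq (S : Finset ℕ) (p : ℕ → ℝ) (hp : ∀ q ∈ S, 0 < p q) (y : ℝ) (w t : ℕ)
    (hR : ∀ z ∈ Idx y w, RR0 t z ⊆ S) (N0 x : ℝ) :
    errW y w N0 x = ∑ Q ∈ S.powerset, Pr S p Q * errQ y w t p Q N0 x := by
  classical
  unfold errW errQ
  have h1 : ∀ Q ∈ S.powerset, Pr S p Q * ∑ z ∈ Idx y w with RR0 t z ⊆ Q,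
      co p t z * sgn z * (cw N0 x (Uns.val z) - N0 / Uns.val z) =
      ∑ z ∈ Idx y w, (if RR0 t z ⊆ Q then Pr S p Q else 0) *
        (co p t z * sgn z * (cw N0 x (Uns.val z) - N0 / Uns.val z)) := by
    intro Q _
    rw [Finset.mul_sum, Finset.sum_filter]
    refine Finset.sum_congr rfl fun z _ => ?_
    split_ifs <;> ring
  rw [Finset.sum_congr rfl h1, Finset.sum_comm]
  refine Finset.sum_congr rfl fun z hz => ?_
  rw [← Finset.sum_mul, ← Finset.sum_filter, sum_Pr_superset S p _ (hR z hz)]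
  unfold co
  have h2 : (∏ q ∈ RR0 t z, p q) * ∏ q ∈ RR0 t z, (p q)⁻¹ = 1 := by
    rw [← Finset.prod_mul_distrib]
    exact Finset.prod_eq_one fun q hq => mul_inv_cancel₀ (hp q (hR z hz hq)).ne'
  calc sgn z * (cw N0 x (Uns.val z) - N0 / Uns.val z)
      = ((∏ q ∈ RR0 t z, p q) * ∏ q ∈ RR0 t z, (p q)⁻¹) *
        (sgn z * (cw N0 x (Uns.val z) - N0 / Uns.val z)) := by rw [h2, one_mul]
    _ = _ := by ring

/-- trivial bound -/
lemma abs_errQ_le (y : ℝ) (w t : ℕ) (p : ℕ → ℝ) {Wt : ℝ} (hWt0 : 0 ≤ Wt)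
    (hWt : ∀ z ∈ Idx y w, 0 ≤ co p t z ∧ co p t z ≤ Wt) (Q : Finset ℕ) (N0 x : ℝ) (hN0 : 0 ≤ N0) :
    |errQ y w t p Q N0 x| ≤ (Idx y w).card * Wt := by
  classical
  unfold errQ
  refine (Finset.abs_sum_le_sum_abs _ _).trans ?_
  have h1 : ∀ z ∈ (Idx y w).filter (fun z => RR0 t z ⊆ Q),
      |co p t z * sgn z * (cw N0 x (Uns.val z) - N0 / Uns.val z)| ≤ Wt := by
    intro z hz
    have hz' := (Finset.mem_filter.mp hz).1
    obtain ⟨h0, h2⟩ := hWt z hz'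
    rw [abs_mul, abs_mul, abs_sgn, abs_of_nonneg h0, mul_one]
    have h3 := abs_cw_sub_le N0 x hN0 (val_pos hz')
    calc co p t z * |cw N0 x (Uns.val z) - N0 / Uns.val z| ≤ Wt * 1 :=
          mul_le_mul h2 h3 (abs_nonneg _) hWt0
      _ = Wt := mul_one _
  refine (Finset.sum_le_sum h1).trans ?_
  rw [Finset.sum_const, nsmul_eq_mul]
  refine mul_le_mul_of_nonneg_right ?_ hWt0
  exact_mod_cast Finset.card_filter_le _ _

/-- the linear form as a sum over moduli -/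
noncomputable def lamQ (y : ℝ) (w t : ℕ) (p : ℕ → ℝ) (Q : Finset ℕ) (D : ℕ) : ℝ := by
  classical
  exact ∑ z ∈ (Idx y w).filter (fun z => RR0 t z ⊆ Q ∧ Uns.val z = D), co p t z * sgn z

/-- the moduli -/
noncomputable def BBQ (y : ℝ) (w t : ℕ) (Q : Finset ℕ) : Finset ℕ := by
  classical
  exact ((Idx y w).filter (fun z => RR0 t z ⊆ Q)).image Uns.val

lemma errQ_eq_err (y : ℝ) (w t : ℕ) (p : ℕ → ℝ) (Q : Finset ℕ) (N0 x : ℝ) :
    errQ y w t p Q N0 x = err (BBQ y w t Q) (lamQ y w t p Q) N0 x := by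
  classical
  unfold errQ err BBQ lamQ
  rw [← Finset.sum_fiberwise_of_maps_to (s := (Idx y w).filter (fun z => RR0 t z ⊆ Q))
    (t := ((Idx y w).filter (fun z => RR0 t z ⊆ Q)).image Uns.val) (g := Uns.val)
    (fun z hz => Finset.mem_image_of_mem _ hz)]
  refine Finset.sum_congr rfl fun D _ => ?_
  rw [Finset.sum_mul, Finset.filter_filter]
  refine Finset.sum_congr rfl fun z hz => ?_
  rw [(Finset.mem_filter.mp hz).2.2]
  rfl

lemma BBQ_dvd (y : ℝ) (w t : ℕ) (Q : Finset ℕ) {D : ℕ} (hD : D ∈ BBQ y w t Q) :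
    D ∣ primorial t * ∏ q ∈ Q, q := by
  classical
  unfold BBQ at hD
  obtain ⟨z, hz, rfl⟩ := Finset.mem_image.mp hD
  obtain ⟨hz1, hz2⟩ := Finset.mem_filter.mp hz
  exact (val_dvd t hz1).trans (Nat.mul_dvd_mul_left _ (Finset.prod_dvd_prod_of_subset _ _ _ hz2))

lemma BBQ_pos (y : ℝ) (w t : ℕ) (Q : Finset ℕ) {D : ℕ} (hD : D ∈ BBQ y w t Q) : 0 < D := by
  classical
  unfold BBQ at hD
  obtain ⟨z, hz, rfl⟩ := Finset.mem_image.mp hD
  exact val_pos (Finset.mem_filter.mp hz).1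

lemma BBQ_lt {y : ℝ} {w t : ℕ} {Q : Finset ℕ} (h0 : Adm y 1 w) (hy : 1 < y) {D : ℕ}
    (hD : D ∈ BBQ y w t Q) : (D : ℝ) < y := by
  classical
  unfold BBQ at hD
  obtain ⟨z, hz, rfl⟩ := Finset.mem_image.mp hD
  exact val_lt h0 hy (Finset.mem_filter.mp hz).1

/-- energy bound over pairs of indices -/
lemma vv_le (y : ℝ) (w t : ℕ) (p : ℕ → ℝ) (hco : ∀ z ∈ Idx y w, 0 ≤ co p t z) (Q : Finset ℕ) :
    vv (BBQ y w t Q) (lamQ y w t p Q) ≤
      ∑ z ∈ Idx y w, ∑ z' ∈ Idx y w, (if RR0 t z ∪ RR0 t z' ⊆ Q then co p t z * co p t z' else 0) *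
        ((Nat.gcd (Uns.val z) (Uns.val z') : ℝ) / (Uns.val z * Uns.val z')) := by
  classical
  have habs : ∀ D, |lamQ y w t p Q D| ≤
      ∑ z ∈ (Idx y w).filter (fun z => RR0 t z ⊆ Q ∧ Uns.val z = D), co p t z := by
    intro D
    unfold lamQ
    refine (Finset.abs_sum_le_sum_abs _ _).trans (Finset.sum_le_sum fun z hz => ?_)
    rw [abs_mul, abs_sgn, mul_one, abs_of_nonneg (hco z (Finset.mem_filter.mp hz).1)]
  have hRHS : ∑ z ∈ Idx y w, ∑ z' ∈ Idx y w,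
      (if RR0 t z ∪ RR0 t z' ⊆ Q then co p t z * co p t z' else 0) *
        ((Nat.gcd (Uns.val z) (Uns.val z') : ℝ) / (Uns.val z * Uns.val z')) =
      ∑ z ∈ (Idx y w).filter (fun z => RR0 t z ⊆ Q), ∑ z' ∈ (Idx y w).filter (fun z => RR0 t z ⊆ Q),
        co p t z * co p t z' * ((Nat.gcd (Uns.val z) (Uns.val z') : ℝ) / (Uns.val z * Uns.val z')) := by
    rw [Finset.sum_filter]
    refine Finset.sum_congr rfl fun z _ => ?_
    by_cases h : RR0 t z ⊆ Q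
    · rw [if_pos h, Finset.sum_filter]
      refine Finset.sum_congr rfl fun z' _ => ?_
      by_cases h' : RR0 t z' ⊆ Q
      · rw [if_pos h', if_pos (Finset.union_subset h h')]
      · rw [if_neg h', if_neg (fun hh => h' (Finset.subset_union_right.trans hh)), zero_mul]
    · rw [if_neg h]
      refine Finset.sum_eq_zero fun z' _ => ?_
      rw [if_neg (fun hh => h (Finset.subset_union_left.trans hh)), zero_mul]
  rw [hRHS]
  unfold vv
  have hfib : ∀ f : ℕ → ℕ × ℕ → ℝ, ∑ D ∈ BBQ y w t Q,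
      ∑ z ∈ (Idx y w).filter (fun z => RR0 t z ⊆ Q ∧ Uns.val z = D), f D z =
      ∑ z ∈ (Idx y w).filter (fun z => RR0 t z ⊆ Q), f (Uns.val z) z := by
    intro f
    unfold BBQ
    rw [← Finset.sum_fiberwise_of_maps_to (s := (Idx y w).filter (fun z => RR0 t z ⊆ Q))
      (t := ((Idx y w).filter (fun z => RR0 t z ⊆ Q)).image Uns.val) (g := Uns.val)
      (fun z hz => Finset.mem_image_of_mem _ hz)]
    refine Finset.sum_congr rfl fun D _ => ?_
    rw [Finset.filter_filter]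
    refine Finset.sum_congr rfl fun z hz => ?_
    rw [(Finset.mem_filter.mp hz).2.2]
  calc ∑ D ∈ BBQ y w t Q, ∑ D' ∈ BBQ y w t Q,
        |lamQ y w t p Q D| * |lamQ y w t p Q D'| * ((Nat.gcd D D' : ℝ) / (D * D'))
      ≤ ∑ D ∈ BBQ y w t Q, ∑ D' ∈ BBQ y w t Q,
        (∑ z ∈ (Idx y w).filter (fun z => RR0 t z ⊆ Q ∧ Uns.val z = D), co p t z) *
        (∑ z' ∈ (Idx y w).filter (fun z => RR0 t z ⊆ Q ∧ Uns.val z = D'), co p t z') *
          ((Nat.gcd D D' : ℝ) / (D * D')) := by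
        refine Finset.sum_le_sum fun D _ => Finset.sum_le_sum fun D' _ => ?_
        refine mul_le_mul_of_nonneg_right ?_ (by positivity)
        exact mul_le_mul (habs D) (habs D') (abs_nonneg _)
          (Finset.sum_nonneg fun z hz => hco z (Finset.mem_filter.mp hz).1)
    _ = ∑ D ∈ BBQ y w t Q, ∑ z ∈ (Idx y w).filter (fun z => RR0 t z ⊆ Q ∧ Uns.val z = D),
          ∑ D' ∈ BBQ y w t Q, ∑ z' ∈ (Idx y w).filter (fun z => RR0 t z ⊆ Q ∧ Uns.val z = D'),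
            co p t z * co p t z' * ((Nat.gcd D D' : ℝ) / (D * D')) := by
        refine Finset.sum_congr rfl fun D _ => ?_
        rw [Finset.sum_comm]
        refine Finset.sum_congr rfl fun D' _ => ?_
        rw [Finset.sum_mul_sum, Finset.sum_mul]
        refine Finset.sum_congr rfl fun z _ => ?_
        rw [Finset.sum_mul]
    _ = ∑ D ∈ BBQ y w t Q, ∑ z ∈ (Idx y w).filter (fun z => RR0 t z ⊆ Q ∧ Uns.val z = D),
          ∑ z' ∈ (Idx y w).filter (fun z => RR0 t z ⊆ Q),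
            co p t z * co p t z' * ((Nat.gcd D (Uns.val z') : ℝ) / (D * Uns.val z')) := by
        refine Finset.sum_congr rfl fun D _ => Finset.sum_congr rfl fun z _ => ?_
        exact hfib (fun D' z' => co p t z * co p t z' * ((Nat.gcd D D' : ℝ) / (D * D')))
    _ = _ := hfib (fun D z => ∑ z' ∈ (Idx y w).filter (fun z => RR0 t z ⊆ Q),
            co p t z * co p t z' * ((Nat.gcd D (Uns.val z') : ℝ) / (D * Uns.val z')))

/-- fibres of `Uns.val` have at most two elements -/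
lemma sum_val_le (y : ℝ) (w : ℕ) (f : ℕ → ℝ) (hf : ∀ D, 0 ≤ f D) :
    ∑ z ∈ Idx y w, f (Uns.val z) ≤ 2 * ∑ D ∈ (Idx y w).image Uns.val, f D := by
  classical
  rw [← Finset.sum_fiberwise_of_maps_to (s := Idx y w) (t := (Idx y w).image Uns.val) (g := Uns.val)
    (fun x hx => Finset.mem_image_of_mem _ hx), Finset.mul_sum]
  refine Finset.sum_le_sum fun D _ => ?_
  have h1 : ∑ x ∈ Idx y w with Uns.val x = D, f (Uns.val x) =
      ((Idx y w).filter (fun x => Uns.val x = D)).card * f D := by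
    rw [← nsmul_eq_mul, ← Finset.sum_const]
    refine Finset.sum_congr rfl fun x hx => ?_
    rw [(Finset.mem_filter.1 hx).2]
  rw [h1]
  refine mul_le_mul_of_nonneg_right ?_ (hf D)
  have h3 : ((Idx y w).filter (fun x => Uns.val x = D)).card ≤ (univ : Finset Bool).card := by
    refine Finset.card_le_card_of_injOn (fun x => decide (x.2 = 1))
      (fun _ _ => Finset.mem_coe.2 (Finset.mem_univ _)) ?_
    intro x hx z hz h
    rw [Finset.mem_coe, Finset.mem_filter] at hx hz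
    exact val_fiber hx.1 hz.1 (hx.2.trans hz.2.symm) (by simpa using h)
  have h4 : (univ : Finset Bool).card = 2 := by decide
  rw [h4] at h3
  exact_mod_cast h3

/-- the unweighted energy over pairs of indices -/
lemma pair_energy {y : ℝ} {w : ℕ} (h0 : Adm y 1 w) (hy : 1 < y) :
    ∑ z ∈ Idx y w, ∑ z' ∈ Idx y w, ((Nat.gcd (Uns.val z) (Uns.val z') : ℝ) / (Uns.val z * Uns.val z')) ≤
      4 * (1 + Real.log y) ^ 3 := by
  classical
  obtain ⟨BB, hBB⟩ : ∃ BB, BB = (Idx y w).image Uns.val := ⟨_, rfl⟩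
  have hpos : ∀ D ∈ BB, 0 < D := by
    intro D hD
    rw [hBB] at hD
    obtain ⟨x, hx, rfl⟩ := Finset.mem_image.1 hD
    exact val_pos hx
  have hZ : ∀ b ∈ BB, 1 ≤ b ∧ b ≤ ⌊y⌋₊ := by
    intro b hb
    refine ⟨hpos b hb, ?_⟩
    rw [hBB] at hb
    obtain ⟨x, hx, rfl⟩ := Finset.mem_image.1 hb
    exact Nat.le_floor (val_lt h0 hy hx).le
  have h2 := Uns.energy_le BB ⌊y⌋₊ hZ
  have hfl : 1 ≤ ⌊y⌋₊ := Nat.le_floor (by simpa using hy.le)
  have h3 : Real.log ⌊y⌋₊ ≤ Real.log y :=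
    Real.log_le_log (by exact_mod_cast hfl) (Nat.floor_le (by linarith))
  have h3' : 0 ≤ Real.log ⌊y⌋₊ := Real.log_nonneg (by exact_mod_cast hfl)
  have h4 : (1 + Real.log ⌊y⌋₊) ^ 3 ≤ (1 + Real.log y) ^ 3 :=
    pow_le_pow_left₀ (by linarith) (by linarith) 3
  have h5 : ∀ D ∈ BB, ∀ D' ∈ BB, (Nat.gcd D D' : ℝ) / (D * D') = 1 / (Nat.lcm D D' : ℝ) := by
    intro D hD D' hD'
    have a1 : (0 : ℝ) < D := by exact_mod_cast hpos D hD
    have a2 : (0 : ℝ) < D' := by exact_mod_cast hpos D' hD'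
    have a3 : (0 : ℝ) < (Nat.lcm D D' : ℝ) := by
      exact_mod_cast Nat.lcm_pos (hpos D hD) (hpos D' hD')
    have a4 : (Nat.gcd D D' : ℝ) * (Nat.lcm D D' : ℝ) = D * D' := by
      exact_mod_cast Nat.gcd_mul_lcm D D'
    rw [div_eq_div_iff (by positivity) a3.ne', a4, one_mul]
  have h6 : ∑ D ∈ BB, ∑ D' ∈ BB, ((Nat.gcd D D' : ℝ) / (D * D')) = E2.energy BB (fun _ => 1) := by
    unfold E2.energy
    refine Finset.sum_congr rfl fun D hD => Finset.sum_congr rfl fun D' hD' => ?_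
    rw [h5 D hD D' hD', abs_one, one_mul]
  calc ∑ z ∈ Idx y w, ∑ z' ∈ Idx y w, ((Nat.gcd (Uns.val z) (Uns.val z') : ℝ) / (Uns.val z * Uns.val z'))
      ≤ ∑ z ∈ Idx y w, 2 * ∑ D' ∈ BB, ((Nat.gcd (Uns.val z) D' : ℝ) / (Uns.val z * D')) := by
        refine Finset.sum_le_sum fun z _ => ?_
        rw [hBB]
        exact sum_val_le y w (fun D' => (Nat.gcd (Uns.val z) D' : ℝ) / (Uns.val z * D'))
          (fun D' => by positivity)
    _ ≤ 2 * ∑ D ∈ BB, 2 * ∑ D' ∈ BB, ((Nat.gcd D D' : ℝ) / (D * D')) := by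
        have := sum_val_le y w (fun D => 2 * ∑ D' ∈ BB, ((Nat.gcd D D' : ℝ) / (D * D')))
          (fun D => by
            have : 0 ≤ ∑ D' ∈ BB, ((Nat.gcd D D' : ℝ) / (D * D')) :=
              Finset.sum_nonneg fun D' _ => by positivity
            positivity)
        rwa [← hBB] at this
    _ = 4 * ∑ D ∈ BB, ∑ D' ∈ BB, ((Nat.gcd D D' : ℝ) / (D * D')) := by
        rw [← Finset.mul_sum]; ring
    _ ≤ 4 * (1 + Real.log y) ^ 3 := by
        rw [h6]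
        linarith

/-- expectation of the energy -/
lemma E_vv_le (S : Finset ℕ) (p : ℕ → ℝ) (hp : ∀ q ∈ S, 0 < p q) (hp1 : ∀ q ∈ S, p q ≤ 1)
    {y : ℝ} {w t : ℕ} (h0 : Adm y 1 w) (hy : 1 < y) (hR : ∀ z ∈ Idx y w, RR0 t z ⊆ S) {Wt : ℝ}
    (hWt0 : 0 ≤ Wt) (hWt : ∀ z ∈ Idx y w, co p t z ≤ Wt) :
    ∑ Q ∈ S.powerset, Pr S p Q * vv (BBQ y w t Q) (lamQ y w t p Q) ≤
      Wt * (4 * (1 + Real.log y) ^ 3) := by
  classical
  have hco : ∀ z ∈ Idx y w, 0 ≤ co p t z := fun z hz =>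
    Finset.prod_nonneg fun q hq => (inv_pos.2 (hp q (hR z hz hq))).le
  calc ∑ Q ∈ S.powerset, Pr S p Q * vv (BBQ y w t Q) (lamQ y w t p Q)
      ≤ ∑ Q ∈ S.powerset, Pr S p Q * ∑ z ∈ Idx y w, ∑ z' ∈ Idx y w,
        (if RR0 t z ∪ RR0 t z' ⊆ Q then co p t z * co p t z' else 0) *
        ((Nat.gcd (Uns.val z) (Uns.val z') : ℝ) / (Uns.val z * Uns.val z')) := by
        refine Finset.sum_le_sum fun Q hQ => ?_
        exact mul_le_mul_of_nonneg_left (vv_le y w t p hco Q)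
          (Pr_nonneg S p (fun q hq => (hp q hq).le) hp1 Q (Finset.mem_powerset.mp hQ))
    _ = ∑ z ∈ Idx y w, ∑ z' ∈ Idx y w,
          (∑ Q ∈ S.powerset with RR0 t z ∪ RR0 t z' ⊆ Q, Pr S p Q) * (co p t z * co p t z') *
          ((Nat.gcd (Uns.val z) (Uns.val z') : ℝ) / (Uns.val z * Uns.val z')) := by
        simp_rw [Finset.mul_sum]
        rw [Finset.sum_comm]
        refine Finset.sum_congr rfl fun z _ => ?_
        rw [Finset.sum_comm]
        refine Finset.sum_congr rfl fun z' _ => ?_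
        rw [Finset.sum_filter, Finset.sum_mul, Finset.sum_mul]
        refine Finset.sum_congr rfl fun Q _ => ?_
        split_ifs <;> ring
    _ ≤ ∑ z ∈ Idx y w, ∑ z' ∈ Idx y w,
          Wt * ((Nat.gcd (Uns.val z) (Uns.val z') : ℝ) / (Uns.val z * Uns.val z')) := by
        refine Finset.sum_le_sum fun z hz => Finset.sum_le_sum fun z' hz' => ?_
        refine mul_le_mul_of_nonneg_right ?_ (by positivity)
        rw [sum_Pr_superset S p _ (Finset.union_subset (hR z hz) (hR z' hz'))]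
        have h1 := cov_le S p hp hp1 (RR0 t z) (RR0 t z') (hR z hz) (hR z' hz')
        have h2 := hWt z hz
        unfold co at h2 ⊢
        calc (∏ q ∈ RR0 t z ∪ RR0 t z', p q) *
              ((∏ q ∈ RR0 t z, (p q)⁻¹) * ∏ q ∈ RR0 t z', (p q)⁻¹)
            = (∏ q ∈ RR0 t z, (p q)⁻¹) * (∏ q ∈ RR0 t z', (p q)⁻¹) *
              ∏ q ∈ RR0 t z ∪ RR0 t z', p q := by ring
          _ ≤ ∏ q ∈ RR0 t z, (p q)⁻¹ := h1
          _ ≤ Wt := h2
    _ = Wt * ∑ z ∈ Idx y w, ∑ z' ∈ Idx y w,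
          ((Nat.gcd (Uns.val z) (Uns.val z') : ℝ) / (Uns.val z * Uns.val z')) := by
        rw [Finset.mul_sum]
        refine Finset.sum_congr rfl fun z _ => ?_
        rw [Finset.mul_sum]
    _ ≤ Wt * (4 * (1 + Real.log y) ^ 3) :=
        mul_le_mul_of_nonneg_left (pair_energy h0 hy) hWt0

/-- **one class**: first moment of the error from the `L²` bounds `hstr` for the moduli
`primorial t * ∏ Q ≤ Mmax`. -/
theorem class_bound (y : ℝ) (w t Z : ℕ) (Lam B0 : ℝ) (k : ℕ) (h0 : Adm y 1 w) (hy : 1 < y)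
    (hLam : 1 ≤ Lam) (hLt : Lam ≤ t) (hB0 : 1 ≤ B0) (hk : B0 ≤ Lam ^ k)
    (hyB : B0 ^ (2 * 3 ^ k) ≤ y) (hwZ : w ≤ Z + 1)
    (Mmax : ℕ) (pt : ℝ)
    (hpt : ∑ Q ∈ (SP t Z).powerset with Mmax < primorial t * ∏ q ∈ Q, q,
      Pr (SP t Z) (fun q : ℕ => Lam / (q : ℝ)) Q ≤ pt)
    (N : Finset ℕ) (xx : ℕ → ℝ) (N0 : ℝ) (hN0 : 0 ≤ N0) (B1 : ℝ) (hB1 : 0 ≤ B1)
    (hstr : ∀ (M : ℕ) (DD : Finset ℕ) (c : ℕ → ℝ), 0 < M → M ≤ Mmax →
      (∀ δ ∈ DD, 0 < δ ∧ (δ : ℝ) ≤ y) → (∀ δ ∈ DD, δ ∣ M) → (∀ r, r.Prime → r ∣ M → r ≤ max t Z) →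
      ∑ n ∈ N, (err DD c N0 (xx n)) ^ 2 ≤ B1 * vv DD c)
    (lam : ℝ) (hlam : 0 < lam) :
    ∑ n ∈ N, |errW y w N0 (xx n)| ≤
      B1 * (y / B0 * (4 * (1 + Real.log y) ^ 3)) / lam + lam * N.card +
        pt * (N.card * (y * (y / B0))) := by
  classical
  have hyp : 0 < y := by linarith
  have hB0' : 0 < B0 := by linarith
  obtain ⟨S, hS⟩ : ∃ S, S = SP t Z := ⟨_, rfl⟩
  obtain ⟨p, hpdef⟩ : ∃ p : ℕ → ℝ, p = fun q : ℕ => Lam / (q : ℝ) := ⟨_, rfl⟩
  have hSpos : ∀ q ∈ S, 0 < q := fun q hq => by rw [hS] at hq; exact (mem_SP.1 hq).2.1.pos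
  have hLam0 : 0 < Lam := by linarith
  have hp : ∀ q ∈ S, 0 < p q := fun q hq => by
    have : (0 : ℝ) < q := by exact_mod_cast hSpos q hq
    rw [hpdef]
    positivity
  have hp1 : ∀ q ∈ S, p q ≤ 1 := fun q hq => by
    have h1 : (0 : ℝ) < q := by exact_mod_cast hSpos q hq
    have h2 : (t : ℝ) ≤ q := by
      rw [hS] at hq
      exact_mod_cast (mem_SP.1 hq).2.2.le
    rw [hpdef]
    show Lam / (q : ℝ) ≤ 1
    rw [div_le_one h1]
    linarith
  have hR : ∀ z ∈ Idx y w, RR0 t z ⊆ S := by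
    intro x hx q hq
    unfold RR0 at hq
    rw [mem_filter] at hq
    have h1 := Nat.prime_of_mem_primeFactors hq.1
    have h2 := (val_sqf hx).2 q h1 (Nat.dvd_of_mem_primeFactors hq.1)
    rw [hS, mem_SP]
    exact ⟨by omega, h1, hq.2⟩
  have hWt0 : 0 ≤ y / B0 := by positivity
  have hWt : ∀ z ∈ Idx y w, co p t z ≤ y / B0 := by
    intro x hx
    unfold co
    rw [hpdef]
    show ∏ q ∈ RR0 t x, (Lam / (q : ℝ))⁻¹ ≤ y / B0
    rw [prod_inv_eq_ell, le_div_iff₀ hB0', mul_comm]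
    exact weight_bound h0 hy hLam hB0 hk hyB hx
  have hco : ∀ z ∈ Idx y w, 0 ≤ co p t z := fun z hz =>
    Finset.prod_nonneg fun q hq => (inv_pos.2 (hp q (hR z hz hq))).le
  have hcard := card_Idx_le h0 hy
  have hPr : ∀ Q ∈ S.powerset, 0 ≤ Pr S p Q := fun Q hQ =>
    Pr_nonneg S p (fun q hq => (hp q hq).le) hp1 Q (Finset.mem_powerset.mp hQ)
  rw [← hS, ← hpdef] at hpt
  -- pointwise
  have h1 : ∑ n ∈ N, |errW y w N0 (xx n)| ≤
      ∑ Q ∈ S.powerset, Pr S p Q * ∑ n ∈ N, |errQ y w t p Q N0 (xx n)| := by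
    simp_rw [Finset.mul_sum]
    rw [Finset.sum_comm]
    refine Finset.sum_le_sum fun n _ => ?_
    rw [errW_eq S p hp y w t hR]
    refine (Finset.abs_sum_le_sum_abs _ _).trans (Finset.sum_le_sum fun Q hQ => ?_)
    rw [abs_mul, abs_of_nonneg (hPr Q hQ)]
  -- the bad `Q`
  have hbad : ∀ Q, ∑ n ∈ N, |errQ y w t p Q N0 (xx n)| ≤ N.card * (y * (y / B0)) := by
    intro Q
    have h2 : ∀ n ∈ N, |errQ y w t p Q N0 (xx n)| ≤ y * (y / B0) := fun n _ =>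
      (abs_errQ_le y w t p hWt0 (fun z hz => ⟨hco z hz, hWt z hz⟩) Q N0 (xx n) hN0).trans
        (mul_le_mul_of_nonneg_right hcard hWt0)
    refine (Finset.sum_le_sum h2).trans ?_
    rw [Finset.sum_const, nsmul_eq_mul]
  -- the good `Q`
  have hgood : ∀ Q ∈ S.powerset, ¬ Mmax < primorial t * ∏ q ∈ Q, q →
      ∑ n ∈ N, |errQ y w t p Q N0 (xx n)| ≤
        B1 * vv (BBQ y w t Q) (lamQ y w t p Q) / lam + lam * N.card := by
    intro Q hQ hM
    rw [Finset.mem_powerset] at hQ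
    have h2 : ∑ n ∈ N, (err (BBQ y w t Q) (lamQ y w t p Q) N0 (xx n)) ^ 2 ≤
        B1 * vv (BBQ y w t Q) (lamQ y w t p Q) := by
      refine hstr (primorial t * ∏ q ∈ Q, q) _ _ ?_ (not_lt.mp hM) ?_ ?_ ?_
      · exact Nat.mul_pos (primorial_pos t) (Finset.prod_pos fun q hq => hSpos q (hQ hq))
      · exact fun δ hδ => ⟨BBQ_pos y w t Q hδ, (BBQ_lt h0 hy hδ).le⟩
      · exact fun δ hδ => BBQ_dvd y w t Q hδ
      · intro r hr hrd
        rcases (Nat.Prime.dvd_mul hr).mp hrd with h | h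
        · exact le_max_of_le_left ((hr.dvd_primorial_iff).mp h)
        · obtain ⟨q, hq, hrq⟩ := (hr.prime.dvd_finset_prod_iff _).mp h
          have hqS := hQ hq
          rw [hS, mem_SP] at hqS
          have := (Nat.prime_dvd_prime_iff_eq hr hqS.2.1).mp hrq
          rw [this]
          exact le_max_of_le_right hqS.1
    have h3 : ∀ n ∈ N, |errQ y w t p Q N0 (xx n)| ≤
        (err (BBQ y w t Q) (lamQ y w t p Q) N0 (xx n)) ^ 2 / lam + lam := by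
      intro n _
      rw [errQ_eq_err]
      obtain ⟨e, he⟩ : ∃ e, e = err (BBQ y w t Q) (lamQ y w t p Q) N0 (xx n) := ⟨_, rfl⟩
      rw [← he]
      have h4 : |e| * lam ≤ e ^ 2 + lam * lam := by
        have h5 := sq_abs e
        have h6 := abs_nonneg e
        nlinarith [sq_nonneg (|e| - lam)]
      have h7 : e ^ 2 / lam + lam = (e ^ 2 + lam * lam) / lam := by field_simp
      rw [h7, le_div_iff₀ hlam]
      exact h4
    calc ∑ n ∈ N, |errQ y w t p Q N0 (xx n)|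
        ≤ ∑ n ∈ N, ((err (BBQ y w t Q) (lamQ y w t p Q) N0 (xx n)) ^ 2 / lam + lam) :=
          Finset.sum_le_sum h3
      _ = (∑ n ∈ N, (err (BBQ y w t Q) (lamQ y w t p Q) N0 (xx n)) ^ 2) / lam + lam * N.card := by
          rw [Finset.sum_add_distrib, ← Finset.sum_div, Finset.sum_const, nsmul_eq_mul]
          ring
      _ ≤ B1 * vv (BBQ y w t Q) (lamQ y w t p Q) / lam + lam * N.card := by
          gcongr
  have hvv0 : ∀ Q, 0 ≤ vv (BBQ y w t Q) (lamQ y w t p Q) := fun Q => vv_nonneg _ _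
  have hone : ∑ Q ∈ S.powerset, Pr S p Q = 1 := sum_Pr S p
  refine h1.trans ?_
  have h2 : ∑ Q ∈ S.powerset, Pr S p Q * ∑ n ∈ N, |errQ y w t p Q N0 (xx n)| ≤
      ∑ Q ∈ S.powerset, (Pr S p Q * (B1 * vv (BBQ y w t Q) (lamQ y w t p Q) / lam + lam * N.card) +
        (if Mmax < primorial t * ∏ q ∈ Q, q then Pr S p Q else 0) * (N.card * (y * (y / B0)))) := by
    refine Finset.sum_le_sum fun Q hQ => ?_
    have hv := hvv0 Q
    have hN' : (0 : ℝ) ≤ N.card := Nat.cast_nonneg _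
    split_ifs with h
    · have := mul_le_mul_of_nonneg_left (hbad Q) (hPr Q hQ)
      have h3 : 0 ≤ Pr S p Q * (B1 * vv (BBQ y w t Q) (lamQ y w t p Q) / lam + lam * N.card) :=
        mul_nonneg (hPr Q hQ) (by positivity)
      linarith
    · rw [zero_mul, add_zero]
      exact mul_le_mul_of_nonneg_left (hgood Q hQ h) (hPr Q hQ)
  refine h2.trans ?_
  rw [Finset.sum_add_distrib, ← Finset.sum_mul, ← Finset.sum_filter]
  have h3 : ∑ Q ∈ S.powerset, Pr S p Q *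
      (B1 * vv (BBQ y w t Q) (lamQ y w t p Q) / lam + lam * N.card) =
      (B1 / lam) * ∑ Q ∈ S.powerset, Pr S p Q * vv (BBQ y w t Q) (lamQ y w t p Q) +
        lam * N.card * ∑ Q ∈ S.powerset, Pr S p Q := by
    rw [Finset.mul_sum, Finset.mul_sum, ← Finset.sum_add_distrib]
    refine Finset.sum_congr rfl fun Q _ => ?_
    ring
  rw [h3, hone, mul_one]
  have h4 := E_vv_le S p hp hp1 h0 hy hR hWt0 hWt
  have h5 : (B1 / lam) * ∑ Q ∈ S.powerset, Pr S p Q * vv (BBQ y w t Q) (lamQ y w t p Q) ≤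
      B1 * (y / B0 * (4 * (1 + Real.log y) ^ 3)) / lam := by
    calc (B1 / lam) * ∑ Q ∈ S.powerset, Pr S p Q * vv (BBQ y w t Q) (lamQ y w t p Q)
        ≤ (B1 / lam) * (y / B0 * (4 * (1 + Real.log y) ^ 3)) := by gcongr
      _ = _ := by ring
  have h6 : (∑ Q ∈ S.powerset with Mmax < primorial t * ∏ q ∈ Q, q, Pr S p Q) *
      (N.card * (y * (y / B0))) ≤ pt * (N.card * (y * (y / B0))) := by
    have hN' : (0 : ℝ) ≤ N.card := Nat.cast_nonneg _
    exact mul_le_mul_of_nonneg_right hpt (by positivity)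
  linarith

/-- the node inequality with a real window -/
lemma node_ge_real (a : ℤ) (X d : ℕ) (hd : 0 < d) (w : ℕ) (hdw : Rgh d w) (y : ℝ) {N0 : ℝ}
    (hN0 : 0 ≤ N0) (hN0X : N0 ≤ (X : ℝ) / d) :
    N0 * Theta y w + errW y w N0 ((a : ℝ) / d) ≤ sI a X d w := by
  classical
  have hd' : (0 : ℤ) < d := by exact_mod_cast hd
  have hdr : (0 : ℝ) < d := by exact_mod_cast hd
  obtain ⟨x, hx⟩ : ∃ x : ℝ, x = (a : ℝ) / d := ⟨_, rfl⟩
  obtain ⟨I, hI⟩ : ∃ I, I = Ioc ⌊x - N0⌋ ⌊x⌋ := ⟨_, rfl⟩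
  have h1 : N0 * Theta y w + errW y w N0 x = ∑ m ∈ I, W y w m := by
    unfold W errW cw
    rw [Theta_eq, Finset.mul_sum, ← Finset.sum_add_distrib, Finset.sum_comm, ← hI]
    refine Finset.sum_congr rfl fun z _ => ?_
    rw [← Finset.sum_filter, Finset.sum_const, nsmul_eq_mul]
    ring
  rw [← hx, h1, sI_eq]
  calc ∑ m ∈ I, W y w m
      ≤ ∑ m ∈ I, (if ∀ p : ℕ, p.Prime → p < w → ¬ (p : ℤ) ∣ m then (1 : ℝ) else 0) :=
        sum_le_sum fun m _ => W_le y w m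
    _ = ((I.filter (fun m => ∀ p : ℕ, p.Prime → p < w → ¬ (p : ℤ) ∣ m)).card : ℝ) := by
        rw [← sum_filter, sum_const, nsmul_eq_mul, mul_one]
    _ ≤ _ := by
        norm_cast
        refine card_le_card_of_injOn (fun m => (d : ℤ) * m) ?_ ?_
        · intro m hm
          rw [mem_coe, mem_filter, hI, mem_Ioc] at hm
          obtain ⟨⟨hm1, hm2⟩, hm4⟩ := hm
          rw [mem_coe, mem_filter, mem_Ioc]
          have g1 : x - N0 < m := Int.floor_lt.mp hm1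
          have g2 : (m : ℝ) ≤ x := Int.le_floor.mp hm2
          have g3 : ((d : ℤ) * m : ℤ) ≤ a := by
            have : (d : ℝ) * m ≤ a := by
              calc (d : ℝ) * m ≤ d * x := by gcongr
                _ = a := by rw [hx]; field_simp
            exact_mod_cast this
          have g4 : a - X < (d : ℤ) * m := by
            have : (a : ℝ) - X < (d : ℝ) * m := by
              calc (a : ℝ) - X = d * (x - X / d) := by rw [hx]; field_simp
                _ ≤ d * (x - N0) := by gcongr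
                _ < d * m := by gcongr
            exact_mod_cast this
          refine ⟨⟨g4, g3⟩, dvd_mul_right _ _, ?_⟩
          intro p hp hpw hdvd
          have hp' : Prime (p : ℤ) := Nat.prime_iff_prime_int.1 hp
          rcases hp'.dvd_or_dvd hdvd with h6 | h6
          · exact hdw p hp hpw (by exact_mod_cast h6)
          · exact hm4 p hp hpw h6
        · intro m _ m' _ h
          exact mul_left_cancel₀ hd'.ne' h

end Crest.Agent.R001.SE
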