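import Crest.Agent.R001.Asm1

-- ▼ part R001/SE1
section

/-!
# R1, block SE, part 1 (helper301)

* `sum_sqfree_le` : `Σ_{d ∈ DD} ∏_{p ∣ d} f p ≤ ∏_{p ∈ P} (1 + f p)` for squarefree `d`;
* `smooth_mass` : numbers with a large smooth part have tiny logarithmic mass;
* `disjoint_mass` : numbers structured with respect to two different fractions are rare;
* `exists_factor` : choice of the factor `n` of `d`.
-/

set_option autoImplicit false

open Finset Filter

namespace Crest.Agent.R001.SE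

/-- multiplicative majorant -/
lemma sum_sqfree_le (DD P : Finset ℕ) (hsq : ∀ d ∈ DD, Squarefree d)
    (hP : ∀ d ∈ DD, d.primeFactors ⊆ P) (f : ℕ → ℝ) (hf : ∀ p ∈ P, 0 ≤ f p) :
    ∑ d ∈ DD, ∏ p ∈ d.primeFactors, f p ≤ ∏ p ∈ P, (1 + f p) := by
  classical
  rw [Finset.prod_one_add]
  have hinj : Set.InjOn Nat.primeFactors (DD : Set ℕ) := by
    intro d hd d' hd' h
    rw [← Nat.prod_primeFactors_of_squarefree (hsq d hd),
      ← Nat.prod_primeFactors_of_squarefree (hsq d' hd'), h]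
  calc ∑ d ∈ DD, ∏ p ∈ d.primeFactors, f p
      = ∑ S ∈ DD.image Nat.primeFactors, ∏ p ∈ S, f p := by
        rw [Finset.sum_image hinj]
    _ ≤ ∑ S ∈ P.powerset, ∏ p ∈ S, f p := by
        refine Finset.sum_le_sum_of_subset_of_nonneg ?_ ?_
        · intro S hS
          obtain ⟨d, hd, rfl⟩ := Finset.mem_image.mp hS
          exact Finset.mem_powerset.mpr (hP d hd)
        · intro S hS _
          exact Finset.prod_nonneg fun p hp => hf p (Finset.mem_powerset.mp hS hp)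

/-- the part of `d` composed of primes `≤ y` -/
noncomputable def smp (y : ℕ) (d : ℕ) : ℕ := ∏ p ∈ d.primeFactors.filter (fun p => p ≤ y), p

/-- Rankin: explicit form. -/
lemma smooth_mass_explicit (DD : Finset ℕ) (N y : ℕ) (hN : 3 ≤ N)
    (hsq : ∀ d ∈ DD, Squarefree d) (hDN : ∀ d ∈ DD, d ≤ N) {B θ : ℝ} (hB : 0 < B) (hθ : 0 ≤ θ)
    (hθy : θ * Real.log y ≤ 1) (hs : ∀ d ∈ DD, B ≤ smp y d) :
    ∑ d ∈ DD, (1 : ℝ) / d ≤ Real.exp (-(θ * Real.log B) + 3 * (∑ p ∈ Nat.primesLE N, (1 : ℝ) / p)) := by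
  classical
  have hpos : ∀ d ∈ DD, 0 < d := fun d hd => Nat.pos_of_ne_zero (hsq d hd).ne_zero
  have h1 : ∀ d ∈ DD, (1 : ℝ) / d ≤ B ^ (-θ) *
      ∏ p ∈ d.primeFactors, ((if p ≤ y then (p : ℝ) ^ θ else 1) / p) := by
    intro d hd
    have hd0 : (0 : ℝ) < d := by exact_mod_cast hpos d hd
    rw [Finset.prod_div_distrib]
    have e1 : ∏ p ∈ d.primeFactors, (p : ℝ) = d := by
      rw [← Nat.cast_prod, Nat.prod_primeFactors_of_squarefree (hsq d hd)]
    have e2 : ∏ p ∈ d.primeFactors, (if p ≤ y then (p : ℝ) ^ θ else 1) = (smp y d : ℝ) ^ θ := by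
      rw [← Finset.prod_filter]
      unfold smp
      rw [Nat.cast_prod, Real.finsetProd_rpow _ _ (fun p _ => Nat.cast_nonneg p)]
    rw [e1, e2]
    have h2 := hs d hd
    have h3 : 1 ≤ B ^ (-θ) * (smp y d : ℝ) ^ θ := by
      rw [Real.rpow_neg hB.le, ← div_eq_inv_mul, one_le_div (by positivity)]
      exact Real.rpow_le_rpow hB.le h2 hθ
    rw [← mul_div_assoc]
    gcongr
  have hprimes : ∀ p ∈ Nat.primesLE N, p.Prime := fun p hp => (Nat.mem_primesLE.mp hp).2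
  have h2 : ∑ d ∈ DD, ∏ p ∈ d.primeFactors, ((if p ≤ y then (p : ℝ) ^ θ else 1) / p) ≤
      ∏ p ∈ Nat.primesLE N, (1 + (if p ≤ y then (p : ℝ) ^ θ else 1) / p) := by
    refine sum_sqfree_le DD _ hsq ?_ _ ?_
    · intro d hd p hp
      rw [Nat.mem_primesLE]
      exact ⟨(Nat.le_of_mem_primeFactors hp).trans (hDN d hd), Nat.prime_of_mem_primeFactors hp⟩
    · intro p _
      split_ifs <;> positivity
  have h3 : ∏ p ∈ Nat.primesLE N, (1 + (if p ≤ y then (p : ℝ) ^ θ else 1) / p) ≤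
      Real.exp (3 * (∑ p ∈ Nat.primesLE N, (1 : ℝ) / p)) := by
    rw [Finset.mul_sum, Real.exp_sum]
    refine Finset.prod_le_prod (fun p _ => by split_ifs <;> positivity) fun p hp => ?_
    have hp1 : (1 : ℝ) ≤ p := by exact_mod_cast (hprimes p hp).one_lt.le
    have h4 : (if p ≤ y then (p : ℝ) ^ θ else 1) ≤ 3 := by
      split_ifs with h
      · have h5 : (p : ℝ) ^ θ = Real.exp (θ * Real.log p) := by
          rw [Real.rpow_def_of_pos (by linarith)]
          congr 1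
          ring
        rw [h5]
        have h6 : θ * Real.log p ≤ 1 := by
          refine le_trans ?_ hθy
          have : Real.log p ≤ Real.log y :=
            Real.log_le_log (by linarith) (by exact_mod_cast h)
          exact mul_le_mul_of_nonneg_left this hθ
        calc Real.exp (θ * Real.log p) ≤ Real.exp 1 := Real.exp_le_exp.mpr h6
          _ ≤ 3 := Real.exp_one_lt_three.le
      · norm_num
    have h7 := Real.add_one_le_exp (3 * (1 / (p : ℝ)))
    calc 1 + (if p ≤ y then (p : ℝ) ^ θ else 1) / p ≤ 1 + 3 / p := by gcongr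
      _ = 3 * (1 / (p : ℝ)) + 1 := by ring
      _ ≤ _ := h7
  calc ∑ d ∈ DD, (1 : ℝ) / d ≤ ∑ d ∈ DD, B ^ (-θ) *
        ∏ p ∈ d.primeFactors, ((if p ≤ y then (p : ℝ) ^ θ else 1) / p) := Finset.sum_le_sum h1
    _ = B ^ (-θ) * ∑ d ∈ DD, ∏ p ∈ d.primeFactors, ((if p ≤ y then (p : ℝ) ^ θ else 1) / p) := by
        rw [Finset.mul_sum]
    _ ≤ B ^ (-θ) * Real.exp (3 * (∑ p ∈ Nat.primesLE N, (1 : ℝ) / p)) :=
        mul_le_mul_of_nonneg_left (h2.trans h3) (by positivity)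
    _ = _ := by
        rw [Real.exp_add]
        congr 1
        rw [Real.rpow_def_of_pos hB]
        congr 1
        ring

/-- the sum of reciprocals of the primes up to `N` is at most `log log N + 30` -/
lemma sum_primes_inv_le (N : ℕ) (hN : 3 ≤ N) :
    ∑ p ∈ Nat.primesLE N, (1 : ℝ) / p ≤ Real.log (Real.log N) + 60 := by
  have hN' : (2 : ℝ) ≤ N := by
    have : (3 : ℝ) ≤ N := by exact_mod_cast hN
    linarith
  have hM := Lib.Mertens.mertens_two 2 N le_rfl hN'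
  have h1 := (abs_le.mp hM).2
  have hl2 : 0 < Real.log 2 := Real.log_pos (by norm_num)
  have hsub : Nat.primesLE N ⊆ insert 2 (Lib.Mertens.pr 2 N) := by
    intro p hp
    rw [Nat.mem_primesLE] at hp
    rw [Finset.mem_insert, Lib.Mertens.mem_pr (by norm_num) (by positivity)]
    rcases eq_or_lt_of_le hp.2.two_le with h | h
    · exact Or.inl h.symm
    · exact Or.inr ⟨⟨by exact_mod_cast h, by exact_mod_cast hp.1⟩, hp.2⟩
  have h2 : ∑ p ∈ Nat.primesLE N, (1 : ℝ) / p ≤ 1 / 2 + ∑ p ∈ Lib.Mertens.pr 2 N, (1 : ℝ) / p := by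
    refine (Finset.sum_le_sum_of_subset_of_nonneg hsub fun p _ _ => by positivity).trans ?_
    by_cases h : 2 ∈ Lib.Mertens.pr 2 N
    · rw [Finset.insert_eq_of_mem h]
      norm_num
    · rw [Finset.sum_insert h]
      norm_num
  have h3 : Real.log (Real.log 2) ≥ -1 := by
    rw [ge_iff_le, Real.le_log_iff_exp_le hl2]
    have h4 := Real.exp_neg_one_lt_d9
    have h5 := Real.log_two_gt_d9
    linarith
  have h4 : 18 / Real.log 2 ≤ 30 := by
    rw [div_le_iff₀ hl2]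
    have := Real.log_two_gt_d9
    linarith
  linarith

/-- **smooth mass**: for `y ≤ (log x)^B`, the squarefree `d ≤ x^2` whose `y`-smooth part is at
least `x^c` have logarithmic mass `≤ (log x)^{-A}`. -/
theorem smooth_mass (B A : ℕ) (c : ℝ) (hc : 0 < c) : ∀ᶠ x : ℝ in atTop,
    ∀ (y N : ℕ) (DD : Finset ℕ), (y : ℝ) ≤ (Real.log x) ^ B → 3 ≤ N → (N : ℝ) ≤ x ^ 2 →
      (∀ d ∈ DD, Squarefree d) → (∀ d ∈ DD, d ≤ N) → (∀ d ∈ DD, x ^ c ≤ smp y d) →
      ∑ d ∈ DD, (1 : ℝ) / d ≤ 1 / (Real.log x) ^ A := by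
  have E1 : ∀ᶠ x : ℝ in atTop, 1 ≤ Real.log (Real.log x) :=
    Asm.tendsto_loglog.eventually_ge_atTop 1
  have E2 : ∀ᶠ x : ℝ in atTop,
      (((A : ℝ) + 200) * ((B : ℝ) + 1) / c) * (Real.log (Real.log x)) ^ (2 : ℝ) ≤
        (Real.log x) ^ (1 : ℝ) :=
    Real.tendsto_log_atTop.eventually
      (Asm.eventually_log_rpow_le 2 1 (((A : ℝ) + 200) * ((B : ℝ) + 1) / c) one_pos
        (by positivity))
  filter_upwards [E1, E2, eventually_ge_atTop (2 : ℝ)] with x e1 e2 e3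
  intro y N DD hy hN hNx hsq hDN hs
  rw [Real.rpow_one, show (2 : ℝ) = ((2 : ℕ) : ℝ) by norm_num, Real.rpow_natCast] at e2
  obtain ⟨L, hL⟩ : ∃ L, L = Real.log x := ⟨_, rfl⟩
  obtain ⟨l, hl⟩ : ∃ l, l = Real.log L := ⟨_, rfl⟩
  rw [← hL] at e1 e2 hy ⊢
  rw [← hl] at e1 e2
  have hx0 : 0 < x := by linarith
  have hL0 : 0 < L := by rw [hL]; exact Real.log_pos (by linarith)
  have hl0 : 0 < l := by linarith
  have hA0 : (0 : ℝ) ≤ A := Nat.cast_nonneg A
  have hB0 : (0 : ℝ) ≤ B := Nat.cast_nonneg B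
  obtain ⟨θ, hθ⟩ : ∃ θ : ℝ, θ = 1 / (((B : ℝ) + 1) * l) := ⟨_, rfl⟩
  have hθ0 : 0 < θ := by rw [hθ]; positivity
  have hθy : θ * Real.log y ≤ 1 := by
    have h1 : Real.log y ≤ B * l := by
      rcases Nat.eq_zero_or_pos y with h | h
      · rw [h]; simp only [Nat.cast_zero, Real.log_zero]; positivity
      · have := Real.log_le_log (by exact_mod_cast h) hy
        rwa [Real.log_pow, ← hl] at this
    calc θ * Real.log y ≤ θ * (B * l) := by gcongr
      _ = B / ((B : ℝ) + 1) := by rw [hθ]; field_simp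
      _ ≤ 1 := by rw [div_le_one (by linarith)]; linarith
  have hmain := smooth_mass_explicit DD N y hN hsq hDN (B := x ^ c) (by positivity) hθ0.le hθy hs
  refine hmain.trans ?_
  have h1 := sum_primes_inv_le N hN
  have hNl : Real.log (Real.log N) ≤ l + 1 := by
    have hN3 : (3 : ℝ) ≤ N := by exact_mod_cast hN
    have h2 : Real.log N ≤ 2 * L := by
      have h3 := Real.log_le_log (by linarith) hNx
      rwa [Real.log_pow, ← hL] at h3
    have h4 : 0 < Real.log N := Real.log_pos (by linarith)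
    have h5 := Real.log_le_log h4 h2
    rw [Real.log_mul (by norm_num) hL0.ne', ← hl] at h5
    have := Real.log_two_lt_d9
    linarith
  have hlogB : Real.log (x ^ c) = c * L := by rw [Real.log_rpow hx0, ← hL]
  rw [hlogB]
  have h2 : θ * (c * L) = c * L / (((B : ℝ) + 1) * l) := by rw [hθ]; field_simp
  have h3 : (A : ℝ) * l + 3 * (l + 1 + 60) ≤ c * L / (((B : ℝ) + 1) * l) := by
    rw [le_div_iff₀ (by positivity)]
    have h4 : ((A : ℝ) * l + 3 * (l + 1 + 60)) ≤ (A + 200) * l := by nlinarith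
    calc ((A : ℝ) * l + 3 * (l + 1 + 60)) * (((B : ℝ) + 1) * l)
        ≤ ((A + 200) * l) * (((B : ℝ) + 1) * l) := by gcongr
      _ = c * ((((A : ℝ) + 200) * ((B : ℝ) + 1) / c) * l ^ 2) := by field_simp
      _ ≤ c * L := by gcongr
  calc Real.exp (-(θ * (c * L)) + 3 * ∑ p ∈ Nat.primesLE N, (1 : ℝ) / p)
      ≤ Real.exp (-(A * l)) := by
        apply Real.exp_le_exp.mpr
        rw [h2]
        linarith
    _ = 1 / L ^ A := by
        rw [Real.exp_neg, one_div, hl, ← Real.log_pow, Real.exp_log (by positivity)]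

/-- harmonic bound -/
lemma sum_inv_le_log (DD : Finset ℕ) (N : ℕ) (h : ∀ d ∈ DD, 1 ≤ d ∧ d ≤ N) :
    ∑ d ∈ DD, (1 : ℝ) / d ≤ 1 + Real.log N := by
  have h1 : DD ⊆ Finset.Icc 1 N := fun d hd => Finset.mem_Icc.mpr (h d hd)
  have h2 := harmonic_le_one_add_log N
  rw [harmonic_eq_sum_Icc] at h2
  push_cast at h2
  calc ∑ d ∈ DD, (1 : ℝ) / d ≤ ∑ d ∈ Finset.Icc 1 N, (1 : ℝ) / d :=
        Finset.sum_le_sum_of_subset_of_nonneg h1 fun _ _ _ => by positivity
    _ = ∑ d ∈ Finset.Icc 1 N, (d : ℝ)⁻¹ := Finset.sum_congr rfl fun d _ => one_div _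
    _ ≤ 1 + Real.log N := h2

/-- multiples of one of few large primes -/
lemma prime_mass (DD T : Finset ℕ) (N y : ℕ) (h : ∀ d ∈ DD, 1 ≤ d ∧ d ≤ N)
    (hT : ∀ p ∈ T, y < p) (hdiv : ∀ d ∈ DD, ∃ p ∈ T, p ∣ d) :
    ∑ d ∈ DD, (1 : ℝ) / d ≤ T.card * ((1 + Real.log N) / (y + 1)) := by
  classical
  have h1 : ∑ d ∈ DD, (1 : ℝ) / d ≤ ∑ p ∈ T, ∑ d ∈ DD.filter (fun d => p ∣ d), (1 : ℝ) / d := by
    rw [Finset.sum_comm' (s := T) (t := fun p => DD.filter (fun d => p ∣ d)) (t' := DD)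
      (s' := fun d => T.filter (fun p => p ∣ d))]
    · refine Finset.sum_le_sum fun d hd => ?_
      obtain ⟨p, hp, hpd⟩ := hdiv d hd
      have hmem : p ∈ T.filter (fun p => p ∣ d) := Finset.mem_filter.mpr ⟨hp, hpd⟩
      exact Finset.single_le_sum (f := fun _ : ℕ => (1 : ℝ) / d) (fun _ _ => by positivity) hmem
    · intro p d
      simp only [Finset.mem_filter]
      tauto
  refine h1.trans ?_
  rw [← nsmul_eq_mul]
  refine Finset.sum_le_card_nsmul _ _ _ fun p hp => ?_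
  have hyp := hT p hp
  have hp0 : 0 < p := by omega
  have hinj : Set.InjOn (fun d => d / p) (DD.filter (fun d => p ∣ d) : Set ℕ) := by
    intro d hd d' hd' heq
    have hd1 := (Finset.mem_filter.mp hd).2
    have hd2 := (Finset.mem_filter.mp hd').2
    simp only at heq
    rw [← Nat.div_mul_cancel hd1, ← Nat.div_mul_cancel hd2, heq]
  have h2 : ∑ d ∈ DD.filter (fun d => p ∣ d), (1 : ℝ) / d =
      (1 / (p : ℝ)) * ∑ m ∈ (DD.filter (fun d => p ∣ d)).image (fun d => d / p), (1 : ℝ) / m := by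
    rw [Finset.sum_image hinj, Finset.mul_sum]
    refine Finset.sum_congr rfl fun d hd => ?_
    have hd1 := (Finset.mem_filter.mp hd).2
    have hd0 := (h d (Finset.mem_filter.mp hd).1).1
    have hp0' : (0 : ℝ) < p := by exact_mod_cast hp0
    rw [Nat.cast_div hd1 hp0'.ne']
    have : (0 : ℝ) < d := by exact_mod_cast hd0
    field_simp
  rw [h2]
  have h3 : ∑ m ∈ (DD.filter (fun d => p ∣ d)).image (fun d => d / p), (1 : ℝ) / m ≤
      1 + Real.log N := by
    refine sum_inv_le_log _ N fun m hm => ?_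
    obtain ⟨d, hd, rfl⟩ := Finset.mem_image.mp hm
    have hd1 := (Finset.mem_filter.mp hd).2
    obtain ⟨h4, h5⟩ := h d (Finset.mem_filter.mp hd).1
    exact ⟨Nat.div_pos (Nat.le_of_dvd h4 hd1) hp0, (Nat.div_le_self d p).trans h5⟩
  have hp1 : ((y : ℝ) + 1) ≤ p := by exact_mod_cast hyp
  have hlogN : 0 ≤ 1 + Real.log (N : ℝ) := by
    have := Real.log_natCast_nonneg N
    linarith
  calc 1 / (p : ℝ) * ∑ m ∈ (DD.filter (fun d => p ∣ d)).image (fun d => d / p), (1 : ℝ) / m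
      ≤ 1 / ((y : ℝ) + 1) * (1 + Real.log N) := by
        have : (0 : ℝ) < (y : ℝ) + 1 := by positivity
        gcongr
    _ = (1 + Real.log N) / (y + 1) := by ring

/-- choice of the factor: a squarefree number `≥ B`, all of whose primes are `< B^2`, has a
divisor in `[B, B^2)`. -/
lemma exists_factor (T : Finset ℕ) (hT : ∀ p ∈ T, 1 ≤ p) {B : ℝ} (hB : 1 < B)
    (hTB : ∀ p ∈ T, (p : ℝ) < B ^ 2) (hprod : B ≤ ∏ p ∈ T, (p : ℝ)) :
    ∃ S ⊆ T, B ≤ ∏ p ∈ S, (p : ℝ) ∧ ∏ p ∈ S, (p : ℝ) < B ^ 2 := by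
  classical
  have hex : ∃ k, ∃ S ⊆ T, S.card = k ∧ B ≤ ∏ p ∈ S, (p : ℝ) := ⟨_, T, Finset.Subset.refl _, rfl,
    hprod⟩
  obtain ⟨S, hST, hcard, hS⟩ := Nat.find_spec hex
  refine ⟨S, hST, hS, ?_⟩
  have hmin : ∀ p ∈ S, ∏ q ∈ S.erase p, (q : ℝ) < B := by
    intro p hp
    by_contra hcon
    push Not at hcon
    have h1 : (S.erase p).card < Nat.find hex := by
      rw [← hcard]
      exact Finset.card_erase_lt_of_mem hp
    exact Nat.find_min hex h1 ⟨S.erase p, (Finset.erase_subset _ _).trans hST, rfl, hcon⟩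
  have hne : S.Nonempty := by
    rw [Finset.nonempty_iff_ne_empty]
    rintro rfl
    rw [Finset.prod_empty] at hS
    linarith
  obtain ⟨p, hp, hpmin⟩ := Finset.exists_min_image S id hne
  have hpos : ∀ q ∈ S, (1 : ℝ) ≤ q := fun q hq => by exact_mod_cast hT q (hST hq)
  rw [← Finset.mul_prod_erase S _ hp]
  rcases (S.erase p).eq_empty_or_nonempty with he | ⟨q, hq⟩
  · rw [he, Finset.prod_empty, mul_one]
    exact hTB p (hST hp)
  · have h1 := hmin p hp
    have hqS := Finset.mem_of_mem_erase hq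
    have h2 : (p : ℝ) ≤ q := by exact_mod_cast hpmin q hqS
    have h3 : (q : ℝ) ≤ ∏ r ∈ S.erase p, (r : ℝ) := by
      rw [← Finset.mul_prod_erase (S.erase p) _ hq]
      have h4 : (1 : ℝ) ≤ ∏ r ∈ (S.erase p).erase q, (r : ℝ) := by
        calc (1 : ℝ) = ∏ r ∈ (S.erase p).erase q, (1 : ℝ) := by rw [Finset.prod_const_one]
          _ ≤ _ := Finset.prod_le_prod (fun _ _ => zero_le_one) fun r hr =>
            hpos r (Finset.mem_of_mem_erase (Finset.mem_of_mem_erase hr))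
      have := hpos q hqS
      nlinarith
    have h5 := hpos p hp
    calc (p : ℝ) * ∏ r ∈ S.erase p, (r : ℝ) < B * B := by
          apply mul_lt_mul'' (by linarith) h1 (by linarith)
          exact Finset.prod_nonneg fun r _ => Nat.cast_nonneg r
      _ = B ^ 2 := by ring

end Crest.Agent.R001.SE
end

-- ▼ part R001/SEdisj

/-!
# R1, block SE, part (SE-d) (helper47)

`disj` : the moduli structured with respect to at least two different fractions of `LL` have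
small logarithmic mass, so the families `M τ` are nearly disjoint.
-/

set_option autoImplicit false

open Finset Filter

namespace Crest.Agent.R001.SE

/-- double counting: the overlap of a family of finite sets is controlled by the pairs. -/
lemma sum_family_le {ι : Type*} [DecidableEq ι] (LL : Finset ι) (M : ι → Finset ℕ) (f : ℕ → ℝ)
    (hf : ∀ m, 0 ≤ f m) :
    ∑ τ ∈ LL, ∑ m ∈ M τ, f m ≤
      ∑ m ∈ LL.biUnion M, f m + ∑ τ ∈ LL.offDiag, ∑ m ∈ M τ.1 ∩ M τ.2, f m := by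
  classical
  have h1 : ∑ τ ∈ LL, ∑ m ∈ M τ, f m =
      ∑ m ∈ LL.biUnion M, ∑ τ ∈ LL.filter (fun τ => m ∈ M τ), f m := by
    apply Finset.sum_comm'
    intro τ m
    simp only [Finset.mem_filter, Finset.mem_biUnion]
    constructor
    · rintro ⟨a, b⟩
      exact ⟨⟨a, b⟩, τ, a, b⟩
    · rintro ⟨⟨a, b⟩, _⟩
      exact ⟨a, b⟩
  have h2 : ∑ τ ∈ LL.offDiag, ∑ m ∈ M τ.1 ∩ M τ.2, f m =
      ∑ m ∈ LL.biUnion M, ∑ τ ∈ LL.offDiag.filter (fun τ => m ∈ M τ.1 ∧ m ∈ M τ.2), f m := by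
    apply Finset.sum_comm'
    intro τ m
    simp only [Finset.mem_filter, Finset.mem_biUnion, Finset.mem_inter, Finset.mem_offDiag]
    constructor
    · rintro ⟨a, b⟩
      exact ⟨⟨a, b⟩, τ.1, a.1, b.1⟩
    · rintro ⟨⟨a, b⟩, _⟩
      exact ⟨a, b⟩
  rw [h1, h2, ← Finset.sum_add_distrib]
  refine Finset.sum_le_sum fun m _ => ?_
  have h3 : LL.offDiag.filter (fun τ => m ∈ M τ.1 ∧ m ∈ M τ.2) =
      (LL.filter (fun τ => m ∈ M τ)).offDiag := by
    ext τ
    simp only [Finset.mem_filter, Finset.mem_offDiag]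
    tauto
  rw [h3, Finset.sum_const, Finset.sum_const, nsmul_eq_mul, nsmul_eq_mul, Finset.offDiag_card]
  obtain ⟨n, hn⟩ : ∃ n, n = (LL.filter (fun τ => m ∈ M τ)).card := ⟨_, rfl⟩
  rw [← hn, Nat.cast_sub (Nat.le_mul_self n)]
  push_cast
  have h4 : (n : ℝ) ≤ 1 + (n * n - n) := by nlinarith [sq_nonneg ((n : ℝ) - 1)]
  calc (n : ℝ) * f m ≤ (1 + (n * n - n)) * f m := mul_le_mul_of_nonneg_right h4 (hf m)
    _ = f m + (n * n - n) * f m := by ring

/-- the number of prime factors of a non-zero integer of height `≤ 2 x^(16/15)`. -/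
lemma card_primeFactors_le {n : ℕ} (hn : n ≠ 0) {x : ℝ} (hx0 : 0 < x) (hx : 1 ≤ Real.log x)
    (hnx : (n : ℝ) ≤ 2 * x ^ ((16 : ℝ) / 15)) :
    (n.primeFactors.card : ℝ) ≤ 3 * Real.log x := by
  have h1 : 2 ^ n.primeFactors.card ≤ n := by
    calc 2 ^ n.primeFactors.card = ∏ p ∈ n.primeFactors, 2 := by rw [Finset.prod_const]
      _ ≤ ∏ p ∈ n.primeFactors, p := Finset.prod_le_prod' fun p hp =>
        (Nat.prime_of_mem_primeFactors hp).two_le
      _ ≤ n := Nat.le_of_dvd (Nat.pos_of_ne_zero hn) (Nat.prod_primeFactors_dvd n)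
  have h2 : (2 : ℝ) ^ n.primeFactors.card ≤ 2 * x ^ ((16 : ℝ) / 15) := by
    refine le_trans ?_ hnx
    exact_mod_cast h1
  have h3 := Real.log_le_log (by positivity) h2
  rw [Real.log_pow, Real.log_mul (by norm_num) (by positivity), Real.log_rpow hx0] at h3
  have h4 := Real.log_two_gt_d9
  have h5 := Real.log_two_lt_d9
  have h6 : (0 : ℝ) ≤ n.primeFactors.card := Nat.cast_nonneg _
  nlinarith

/-- two coprime fractions with positive denominators and vanishing determinant are equal -/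
lemma eq_of_det {τ σ : ℤ × ℤ} (h1 : 1 ≤ τ.2) (h2 : 1 ≤ σ.2) (h3 : IsCoprime τ.1 τ.2)
    (h4 : IsCoprime σ.1 σ.2) (h : τ.2 * σ.1 - σ.2 * τ.1 = 0) : τ = σ := by
  have h5 : τ.2 * σ.1 = σ.2 * τ.1 := by linarith
  have h6 : τ.2 ∣ σ.2 := by
    refine h3.symm.dvd_of_dvd_mul_right (x := τ.2) (y := σ.2) (z := τ.1) ?_
    exact ⟨σ.1, h5.symm⟩
  have h7 : σ.2 ∣ τ.2 := by
    refine h4.symm.dvd_of_dvd_mul_right (x := σ.2) (y := τ.2) (z := σ.1) ?_
    exact ⟨τ.1, h5⟩
  have h8 : τ.2 = σ.2 := Int.dvd_antisymm (by linarith) (by linarith) h6 h7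
  have h9 : τ.1 = σ.1 := by
    rw [h8] at h5
    have : σ.2 ≠ 0 := by omega
    exact (mul_left_cancel₀ this h5).symm
  exact Prod.ext h9 h8

/-- the common part of a number structured with respect to two fractions -/
lemma common_large {m : ℕ} {D E : ℤ} {x : ℝ} (hx : 1 ≤ x) (hm : 0 < m)
    (hm1 : x ^ ((1 : ℝ) / 3) ≤ m)
    (h1 : (m : ℝ) ≤ x ^ ((1 : ℝ) / 30) * (Int.gcd m D : ℝ))
    (h2 : (m : ℝ) ≤ x ^ ((1 : ℝ) / 30) * (Int.gcd m E : ℝ)) :
    x ^ ((1 : ℝ) / 5) ≤ (Nat.gcd (Int.gcd m D) (Int.gcd m E) : ℝ) ∧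
      (x ^ ((1 : ℝ) / 5) = (Nat.gcd (Int.gcd m D) (Int.gcd m E) : ℝ) → x = 1) := by
  have hx0 : 0 < x := by linarith
  obtain ⟨g1, hg1⟩ : ∃ g, g = Int.gcd m D := ⟨_, rfl⟩
  obtain ⟨g2, hg2⟩ : ∃ g, g = Int.gcd m E := ⟨_, rfl⟩
  have hd1 : g1 ∣ m := by
    rw [hg1]
    exact Int.natCast_dvd_natCast.mp (Int.gcd_dvd_left ..)
  have hd2 : g2 ∣ m := by
    rw [hg2]
    exact Int.natCast_dvd_natCast.mp (Int.gcd_dvd_left ..)
  rw [← hg1] at h1 ⊢
  rw [← hg2] at h2 ⊢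
  obtain ⟨g, hg⟩ : ∃ g, g = Nat.gcd g1 g2 := ⟨_, rfl⟩
  rw [← hg]
  have hlcm : g1 * g2 ≤ g * m := by
    rw [← Nat.gcd_mul_lcm g1 g2, ← hg]
    exact Nat.mul_le_mul_left _ (Nat.le_of_dvd hm (Nat.lcm_dvd hd1 hd2))
  have hlcm' : (g1 : ℝ) * g2 ≤ g * m := by exact_mod_cast hlcm
  have hm0 : (0 : ℝ) < m := by exact_mod_cast hm
  have e1 : x ^ ((1 : ℝ) / 30) * x ^ ((1 : ℝ) / 30) = x ^ ((1 : ℝ) / 15) := by
    rw [← Real.rpow_add hx0]
    norm_num
  have h3 : (m : ℝ) * m ≤ x ^ ((1 : ℝ) / 15) * (g * m) := by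
    calc (m : ℝ) * m ≤ (x ^ ((1 : ℝ) / 30) * g1) * (x ^ ((1 : ℝ) / 30) * g2) :=
          mul_le_mul h1 h2 hm0.le (by positivity)
      _ = x ^ ((1 : ℝ) / 15) * ((g1 : ℝ) * g2) := by rw [← e1]; ring
      _ ≤ _ := by gcongr
  have h4 : (m : ℝ) ≤ x ^ ((1 : ℝ) / 15) * g := by
    have : (m : ℝ) * m ≤ (x ^ ((1 : ℝ) / 15) * g) * m := by linarith
    exact le_of_mul_le_mul_right this hm0
  have h5 : x ^ ((4 : ℝ) / 15) ≤ g := by
    have h6 : x ^ ((1 : ℝ) / 15) * x ^ ((4 : ℝ) / 15) ≤ x ^ ((1 : ℝ) / 15) * g := by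
      rw [← Real.rpow_add hx0]
      norm_num
      norm_num at hm1 h4
      exact hm1.trans h4
    exact le_of_mul_le_mul_left h6 (by positivity)
  refine ⟨le_trans (Real.rpow_le_rpow_of_exponent_le hx (by norm_num)) h5, fun h => ?_⟩
  by_contra hne
  have hx1 : 1 < x := lt_of_le_of_ne hx (Ne.symm hne)
  have := Real.rpow_lt_rpow_of_exponent_lt hx1 (show (1 : ℝ) / 5 < 4 / 15 by norm_num)
  linarith

/-- **(SE-d)**: the structured moduli of different fractions are nearly disjoint. -/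
theorem disj (A B : ℕ) : ∀ᶠ x : ℝ in atTop, ∀ (a : ℤ) (y : ℕ), (y : ℝ) ≤ (Real.log x) ^ B →
    ∀ LL : Finset (ℤ × ℤ), (∀ τ ∈ LL, 1 ≤ τ.2 ∧ (τ.2 : ℝ) ≤ x ^ ((1 : ℝ) / 30) ∧
      |(τ.1 : ℝ)| ≤ x ^ ((31 : ℝ) / 30) ∧ IsCoprime τ.1 τ.2) →
    ∀ M : ℤ × ℤ → Finset ℕ, (∀ τ ∈ LL, ∀ m ∈ M τ, Squarefree m ∧ x ^ ((1 : ℝ) / 3) ≤ m ∧
      (m : ℝ) ≤ x ∧ (m : ℝ) ≤ x ^ ((1 : ℝ) / 30) * (Int.gcd m (τ.2 * a - τ.1) : ℝ)) →
    ∑ τ ∈ LL, ∑ m ∈ M τ, (1 : ℝ) / m ≤ (2 + Real.log x) +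
      (LL.card : ℝ) ^ 2 * (3 * Real.log x * (2 + Real.log x) / (y + 1) +
        1 / (Real.log x) ^ A) := by
  have hsm := smooth_mass B A ((1 : ℝ) / 5) (by norm_num)
  have hlog : ∀ᶠ x : ℝ in atTop, 1 ≤ Real.log x := Real.tendsto_log_atTop.eventually_ge_atTop 1
  filter_upwards [hsm, hlog, eventually_ge_atTop (4 : ℝ)] with x hsm hL hx4
  intro a y hy LL hLL M hM
  have hx0 : 0 < x := by linarith
  obtain ⟨N, hN⟩ : ∃ N, N = ⌊x⌋₊ := ⟨_, rfl⟩
  have hNx : (N : ℝ) ≤ x := by rw [hN]; exact Nat.floor_le hx0.le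
  have hN3 : 3 ≤ N := by
    rw [hN]
    apply Nat.le_floor
    norm_num
    linarith
  have hlogN : Real.log N ≤ Real.log x :=
    Real.log_le_log (by have : 0 < N := by omega
                        exact_mod_cast this) hNx
  have hMN : ∀ τ ∈ LL, ∀ m ∈ M τ, 1 ≤ m ∧ m ≤ N := by
    intro τ hτ m hm
    obtain ⟨h1, h2, h3, h4⟩ := hM τ hτ m hm
    refine ⟨Nat.pos_of_ne_zero h1.ne_zero, ?_⟩
    rw [hN]
    exact Nat.le_floor h3
  refine (sum_family_le LL M (fun m => (1 : ℝ) / m) (fun m => by positivity)).trans ?_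
  refine add_le_add ?_ ?_
  · -- the union
    refine (sum_inv_le_log _ N ?_).trans (by linarith)
    intro m hm
    obtain ⟨τ, hτ, hm'⟩ := Finset.mem_biUnion.mp hm
    exact hMN τ hτ m hm'
  · -- the pairs
    have hpair : ∀ τ ∈ LL.offDiag, ∑ m ∈ M τ.1 ∩ M τ.2, (1 : ℝ) / m ≤
        3 * Real.log x * (2 + Real.log x) / (y + 1) + 1 / (Real.log x) ^ A := by
      intro τ hτ
      obtain ⟨hτ1, hτ2, hne⟩ := Finset.mem_offDiag.mp hτ
      obtain ⟨σ, ρ⟩ := τ
      simp only at hτ1 hτ2 hne ⊢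
      obtain ⟨a1, a2, a3, a4⟩ := hLL σ hτ1
      obtain ⟨b1, b2, b3, b4⟩ := hLL ρ hτ2
      obtain ⟨Δ, hΔ⟩ : ∃ Δ : ℤ, Δ = σ.2 * ρ.1 - ρ.2 * σ.1 := ⟨_, rfl⟩
      have hΔ0 : Δ ≠ 0 := by
        intro h
        exact hne (eq_of_det a1 b1 a4 b4 (by rw [← hΔ, h]))
      have hΔ1 : (Δ.natAbs : ℝ) ≤ 2 * x ^ ((16 : ℝ) / 15) := by
        have e1 : x ^ ((1 : ℝ) / 30) * x ^ ((31 : ℝ) / 30) = x ^ ((16 : ℝ) / 15) := by
          rw [← Real.rpow_add hx0]
          norm_num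
        have a1' : (0 : ℝ) ≤ σ.2 := by exact_mod_cast (by omega : (0 : ℤ) ≤ σ.2)
        have b1' : (0 : ℝ) ≤ ρ.2 := by exact_mod_cast (by omega : (0 : ℤ) ≤ ρ.2)
        rw [Nat.cast_natAbs, Int.cast_abs, hΔ]
        push_cast
        calc |(σ.2 : ℝ) * ρ.1 - ρ.2 * σ.1| ≤ |(σ.2 : ℝ) * ρ.1| + |(ρ.2 : ℝ) * σ.1| := abs_sub _ _
          _ = (σ.2 : ℝ) * |(ρ.1 : ℝ)| + (ρ.2 : ℝ) * |(σ.1 : ℝ)| := by
              rw [abs_mul, abs_mul, abs_of_nonneg a1', abs_of_nonneg b1']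
          _ ≤ x ^ ((1 : ℝ) / 30) * x ^ ((31 : ℝ) / 30) +
              x ^ ((1 : ℝ) / 30) * x ^ ((31 : ℝ) / 30) := by
              gcongr
          _ = _ := by rw [e1]; ring
      obtain ⟨T, hT⟩ : ∃ T, T = Δ.natAbs.primeFactors.filter (fun p => y < p) := ⟨_, rfl⟩
      have hTc : (T.card : ℝ) ≤ 3 * Real.log x := by
        refine le_trans ?_ (card_primeFactors_le (Int.natAbs_ne_zero.mpr hΔ0) hx0 hL hΔ1)
        rw [hT]
        exact_mod_cast Finset.card_filter_le _ _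
      obtain ⟨W, hW⟩ : ∃ W, W = M σ ∩ M ρ := ⟨_, rfl⟩
      rw [← hW]
      have hW1 : ∀ m ∈ W, m ∈ M σ ∧ m ∈ M ρ := fun m hm => by
        rw [hW] at hm
        exact Finset.mem_inter.mp hm
      rw [← Finset.sum_filter_add_sum_filter_not W (fun m => x ^ ((1 : ℝ) / 5) ≤ smp y m)]
      have p1 : ∑ m ∈ W.filter (fun m => x ^ ((1 : ℝ) / 5) ≤ smp y m), (1 : ℝ) / m ≤
          1 / (Real.log x) ^ A := by
        refine hsm y N _ hy hN3 (by nlinarith) ?_ ?_ ?_
        · intro d hd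
          exact (hM σ hτ1 d (hW1 d (Finset.mem_filter.mp hd).1).1).1
        · intro d hd
          exact (hMN σ hτ1 d (hW1 d (Finset.mem_filter.mp hd).1).1).2
        · intro d hd
          exact (Finset.mem_filter.mp hd).2
      have p2 : ∑ m ∈ W.filter (fun m => ¬ x ^ ((1 : ℝ) / 5) ≤ smp y m), (1 : ℝ) / m ≤
          3 * Real.log x * (2 + Real.log x) / (y + 1) := by
        have hdiv : ∀ m ∈ W.filter (fun m => ¬ x ^ ((1 : ℝ) / 5) ≤ smp y m), ∃ p ∈ T, p ∣ m := by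
          intro m hm
          obtain ⟨hmW, hms⟩ := Finset.mem_filter.mp hm
          obtain ⟨hmσ, hmρ⟩ := hW1 m hmW
          obtain ⟨c1, c2, c3, c4⟩ := hM σ hτ1 m hmσ
          obtain ⟨_, _, _, d4⟩ := hM ρ hτ2 m hmρ
          have hm0 : 0 < m := Nat.pos_of_ne_zero c1.ne_zero
          obtain ⟨e1, _⟩ := common_large (by linarith) hm0 c2 c4 d4
          obtain ⟨g, hg⟩ : ∃ g, g = Nat.gcd (Int.gcd m (σ.2 * a - σ.1))
            (Int.gcd m (ρ.2 * a - ρ.1)) := ⟨_, rfl⟩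
          rw [← hg] at e1
          have hgm : g ∣ m := by
            rw [hg]
            refine (Nat.gcd_dvd_left _ _).trans ?_
            exact Int.natCast_dvd_natCast.mp (Int.gcd_dvd_left ..)
          have hgσ : (g : ℤ) ∣ σ.2 * a - σ.1 := by
            have h1 : (g : ℤ) ∣ (Int.gcd m (σ.2 * a - σ.1) : ℤ) := by
              rw [hg]
              exact Int.natCast_dvd_natCast.mpr (Nat.gcd_dvd_left _ _)
            exact h1.trans (Int.gcd_dvd_right ..)
          have hgρ : (g : ℤ) ∣ ρ.2 * a - ρ.1 := by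
            have h1 : (g : ℤ) ∣ (Int.gcd m (ρ.2 * a - ρ.1) : ℤ) := by
              rw [hg]
              exact Int.natCast_dvd_natCast.mpr (Nat.gcd_dvd_right _ _)
            exact h1.trans (Int.gcd_dvd_right ..)
          have hgΔ : (g : ℤ) ∣ Δ := by
            have h1 : Δ = ρ.2 * (σ.2 * a - σ.1) - σ.2 * (ρ.2 * a - ρ.1) := by
              rw [hΔ]; ring
            rw [h1]
            exact dvd_sub (Dvd.dvd.mul_left hgσ _) (Dvd.dvd.mul_left hgρ _)
          have hgΔ' : g ∣ Δ.natAbs := Int.natCast_dvd.mp hgΔ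
          by_contra hcon
          push Not at hcon
          apply hms
          have hgsq : Squarefree g := c1.squarefree_of_dvd hgm
          have hsub : g.primeFactors ⊆ m.primeFactors.filter (fun p => p ≤ y) := by
            intro p hp
            have hpm : p ∣ m := (Nat.dvd_of_mem_primeFactors hp).trans hgm
            refine Finset.mem_filter.mpr ⟨Nat.primeFactors_mono hgm c1.ne_zero hp, ?_⟩
            by_contra hpy
            push Not at hpy
            refine hcon p ?_ hpm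
            rw [hT]
            exact Finset.mem_filter.mpr
              ⟨Nat.primeFactors_mono hgΔ' (Int.natAbs_ne_zero.mpr hΔ0) hp, hpy⟩
          have hle : g ≤ smp y m := by
            rw [← Nat.prod_primeFactors_of_squarefree hgsq]
            unfold smp
            refine Finset.prod_le_prod_of_subset_of_one_le' hsub ?_
            intro p hp _
            exact (Nat.prime_of_mem_primeFactors (Finset.mem_filter.mp hp).1).one_lt.le
          exact e1.trans (by exact_mod_cast hle)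
        have h1 := prime_mass (W.filter (fun m => ¬ x ^ ((1 : ℝ) / 5) ≤ smp y m)) T N y
          (fun m hm => hMN σ hτ1 m (hW1 m (Finset.mem_filter.mp hm).1).1)
          (fun p hp => by rw [hT] at hp; exact (Finset.mem_filter.mp hp).2) hdiv
        refine h1.trans ?_
        have hy1 : (0 : ℝ) < (y : ℝ) + 1 := by positivity
        have hlogN0 : 0 ≤ 1 + Real.log (N : ℝ) := by
          have := Real.log_natCast_nonneg N
          linarith
        calc (T.card : ℝ) * ((1 + Real.log N) / (y + 1))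
            ≤ (3 * Real.log x) * ((2 + Real.log x) / (y + 1)) := by
              gcongr
              linarith
          _ = _ := by ring
      linarith
    refine (Finset.sum_le_sum hpair).trans ?_
    rw [Finset.sum_const, nsmul_eq_mul]
    have hy1 : (0 : ℝ) < (y : ℝ) + 1 := by positivity
    have hnn : 0 ≤ 3 * Real.log x * (2 + Real.log x) / (y + 1) + 1 / (Real.log x) ^ A := by
      positivity
    refine mul_le_mul_of_nonneg_right ?_ hnn
    rw [Finset.offDiag_card]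
    have h1 : LL.card * LL.card - LL.card ≤ LL.card ^ 2 := by
      rw [sq]; exact Nat.sub_le _ _
    exact_mod_cast h1

end Crest.Agent.R001.SE
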