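import Crest.Agent.R001.SE2
import Crest.Agent.R001.UnsTail
import Crest.Agent.R001.AsmDefs
import Crest.Agent.R001.SEdisj

-- ▼ part R001/SE4
section

/-!
# R1, block SE, part 4 (helper301): `ClsSE`, one class with the parameters of the assembly
-/

set_option autoImplicit false

open Finset Filter

namespace Crest.Agent.R001.SE

open Crest.Agent.R001.Tree Crest.Agent.R001.EST Crest.Agent.R001.Uns Crest.Agent.R001.Str
open Crest.Agent.R001.Asm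

/-- arithmetic of a class: `n` is coprime to every modulus and `n d₁ ∣ Q a - U` -/
lemma arith {a U : ℤ} {Q m n : ℕ} (hcop : IsCoprime U (Q : ℤ)) (hn : (n : ℤ) ∣ Q * a - U)
    (hnm : Nat.Coprime n m) (B : ℝ) (hp : ∀ p : ℕ, p.Prime → p ∣ n → B < p) (M : ℕ)
    (hM : ∀ p : ℕ, p.Prime → p ∣ M → (p : ℝ) ≤ B) :
    Nat.Coprime n (Q * (m / Int.gcd m (Q * a - U)) * M) ∧
      ((n * Int.gcd m (Q * a - U) : ℕ) : ℤ) ∣ Q * a - U := by
  have h1 : Nat.Coprime n Q := by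
    rw [← Nat.isCoprime_iff_coprime]
    obtain ⟨x, hx⟩ := hn
    obtain ⟨r, s, hrs⟩ := hcop
    -- r U + s Q = 1, U = Q a - n x
    refine ⟨-(r * x), r * a + s, ?_⟩
    have : U = Q * a - n * x := by linarith
    rw [this] at hrs
    linear_combination hrs
  have h2 : Nat.Coprime n (m / Int.gcd m (Q * a - U)) := by
    refine Nat.Coprime.coprime_dvd_right ?_ hnm
    apply Nat.div_dvd_of_dvd
    have := Int.gcd_dvd_left (a := (m : ℤ)) (b := Q * a - U)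
    exact_mod_cast this
  have h3 : Nat.Coprime n M := by
    apply Nat.Coprime.symm
    rw [Nat.coprime_comm]
    by_contra hc
    obtain ⟨p, hp1, hp2, hp3⟩ := Nat.Prime.not_coprime_iff_dvd.mp hc
    have := hp p hp1 hp2
    have := hM p hp1 hp3
    linarith
  refine ⟨(h1.mul_right h2).mul_right h3, ?_⟩
  push_cast
  have h4 : IsCoprime (n : ℤ) ((Int.gcd m (Q * a - U) : ℕ) : ℤ) := by
    rw [Nat.isCoprime_iff_coprime]
    refine Nat.Coprime.coprime_dvd_right ?_ hnm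
    have := Int.gcd_dvd_left (a := (m : ℤ)) (b := Q * a - U)
    exact_mod_cast this
  exact h4.mul_dvd hn (Int.gcd_dvd_right _ _)

/-- largeness conditions -/
structure BigC (C A K : ℕ) (c1 : ℝ) (x : ℝ) : Prop where
  x2 : 2 ≤ x
  L1600 : 1600 ≤ Real.log x
  l1 : 1 ≤ Real.log (Real.log x)
  cube : (1 + ((C : ℝ) + K) * Real.log (Real.log x)) ^ 3 ≤ Real.log x
  lam1 : Real.log (Real.log x) ≤ c1 * Real.log x
  lamt : 800 * c1 ≤ Real.log (Real.log x)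
  lamk : (Real.log (Real.log x) / c1) ^ (C + 2 * A + 5) ≤ Real.log x
  pow : 4 * (Real.log x) ^ (A + C + 2 * K + 3) ≤ x ^ ((17 : ℝ) / 300)

lemma eventually_bigC (C A K : ℕ) {c1 : ℝ} (hc1 : 0 < c1) : ∀ᶠ x : ℝ in atTop, BigC C A K c1 x := by
  have e1 : ∀ᶠ x : ℝ in atTop, 1600 ≤ Real.log x := Real.tendsto_log_atTop.eventually_ge_atTop 1600
  have e2 : ∀ᶠ x : ℝ in atTop, 1 ≤ Real.log (Real.log x) := tendsto_loglog.eventually_ge_atTop 1
  have e3 := Real.tendsto_log_atTop.eventually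
    (eventually_log_rpow_le 3 1 (((C : ℝ) + K + 1) ^ 3) one_pos (by positivity))
  have e4 := eventually_loglog_le (1 / c1) (by positivity)
  have e5 : ∀ᶠ x : ℝ in atTop, 800 * c1 ≤ Real.log (Real.log x) :=
    tendsto_loglog.eventually_ge_atTop _
  have e6 := Real.tendsto_log_atTop.eventually
    (eventually_log_rpow_le ((C + 2 * A + 5 : ℕ) : ℝ) 1 ((1 / c1) ^ (C + 2 * A + 5)) one_pos
      (by positivity))
  have e7 := eventually_log_rpow_le ((A + C + 2 * K + 3 : ℕ) : ℝ) (17 / 300) 4 (by norm_num)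
    (by norm_num)
  filter_upwards [e1, e2, e3, e4, e5, e6, e7, eventually_ge_atTop (2 : ℝ)] with x f1 f2 f3 f4 f5 f6 f7 f8
  refine ⟨f8, f1, f2, ?_, ?_, f5, ?_, ?_⟩
  · rw [show (3 : ℝ) = ((3 : ℕ) : ℝ) by norm_num, Real.rpow_natCast, Real.rpow_one] at f3
    have hCK : (0 : ℝ) ≤ (C : ℝ) + K := by positivity
    calc (1 + ((C : ℝ) + K) * Real.log (Real.log x)) ^ 3
        ≤ (((C : ℝ) + K + 1) * Real.log (Real.log x)) ^ 3 := by
          apply pow_le_pow_left₀ (by positivity)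
          nlinarith
      _ = ((C : ℝ) + K + 1) ^ 3 * (Real.log (Real.log x)) ^ 3 := by ring
      _ ≤ Real.log x := f3
  · rw [div_mul_eq_mul_div, one_mul, div_le_iff₀ hc1] at f4
    linarith
  · rw [Real.rpow_natCast, Real.rpow_one] at f6
    calc (Real.log (Real.log x) / c1) ^ (C + 2 * A + 5)
        = (1 / c1) ^ (C + 2 * A + 5) * (Real.log (Real.log x)) ^ (C + 2 * A + 5) := by
          rw [← mul_pow]; congr 1; ring
      _ ≤ Real.log x := f6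
  · rw [Real.rpow_natCast] at f7
    exact f7

/-- the size of the modulus term of STR -/
lemma str_size {X : ℕ} {C A K : ℕ} {c1 : ℝ} (hB : BigC C A K c1 X) {L : ℝ} (hL : L = Real.log X)
    {U : ℤ} {Q m P1 P2 d1 M : ℕ} (hQ : (Q : ℝ) ≤ (X : ℝ) ^ ((1 : ℝ) / 30))
    (hU : |(U : ℝ)| ≤ (X : ℝ) ^ ((31 : ℝ) / 30)) (hd1 : 0 < d1) (hd1m : d1 ∣ m)
    (hm : (m : ℝ) ≤ (X : ℝ) ^ ((1 : ℝ) / 30) * d1) (hm0 : 0 < m)
    (hP1 : (X : ℝ) ^ ((1 : ℝ) / 5) ≤ P1)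
    (hs : (P1 : ℝ) ≤ ((P2 : ℝ) - P1) * L ^ (A + C + K + 3))
    (hmP : (X : ℝ) / L ^ K ≤ 2 * (m * P1)) (hM : (M : ℝ) ≤ (X : ℝ) ^ ((1 : ℝ) / 100)) :
    ((Q * (m / d1) * M : ℕ) : ℝ) * (|(U : ℝ)| / d1 / P1 + 2) ≤ (P2 : ℝ) - P1 := by
  have hX0 : (0 : ℝ) < X := by have := hB.x2; linarith
  have hL1 : 1600 ≤ L := by rw [hL]; exact hB.L1600
  have hL0 : 0 < L := by linarith
  have hpow := hB.pow
  rw [← hL] at hpow
  have hd1r : (0 : ℝ) < d1 := by exact_mod_cast hd1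
  have hmr : (0 : ℝ) < m := by exact_mod_cast hm0
  have hX5 : (0 : ℝ) < (X : ℝ) ^ ((1 : ℝ) / 5) := Real.rpow_pos_of_pos hX0 _
  have hP1r : (0 : ℝ) < P1 := by linarith
  obtain ⟨u, hu⟩ : ∃ u, u = m / d1 := ⟨_, rfl⟩
  have hud : u * d1 = m := by rw [hu]; exact Nat.div_mul_cancel hd1m
  have hudr : (u : ℝ) * d1 = m := by exact_mod_cast hud
  have hur : (u : ℝ) ≤ (X : ℝ) ^ ((1 : ℝ) / 30) := by
    have : (u : ℝ) * d1 ≤ (X : ℝ) ^ ((1 : ℝ) / 30) * d1 := by rw [hudr]; exact hm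
    exact le_of_mul_le_mul_right this hd1r
  have hLK : 0 < L ^ K := by positivity
  have hXm : (X : ℝ) ≤ 2 * (m * P1) * L ^ K := by
    rwa [div_le_iff₀ hLK] at hmP
  -- |U| / (d1 P1) ≤ 2 L^K X^{1/15}
  have h1 : |(U : ℝ)| / d1 / P1 ≤ 2 * L ^ K * (X : ℝ) ^ ((1 : ℝ) / 15) := by
    rw [div_div, div_le_iff₀ (by positivity)]
    have h2 : (X : ℝ) ^ ((31 : ℝ) / 30) = (X : ℝ) ^ ((1 : ℝ) / 30) * X := by
      nth_rewrite 3 [← Real.rpow_one (X : ℝ)]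
      rw [← Real.rpow_add hX0]
      norm_num
    have h3 : (X : ℝ) ^ ((1 : ℝ) / 15) = (X : ℝ) ^ ((1 : ℝ) / 30) * (X : ℝ) ^ ((1 : ℝ) / 30) := by
      rw [← Real.rpow_add hX0]
      norm_num
    have h4 : 0 ≤ (X : ℝ) ^ ((1 : ℝ) / 30) := (Real.rpow_pos_of_pos hX0 _).le
    calc |(U : ℝ)| ≤ (X : ℝ) ^ ((1 : ℝ) / 30) * X := by rw [← h2]; exact hU
      _ ≤ (X : ℝ) ^ ((1 : ℝ) / 30) * (2 * (m * P1) * L ^ K) := by gcongr
      _ ≤ (X : ℝ) ^ ((1 : ℝ) / 30) * (2 * (((X : ℝ) ^ ((1 : ℝ) / 30) * d1) * P1) * L ^ K) := by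
          gcongr
      _ = 2 * L ^ K * (X : ℝ) ^ ((1 : ℝ) / 15) * (d1 * P1) := by rw [h3]; ring
  have h15 : 1 ≤ (X : ℝ) ^ ((1 : ℝ) / 15) :=
    Real.one_le_rpow (by have := hB.x2; linarith) (by norm_num)
  have hLK1 : 1 ≤ L ^ K := one_le_pow₀ (by linarith)
  have h5 : |(U : ℝ)| / d1 / P1 + 2 ≤ 4 * L ^ K * (X : ℝ) ^ ((1 : ℝ) / 15) := by
    nlinarith [mul_nonneg (sub_nonneg.2 h15) (sub_nonneg.2 hLK1)]
  have h6 : ((Q * (m / d1) * M : ℕ) : ℝ) ≤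
      (X : ℝ) ^ ((1 : ℝ) / 30) * (X : ℝ) ^ ((1 : ℝ) / 30) * (X : ℝ) ^ ((1 : ℝ) / 100) := by
    rw [← hu]
    push_cast
    have h4 : 0 ≤ (X : ℝ) ^ ((1 : ℝ) / 30) := (Real.rpow_pos_of_pos hX0 _).le
    gcongr
  have h7 : (X : ℝ) ^ ((1 : ℝ) / 30) * (X : ℝ) ^ ((1 : ℝ) / 30) * (X : ℝ) ^ ((1 : ℝ) / 100) *
      (X : ℝ) ^ ((1 : ℝ) / 15) * (X : ℝ) ^ ((17 : ℝ) / 300) = (X : ℝ) ^ ((1 : ℝ) / 5) := by
    rw [← Real.rpow_add hX0, ← Real.rpow_add hX0, ← Real.rpow_add hX0, ← Real.rpow_add hX0]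
    norm_num
  have h8 : 0 ≤ |(U : ℝ)| / d1 / P1 + 2 := by positivity
  have hLs : 0 < L ^ (A + C + K + 3) := by positivity
  have h9 : ((Q * (m / d1) * M : ℕ) : ℝ) * (|(U : ℝ)| / d1 / P1 + 2) * L ^ (A + C + K + 3) ≤
      (P2 - P1) * L ^ (A + C + K + 3) := by
    calc ((Q * (m / d1) * M : ℕ) : ℝ) * (|(U : ℝ)| / d1 / P1 + 2) * L ^ (A + C + K + 3)
        ≤ ((X : ℝ) ^ ((1 : ℝ) / 30) * (X : ℝ) ^ ((1 : ℝ) / 30) * (X : ℝ) ^ ((1 : ℝ) / 100)) *
          (4 * L ^ K * (X : ℝ) ^ ((1 : ℝ) / 15)) * L ^ (A + C + K + 3) := by gcongr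
      _ = ((X : ℝ) ^ ((1 : ℝ) / 30) * (X : ℝ) ^ ((1 : ℝ) / 30) * (X : ℝ) ^ ((1 : ℝ) / 100) *
          (X : ℝ) ^ ((1 : ℝ) / 15)) * (4 * L ^ (A + C + 2 * K + 3)) := by
          rw [show A + C + 2 * K + 3 = K + (A + C + K + 3) by ring, pow_add]
          ring
      _ ≤ ((X : ℝ) ^ ((1 : ℝ) / 30) * (X : ℝ) ^ ((1 : ℝ) / 30) * (X : ℝ) ^ ((1 : ℝ) / 100) *
          (X : ℝ) ^ ((1 : ℝ) / 15)) * (X : ℝ) ^ ((17 : ℝ) / 300) := by gcongr
      _ = (X : ℝ) ^ ((1 : ℝ) / 5) := h7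
      _ ≤ P1 := hP1
      _ ≤ (P2 - P1) * L ^ (A + C + K + 3) := hs
  exact le_of_mul_le_mul_right h9 hLs

/-- final numerics -/
lemma final_num (A C K : ℕ) {L s N0 y B0 cN : ℝ} (hL : 1600 ≤ L) (hs : 0 < s) (hN0 : 1 ≤ N0)
    (hy : y = L ^ C * N0) (hyup : y ≤ L ^ (C + K)) (hB0 : B0 = L ^ (C + 2 * A + 4))
    (hlog : (1 + Real.log y) ^ 3 ≤ L) (hc0 : 0 ≤ cN) (hc : cN ≤ s) :
    (400 * N0 * s) * (y / B0 * (4 * (1 + Real.log y) ^ 3)) / (N0 / L ^ (A + 1)) +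
      (N0 / L ^ (A + 1)) * cN + 1 / L ^ (2 * (C + K) + A + 1) * (cN * (y * (y / B0))) ≤
      s * (N0 / L ^ (A + 1)) + s * (N0 / L ^ (A + 1)) + s * (N0 / L ^ (A + 1)) := by
  have hL0 : 0 < L := by linarith
  have hL11 : 1 ≤ L := by linarith
  have hN0p : 0 < N0 := by linarith
  have hLC : 0 < L ^ C := by positivity
  have hy0 : 0 < y := by rw [hy]; positivity
  have hB01 : 1 ≤ B0 := by rw [hB0]; exact one_le_pow₀ hL11
  refine add_le_add (add_le_add ?_ ?_) ?_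
  · have h3 : y / B0 = N0 * (1 / L ^ (2 * A + 4)) := by
      rw [hy, hB0, show C + 2 * A + 4 = C + (2 * A + 4) by ring, pow_add]
      field_simp
    rw [h3, div_le_iff₀ (by positivity)]
    have h6 : 1600 * L / L ^ (2 * A + 4) ≤ 1 / (L ^ (A + 1) * L ^ (A + 1)) := by
      rw [div_le_div_iff₀ (by positivity) (by positivity), ← pow_add,
        show 2 * A + 4 = (A + 1 + (A + 1)) + 2 by ring, pow_add L (A + 1 + (A + 1)) 2]
      have h4 : 0 < L ^ (A + 1 + (A + 1)) := by positivity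
      have h5 : 1600 * L ≤ L ^ 2 := by rw [sq]; exact mul_le_mul_of_nonneg_right hL hL0.le
      calc 1600 * L * L ^ (A + 1 + (A + 1)) ≤ L ^ 2 * L ^ (A + 1 + (A + 1)) :=
            mul_le_mul_of_nonneg_right h5 h4.le
        _ = 1 * (L ^ (A + 1 + (A + 1)) * L ^ 2) := by ring
    have h7 : 0 ≤ s * N0 * N0 := by positivity
    calc 400 * N0 * s * (N0 * (1 / L ^ (2 * A + 4)) * (4 * (1 + Real.log y) ^ 3))
        ≤ 400 * N0 * s * (N0 * (1 / L ^ (2 * A + 4)) * (4 * L)) := by gcongr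
      _ = s * N0 * N0 * (1600 * L / L ^ (2 * A + 4)) := by ring
      _ ≤ s * N0 * N0 * (1 / (L ^ (A + 1) * L ^ (A + 1))) := mul_le_mul_of_nonneg_left h6 h7
      _ = s * (N0 / L ^ (A + 1)) * (N0 / L ^ (A + 1)) := by ring
  · rw [mul_comm]; gcongr
  · have h1 : y * (y / B0) ≤ L ^ (2 * (C + K)) := by
      calc y * (y / B0) ≤ y * (y / 1) := by gcongr
        _ = y * y := by rw [div_one]
        _ ≤ L ^ (C + K) * L ^ (C + K) := by gcongr
        _ = L ^ (2 * (C + K)) := by rw [← pow_add]; congr 1; ring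
    calc 1 / L ^ (2 * (C + K) + A + 1) * (cN * (y * (y / B0)))
        ≤ 1 / L ^ (2 * (C + K) + A + 1) * (s * L ^ (2 * (C + K))) := by gcongr
      _ = s * (1 / L ^ (A + 1)) := by
          rw [show 2 * (C + K) + A + 1 = 2 * (C + K) + (A + 1) by ring, pow_add]
          field_simp
      _ ≤ s * (N0 / L ^ (A + 1)) := by gcongr

/-- the parameters of the randomisation -/
lemma params {C A K : ℕ} {c1 x : ℝ} (hB : BigC C A K c1 x) (hc1 : 0 < c1) {L : ℝ}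
    (hL : L = Real.log x) :
    1 ≤ c1 * L / Real.log L ∧ c1 * L / Real.log L ≤ (⌊L / 400⌋₊ : ℝ) ∧
      L ^ (C + 2 * A + 4) ≤ (c1 * L / Real.log L) ^ (C + 2 * A + 4 + 1) := by
  have hL1 : 1600 ≤ L := by rw [hL]; exact hB.L1600
  have hL0 : 0 < L := by linarith
  obtain ⟨l, hl⟩ : ∃ l : ℝ, l = Real.log L := ⟨_, rfl⟩
  have hl1 : 1 ≤ l := by rw [hl, hL]; exact hB.l1
  have hl0 : 0 < l := by linarith
  have hBlam1 : l ≤ c1 * L := by rw [hl, hL]; exact hB.lam1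
  have hBlamt : 800 * c1 ≤ l := by rw [hl, hL]; exact hB.lamt
  have hBlamk : (l / c1) ^ (C + 2 * A + 5) ≤ L := by rw [hl, hL]; exact hB.lamk
  rw [← hl]
  refine ⟨?_, ?_, ?_⟩
  · rw [le_div_iff₀ hl0]; linarith
  · have h1 : c1 * L / l ≤ L / 400 - 1 := by
      rw [div_le_iff₀ hl0]
      have h2 : c1 * L ≤ L / 800 * l := by
        calc c1 * L = (800 * c1) * (L / 800) := by ring
          _ ≤ l * (L / 800) := by gcongr
          _ = L / 800 * l := by ring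
      have h3 : L / 800 ≤ L / 400 - 1 := by linarith
      exact h2.trans (mul_le_mul_of_nonneg_right h3 hl0.le)
    have h2 := Nat.lt_floor_add_one (L / 400)
    linarith
  · have h1 : c1 * L / l = L / (l / c1) := by field_simp
    rw [h1, div_pow, le_div_iff₀ (by positivity), pow_succ L]
    have h0 : 0 < L ^ (C + 2 * A + 4) := by positivity
    exact mul_le_mul_of_nonneg_left hBlamk h0.le

/-- the `L²` bound in a class -/
lemma str_class {X : ℕ} {C A K C1 : ℕ} {c1 : ℝ} (hB : BigC C A K c1 X) {L : ℝ}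
    (hL : L = Real.log X) (hK1 : 1 ≤ K) (hC1 : K ≤ C1) (a U : ℤ) (Q m P1 P2 : ℕ) (N : Finset ℕ)
    (hQ : 0 < Q) (hQX : (Q : ℝ) ≤ (X : ℝ) ^ ((1 : ℝ) / 30))
    (hUX : |(U : ℝ)| ≤ (X : ℝ) ^ ((31 : ℝ) / 30)) (hcop : IsCoprime U (Q : ℤ)) (hm0 : 0 < m)
    (hmgcd : (m : ℝ) ≤ (X : ℝ) ^ ((1 : ℝ) / 30) * (Int.gcd m (Q * a - U) : ℝ))
    (hhigh : ¬ ((Q : ℝ) * ((m / Int.gcd m (Q * a - U) : ℕ) : ℝ) ≤
      L ^ (2 * (C + K) + (A + C + K + 3) + 1) ∧
      |(U : ℝ)| ≤ X * L ^ (2 * (C + K) + (A + C + K + 3) + 1)))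
    (hP1X : (X : ℝ) ^ ((1 : ℝ) / 5) ≤ P1) (hP12 : P1 < P2) (hP2le : (P2 : ℝ) ≤ 2 * P1)
    (hP1s : (P1 : ℝ) ≤ ((P2 : ℝ) - P1) * L ^ (A + C + K + 3))
    (hmP : (X : ℝ) / L ^ K ≤ 2 * (m * P1))
    (hN : ∀ n ∈ N, P1 < n ∧ n ≤ P2 ∧ Nat.Coprime n m ∧
      (∀ p : ℕ, p.Prime → p ∣ n → L ^ C1 < p) ∧ (n : ℤ) ∣ Q * a - U)
    (N0 y : ℝ) (hN0 : N0 = X / (m * P2)) (hN01 : 1 ≤ N0) (hy1 : 1 < y) (hyup : y ≤ L ^ (C + K))
    (t Z : ℕ) (ht : (t : ℝ) ≤ L ^ K) (hZ : (Z : ℝ) ≤ L ^ K) :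
    ∀ (M : ℕ) (DD : Finset ℕ) (c : ℕ → ℝ), 0 < M → M ≤ ⌊(X : ℝ) ^ ((1 : ℝ) / 100)⌋₊ →
      (∀ δ ∈ DD, 0 < δ ∧ (δ : ℝ) ≤ y) → (∀ δ ∈ DD, δ ∣ M) → (∀ r, r.Prime → r ∣ M → r ≤ max t Z) →
      ∑ n ∈ N, (err DD c N0 ((a : ℝ) / ((m * n : ℕ) : ℝ))) ^ 2 ≤
        (400 * N0 * ((P2 : ℝ) - P1)) * vv DD c := by
  intro M DD c hM0 hMX hDD hDM hMr
  have hX0 : (0 : ℝ) < X := by have := hB.x2; linarith
  have hL1 : 1600 ≤ L := by rw [hL]; exact hB.L1600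
  have hL0 : 0 < L := by linarith
  have hL11 : 1 ≤ L := by linarith
  have hmr : (0 : ℝ) < m := by exact_mod_cast hm0
  have hX5 : (0 : ℝ) < (X : ℝ) ^ ((1 : ℝ) / 5) := Real.rpow_pos_of_pos hX0 _
  have hP1r : (0 : ℝ) < P1 := by linarith
  have hP12r : (P1 : ℝ) < P2 := by exact_mod_cast hP12
  have hP2r : (0 : ℝ) < P2 := by linarith
  have hMX' : (M : ℝ) ≤ (X : ℝ) ^ ((1 : ℝ) / 100) :=
    (Nat.le_floor_iff (Real.rpow_pos_of_pos hX0 _).le).mp hMX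
  have hMp : ∀ p : ℕ, p.Prime → p ∣ M → (p : ℝ) ≤ L ^ C1 := by
    intro p hp hpM
    have h1 := hMr p hp hpM
    have h6 : (p : ℝ) ≤ L ^ K := by
      have h7 : (p : ℝ) ≤ ((max t Z : ℕ) : ℝ) := by exact_mod_cast h1
      rw [Nat.cast_max] at h7
      exact h7.trans (max_le ht hZ)
    exact h6.trans (pow_le_pow_right₀ hL11 hC1)
  have hDel : 0 < ⌊y⌋₊ := Nat.floor_pos.2 hy1.le
  have hDelr : ((⌊y⌋₊ : ℕ) : ℝ) ≤ L ^ (C + K) := (Nat.floor_le (by linarith)).trans hyup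
  have hDel2 : ((⌊y⌋₊ : ℕ) : ℝ) ^ 2 ≤ L ^ (2 * (C + K)) := by
    calc ((⌊y⌋₊ : ℕ) : ℝ) ^ 2 ≤ (L ^ (C + K)) ^ 2 := by gcongr
      _ = L ^ (2 * (C + K)) := by rw [← pow_mul, mul_comm]
  obtain ⟨d1, hd1⟩ : ∃ d1 : ℕ, d1 = Int.gcd (m : ℤ) (Q * a - U) := ⟨_, rfl⟩
  have hd1pos : 0 < d1 := by
    rw [hd1]; exact Int.gcd_pos_of_ne_zero_left _ (by exact_mod_cast hm0.ne')
  have hd1m : d1 ∣ m := by
    rw [hd1]
    have := Int.gcd_dvd_left (m : ℤ) (Q * a - U)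
    exact_mod_cast this
  have hd1r : (0 : ℝ) < d1 := by exact_mod_cast hd1pos
  have hd1le : (d1 : ℝ) ≤ m := by exact_mod_cast Nat.le_of_dvd hm0 hd1m
  obtain ⟨s, hs⟩ : ∃ s : ℝ, s = (P2 : ℝ) - P1 := ⟨_, rfl⟩
  have hs0 : 0 < s := by rw [hs]; linarith
  have hbig : ⌊y⌋₊ ^ 2 ≤ Q * (m / d1) ∨
      ((⌊y⌋₊ : ℕ) : ℝ) ^ 2 * (N0 + 2) ≤ |(U : ℝ)| / d1 * ((P2 : ℝ) - P1) / (P1 * P2) := by
    rw [← hd1] at hhigh
    by_cases hc : (Q : ℝ) * ((m / d1 : ℕ) : ℝ) ≤ L ^ (2 * (C + K) + (A + C + K + 3) + 1)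
    · right
      have hU' : (X : ℝ) * L ^ (2 * (C + K) + (A + C + K + 3) + 1) < |(U : ℝ)| := by
        by_contra hcc
        exact hhigh ⟨hc, not_lt.mp hcc⟩
      rw [← hs] at hP1s ⊢
      have e1 : (X : ℝ) * L ^ (2 * (C + K) + (A + C + K + 3) + 1) / m * s / (P1 * P2) ≤
          |(U : ℝ)| / d1 * s / (P1 * P2) := by
        gcongr
      refine le_trans ?_ e1
      have e2 : (X : ℝ) * L ^ (2 * (C + K) + (A + C + K + 3) + 1) / m * s / (P1 * P2) =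
          N0 * L ^ (2 * (C + K)) * L * (L ^ (A + C + K + 3) * s / P1) := by
        rw [hN0, show 2 * (C + K) + (A + C + K + 3) + 1 = 2 * (C + K) + 1 + (A + C + K + 3) by ring,
          pow_add, pow_add, pow_one]
        field_simp
      rw [e2]
      have e3 : 1 ≤ L ^ (A + C + K + 3) * s / P1 := by
        rw [le_div_iff₀ hP1r]; linarith
      have e4 : N0 + 2 ≤ 3 * N0 := by linarith
      have hN0p : 0 < N0 := by linarith
      have hpos1 : 0 < N0 * L ^ (2 * (C + K)) := by positivity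
      have e5 : (3 : ℝ) ≤ L := by linarith
      calc ((⌊y⌋₊ : ℕ) : ℝ) ^ 2 * (N0 + 2) ≤ L ^ (2 * (C + K)) * (3 * N0) := by gcongr
        _ = N0 * L ^ (2 * (C + K)) * 3 := by ring
        _ ≤ N0 * L ^ (2 * (C + K)) * L := mul_le_mul_of_nonneg_left e5 hpos1.le
        _ = N0 * L ^ (2 * (C + K)) * L * 1 := by ring
        _ ≤ N0 * L ^ (2 * (C + K)) * L * (L ^ (A + C + K + 3) * s / P1) :=
          mul_le_mul_of_nonneg_left e3 (by positivity)
    · left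
      have h1 : ((⌊y⌋₊ ^ 2 : ℕ) : ℝ) ≤ ((Q * (m / d1) : ℕ) : ℝ) := by
        rw [Nat.cast_pow, Nat.cast_mul]
        refine hDel2.trans (le_trans ?_ (not_le.mp hc).le)
        exact pow_le_pow_right₀ hL11 (by omega)
      exact_mod_cast h1
  have key := STR M ⌊y⌋₊ hM0 hDel DD c
    (fun δ hδ => ⟨(hDD δ hδ).1, Nat.le_floor (hDD δ hδ).2⟩)
    (fun δ hδ δ' hδ' => Nat.lcm_dvd (hDM δ hδ) (hDM δ' hδ')) a U Q m hQ hm0 hcop P1 P2
    (by exact_mod_cast hP1r) hP12.le (by exact_mod_cast hP2le) d1 hd1 (m / d1) rfl N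
    (fun n hn => by
      obtain ⟨g1, g2, g3, g4, g5⟩ := hN n hn
      have g := arith (a := a) (U := U) hcop g5 g3 (L ^ C1) g4 M hMp
      rw [← hd1] at g
      exact ⟨g1, g2, g.1, g.2⟩) N0 (by linarith) hbig
  have hsz := str_size hB hL hQX hUX hd1pos hd1m (by rw [hd1]; exact hmgcd) hm0 hP1X
    hP1s hmP hMX'
  have hvv := vv_nonneg DD c
  have hcong : ∑ n ∈ N, (err DD c N0 ((a : ℝ) / ((m * n : ℕ) : ℝ))) ^ 2 =
      ∑ n ∈ N, (err DD c N0 ((a : ℝ) / (n * m))) ^ 2 := by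
    refine Finset.sum_congr rfl fun n _ => ?_
    rw [show ((m * n : ℕ) : ℝ) = (n : ℝ) * m by push_cast; ring]
  rw [hcong]
  refine key.trans (mul_le_mul_of_nonneg_right ?_ hvv)
  rw [← hs] at hsz ⊢
  obtain ⟨W, hW⟩ : ∃ W : ℝ, W = ((Q * (m / d1) * M : ℕ) : ℝ) * (|(U : ℝ)| / d1 / P1 + 2) := ⟨_, rfl⟩
  rw [← hW] at hsz ⊢
  calc 100 * (N0 + 1) * (s + W) ≤ 100 * (2 * N0) * (s + s) := by
        have : 0 ≤ W := by rw [hW]; positivity
        gcongr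
        linarith
    _ = 400 * N0 * s := by ring

/-- the pointwise bound in a class -/
lemma pointwise {X : ℕ} {C A K C1 : ℕ} {L : ℝ} (hX0 : (0 : ℝ) < X) (hL1 : 1600 ≤ L)
    (hC1 : K ≤ C1) (a : ℤ) (m n P1 P2 w : ℕ) (hw : w = m.minFac) (hwK : (w : ℝ) ≤ L ^ K)
    (hm0 : 0 < m) (hP1r : (0 : ℝ) < P1)
    (hsP1 : ((P2 : ℝ) - P1) * L ^ (A + C + K + 1) ≤ P1) (g1 : P1 < n) (g2 : n ≤ P2)
    (g4 : ∀ p : ℕ, p.Prime → p ∣ n → L ^ C1 < p)
    (N0 y : ℝ) (hN0 : N0 = X / (m * P2)) (hadm : Adm y 1 w) (hy1 : 1 < y)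
    (hyup : y ≤ L ^ (C + K)) :
    max 0 ((X : ℝ) / (m * n) * Th (bd y) 1 w - sI a X (m * n) w) ≤
      N0 / L ^ (A + 1) + |errW y w N0 ((a : ℝ) / ((m * n : ℕ) : ℝ))| := by
  have hL0 : 0 < L := by linarith
  have hL11 : 1 ≤ L := by linarith
  have hmr : (0 : ℝ) < m := by exact_mod_cast hm0
  have g1r : (P1 : ℝ) < n := by exact_mod_cast g1
  have g2r : (n : ℝ) ≤ P2 := by exact_mod_cast g2
  have hnr : (0 : ℝ) < n := by linarith
  have hP2r : (0 : ℝ) < P2 := by linarith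
  have hN0p : 0 < N0 := by rw [hN0]; positivity
  have hn0' : 0 < n := by omega
  have hrgh : Rgh (m * n) w := by
    intro p hp hpw hpd
    rcases (Nat.Prime.dvd_mul hp).mp hpd with h | h
    · have := Nat.minFac_le_of_dvd hp.two_le h
      rw [← hw] at this
      omega
    · have h1 := g4 p hp h
      have h2 : (p : ℝ) < w := by exact_mod_cast hpw
      have h3 : L ^ K ≤ L ^ C1 := pow_le_pow_right₀ hL11 hC1
      linarith
  have hN0n : N0 ≤ (X : ℝ) / ((m * n : ℕ) : ℝ) := by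
    rw [hN0]; push_cast; gcongr
  have h1 := node_ge_real a X (m * n) (Nat.mul_pos hm0 hn0') w hrgh y hN0p.le hN0n
  have h2 : Theta y w = Th (bd y) 1 w := rfl
  have h3 := (abs_Theta_le y w).trans (card_Idx_le hadm hy1)
  obtain ⟨s, hs⟩ : ∃ s : ℝ, s = (P2 : ℝ) - P1 := ⟨_, rfl⟩
  have hs0 : 0 < s := by rw [hs]; linarith
  rw [← hs] at hsP1
  have h4 : (X : ℝ) / (m * n) - N0 ≤ N0 * (s / P1) := by
    have e1 : (X : ℝ) / (m * n) = N0 * (P2 / n) := by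
      rw [hN0]; field_simp
    rw [e1]
    have e2 : (P2 : ℝ) / n ≤ 1 + s / P1 := by
      rw [div_le_iff₀ hnr]
      have e3 : (1 + s / P1) * P1 = P2 := by rw [hs]; field_simp; ring
      have e4 : 0 ≤ 1 + s / P1 := by positivity
      calc (P2 : ℝ) = (1 + s / P1) * P1 := e3.symm
        _ ≤ (1 + s / P1) * n := mul_le_mul_of_nonneg_left g1r.le e4
    have e5 := mul_le_mul_of_nonneg_left e2 hN0p.le
    linarith
  have h5 : (0 : ℝ) ≤ (X : ℝ) / (m * n) - N0 := by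
    push_cast at hN0n; linarith
  have h6 : s / P1 * L ^ (C + K) ≤ 1 / L ^ (A + 1) := by
    rw [div_mul_eq_mul_div, div_le_div_iff₀ hP1r (by positivity), one_mul]
    calc s * L ^ (C + K) * L ^ (A + 1) = s * L ^ (A + C + K + 1) := by
          rw [mul_assoc, ← pow_add]; congr 2; ring
      _ ≤ P1 := hsP1
  have h7 : ((X : ℝ) / (m * n) - N0) * Theta y w ≤ N0 / L ^ (A + 1) := by
    calc ((X : ℝ) / (m * n) - N0) * Theta y w ≤ ((X : ℝ) / (m * n) - N0) * |Theta y w| :=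
          mul_le_mul_of_nonneg_left (le_abs_self _) h5
      _ ≤ (N0 * (s / P1)) * L ^ (C + K) :=
          mul_le_mul h4 (h3.trans hyup) (abs_nonneg _) (by positivity)
      _ = N0 * (s / P1 * L ^ (C + K)) := by ring
      _ ≤ N0 * (1 / L ^ (A + 1)) := mul_le_mul_of_nonneg_left h6 hN0p.le
      _ = N0 / L ^ (A + 1) := by ring
  apply max_le
  · positivity
  · have h8 := neg_abs_le (errW y w N0 ((a : ℝ) / ((m * n : ℕ) : ℝ)))
    rw [← h2]
    obtain ⟨T, hT⟩ : ∃ T, T = Theta y w := ⟨_, rfl⟩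
    rw [← hT] at h1 h7 ⊢
    have h9 : (X : ℝ) / (m * n) * T = ((X : ℝ) / (m * n) - N0) * T + N0 * T := by ring
    linarith

/-- **one class** -/
theorem clsSE : ClsSE := by
  classical
  intro C A
  obtain ⟨k, hk⟩ : ∃ k : ℕ, k = C + 2 * A + 4 + 1 := ⟨_, rfl⟩
  refine ⟨(C + 2 * A + 4) * (2 * 3 ^ k) + 1, ?_⟩
  intro K hK
  refine ⟨2 * (C + K) + (A + C + K + 3) + 1, ?_⟩
  intro C1 hC1
  obtain ⟨c1, hc1, Xt, htail⟩ := tail400 K (2 * (C + K) + A + 1)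
  obtain ⟨X0, hX0⟩ := (eventually_bigC C A K hc1).exists_forall_of_atTop
  refine ⟨max Xt X0, ?_⟩
  intro X hX a U Q m P1 P2 N hQ hQX hUX hcop hm1 hmgcd hhigh hP1X hP12 hsP1 hP1s hN
  have hB : BigC C A K c1 X := hX0 X ((le_max_right _ _).trans hX)
  obtain ⟨L, hL⟩ : ∃ L, L = Real.log (X : ℝ) := ⟨_, rfl⟩
  have htail' := htail X ((le_max_left _ _).trans hX) L hL _ rfl _ (fun q => rfl)
  obtain ⟨hLam1, hLamt, hB0k⟩ := params hB hc1 hL
  have hBcube := hB.cube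
  rw [← hL] at hhigh hsP1 hP1s hN hBcube ⊢
  have hX0 : (0 : ℝ) < X := by have := hB.x2; linarith
  have hL1 : 1600 ≤ L := by rw [hL]; exact hB.L1600
  clear htail
  have hL0 : 0 < L := by linarith
  have hL11 : 1 ≤ L := by linarith
  have hP12r : (P1 : ℝ) < P2 := by exact_mod_cast hP12
  -- trivial case
  rcases N.eq_empty_or_nonempty with hNe | ⟨n0, hn0⟩
  · rw [hNe, Finset.sum_empty]
    have h1 : (0 : ℝ) ≤ (P2 : ℝ) - P1 := by linarith
    positivity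
  have hm0 : 0 < m := by omega
  have hmr : (0 : ℝ) < m := by exact_mod_cast hm0
  have hX5 : (0 : ℝ) < (X : ℝ) ^ ((1 : ℝ) / 5) := Real.rpow_pos_of_pos hX0 _
  have hP1r : (0 : ℝ) < P1 := by linarith
  have hP2r : (0 : ℝ) < P2 := by linarith
  have hLbig : (2 : ℝ) ≤ L ^ (A + C + K + 1) := by
    calc (2 : ℝ) ≤ L := by linarith
      _ = L ^ 1 := (pow_one L).symm
      _ ≤ L ^ (A + C + K + 1) := pow_le_pow_right₀ hL11 (by omega)
  have hs0 : 0 < (P2 : ℝ) - P1 := by linarith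
  have hP2le : (P2 : ℝ) ≤ 2 * P1 := by
    have : ((P2 : ℝ) - P1) * 2 ≤ P1 := (mul_le_mul_of_nonneg_left hLbig hs0.le).trans hsP1
    linarith
  obtain ⟨N0, hN0⟩ : ∃ N0 : ℝ, N0 = (X : ℝ) / (m * P2) := ⟨_, rfl⟩
  have hN0p : 0 < N0 := by rw [hN0]; positivity
  rw [← hN0]
  obtain ⟨y, hy⟩ : ∃ y : ℝ, y = L ^ C * N0 := ⟨_, rfl⟩
  rw [← hy]
  obtain ⟨w, hw⟩ : ∃ w : ℕ, w = m.minFac := ⟨_, rfl⟩
  rw [← hw] at hN ⊢
  obtain ⟨hn1, hn2, -, -, -, hn6, hn7, hn8⟩ := hN n0 hn0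
  have hn1r : (P1 : ℝ) < n0 := by exact_mod_cast hn1
  have hn2r : (n0 : ℝ) ≤ P2 := by exact_mod_cast hn2
  have hn0r : (0 : ℝ) < n0 := by linarith
  -- N0 between
  have hN0low : (X : ℝ) / (m * n0) ≤ 2 * N0 := by
    rw [hN0, div_le_iff₀ (by positivity)]
    rw [show 2 * ((X : ℝ) / (m * P2)) * (m * n0) = X * (2 * n0 / P2) by field_simp]
    have : 1 ≤ 2 * n0 / (P2 : ℝ) := by rw [le_div_iff₀ hP2r]; linarith
    exact le_mul_of_one_le_right hX0.le this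
  have hN0up : N0 ≤ (X : ℝ) / (m * n0) := by
    rw [hN0]; gcongr
  have hLK0 : 0 < L ^ K := by positivity
  have hmn0 : (X : ℝ) / (m * n0) ≤ L ^ K := by
    rw [div_le_iff₀ (by positivity)]
    rw [div_le_iff₀ hLK0] at hn6
    linarith
  have hmn0' : L ^ ((C + 2 * A + 4) * (2 * 3 ^ k) + 1) ≤ (X : ℝ) / (m * n0) := by
    rw [le_div_iff₀ (by positivity), mul_comm]
    rwa [le_div_iff₀ (by positivity)] at hn7
  have hLk : L ^ ((C + 2 * A + 4) * (2 * 3 ^ k)) ≤ N0 := by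
    have h1 : 2 * L ^ ((C + 2 * A + 4) * (2 * 3 ^ k)) ≤ 2 * N0 := by
      calc 2 * L ^ ((C + 2 * A + 4) * (2 * 3 ^ k)) ≤ L * L ^ ((C + 2 * A + 4) * (2 * 3 ^ k)) := by
            have h2 : 0 < L ^ ((C + 2 * A + 4) * (2 * 3 ^ k)) := by positivity
            exact mul_le_mul_of_nonneg_right (by linarith) h2.le
        _ = L ^ ((C + 2 * A + 4) * (2 * 3 ^ k) + 1) := by rw [pow_succ, mul_comm]
        _ ≤ 2 * N0 := hmn0'.trans hN0low
    linarith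
  have hN01 : 1 ≤ N0 := (one_le_pow₀ hL11).trans hLk
  have hLC1 : 1 ≤ L ^ C := one_le_pow₀ hL11
  have hyN : N0 ≤ y := by rw [hy]; exact le_mul_of_one_le_left hN0p.le hLC1
  have hw22 : 1 < w := by
    rw [hw]
    exact (Nat.minFac_prime (show m ≠ 1 by omega)).one_lt
  have hw22r : (2 : ℝ) ≤ w := by exact_mod_cast hw22
  have hw2sq : (w : ℝ) ≤ (w : ℝ) ^ 2 := by
    rw [sq]; exact le_mul_of_one_le_left (by linarith) (by linarith)
  have hw2 : (w : ℝ) ^ 2 < y := by linarith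
  have hwK : (w : ℝ) ≤ L ^ K := by linarith
  have hadm : Adm y 1 w := adm_of_lt (by push_cast; linarith)
  have hy1 : 1 < y := by linarith
  have hyup : y ≤ L ^ (C + K) := by
    rw [hy, pow_add]
    exact mul_le_mul_of_nonneg_left (hN0up.trans hmn0) (by linarith)
  have hy0 : 0 < y := by linarith
  have hB01 : 1 ≤ L ^ (C + 2 * A + 4) := one_le_pow₀ hL11
  have hyB : (L ^ (C + 2 * A + 4)) ^ (2 * 3 ^ k) ≤ y := by
    rw [← pow_mul]
    exact hLk.trans hyN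
  have hwZ : w ≤ ⌊L ^ K⌋₊ + 1 := by
    have : w ≤ ⌊L ^ K⌋₊ := Nat.le_floor hwK
    omega
  have hpt : ∑ R ∈ (SP ⌊L / 400⌋₊ ⌊L ^ K⌋₊).powerset with
      ⌊(X : ℝ) ^ ((1 : ℝ) / 100)⌋₊ < primorial ⌊L / 400⌋₊ * ∏ q ∈ R, q,
      Pr (SP ⌊L / 400⌋₊ ⌊L ^ K⌋₊) (fun q : ℕ => (c1 * L / Real.log L) / (q : ℝ)) R ≤
        1 / L ^ (2 * (C + K) + A + 1) := by
    have h1 : SP ⌊L / 400⌋₊ ⌊L ^ K⌋₊ = (Finset.Ioc ⌊L / 400⌋₊ ⌊L ^ K⌋₊).filter Nat.Prime := by
      ext q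
      rw [mem_SP, Finset.mem_filter, Finset.mem_Ioc]
      tauto
    rw [h1]
    exact htail'.2
  have hcardN : (N.card : ℝ) ≤ (P2 : ℝ) - P1 := by
    have h1 : N ⊆ Finset.Ioc P1 P2 := by
      intro n hn
      rw [Finset.mem_Ioc]
      exact ⟨(hN n hn).1, (hN n hn).2.1⟩
    have h2 := Finset.card_le_card h1
    rw [Nat.card_Ioc] at h2
    have h3 : ((P2 - P1 : ℕ) : ℝ) = (P2 : ℝ) - P1 := by rw [Nat.cast_sub hP12.le]
    rw [← h3]
    exact_mod_cast h2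
  have ht : ((⌊L / 400⌋₊ : ℕ) : ℝ) ≤ L ^ K := by
    have h4 : ((⌊L / 400⌋₊ : ℕ) : ℝ) ≤ L / 400 := Nat.floor_le (by positivity)
    have h5 : L ≤ L ^ K := by
      calc L = L ^ 1 := (pow_one L).symm
        _ ≤ L ^ K := pow_le_pow_right₀ hL11 (by omega)
    linarith
  have hZ : ((⌊L ^ K⌋₊ : ℕ) : ℝ) ≤ L ^ K := Nat.floor_le hLK0.le
  have hmP : (X : ℝ) / L ^ K ≤ 2 * (m * P1) := by
    have h1 : (m : ℝ) * n0 ≤ m * (2 * P1) :=
      mul_le_mul_of_nonneg_left (hn2r.trans hP2le) hmr.le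
    linarith
  have hstr := str_class hB hL (by omega) hC1 a U Q m P1 P2 N hQ hQX hUX hcop hm0 hmgcd hhigh hP1X
    hP12 hP2le hP1s hmP (fun n hn => ⟨(hN n hn).1, (hN n hn).2.1, (hN n hn).2.2.1,
      (hN n hn).2.2.2.1, (hN n hn).2.2.2.2.1⟩) N0 y hN0 hN01 hy1 hyup _ _ ht hZ
  have hclass := class_bound y w ⌊L / 400⌋₊ ⌊L ^ K⌋₊ (c1 * L / Real.log L) (L ^ (C + 2 * A + 4)) k
    hadm hy1 hLam1 hLamt hB01 (by rw [hk]; exact hB0k) hyB hwZ
    ⌊(X : ℝ) ^ ((1 : ℝ) / 100)⌋₊ _ hpt N (fun n => (a : ℝ) / ((m * n : ℕ) : ℝ)) N0 hN0p.le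
    (400 * N0 * ((P2 : ℝ) - P1)) (by positivity) hstr (N0 / L ^ (A + 1)) (by positivity)
  have hlog : (1 + Real.log y) ^ 3 ≤ L := by
    have hlogy : Real.log y ≤ (C + K) * Real.log L := by
      have h1 := Real.log_le_log hy0 hyup
      rw [Real.log_pow] at h1
      push_cast at h1
      exact h1
    have hlogy0 : 0 ≤ Real.log y := Real.log_nonneg hy1.le
    exact (pow_le_pow_left₀ (by linarith) (by linarith) 3).trans hBcube
  have hnum := final_num A C K hL1 hs0 hN01 hy hyup rfl hlog (Nat.cast_nonneg N.card) hcardN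
  have hpt2 : ∀ n ∈ N, max 0 ((X : ℝ) / (m * n) * Th (bd y) 1 w - sI a X (m * n) w) ≤
      N0 / L ^ (A + 1) + |errW y w N0 ((a : ℝ) / ((m * n : ℕ) : ℝ))| := by
    intro n hn
    exact pointwise hX0 hL1 hC1 a m n P1 P2 w hw hwK hm0 hP1r hsP1 (hN n hn).1 (hN n hn).2.1
      (hN n hn).2.2.2.1 N0 y hN0 hadm hy1 hyup
  have hLA1 : 0 < L ^ (A + 1) := by positivity
  obtain ⟨s, hs⟩ : ∃ s : ℝ, s = (P2 : ℝ) - P1 := ⟨_, rfl⟩
  rw [← hs] at hs0 hclass hnum hcardN ⊢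
  have h1 : (N.card : ℝ) * (N0 / L ^ (A + 1)) ≤ s * (N0 / L ^ (A + 1)) :=
    mul_le_mul_of_nonneg_right hcardN (by positivity)
  calc ∑ n ∈ N, max 0 ((X : ℝ) / (m * n) * Th (bd y) 1 w - sI a X (m * n) w)
      ≤ ∑ n ∈ N, (N0 / L ^ (A + 1) + |errW y w N0 ((a : ℝ) / ((m * n : ℕ) : ℝ))|) :=
        Finset.sum_le_sum hpt2
    _ = N.card * (N0 / L ^ (A + 1)) + ∑ n ∈ N, |errW y w N0 ((a : ℝ) / ((m * n : ℕ) : ℝ))| := by
        rw [Finset.sum_add_distrib, Finset.sum_const, nsmul_eq_mul]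
    _ ≤ s * (N0 / L ^ (A + 1)) + (s * (N0 / L ^ (A + 1)) + s * (N0 / L ^ (A + 1)) +
          s * (N0 / L ^ (A + 1))) := add_le_add h1 (hclass.trans hnum)
    _ = s * N0 / L ^ A * (4 / L) := by
        rw [pow_succ]; field_simp; ring
    _ ≤ s * N0 / L ^ A * 1 := by
        have h2 : 4 / L ≤ 1 := by rw [div_le_one hL0]; linarith
        exact mul_le_mul_of_nonneg_left h2 (by positivity)
    _ = s * N0 / L ^ A := mul_one _

end Crest.Agent.R001.SE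
end

-- ▼ part R001/SE3

/-!
# R1, block SE, last part (helper47): `ClsSE → SEH`
-/

set_option autoImplicit false

open Finset Filter Crest.Agent.R001.Tree Crest.Agent.R001.Uns Crest.Agent.R001.Asm

namespace Crest.Agent.R001.SE

/-- `d / (d, D)` divides every `h` with `d ∣ h D`. -/
lemma div_gcd_dvd {d h : ℕ} {D : ℤ} (hd : 0 < d) (hdv : (d : ℤ) ∣ h * D) :
    d / Int.gcd d D ∣ h := by
  have h1 : d ∣ h * D.natAbs := by
    have := Int.natAbs_dvd_natAbs.mpr hdv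
    rwa [Int.natAbs_natCast, Int.natAbs_mul, Int.natAbs_natCast] at this
  have h2 : Int.gcd d D = Nat.gcd d D.natAbs := by
    rw [Int.gcd_def, Int.natAbs_natCast]
  rw [h2]
  obtain ⟨g, hg⟩ : ∃ g, g = Nat.gcd d D.natAbs := ⟨_, rfl⟩
  have hg0 : 0 < g := by rw [hg]; exact Nat.gcd_pos_of_pos_left _ hd
  have hcop : Nat.Coprime (d / g) (D.natAbs / g) := by
    rw [hg]; exact Nat.coprime_div_gcd_div_gcd (by rw [← hg]; exact hg0)
  rw [← hg]
  obtain ⟨d', hd'⟩ : g ∣ d := by rw [hg]; exact Nat.gcd_dvd_left _ _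
  obtain ⟨E, hE⟩ : g ∣ D.natAbs := by rw [hg]; exact Nat.gcd_dvd_right _ _
  have e1 : d / g = d' := by rw [hd']; exact Nat.mul_div_cancel_left _ hg0
  have e2 : D.natAbs / g = E := by rw [hE]; exact Nat.mul_div_cancel_left _ hg0
  rw [e1, e2] at hcop
  rw [e1]
  rw [hd', hE, show h * (g * E) = g * (h * E) by ring] at h1
  exact hcop.dvd_of_dvd_mul_right (Nat.dvd_of_mul_dvd_mul_left hg0 h1)

lemma gcd_mul_eq {m n : ℕ} {D : ℤ} (hcop : Nat.Coprime m n) (hn : (n : ℤ) ∣ D) :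
    Int.gcd ((m * n : ℕ) : ℤ) D = Int.gcd m D * n := by
  have h1 : n ∣ D.natAbs := by
    have := Int.natAbs_dvd_natAbs.mpr hn
    rwa [Int.natAbs_natCast] at this
  rw [Int.gcd_def, Int.gcd_def, Int.natAbs_natCast, Int.natAbs_natCast, Nat.gcd_comm,
    Nat.Coprime.gcd_mul _ hcop, Nat.gcd_comm _ m, Nat.gcd_comm _ n, Nat.gcd_eq_left h1]

lemma smp_dvd_le {y d1 d : ℕ} (hd : 0 < d) (h : d1 ∣ d) : smp y d1 ≤ smp y d := by
  unfold smp
  apply Finset.prod_le_prod_of_subset_of_one_le'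
  · apply Finset.filter_subset_filter
    exact Nat.primeFactors_mono h hd.ne'
  · intro p hp _
    exact (Nat.prime_of_mem_primeFactors (Finset.mem_filter.mp hp).1).one_lt.le

lemma smp_mul (y d : ℕ) (hd : Squarefree d) :
    smp y d * ∏ p ∈ d.primeFactors.filter (fun p => ¬ p ≤ y), p = d := by
  unfold smp
  rw [Finset.prod_filter_mul_prod_filter_not, Nat.prod_primeFactors_of_squarefree hd]

/-- the conclusion of the factorisation step. -/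
structure Fac (X K K1 CH C1 : ℕ) (a : ℤ) (τ : ℤ × ℤ) (m n : ℕ) : Prop where
  sq : Squarefree (m * n)
  m1 : 1 < m
  m3 : (X : ℝ) ^ ((1 : ℝ) / 3) ≤ m
  mX : (m : ℝ) ≤ X
  mg : (m : ℝ) ≤ (X : ℝ) ^ ((1 : ℝ) / 30) * (Int.gcd m (τ.2 * a - τ.1) : ℝ)
  hi : ¬ ((τ.2 : ℝ) * ((m / Int.gcd m (τ.2 * a - τ.1) : ℕ) : ℝ) ≤ (Real.log X) ^ CH ∧
    |(τ.1 : ℝ)| ≤ X * (Real.log X) ^ CH)
  n4 : (X : ℝ) ^ ((1 : ℝ) / 4) ≤ n
  nX : (n : ℝ) ≤ X
  cop : Nat.Coprime n m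
  np : ∀ p : ℕ, p.Prime → p ∣ n → (Real.log X) ^ C1 < p
  nD : (n : ℤ) ∣ τ.2 * a - τ.1
  lo : (X : ℝ) / (Real.log X) ^ K ≤ m * n
  up : (m : ℝ) * n ≤ X / (Real.log X) ^ K1
  mf : 4 * (m.minFac : ℝ) ^ 2 ≤ X / (m * n)
  mfe : m.minFac = (m * n).minFac

/-- conditions on `X` for the factorisation step -/
structure BigF (K C1 : ℕ) (x : ℝ) : Prop where
  x2 : 2 ≤ x
  l2 : 2 ≤ Real.log x
  a1 : (Real.log x) ^ K * x ^ ((1 : ℝ) / 3) ≤ x ^ ((1 : ℝ) / 2)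
  a2 : (Real.log x) ^ K * x ^ ((1 : ℝ) / 5) * x ^ ((1 : ℝ) / 4) ≤ x ^ ((29 : ℝ) / 30)

set_option maxHeartbeats 800000 in
/-- the factorisation step -/
lemma factor {X K K1 CH C1 : ℕ} (hK : K ≤ C1) (hB : BigF K C1 X) {a : ℤ} {τ : ℤ × ℤ} {d y : ℕ}
    (hy : y = ⌊(Real.log X) ^ C1⌋₊) (hW : Win X K K1 d) (hc : Capt X a τ d)
    (hlow : ¬ Low X CH a τ d) (hns : (smp y d : ℝ) < (X : ℝ) ^ ((1 : ℝ) / 5)) :
    ∃ m n : ℕ, d = m * n ∧ Fac X K K1 CH C1 a τ m n := by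
  obtain ⟨hsq, hlo, hup, hmf, hpr⟩ := hW
  obtain ⟨h, hh1, hhX, hhd, hdv⟩ := hc
  have hx2 := hB.x2
  have hl2 := hB.l2
  obtain ⟨L, hL⟩ : ∃ L, L = Real.log (X : ℝ) := ⟨_, rfl⟩
  have ha1 := hB.a1
  have ha2 := hB.a2
  unfold Low at hlow
  rw [← hL] at hl2 ha1 ha2 hlo hup hlow hy
  have hX0 : (0 : ℝ) < X := by linarith
  have hL1 : 1 ≤ L := by linarith
  have hL0 : 0 < L := by linarith
  have hLK : 0 < L ^ K := by positivity
  have hd0 : 0 < d := Nat.pos_of_ne_zero hsq.ne_zero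
  have hdr : (0 : ℝ) < d := by exact_mod_cast hd0
  obtain ⟨D, hD⟩ : ∃ D : ℤ, D = τ.2 * a - τ.1 := ⟨_, rfl⟩
  rw [← hD] at hdv hlow
  obtain ⟨d1, hd1⟩ : ∃ d1, d1 = Int.gcd d D := ⟨_, rfl⟩
  have hd1d : d1 ∣ d := by
    rw [hd1]
    have := Int.gcd_dvd_left (d : ℤ) D
    exact_mod_cast this
  have hd1D : (d1 : ℤ) ∣ D := by
    rw [hd1]
    exact Int.gcd_dvd_right (d : ℤ) D
  have hd10 : 0 < d1 := Nat.pos_of_dvd_of_pos hd1d hd0
  have hu : d / d1 ∣ h := by rw [hd1]; exact div_gcd_dvd hd0 hdv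
  have huX : ((d / d1 : ℕ) : ℝ) ≤ (X : ℝ) ^ ((1 : ℝ) / 30) := by
    have h1 : ((d / d1 : ℕ) : ℝ) ≤ h := by exact_mod_cast Nat.le_of_dvd hh1 hu
    linarith
  have hdd : (d : ℝ) = ((d / d1 : ℕ) : ℝ) * d1 := by
    exact_mod_cast (Nat.div_mul_cancel hd1d).symm
  have hd1sq : Squarefree d1 := hsq.squarefree_of_dvd hd1d
  have hsm := smp_mul y d1 hd1sq
  obtain ⟨T, hT⟩ : ∃ T, T = d1.primeFactors.filter (fun p => ¬ p ≤ y) := ⟨_, rfl⟩
  rw [← hT] at hsm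
  have hTm : ∀ p ∈ T, p.Prime ∧ p ∣ d1 ∧ y < p := by
    intro p hp
    rw [hT, Finset.mem_filter] at hp
    exact ⟨Nat.prime_of_mem_primeFactors hp.1, Nat.dvd_of_mem_primeFactors hp.1, by omega⟩
  have hs1 : (smp y d1 : ℝ) < (X : ℝ) ^ ((1 : ℝ) / 5) := by
    refine lt_of_le_of_lt ?_ hns
    exact_mod_cast smp_dvd_le hd0 hd1d
  have hX14 : (0 : ℝ) < (X : ℝ) ^ ((1 : ℝ) / 4) := Real.rpow_pos_of_pos hX0 _
  have hX15 : (0 : ℝ) < (X : ℝ) ^ ((1 : ℝ) / 5) := Real.rpow_pos_of_pos hX0 _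
  have hX30 : (0 : ℝ) < (X : ℝ) ^ ((1 : ℝ) / 30) := Real.rpow_pos_of_pos hX0 _
  -- the product of the large primes is large
  have hTB : (X : ℝ) ^ ((1 : ℝ) / 4) ≤ ∏ p ∈ T, (p : ℝ) := by
    by_contra hcon
    push Not at hcon
    have e1 : (d : ℝ) = ((d / d1 : ℕ) : ℝ) * (smp y d1 * ∏ p ∈ T, (p : ℝ)) := by
      rw [hdd]
      congr 1
      rw [← Nat.cast_prod]
      exact_mod_cast hsm.symm
    have hTpos : (0 : ℝ) ≤ ∏ p ∈ T, (p : ℝ) := Finset.prod_nonneg fun _ _ => Nat.cast_nonneg _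
    have e2 : (d : ℝ) < (X : ℝ) ^ ((1 : ℝ) / 30) * ((X : ℝ) ^ ((1 : ℝ) / 5) *
        (X : ℝ) ^ ((1 : ℝ) / 4)) := by
      rw [e1]
      calc ((d / d1 : ℕ) : ℝ) * (smp y d1 * ∏ p ∈ T, (p : ℝ))
          ≤ (X : ℝ) ^ ((1 : ℝ) / 30) * (smp y d1 * ∏ p ∈ T, (p : ℝ)) := by gcongr
        _ < _ := by
            apply mul_lt_mul_of_pos_left _ hX30
            exact mul_lt_mul'' hs1 hcon (Nat.cast_nonneg _) hTpos
    have e3 : (X : ℝ) ≤ L ^ K * d := by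
      rw [div_le_iff₀ hLK] at hlo
      linarith
    have e4 : (X : ℝ) = (X : ℝ) ^ ((1 : ℝ) / 30) * (X : ℝ) ^ ((29 : ℝ) / 30) := by
      rw [← Real.rpow_add hX0]
      norm_num
    have e5 : L ^ K * d < (X : ℝ) := by
      calc L ^ K * d < L ^ K * ((X : ℝ) ^ ((1 : ℝ) / 30) * ((X : ℝ) ^ ((1 : ℝ) / 5) *
            (X : ℝ) ^ ((1 : ℝ) / 4))) := mul_lt_mul_of_pos_left e2 hLK
        _ = (X : ℝ) ^ ((1 : ℝ) / 30) * (L ^ K * (X : ℝ) ^ ((1 : ℝ) / 5) *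
            (X : ℝ) ^ ((1 : ℝ) / 4)) := by ring
        _ ≤ (X : ℝ) ^ ((1 : ℝ) / 30) * (X : ℝ) ^ ((29 : ℝ) / 30) := by gcongr
        _ = X := e4.symm
    linarith
  have hB2 : ((X : ℝ) ^ ((1 : ℝ) / 4)) ^ 2 = (X : ℝ) ^ ((1 : ℝ) / 2) := by
    rw [← Real.rpow_natCast, ← Real.rpow_mul hX0.le]
    norm_num
  have hB1 : 1 < (X : ℝ) ^ ((1 : ℝ) / 4) := by
    apply Real.one_lt_rpow (by linarith) (by norm_num)
  obtain ⟨S, hST, hS1, hS2⟩ := exists_factor T (fun p hp => (hTm p hp).1.one_lt.le) hB1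
    (fun p hp => by rw [hB2]; exact hpr p (hTm p hp).1 ((hTm p hp).2.1.trans hd1d)) hTB
  rw [hB2] at hS2
  obtain ⟨n, hn⟩ : ∃ n, n = ∏ p ∈ S, p := ⟨_, rfl⟩
  have hnr : (n : ℝ) = ∏ p ∈ S, (p : ℝ) := by rw [hn]; push_cast; rfl
  rw [← hnr] at hS1 hS2
  have hnd1 : n ∣ d1 := by
    have h1 : n ∣ ∏ p ∈ T, p := by rw [hn]; exact Finset.prod_dvd_prod_of_subset _ _ _ hST
    exact h1.trans (Dvd.intro_left _ hsm)
  obtain ⟨m, hm⟩ : n ∣ d := hnd1.trans hd1d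
  have hdm : d = m * n := by rw [hm]; ring
  have hn0 : 0 < n := Nat.pos_of_dvd_of_pos hnd1 hd10
  have hm0 : 0 < m := by
    rcases Nat.eq_zero_or_pos m with h0 | h0
    · rw [h0, Nat.zero_mul] at hdm; omega
    · exact h0
  have hnr0 : (0 : ℝ) < n := by exact_mod_cast hn0
  have hmr0 : (0 : ℝ) < m := by exact_mod_cast hm0
  have hdmr : (d : ℝ) = m * n := by exact_mod_cast hdm
  have hcop : Nat.Coprime m n := by
    rw [hdm] at hsq
    exact (Nat.squarefree_mul_iff.mp hsq).1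
  have hnD : (n : ℤ) ∣ D := (Int.natCast_dvd_natCast.mpr hnd1).trans hd1D
  have hgm : d1 = Int.gcd m D * n := by
    rw [hd1, hdm]
    exact gcd_mul_eq hcop hnD
  have hquot : d / d1 = m / Int.gcd m D := by
    rw [hgm, hdm]
    exact Nat.mul_div_mul_right _ _ hn0
  have hm3 : (X : ℝ) ^ ((1 : ℝ) / 3) ≤ m := by
    have e1 : (X : ℝ) ≤ L ^ K * d := by
      rw [div_le_iff₀ hLK] at hlo
      linarith
    have e2 : (X : ℝ) = (X : ℝ) ^ ((1 : ℝ) / 2) * (X : ℝ) ^ ((1 : ℝ) / 2) := by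
      rw [← Real.rpow_add hX0]
      norm_num
    have hX12 : (0 : ℝ) < (X : ℝ) ^ ((1 : ℝ) / 2) := Real.rpow_pos_of_pos hX0 _
    have e3 : (X : ℝ) ^ ((1 : ℝ) / 2) * (X : ℝ) ^ ((1 : ℝ) / 2) ≤
        (L ^ K * m) * (X : ℝ) ^ ((1 : ℝ) / 2) := by
      calc (X : ℝ) ^ ((1 : ℝ) / 2) * (X : ℝ) ^ ((1 : ℝ) / 2) = X := e2.symm
        _ ≤ L ^ K * d := e1
        _ = (L ^ K * m) * n := by rw [hdmr]; ring
        _ ≤ (L ^ K * m) * (X : ℝ) ^ ((1 : ℝ) / 2) := by gcongr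
    have e4 := le_of_mul_le_mul_right e3 hX12
    have e5 : L ^ K * (X : ℝ) ^ ((1 : ℝ) / 3) ≤ L ^ K * m := ha1.trans e4
    exact le_of_mul_le_mul_left e5 hLK
  have hm1 : 1 < m := by
    have : (1 : ℝ) < m := lt_of_lt_of_le (Real.one_lt_rpow (by linarith) (by norm_num)) hm3
    exact_mod_cast this
  have hdX : (d : ℝ) ≤ X := by
    refine hup.trans ?_
    exact div_le_self hX0.le (one_le_pow₀ hL1)
  have hn1r : (1 : ℝ) ≤ n := by exact_mod_cast hn0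
  have hm1r : (1 : ℝ) ≤ m := by exact_mod_cast hm0
  have hnprime : ∀ p : ℕ, p.Prime → p ∣ n → y < p := by
    intro p hp hpn
    rw [hn] at hpn
    obtain ⟨q, hq, hpq⟩ := (Prime.dvd_finsetProd_iff hp.prime _).mp hpn
    have h1 := hTm q (hST hq)
    rw [(Nat.prime_dvd_prime_iff_eq hp h1.1).mp hpq]
    exact h1.2.2
  -- the smallest prime factor
  have hd1' : d ≠ 1 := by
    have : 1 < d := by rw [hdm]; exact lt_of_lt_of_le hm1 (Nat.le_mul_of_pos_right m hn0)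
    omega
  have hmfp := Nat.minFac_prime hd1'
  have hmfy : d.minFac ≤ y := by
    rw [hy]
    apply Nat.le_floor
    have e1 : (X : ℝ) / d ≤ L ^ K := by
      rw [div_le_iff₀ hLK] at hlo
      rw [div_le_iff₀ hdr]
      linarith
    have e2 : (1 : ℝ) ≤ d.minFac := by exact_mod_cast hmfp.one_lt.le
    have e3 : L ^ K ≤ L ^ C1 := pow_le_pow_right₀ hL1 hK
    have e4 : (d.minFac : ℝ) ≤ (d.minFac : ℝ) ^ 2 := by
      rw [sq]; exact le_mul_of_one_le_left (by linarith) e2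
    linarith
  have hmfm : d.minFac ∣ m := by
    have h1 : d.minFac ∣ m * n := by rw [← hdm]; exact Nat.minFac_dvd d
    rcases (Nat.Prime.dvd_mul hmfp).mp h1 with h2 | h2
    · exact h2
    · have := hnprime _ hmfp h2
      omega
  have hmfeq : m.minFac = d.minFac := by
    apply le_antisymm
    · exact Nat.minFac_le_of_dvd hmfp.two_le hmfm
    · apply Nat.minFac_le_of_dvd (Nat.minFac_prime hm1.ne').two_le
      exact (Nat.minFac_dvd m).trans (by rw [hdm]; exact Dvd.intro _ rfl)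
  refine ⟨m, n, hdm, ?_⟩
  refine ⟨by rw [← hdm]; exact hsq, hm1, hm3, ?_, ?_, ?_, hS1, ?_, hcop.symm, ?_,
    by rw [← hD]; exact hnD, ?_, ?_, ?_, by rw [← hdm]; exact hmfeq⟩
  · calc (m : ℝ) ≤ m * n := le_mul_of_one_le_right hmr0.le hn1r
      _ ≤ X := by rw [← hdmr]; exact hdX
  · rw [← hD]
    rw [hquot] at huX
    have h1 : Int.gcd (m : ℤ) D ∣ m := by
      have := Int.gcd_dvd_left (m : ℤ) D
      exact_mod_cast this
    have h2 : (m : ℝ) = ((m / Int.gcd m D : ℕ) : ℝ) * (Int.gcd m D : ℝ) := by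
      exact_mod_cast (Nat.div_mul_cancel h1).symm
    calc (m : ℝ) = ((m / Int.gcd m D : ℕ) : ℝ) * (Int.gcd m D : ℝ) := h2
      _ ≤ _ := by gcongr
  · rw [← hL, ← hD, ← hquot, hd1]
    exact hlow
  · calc (n : ℝ) ≤ m * n := le_mul_of_one_le_left hnr0.le hm1r
      _ ≤ X := by rw [← hdmr]; exact hdX
  · intro p hp hpn
    have h1 := hnprime p hp hpn
    rw [hy] at h1
    rw [← hL]
    exact (Nat.floor_lt (by positivity)).mp h1
  · rw [← hL, ← hdmr]; exact hlo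
  · rw [← hL, ← hdmr]; exact hup
  · rw [hmfeq, ← hdmr]; exact hmf

/-- length of the classes -/
noncomputable def sS (R : ℝ) (j : ℕ) : ℕ := ⌊((2 ^ j : ℕ) : ℝ) / R⌋₊ + 1

noncomputable def p1 (R : ℝ) (j i : ℕ) : ℕ := 2 ^ j + i * sS R j - 1

noncomputable def p2 (R : ℝ) (j i : ℕ) : ℕ := p1 R j i + sS R j

noncomputable def ix (R : ℝ) (n : ℕ) : ℕ := (n - 2 ^ Nat.log 2 n) / sS R (Nat.log 2 n)

/-- conditions on `X` for the classes -/
structure BigG (E : ℕ) (x : ℝ) : Prop where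
  x1 : 1 ≤ x
  l4 : 4 ≤ Real.log x
  a1 : 4 * ((Real.log x) ^ E + 1) ≤ x ^ ((1 : ℝ) / 4)
  a2 : 2 * (x ^ ((1 : ℝ) / 5) + 1) ≤ x ^ ((1 : ℝ) / 4)

lemma sS_pos (R : ℝ) (j : ℕ) : 0 < sS R j := Nat.succ_pos _

lemma p1_add_one (R : ℝ) (j i : ℕ) : p1 R j i + 1 = 2 ^ j + i * sS R j := by
  unfold p1
  have : 0 < 2 ^ j := by positivity
  omega

lemma pow_le_p2 (R : ℝ) (j i : ℕ) : 2 ^ j ≤ p2 R j i := by
  unfold p2
  have h1 := p1_add_one R j i
  have h2 := sS_pos R j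
  have h3 : 0 ≤ i * sS R j := Nat.zero_le _
  omega

lemma class_par {E X : ℕ} (hB : BigG E X) {L R : ℝ} (hL : L = Real.log X) (hR : R = L ^ (E + 1))
    {n : ℕ} (hn : (X : ℝ) ^ ((1 : ℝ) / 4) ≤ n) :
    p1 R (Nat.log 2 n) (ix R n) < n ∧ n ≤ p2 R (Nat.log 2 n) (ix R n) ∧
    (X : ℝ) ^ ((1 : ℝ) / 5) ≤ p1 R (Nat.log 2 n) (ix R n) ∧
    (sS R (Nat.log 2 n) : ℝ) * L ^ E ≤ p1 R (Nat.log 2 n) (ix R n) ∧
    (p1 R (Nat.log 2 n) (ix R n) : ℝ) ≤ sS R (Nat.log 2 n) * L ^ (E + 2) ∧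
    (p2 R (Nat.log 2 n) (ix R n) : ℝ) ≤ 3 * n := by
  obtain ⟨hx1, hl4, ha1, ha2⟩ := hB
  rw [← hL] at hl4 ha1
  have hX0 : (0 : ℝ) < X := by linarith
  have hn1 : (1 : ℝ) ≤ n := by
    have : 0 < (X : ℝ) ^ ((1 : ℝ) / 5) := Real.rpow_pos_of_pos hX0 _
    linarith
  have hn0 : n ≠ 0 := by
    rintro rfl
    norm_num at hn1
  obtain ⟨j, hj⟩ : ∃ j, j = Nat.log 2 n := ⟨_, rfl⟩
  obtain ⟨s, hs⟩ : ∃ s, s = sS R j := ⟨_, rfl⟩
  have hs0 : 0 < s := by rw [hs]; exact sS_pos R j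
  have hlow : 2 ^ j ≤ n := by rw [hj]; exact Nat.pow_log_le_self 2 hn0
  have hhigh : n < 2 * 2 ^ j := by
    have := Nat.lt_pow_succ_log_self (b := 2) (by norm_num) n
    rw [hj]
    rwa [pow_succ, mul_comm] at this
  have hix : ix R n = (n - 2 ^ j) / s := by unfold ix; rw [← hj, ← hs]
  obtain ⟨i, hi⟩ : ∃ i, i = ix R n := ⟨_, rfl⟩
  rw [← hj, ← hi, ← hs]
  rw [← hi] at hix
  have h1 := p1_add_one R j i
  rw [← hs] at h1
  have h2 : p2 R j i = p1 R j i + s := by unfold p2; rw [hs]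
  have h3 : i * s ≤ n - 2 ^ j := by rw [hix]; exact Nat.div_mul_le_self _ _
  have h4 : n - 2 ^ j < (i + 1) * s := by
    rw [hix, mul_comm]
    exact Nat.lt_mul_div_succ _ hs0
  rw [add_mul, one_mul] at h4
  obtain ⟨q1, hq1⟩ : ∃ q, q = p1 R j i := ⟨_, rfl⟩
  rw [h2, ← hq1]
  rw [← hq1] at h1
  have g1 : q1 < n := by omega
  have g2 : n ≤ q1 + s := by omega
  have g3 : 2 ^ j ≤ q1 + 1 := by
    rw [h1]; omega
  have hL1 : 1 ≤ L := by linarith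
  have hL0 : 0 < L := by linarith
  have hR0 : 0 < R := by rw [hR]; positivity
  obtain ⟨T, hT⟩ : ∃ T : ℕ, T = 2 ^ j := ⟨_, rfl⟩
  rw [← hT] at hlow hhigh g3
  have hsR : (s : ℝ) ≤ T / R + 1 := by
    rw [hs, hT]
    unfold sS
    push_cast
    have := Nat.floor_le (show 0 ≤ (2 : ℝ) ^ j / R by positivity)
    linarith
  have hsR' : (T : ℝ) / R ≤ s := by
    rw [hs, hT]
    unfold sS
    push_cast
    exact (Nat.lt_floor_add_one _).le
  have hlowr : (T : ℝ) ≤ n := by exact_mod_cast hlow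
  have hhighr : (n : ℝ) < 2 * T := by exact_mod_cast hhigh
  have g1r : (q1 : ℝ) < n := by exact_mod_cast g1
  have g3r : (T : ℝ) ≤ q1 + 1 := by exact_mod_cast g3
  have hLE : 0 < L ^ E := by positivity
  have hLE1 : 1 ≤ L ^ E := one_le_pow₀ hL1
  have k1 : (s : ℝ) * L ^ E ≤ q1 := by
    have e1 : (s : ℝ) * L ^ E ≤ (T / R + 1) * L ^ E := by gcongr
    have e2 : (T : ℝ) / R * L ^ E = T / L := by
      rw [hR, pow_succ]
      field_simp
    have e3 : (T : ℝ) / L ≤ T / 4 := by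
      have : (0 : ℝ) ≤ T := Nat.cast_nonneg _
      gcongr
    have e4 : (T / R + 1) * L ^ E = T / R * L ^ E + L ^ E := by ring
    rw [e4, e2] at e1
    linarith
  refine ⟨g1, g2, ?_, k1, ?_, ?_⟩
  · linarith
  · have e1 : (T : ℝ) ≤ s * R := by rwa [div_le_iff₀ hR0] at hsR'
    have e2 : 2 * R ≤ L ^ (E + 2) := by
      rw [hR, pow_succ L (E + 1), mul_comm]
      gcongr
      linarith
    calc (q1 : ℝ) ≤ 2 * T := by linarith
      _ ≤ 2 * (s * R) := by gcongr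
      _ = s * (2 * R) := by ring
      _ ≤ s * L ^ (E + 2) := by gcongr
  · push_cast
    have e1 : (s : ℝ) ≤ s * L ^ E := le_mul_of_one_le_right (Nat.cast_nonneg _) hLE1
    linarith

lemma log_two_lt {X n : ℕ} {L : ℝ} (hL : L = Real.log X) (hn0 : n ≠ 0)
    (hn : (n : ℝ) ≤ X) : Nat.log 2 n < ⌊2 * L⌋₊ + 1 := by
  refine Nat.lt_succ_of_le (Nat.le_floor ?_)
  have h2 : ((2 ^ Nat.log 2 n : ℕ) : ℝ) ≤ X := by
    have h3 : ((2 ^ Nat.log 2 n : ℕ) : ℝ) ≤ n := by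
      exact_mod_cast Nat.pow_log_le_self 2 hn0
    exact h3.trans hn
  have h3 : (Nat.log 2 n : ℝ) * Real.log 2 ≤ L := by
    rw [← Real.log_pow, hL]
    apply Real.log_le_log (by positivity)
    push_cast at h2
    exact h2
  have h4 := Real.log_two_gt_d9
  have h5 : (0 : ℝ) ≤ Nat.log 2 n := Nat.cast_nonneg _
  have h6 : (Nat.log 2 n : ℝ) * (1 / 2) ≤ (Nat.log 2 n : ℝ) * Real.log 2 :=
    mul_le_mul_of_nonneg_left (by linarith) h5
  linarith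

/-- the bound for a fixed `m` (and `τ`) -/
lemma sum_tm {X K K1 CH C1 C A' : ℕ} {a : ℤ} {τ : ℤ × ℤ} {m : ℕ} {L R : ℝ}
    (hL : L = Real.log X) (hR : R = L ^ (A' + C + K + 1 + 1)) (hB : BigG (A' + C + K + 1) X)
    (hcls : ∀ (a U : ℤ) (Q m P1 P2 : ℕ) (N : Finset ℕ),
      0 < Q → (Q : ℝ) ≤ (X : ℝ) ^ ((1 : ℝ) / 30) → |(U : ℝ)| ≤ (X : ℝ) ^ ((31 : ℝ) / 30) →
      IsCoprime U (Q : ℤ) →
      1 < m → (m : ℝ) ≤ (X : ℝ) ^ ((1 : ℝ) / 30) * (Int.gcd m (Q * a - U) : ℝ) →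
      ¬ ((Q : ℝ) * ((m / Int.gcd m (Q * a - U) : ℕ) : ℝ) ≤ (Real.log X) ^ CH ∧
        |(U : ℝ)| ≤ X * (Real.log X) ^ CH) →
      (X : ℝ) ^ ((1 : ℝ) / 5) ≤ P1 → P1 < P2 →
      ((P2 : ℝ) - P1) * (Real.log X) ^ (A' + C + K + 1) ≤ P1 →
      (P1 : ℝ) ≤ ((P2 : ℝ) - P1) * (Real.log X) ^ (A' + C + K + 3) →
      (∀ n ∈ N, P1 < n ∧ n ≤ P2 ∧ Nat.Coprime n m ∧
        (∀ p : ℕ, p.Prime → p ∣ n → (Real.log X) ^ C1 < p) ∧ (n : ℤ) ∣ Q * a - U ∧
        (X : ℝ) / (Real.log X) ^ K ≤ m * n ∧ (m : ℝ) * n ≤ X / (Real.log X) ^ K1 ∧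
        4 * (m.minFac : ℝ) ^ 2 ≤ X / (m * n)) →
      ∑ n ∈ N, max 0 ((X : ℝ) / (m * n) * Th (bd ((Real.log X) ^ C * (X / (m * P2)))) 1 m.minFac -
          sI a X (m * n) m.minFac) ≤
        ((P2 : ℝ) - P1) * (X / (m * P2)) / (Real.log X) ^ A')
    (h1 : 1 ≤ τ.2) (h2 : (τ.2 : ℝ) ≤ (X : ℝ) ^ ((1 : ℝ) / 30))
    (h3 : |(τ.1 : ℝ)| ≤ (X : ℝ) ^ ((31 : ℝ) / 30)) (h4 : IsCoprime τ.1 τ.2)
    (F : Finset ℕ) (hF : ∀ n ∈ F, Fac X K K1 CH C1 a τ m n) :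
    ∑ n ∈ F, max 0 ((X : ℝ) / (m * n) *
        Th (bd (L ^ C * (X / (m * p2 R (Nat.log 2 n) (ix R n))))) 1 m.minFac -
          sI a X (m * n) m.minFac) ≤ 9 * L * (X / L ^ A') * (1 / m) := by
  classical
  have hx1 := hB.x1
  have hl4 := hB.l4
  rw [← hL] at hl4
  have hX0 : (0 : ℝ) < X := by linarith
  have hL1 : 1 ≤ L := by linarith
  have hL0 : 0 < L := by linarith
  have hR0 : 0 < R := by rw [hR]; positivity
  have hR1 : 1 ≤ R := by rw [hR]; exact one_le_pow₀ hL1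
  obtain ⟨Q, hQ⟩ : ∃ Q : ℕ, (Q : ℤ) = τ.2 := ⟨τ.2.toNat, Int.toNat_of_nonneg (by omega)⟩
  have hQr : (Q : ℝ) = (τ.2 : ℝ) := by
    rw [← hQ]; norm_cast
  obtain ⟨G, hG⟩ : ∃ G : ℕ → ℕ → ℝ, G = fun (k n : ℕ) => max 0 ((X : ℝ) / (m * n) *
        Th (bd (L ^ C * (X / (m * (k : ℝ))))) 1 m.minFac - sI a X (m * n) m.minFac) := ⟨_, rfl⟩
  have hG' : ∀ n, max 0 ((X : ℝ) / (m * n) *
        Th (bd (L ^ C * (X / (m * p2 R (Nat.log 2 n) (ix R n))))) 1 m.minFac -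
          sI a X (m * n) m.minFac) = G (p2 R (Nat.log 2 n) (ix R n)) n := by
    intro n; rw [hG]
  simp only [hG']
  have hJ : ∀ n ∈ F, Nat.log 2 n ∈ Finset.range (⌊2 * L⌋₊ + 1) := by
    intro n hn
    have h5 := hF n hn
    rw [Finset.mem_range]
    refine log_two_lt hL ?_ h5.nX
    rintro rfl
    have h6 := h5.n4
    have : 0 < (X : ℝ) ^ ((1 : ℝ) / 4) := Real.rpow_pos_of_pos hX0 _
    norm_num at h6
    linarith
  rw [← Finset.sum_fiberwise_of_maps_to hJ]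
  have hj : ∀ j ∈ Finset.range (⌊2 * L⌋₊ + 1), ∑ n ∈ F with Nat.log 2 n = j,
      G (p2 R (Nat.log 2 n) (ix R n)) n ≤ 3 * ((X / L ^ A') * (1 / m)) := by
    intro j _
    obtain ⟨s, hs⟩ : ∃ s, s = sS R j := ⟨_, rfl⟩
    have hs0 : 0 < s := by rw [hs]; exact sS_pos R j
    have hsr : (0 : ℝ) < s := by exact_mod_cast hs0
    have hI : ∀ n ∈ F.filter (fun n => Nat.log 2 n = j),
        ix R n ∈ Finset.range (2 ^ j / s + 1) := by
      intro n hn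
      obtain ⟨hn1, hn2⟩ := Finset.mem_filter.mp hn
      rw [Finset.mem_range, Nat.lt_succ_iff]
      unfold ix
      rw [hn2, ← hs]
      apply Nat.div_le_div_right
      have h6 := Nat.lt_pow_succ_log_self (b := 2) (by norm_num) n
      rw [hn2, pow_succ] at h6
      omega
    rw [← Finset.sum_fiberwise_of_maps_to hI]
    have hi : ∀ i ∈ Finset.range (2 ^ j / s + 1),
        ∑ n ∈ (F.filter (fun n => Nat.log 2 n = j)) with ix R n = i,
        G (p2 R (Nat.log 2 n) (ix R n)) n ≤ (s : ℝ) / (2 ^ j : ℕ) * ((X / L ^ A') * (1 / m)) := by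
      intro i _
      obtain ⟨N, hN⟩ : ∃ N, N = (F.filter (fun n => Nat.log 2 n = j)).filter
        (fun n => ix R n = i) := ⟨_, rfl⟩
      rw [← hN]
      have hNm : ∀ n ∈ N, n ∈ F ∧ Nat.log 2 n = j ∧ ix R n = i := by
        intro n hn
        rw [hN, Finset.mem_filter, Finset.mem_filter] at hn
        exact ⟨hn.1.1, hn.1.2, hn.2⟩
      have e1 : ∑ n ∈ N, G (p2 R (Nat.log 2 n) (ix R n)) n = ∑ n ∈ N, G (p2 R j i) n := by
        refine Finset.sum_congr rfl fun n hn => ?_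
        rw [(hNm n hn).2.1, (hNm n hn).2.2]
      rw [e1]
      rcases N.eq_empty_or_nonempty with hNe | ⟨n0, hn0⟩
      · rw [hNe, Finset.sum_empty]
        positivity
      obtain ⟨g1, g2, g3⟩ := hNm n0 hn0
      have hf0 := hF n0 g1
      obtain ⟨c1, c2, c3, c4, c5, -⟩ := class_par hB hL hR hf0.n4
      rw [g2, g3] at c1 c2 c3 c4 c5
      rw [← hs] at c4 c5
      have hp12 : p2 R j i = p1 R j i + s := by unfold p2; rw [hs]
      have hp12r : (p2 R j i : ℝ) - p1 R j i = s := by rw [hp12]; push_cast; ring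
      have hQZ : ((Q : ℤ)) * a - τ.1 = τ.2 * a - τ.1 := by rw [hQ]
      have hcl := hcls a τ.1 Q m (p1 R j i) (p2 R j i) N (by omega) (by rw [hQr]; exact h2) h3
        (by rw [hQ]; exact h4) hf0.m1 (by rw [hQZ]; exact hf0.mg)
        (by rw [hQZ, hQr]; exact hf0.hi) c3 (by omega)
        (by rw [hp12r, ← hL]; exact c4) (by rw [hp12r, ← hL]; exact c5)
        (by
          intro n hn
          obtain ⟨k1, k2, k3⟩ := hNm n hn
          have hf := hF n k1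
          obtain ⟨d1, d2, -⟩ := class_par hB hL hR hf.n4
          rw [k2, k3] at d1 d2
          exact ⟨d1, d2, hf.cop, hf.np, by rw [hQZ]; exact hf.nD, hf.lo, hf.up, hf.mf⟩)
      rw [← hL] at hcl
      have e2 : ∑ n ∈ N, G (p2 R j i) n ≤ (s : ℝ) * (X / (m * (p2 R j i : ℝ))) / L ^ A' := by
        rw [hp12r] at hcl
        rw [hG]
        exact hcl
      refine e2.trans ?_
      have hm0 : (0 : ℝ) < m := by
        have := hf0.m1
        have : 0 < m := by omega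
        exact_mod_cast this
      have hp2 : ((2 ^ j : ℕ) : ℝ) ≤ p2 R j i := by exact_mod_cast pow_le_p2 R j i
      have hp0 : (0 : ℝ) < ((2 ^ j : ℕ) : ℝ) := by positivity
      have hLA : 0 < L ^ A' := by positivity
      calc (s : ℝ) * (X / (m * (p2 R j i : ℝ))) / L ^ A'
          ≤ (s : ℝ) * (X / (m * ((2 ^ j : ℕ) : ℝ))) / L ^ A' := by gcongr
        _ = (s : ℝ) / (2 ^ j : ℕ) * ((X / L ^ A') * (1 / m)) := by
            field_simp
    refine (Finset.sum_le_sum hi).trans ?_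
    rw [Finset.sum_const, Finset.card_range, nsmul_eq_mul]
    have hY0 : 0 ≤ (X / L ^ A') * (1 / (m : ℝ)) := by positivity
    have e3 : ((2 ^ j / s + 1 : ℕ) : ℝ) * ((s : ℝ) / (2 ^ j : ℕ)) ≤ 3 := by
      have hp0 : (0 : ℝ) < ((2 ^ j : ℕ) : ℝ) := by positivity
      have e4 : ((2 ^ j / s : ℕ) : ℝ) ≤ ((2 ^ j : ℕ) : ℝ) / s := Nat.cast_div_le
      have e5 : (s : ℝ) ≤ 2 * ((2 ^ j : ℕ) : ℝ) := by
        rw [hs]
        unfold sS
        have e6 := Nat.floor_le (show 0 ≤ ((2 ^ j : ℕ) : ℝ) / R by positivity)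
        have e7 : ((2 ^ j : ℕ) : ℝ) / R ≤ ((2 ^ j : ℕ) : ℝ) := div_le_self hp0.le hR1
        have e8 : (1 : ℝ) ≤ ((2 ^ j : ℕ) : ℝ) := by
          exact_mod_cast Nat.one_le_two_pow
        push_cast at e6 e7 e8 ⊢
        linarith
      calc ((2 ^ j / s + 1 : ℕ) : ℝ) * ((s : ℝ) / (2 ^ j : ℕ))
          = (((2 ^ j / s : ℕ) : ℝ) + 1) * ((s : ℝ) / (2 ^ j : ℕ)) := by push_cast; ring
        _ ≤ (((2 ^ j : ℕ) : ℝ) / s + 1) * ((s : ℝ) / (2 ^ j : ℕ)) := by gcongr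
        _ = 1 + (s : ℝ) / (2 ^ j : ℕ) := by field_simp
        _ ≤ 1 + 2 := by
            gcongr
            rw [div_le_iff₀ hp0]
            exact e5
        _ = 3 := by norm_num
    calc ((2 ^ j / s + 1 : ℕ) : ℝ) * ((s : ℝ) / (2 ^ j : ℕ) * ((X / L ^ A') * (1 / m)))
        = (((2 ^ j / s + 1 : ℕ) : ℝ) * ((s : ℝ) / (2 ^ j : ℕ))) * ((X / L ^ A') * (1 / m)) := by
          ring
      _ ≤ 3 * ((X / L ^ A') * (1 / m)) := mul_le_mul_of_nonneg_right e3 hY0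
  refine (Finset.sum_le_sum hj).trans ?_
  rw [Finset.sum_const, Finset.card_range, nsmul_eq_mul]
  have hY0 : 0 ≤ (X / L ^ A') * (1 / (m : ℝ)) := by positivity
  have e9 : ((⌊2 * L⌋₊ + 1 : ℕ) : ℝ) ≤ 3 * L := by
    push_cast
    have := Nat.floor_le (show 0 ≤ 2 * L by linarith)
    linarith
  calc ((⌊2 * L⌋₊ + 1 : ℕ) : ℝ) * (3 * ((X / L ^ A') * (1 / m)))
      ≤ (3 * L) * (3 * ((X / L ^ A') * (1 / m))) := by gcongr
    _ = 9 * L * (X / L ^ A') * (1 / m) := by ring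

lemma eventually_bigF (K C1 : ℕ) : ∀ᶠ x : ℝ in atTop, BigF K C1 x := by
  have E1 : ∀ᶠ x : ℝ in atTop, 2 ≤ Real.log x := Real.tendsto_log_atTop.eventually_ge_atTop 2
  have E2 := Asm.eventually_log_rpow_le K ((1 : ℝ) / 6) 1 (by norm_num) one_pos
  filter_upwards [E1, E2, eventually_ge_atTop (2 : ℝ)] with x h1 h2 h4
  rw [one_mul, Real.rpow_natCast] at h2
  have hx0 : 0 < x := by linarith
  have hx1 : 1 ≤ x := by linarith
  refine ⟨h4, h1, ?_, ?_⟩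
  · calc (Real.log x) ^ K * x ^ ((1 : ℝ) / 3) ≤ x ^ ((1 : ℝ) / 6) * x ^ ((1 : ℝ) / 3) := by
          have : 0 < x ^ ((1 : ℝ) / 3) := Real.rpow_pos_of_pos hx0 _
          gcongr
      _ = x ^ ((1 : ℝ) / 2) := by
          rw [← Real.rpow_add hx0]; norm_num
  · calc (Real.log x) ^ K * x ^ ((1 : ℝ) / 5) * x ^ ((1 : ℝ) / 4)
        ≤ x ^ ((1 : ℝ) / 6) * x ^ ((1 : ℝ) / 5) * x ^ ((1 : ℝ) / 4) := by
          have : 0 < x ^ ((1 : ℝ) / 5) := Real.rpow_pos_of_pos hx0 _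
          have : 0 < x ^ ((1 : ℝ) / 4) := Real.rpow_pos_of_pos hx0 _
          gcongr
      _ = x ^ ((37 : ℝ) / 60) := by
          rw [← Real.rpow_add hx0, ← Real.rpow_add hx0]; norm_num
      _ ≤ x ^ ((29 : ℝ) / 30) := Real.rpow_le_rpow_of_exponent_le hx1 (by norm_num)

lemma eventually_bigG (E : ℕ) : ∀ᶠ x : ℝ in atTop, BigG E x := by
  have E1 : ∀ᶠ x : ℝ in atTop, 4 ≤ Real.log x := Real.tendsto_log_atTop.eventually_ge_atTop 4
  have E2 := Asm.eventually_log_rpow_le E ((1 : ℝ) / 4) 8 (by norm_num) (by norm_num)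
  have E3 := Asm.eventually_log_rpow_le 1 ((1 : ℝ) / 20) 1 (by norm_num) one_pos
  filter_upwards [E1, E2, E3, eventually_ge_atTop (1 : ℝ)] with x h1 h2 h3 h4
  rw [Real.rpow_natCast] at h2
  rw [one_mul, Real.rpow_one] at h3
  have hx0 : 0 < x := by linarith
  refine ⟨h4, h1, ?_, ?_⟩
  · have h5 : 1 ≤ (Real.log x) ^ E := one_le_pow₀ (by linarith)
    linarith
  · have h5 : 1 ≤ x ^ ((1 : ℝ) / 5) := Real.one_le_rpow h4 (by norm_num)
    have h6 : x ^ ((1 : ℝ) / 4) = x ^ ((1 : ℝ) / 20) * x ^ ((1 : ℝ) / 5) := by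
      rw [← Real.rpow_add hx0]; norm_num
    have h7 : 4 * x ^ ((1 : ℝ) / 5) ≤ x ^ ((1 : ℝ) / 20) * x ^ ((1 : ℝ) / 5) := by
      apply mul_le_mul_of_nonneg_right _ (by linarith)
      linarith
    linarith

lemma fin_num {L y c : ℝ} {CL C1 : ℕ} (hL20 : 20 ≤ L) (hc0 : 0 ≤ c) (hc : c ≤ L ^ CL)
    (hCL1 : 2 * CL + 4 ≤ C1) (hyL' : L ^ C1 ≤ y + 1) :
    (2 + L) + c ^ 2 * (3 * L * (2 + L) / (y + 1) + 1 / L ^ (2 * CL)) ≤ 3 * L := by
  have hL1 : 1 ≤ L := by linarith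
  have hL0 : 0 < L := by linarith
  have e1 : c ^ 2 ≤ L ^ (2 * CL) := by
    rw [pow_mul']
    gcongr
  have hLc : 0 < L ^ (2 * CL) := by positivity
  have hy0 : 0 < y + 1 := lt_of_lt_of_le (by positivity) hyL'
  have e2 : L ^ (2 * CL) * L ^ 4 ≤ y + 1 := by
    rw [← pow_add]
    exact (pow_le_pow_right₀ hL1 hCL1).trans hyL'
  have e3 : 3 * L * (2 + L) / (y + 1) ≤ 3 * L * (2 + L) / (L ^ (2 * CL) * L ^ 4) := by
    apply div_le_div_of_nonneg_left (by positivity) (by positivity) e2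
  calc (2 + L) + c ^ 2 * (3 * L * (2 + L) / (y + 1) + 1 / L ^ (2 * CL))
      ≤ (2 + L) + L ^ (2 * CL) * (3 * L * (2 + L) / (L ^ (2 * CL) * L ^ 4) +
          1 / L ^ (2 * CL)) := by
        have : 0 ≤ 3 * L * (2 + L) / (y + 1) + 1 / L ^ (2 * CL) := by positivity
        gcongr
    _ = (2 + L) + (3 * (2 + L) / L ^ 3 + 1) := by
        field_simp
    _ ≤ (2 + L) + (1 + 1) := by
        have : 3 * (2 + L) / L ^ 3 ≤ 1 := by
          rw [div_le_one (by positivity)]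
          have e4 : 20 * L ≤ L ^ 2 := by nlinarith
          have e5 : L ^ 3 = L * L ^ 2 := by ring
          nlinarith
        linarith
    _ ≤ 3 * L := by linarith

lemma fin_num2 {X L : ℝ} {A A' : ℕ} (hX : 0 < X) (hL20 : 20 ≤ L) (hA' : A' = A + 4) :
    X / L ^ (A + 1) + 9 * L * (X / L ^ A') * (3 * L) ≤ X / L ^ A := by
  have hL0 : 0 < L := by linarith
  calc X / L ^ (A + 1) + 9 * L * (X / L ^ A') * (3 * L)
      = X / L ^ A * (1 / L + 27 / L ^ 2) := by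
        rw [hA', pow_add L A 1, pow_add L A 4]
        have h7 : L ^ A ≠ 0 := by positivity
        field_simp
        norm_num
    _ ≤ X / L ^ A * 1 := by
        have h8 : 1 / L ≤ 1 / 20 := by gcongr
        have h9 : 27 / L ^ 2 ≤ 27 / 20 ^ 2 := by gcongr
        have h10 : 1 / L + 27 / L ^ 2 ≤ 1 := by
          refine (add_le_add h8 h9).trans ?_
          norm_num
        have h11 : 0 ≤ X / L ^ A := by positivity
        exact mul_le_mul_of_nonneg_left h10 h11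
    _ = X / L ^ A := mul_one _

set_option maxHeartbeats 1000000 in
/-- **`ClsSE → SEH`** -/
theorem se_of_cls (hcls : ClsSE) : SEH := by
  classical
  intro C A
  obtain ⟨A', hA'⟩ : ∃ A', A' = A + 4 := ⟨_, rfl⟩
  obtain ⟨K1, hK1⟩ := hcls C A'
  refine ⟨K1, fun K hK => ?_⟩
  obtain ⟨CH, hCH⟩ := hK1 K hK
  refine ⟨CH, fun CL => ?_⟩
  obtain ⟨C1, hC1⟩ : ∃ C1, C1 = max K (2 * CL + 4) := ⟨_, rfl⟩
  have hKC1 : K ≤ C1 := by rw [hC1]; exact le_max_left _ _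
  have hCL1 : 2 * CL + 4 ≤ C1 := by rw [hC1]; exact le_max_right _ _
  obtain ⟨X1, hX1⟩ := hCH C1 hKC1
  have hev : ∀ᶠ x : ℝ in atTop, BigF K C1 x ∧ BigG (A' + C + K + 1) x ∧ 20 ≤ Real.log x := by
    filter_upwards [eventually_bigF K C1, eventually_bigG (A' + C + K + 1),
      Real.tendsto_log_atTop.eventually_ge_atTop 20] with x h1 h2 h3
    exact ⟨h1, h2, h3⟩
  obtain ⟨X2, hX2⟩ := (hev.and ((smooth_mass C1 (C + K + A + 1) ((1 : ℝ) / 5) (by norm_num)).and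
    (disj (2 * CL) C1))).exists_forall_of_atTop
  refine ⟨max X1 X2, fun X hX a LL hLL DD hDD => ?_⟩
  have hcl := hX1 X ((le_max_left _ _).trans hX)
  obtain ⟨⟨hBF, hBG, hL20⟩, hsm, hdj⟩ := hX2 X ((le_max_right _ _).trans hX)
  obtain ⟨L, hL⟩ : ∃ L, L = Real.log (X : ℝ) := ⟨_, rfl⟩
  obtain ⟨R, hR⟩ : ∃ R, R = L ^ (A' + C + K + 1 + 1) := ⟨_, rfl⟩
  have hX0 : (0 : ℝ) < X := by have := hBF.x2; linarith
  rw [← hL] at hL20
  have hL1 : 1 ≤ L := by linarith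
  have hL0 : 0 < L := by linarith
  obtain ⟨hcard, hfam⟩ := hLL
  rw [← hL] at hcard
  obtain ⟨y, hy⟩ : ∃ y, y = ⌊L ^ C1⌋₊ := ⟨_, rfl⟩
  have hyL : (y : ℝ) ≤ L ^ C1 := by rw [hy]; exact Nat.floor_le (by positivity)
  have hyL' : L ^ C1 ≤ y + 1 := by rw [hy]; exact (Nat.lt_floor_add_one _).le
  -- smooth and structured nodes
  obtain ⟨DS, hDS⟩ : ∃ DS, DS = DD.filter (fun d => (X : ℝ) ^ ((1 : ℝ) / 5) ≤ smp y d) := ⟨_, rfl⟩
  obtain ⟨DT, hDT⟩ : ∃ DT, DT = DD.filter (fun d => ¬ (X : ℝ) ^ ((1 : ℝ) / 5) ≤ smp y d) :=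
    ⟨_, rfl⟩
  have hfac : ∀ d : ℕ, ∃ (τ : ℤ × ℤ) (m n : ℕ), d ∈ DT →
      τ ∈ LL ∧ d = m * n ∧ Fac X K K1 CH C1 a τ m n := by
    intro d
    by_cases hd : d ∈ DT
    · obtain ⟨hd1, hd2⟩ := Finset.mem_filter.mp (hDT ▸ hd)
      obtain ⟨hW, τ, hτ, hcap, hlow⟩ := hDD d hd1
      obtain ⟨m, n, h1, h2⟩ := factor hKC1 hBF (by rw [← hL]; exact hy) hW hcap hlow
        (not_le.mp hd2)
      exact ⟨τ, m, n, fun _ => ⟨hτ, h1, h2⟩⟩
    · exact ⟨(0, 0), 0, 0, fun h => absurd h hd⟩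
  choose τf mf nf hf using hfac
  obtain ⟨lev, hlev⟩ : ∃ lev : ℕ → ℝ, lev = fun d => if d ∈ DT then
      L ^ C * (X / (mf d * p2 R (Nat.log 2 (nf d)) (ix R (nf d)))) else L ^ C * (X / d) :=
    ⟨_, rfl⟩
  refine ⟨lev, ?_, ?_⟩
  · intro d hd
    rw [← hL]
    have hd0 : (0 : ℝ) < d := by
      have := (hDD d hd).1.1
      exact_mod_cast Nat.pos_of_ne_zero this.ne_zero
    have hLC : 0 < L ^ C := by positivity
    rw [hlev]
    by_cases hdT : d ∈ DT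
    · simp only [hdT, if_true]
      obtain ⟨h1, h2, h3⟩ := hf d hdT
      obtain ⟨-, k2, -, -, -, k6⟩ := class_par hBG hL hR h3.n4
      have hm0 : (0 : ℝ) < mf d := by
        have := h3.m1
        have : 0 < mf d := by omega
        exact_mod_cast this
      have hn0 : (0 : ℝ) < nf d := lt_of_lt_of_le (Real.rpow_pos_of_pos hX0 _) h3.n4
      have hdr : (d : ℝ) = mf d * nf d := by exact_mod_cast h2
      have k2r : (nf d : ℝ) ≤ p2 R (Nat.log 2 (nf d)) (ix R (nf d)) := by exact_mod_cast k2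
      have hp2 : (0 : ℝ) < p2 R (Nat.log 2 (nf d)) (ix R (nf d)) := by linarith
      constructor
      · rw [mul_div_assoc]
        apply mul_le_mul_of_nonneg_left _ hLC.le
        apply div_le_div_of_nonneg_left hX0.le (by positivity)
        rw [hdr]
        calc (mf d : ℝ) * p2 R (Nat.log 2 (nf d)) (ix R (nf d)) ≤ mf d * (3 * nf d) := by gcongr
          _ = 3 * (mf d * nf d) := by ring
      · rw [mul_div_assoc]
        apply mul_le_mul_of_nonneg_left _ hLC.le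
        apply div_le_div_of_nonneg_left hX0.le hd0
        rw [hdr]
        gcongr
    · simp only [hdT, if_false]
      rw [mul_div_assoc, mul_div_assoc]
      refine ⟨?_, le_rfl⟩
      apply mul_le_mul_of_nonneg_left _ hLC.le
      apply div_le_div_of_nonneg_left hX0.le hd0
      linarith
  · have hsplit : ∑ d ∈ DD, max 0 ((X : ℝ) / d * Th (bd (lev d)) 1 d.minFac -
        sI a X d d.minFac) = ∑ d ∈ DS, max 0 ((X : ℝ) / d * Th (bd (lev d)) 1 d.minFac -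
        sI a X d d.minFac) + ∑ d ∈ DT, max 0 ((X : ℝ) / d * Th (bd (lev d)) 1 d.minFac -
        sI a X d d.minFac) := by
      rw [hDS, hDT, Finset.sum_filter_add_sum_filter_not]
    rw [hsplit]
    -- the smooth part
    have hS : ∑ d ∈ DS, max 0 ((X : ℝ) / d * Th (bd (lev d)) 1 d.minFac - sI a X d d.minFac) ≤
        X / L ^ (A + 1) := by
      have hpt : ∀ d ∈ DS, max 0 ((X : ℝ) / d * Th (bd (lev d)) 1 d.minFac -
          sI a X d d.minFac) ≤ X * L ^ (C + K) * (1 / d) := by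
        intro d hd
        obtain ⟨hd1, hd2⟩ := Finset.mem_filter.mp (hDS ▸ hd)
        have hdT : d ∉ DT := by
          rw [hDT, Finset.mem_filter]
          tauto
        obtain ⟨⟨hsq, hlo, hup, hmf, -⟩, -⟩ := hDD d hd1
        rw [← hL] at hlo hup
        have hd0 : (0 : ℝ) < d := by exact_mod_cast Nat.pos_of_ne_zero hsq.ne_zero
        have hld : lev d = L ^ C * (X / d) := by rw [hlev]; simp only [hdT, if_false]
        have hw1 : (1 : ℝ) ≤ d.minFac := by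
          exact_mod_cast Nat.minFac_pos d
        have hXd : (X : ℝ) / d ≤ L ^ K := by
          have hLK : 0 < L ^ K := by positivity
          rw [div_le_iff₀ hLK] at hlo
          rw [div_le_iff₀ hd0]
          linarith
        have hLC1 : 1 ≤ L ^ C := one_le_pow₀ hL1
        have hXd0 : 0 < (X : ℝ) / d := by positivity
        have hl1 : (X : ℝ) / d ≤ lev d := by
          rw [hld]; exact le_mul_of_one_le_left hXd0.le hLC1
        have hl2 : lev d ≤ L ^ (C + K) := by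
          rw [hld, pow_add]; gcongr
        have hw2 : (1 : ℝ) ≤ (d.minFac : ℝ) ^ 2 := one_le_pow₀ hw1
        have hadm : Adm (lev d) 1 d.minFac := adm_of_lt (by push_cast; linarith)
        have h3 := (abs_Theta_le (lev d) d.minFac).trans (card_Idx_le hadm (by linarith))
        have h4 : Theta (lev d) d.minFac = Th (bd (lev d)) 1 d.minFac := rfl
        rw [h4] at h3
        have h5 := sI_nonneg a X d d.minFac
        apply max_le
        · positivity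
        · calc (X : ℝ) / d * Th (bd (lev d)) 1 d.minFac - sI a X d d.minFac
              ≤ (X : ℝ) / d * Th (bd (lev d)) 1 d.minFac := by linarith
            _ ≤ (X : ℝ) / d * L ^ (C + K) := by
                apply mul_le_mul_of_nonneg_left _ hXd0.le
                exact (le_abs_self _).trans (h3.trans hl2)
            _ = X * L ^ (C + K) * (1 / d) := by ring
      refine (Finset.sum_le_sum hpt).trans ?_
      rw [← Finset.mul_sum]
      have hDSm : ∀ d ∈ DS, d ∈ DD ∧ (X : ℝ) ^ ((1 : ℝ) / 5) ≤ smp y d := by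
        intro d hd
        rw [hDS, Finset.mem_filter] at hd
        exact hd
      have hX3 : 3 ≤ X := by
        have h1 : (3 : ℝ) ≤ X := by
          have h2 := Real.log_le_sub_one_of_pos hX0
          rw [← hL] at h2
          linarith
        exact_mod_cast h1
      have h6 := hsm y X DS (by rw [← hL]; exact hyL) hX3
        (by rw [sq]; exact le_mul_of_one_le_left hX0.le (by exact_mod_cast (by omega : 1 ≤ X)))
        (fun d hd => (hDD d (hDSm d hd).1).1.1) (by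
          intro d hd
          obtain ⟨⟨-, -, hup, -, -⟩, -⟩ := hDD d (hDSm d hd).1
          rw [← hL] at hup
          have : (d : ℝ) ≤ X := hup.trans (div_le_self hX0.le (one_le_pow₀ hL1))
          exact_mod_cast this) (fun d hd => (hDSm d hd).2)
      rw [← hL] at h6
      calc (X : ℝ) * L ^ (C + K) * ∑ d ∈ DS, (1 : ℝ) / d
          ≤ (X : ℝ) * L ^ (C + K) * (1 / L ^ (C + K + A + 1)) := by gcongr
        _ = X / L ^ (A + 1) := by
            rw [show C + K + A + 1 = (C + K) + (A + 1) by ring, pow_add L (C + K) (A + 1)]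
            have h7 : L ^ (C + K) ≠ 0 := by positivity
            have h8 : L ^ (A + 1) ≠ 0 := by positivity
            field_simp
    -- the structured part
    have hT : ∑ d ∈ DT, max 0 ((X : ℝ) / d * Th (bd (lev d)) 1 d.minFac - sI a X d d.minFac) ≤
        9 * L * (X / L ^ A') * (3 * L) := by
      have hτm : ∀ d ∈ DT, τf d ∈ LL := fun d hd => (hf d hd).1
      rw [← Finset.sum_fiberwise_of_maps_to hτm]
      obtain ⟨M, hM⟩ : ∃ M : ℤ × ℤ → Finset ℕ, M = fun τ => (DT.filter (fun d => τf d = τ)).image mf :=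
        ⟨_, rfl⟩
      have hstep : ∀ τ ∈ LL, ∑ d ∈ DT with τf d = τ, max 0 ((X : ℝ) / d *
          Th (bd (lev d)) 1 d.minFac - sI a X d d.minFac) ≤
          9 * L * (X / L ^ A') * ∑ m ∈ M τ, (1 : ℝ) / m := by
        intro τ hτ
        have hmm : ∀ d ∈ DT.filter (fun d => τf d = τ), mf d ∈ M τ := by
          intro d hd
          rw [hM]
          exact Finset.mem_image_of_mem _ hd
        rw [← Finset.sum_fiberwise_of_maps_to hmm, Finset.mul_sum]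
        refine Finset.sum_le_sum fun m _ => ?_
        obtain ⟨E, hE⟩ : ∃ E, E = (DT.filter (fun d => τf d = τ)).filter (fun d => mf d = m) :=
          ⟨_, rfl⟩
        rw [← hE]
        have hEm : ∀ d ∈ E, d ∈ DT ∧ τf d = τ ∧ mf d = m := by
          intro d hd
          rw [hE, Finset.mem_filter, Finset.mem_filter] at hd
          exact ⟨hd.1.1, hd.1.2, hd.2⟩
        have hEd : ∀ d ∈ E, d = m * nf d ∧ Fac X K K1 CH C1 a τ m (nf d) := by
          intro d hd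
          obtain ⟨h1, h2, h3⟩ := hEm d hd
          obtain ⟨-, h5, h6⟩ := hf d h1
          rw [h2, h3] at h6
          rw [h3] at h5
          exact ⟨h5, h6⟩
        have hinj : Set.InjOn nf (E : Set ℕ) := by
          intro d hd d' hd' heq
          rw [(hEd d hd).1, (hEd d' hd').1, heq]
        obtain ⟨t1, t2, t3, t4⟩ := hfam τ hτ
        have h7 := sum_tm hL hR hBG hcl t1 t2 t3 t4 (E.image nf) (m := m) (by
          intro n hn
          obtain ⟨d, hd, rfl⟩ := Finset.mem_image.mp hn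
          exact (hEd d hd).2)
        rw [Finset.sum_image hinj] at h7
        refine le_trans (le_of_eq ?_) h7
        refine Finset.sum_congr rfl fun d hd => ?_
        obtain ⟨h1, h2⟩ := hEd d hd
        have h8 : d.minFac = m.minFac := by rw [h2.mfe, ← h1]
        have h9 : lev d = L ^ C * (X / (m * p2 R (Nat.log 2 (nf d)) (ix R (nf d)))) := by
          rw [hlev]
          simp only [(hEm d hd).1, if_true, (hEm d hd).2.2]
        rw [h8, h9, ← h1]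
        have h10 : (d : ℝ) = m * nf d := by exact_mod_cast h1
        rw [h10]
      refine (Finset.sum_le_sum hstep).trans ?_
      rw [← Finset.mul_sum]
      have hdis := hdj a y (by rw [← hL]; exact hyL) LL hfam M (by
        intro τ hτ m hm
        rw [hM] at hm
        obtain ⟨d, hd, rfl⟩ := Finset.mem_image.mp hm
        obtain ⟨hd1, hd2⟩ := Finset.mem_filter.mp hd
        have h5 := (hf d hd1).2.2
        rw [hd2] at h5
        exact ⟨(Nat.squarefree_mul_iff.mp h5.sq).2.1, h5.m3, h5.mX, h5.mg⟩)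
      rw [← hL] at hdis
      have hfin := fin_num hL20 (Nat.cast_nonneg LL.card) hcard hCL1 hyL'
      have hc0 : 0 ≤ 9 * L * (X / L ^ A') := by positivity
      exact mul_le_mul_of_nonneg_left (hdis.trans hfin) hc0
    rw [← hL]
    exact (add_le_add hS hT).trans (fin_num2 hX0 hL20 hA')

/-- **block SE** -/
theorem seH : SEH := se_of_cls clsSE

end Crest.Agent.R001.SE
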