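import Mathlib

-- ▼ part R001/Str1
section

/-!
# R001, block STR: structured nodes of large height are equidistributed, part 1

Elementary counting lemmas.
-/

set_option autoImplicit false

namespace Crest.Agent.R001.Str

open Finset

/-- number of `m ∈ (l, r]` in a residue class -/
lemma card_Ioc_class (l r : ℤ) (hlr : l ≤ r) (w : ℕ) (hw : 0 < w) (c : ℤ) :
    |(((Ioc l r).filter (fun m => (w : ℤ) ∣ m - c)).card : ℝ) - ((r : ℝ) - l) / w| ≤ 1 := by
  have hw' : (0 : ℤ) < (w : ℤ) := by exact_mod_cast hw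
  have h1 := Int.Ioc_filter_modEq_card l r hw' c
  have h2 : (Ioc l r).filter (fun m => (w : ℤ) ∣ m - c)
      = (Ioc l r).filter (fun m => m ≡ c [ZMOD (w : ℤ)]) := by
    apply Finset.filter_congr
    intro m _
    rw [Int.modEq_iff_dvd, ← dvd_neg, neg_sub]
  rw [h2]
  set A : ℤ := ⌊((r : ℚ) - c) / ((w : ℤ) : ℚ)⌋ with hA
  set B : ℤ := ⌊((l : ℚ) - c) / ((w : ℤ) : ℚ)⌋ with hB
  have hwq : (0 : ℚ) < ((w : ℤ) : ℚ) := by exact_mod_cast hw
  have hAB : B ≤ A := by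
    apply Int.floor_le_floor
    apply div_le_div_of_nonneg_right _ hwq.le
    have : (l : ℚ) ≤ r := by exact_mod_cast hlr
    linarith
  have h3 : ((((Ioc l r).filter (fun m => m ≡ c [ZMOD (w : ℤ)])).card : ℤ)) = A - B := by
    rw [h1, max_eq_left]
    omega
  have h4 : ((((Ioc l r).filter (fun m => m ≡ c [ZMOD (w : ℤ)])).card : ℝ))
      = ((A - B : ℤ) : ℝ) := by
    rw [← h3]; simp
  rw [h4]
  have a1 := Int.floor_le (((r : ℚ) - c) / ((w : ℤ) : ℚ))
  have a2 := Int.lt_floor_add_one (((r : ℚ) - c) / ((w : ℤ) : ℚ))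
  have b1 := Int.floor_le (((l : ℚ) - c) / ((w : ℤ) : ℚ))
  have b2 := Int.lt_floor_add_one (((l : ℚ) - c) / ((w : ℤ) : ℚ))
  rw [← hA] at a1 a2
  rw [← hB] at b1 b2
  have e : ((r : ℚ) - c) / ((w : ℤ) : ℚ) - ((l : ℚ) - c) / ((w : ℤ) : ℚ)
      = ((r : ℚ) - l) / ((w : ℤ) : ℚ) := by
    rw [← sub_div]; ring_nf
  have eAB : ((A - B : ℤ) : ℚ) = (A : ℚ) - B := by push_cast; ring
  have c1 : ((A - B : ℤ) : ℚ) - ((r : ℚ) - l) / ((w : ℤ) : ℚ) ≤ 1 := by
    rw [eAB]; linarith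
  have c2 : -1 ≤ ((A - B : ℤ) : ℚ) - ((r : ℚ) - l) / ((w : ℤ) : ℚ) := by
    rw [eAB]; linarith
  rw [abs_le]
  constructor
  · have := (Rat.cast_le (K := ℝ)).mpr c2
    push_cast at this ⊢
    linarith
  · have := (Rat.cast_le (K := ℝ)).mpr c1
    push_cast at this ⊢
    linarith

/-- number of `b < K` in a residue class mod a divisor of `K` -/
lemma card_range_class (K D : ℕ) (hK : 0 < K) (hD : D ∣ K) (c : ℤ) :
    (((range K).filter (fun b : ℕ => (D : ℤ) ∣ (b : ℤ) - c)).card : ℝ) = (K : ℝ) / D := by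
  obtain ⟨q, rfl⟩ := hD
  have hD0 : 0 < D := Nat.pos_of_mul_pos_right hK |> fun h => by
    rcases Nat.eq_zero_or_pos D with h0 | h0
    · simp [h0] at hK
    · exact h0
  have hD' : (0 : ℤ) < (D : ℤ) := by exact_mod_cast hD0
  have h1 := Int.Ico_filter_modEq_card 0 ((D * q : ℕ) : ℤ) hD' c
  have h2 : ((range (D * q)).filter (fun b : ℕ => (D : ℤ) ∣ (b : ℤ) - c)).card
      = ((Ico 0 ((D * q : ℕ) : ℤ)).filter (fun m => m ≡ c [ZMOD (D : ℤ)])).card := by
    apply Finset.card_bij (fun (b : ℕ) _ => (b : ℤ))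
    · intro b hb
      rw [mem_filter, mem_range] at hb
      rw [mem_filter, mem_Ico]
      refine ⟨⟨by positivity, by exact_mod_cast hb.1⟩, ?_⟩
      rw [Int.modEq_iff_dvd, ← dvd_neg, neg_sub]
      exact hb.2
    · intro a _ b _ h
      exact_mod_cast h
    · intro m hm
      rw [mem_filter, mem_Ico] at hm
      obtain ⟨⟨h0, h1⟩, h2⟩ := hm
      refine ⟨m.toNat, ?_, ?_⟩
      · rw [mem_filter, mem_range]
        have : ((m.toNat : ℕ) : ℤ) = m := Int.toNat_of_nonneg h0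
        refine ⟨by omega, ?_⟩
        rw [this]
        rw [Int.modEq_iff_dvd, ← dvd_neg, neg_sub] at h2
        exact h2
      · exact Int.toNat_of_nonneg h0
  have h3 : ⌈((((D * q : ℕ) : ℤ) : ℚ) - c) / ((D : ℤ) : ℚ)⌉
      = ⌈(((0 : ℤ) : ℚ) - c) / ((D : ℤ) : ℚ)⌉ + q := by
    rw [← Int.ceil_add_natCast]
    congr 1
    have : ((D : ℤ) : ℚ) ≠ 0 := by exact_mod_cast hD0.ne'
    field_simp
    push_cast
    ring
  rw [h3] at h1
  have h4 : ((((Ico 0 ((D * q : ℕ) : ℤ)).filter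
      (fun m => m ≡ c [ZMOD (D : ℤ)])).card : ℤ)) = q := by
    rw [h1]
    have : (⌈(((0 : ℤ) : ℚ) - c) / ((D : ℤ) : ℚ)⌉ + (q : ℤ)
        - ⌈(((0 : ℤ) : ℚ) - c) / ((D : ℤ) : ℚ)⌉) = q := by ring
    rw [this]
    exact max_eq_left (by positivity)
  rw [h2]
  have h5 : (((Ico 0 ((D * q : ℕ) : ℤ)).filter
      (fun m => m ≡ c [ZMOD (D : ℤ)])).card) = q := by exact_mod_cast h4
  rw [h5]
  have : (D : ℝ) ≠ 0 := by exact_mod_cast hD0.ne'
  push_cast
  field_simp

/-- number of solutions `b < K` of `W b ≡ x mod D` for `D ∣ K` -/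
lemma card_lin (K D : ℕ) (hK : 0 < K) (hD : D ∣ K) (W x : ℤ) :
    (((range K).filter (fun b : ℕ => (D : ℤ) ∣ W * b - x)).card : ℝ)
      = if ((Int.gcd W D : ℕ) : ℤ) ∣ x then (K : ℝ) * (Int.gcd W D : ℕ) / D else 0 := by
  have hD0 : 0 < D := Nat.pos_of_dvd_of_pos hD hK
  set w : ℕ := Int.gcd W D with hw
  have hw0 : 0 < w := Int.gcd_pos_of_ne_zero_right _ (by exact_mod_cast hD0.ne')
  have hwW : (w : ℤ) ∣ W := Int.gcd_dvd_left ..
  have hwD : (w : ℤ) ∣ (D : ℤ) := Int.gcd_dvd_right ..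
  split_ifs with hx
  · obtain ⟨W', hW'⟩ := hwW
    have hwD' : w ∣ D := by exact_mod_cast hwD
    obtain ⟨D', hD'⟩ := hwD'
    obtain ⟨x', hx'⟩ := hx
    have hcop : IsCoprime W' (D' : ℤ) := by
      rw [Int.isCoprime_iff_gcd_eq_one]
      have h1 : Int.gcd W D = w * Int.gcd W' D' := by
        rw [hW', hD']
        push_cast
        rw [Int.gcd_mul_left]
        simp
      rw [← hw] at h1
      exact Nat.eq_of_mul_eq_mul_left hw0 (by rw [← h1, mul_one])
    obtain ⟨u, v, huv⟩ := hcop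
    have key : ∀ b : ℕ, ((D : ℤ) ∣ W * b - x) ↔ ((D' : ℤ) ∣ (b : ℤ) - u * x') := by
      intro b
      have e1 : W * (b : ℤ) - x = w * (W' * b - x') := by rw [hW', hx']; ring
      have e2 : (D : ℤ) = w * (D' : ℤ) := by rw [hD']; push_cast; ring
      have hwz : (w : ℤ) ≠ 0 := by exact_mod_cast hw0.ne'
      rw [e1, e2, mul_dvd_mul_iff_left hwz]
      constructor
      · intro h
        have : (b : ℤ) - u * x' = u * (W' * b - x') + v * D' * b := by
          have : (b : ℤ) = (u * W' + v * D') * b := by rw [huv]; ring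
          linear_combination this
        rw [this]
        exact dvd_add (Dvd.dvd.mul_left h u) ⟨v * b, by ring⟩
      · intro h
        have : W' * (b : ℤ) - x' = W' * ((b : ℤ) - u * x') - v * D' * x' := by
          linear_combination x' * huv
        rw [this]
        exact dvd_sub (Dvd.dvd.mul_left h W') ⟨v * x', by ring⟩
    have h1 : (range K).filter (fun b : ℕ => (D : ℤ) ∣ W * b - x)
        = (range K).filter (fun b : ℕ => (D' : ℤ) ∣ (b : ℤ) - u * x') := by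
      apply Finset.filter_congr
      intro b _
      exact key b
    have hDK : D' ∣ K := dvd_trans ⟨w, by rw [hD']; ring⟩ hD
    rw [h1, card_range_class K D' hK hDK]
    have hD'0 : (D' : ℝ) ≠ 0 := by
      rintro h
      have : D' = 0 := by exact_mod_cast h
      simp [this] at hD'
      omega
    have hwr : (w : ℝ) ≠ 0 := by exact_mod_cast hw0.ne'
    have : (D : ℝ) = w * D' := by rw [hD']; push_cast; ring
    rw [this]
    field_simp
  · rw [Finset.filter_eq_empty_iff.mpr]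
    · simp
    · intro b _ h
      apply hx
      have h2 : (w : ℤ) ∣ W * b - x := dvd_trans hwD h
      have h3 : (w : ℤ) ∣ W * b := Dvd.dvd.mul_right hwW _
      have : x = W * b - (W * b - x) := by ring
      rw [this]
      exact dvd_sub h3 h2

end Crest.Agent.R001.Str
end

-- ▼ part R001/Str2
section

/-!
# R001, block STR, part 2: joint counts
-/

set_option autoImplicit false

namespace Crest.Agent.R001.Str

open Finset

/-- indicator of `V δ ∣ B + m` -/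
noncomputable def ind (V δ : ℕ) (B m : ℤ) : ℝ := if ((V * δ : ℕ) : ℤ) ∣ B + m then 1 else 0


/-- single counts -/
lemma sum_ind (K V δ : ℕ) (hK : 0 < K) (hD : V * δ ∣ K) (W m : ℤ) :
    ∑ b ∈ range K, ind V δ (W * b) m
      = if ((Int.gcd W ((V * δ : ℕ) : ℤ) : ℕ) : ℤ) ∣ m then
          (K : ℝ) * (Int.gcd W ((V * δ : ℕ) : ℤ) : ℕ) / ((V * δ : ℕ) : ℝ) else 0 := by
  have h := card_lin K (V * δ) hK hD W (-m)
  have h1 : ∑ b ∈ range K, ind V δ (W * b) m
      = (((range K).filter (fun b : ℕ => ((V * δ : ℕ) : ℤ) ∣ W * b - (-m))).card : ℝ) := by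
    rw [Finset.card_filter]
    push_cast
    apply Finset.sum_congr rfl
    intro b _
    simp only [ind, sub_neg_eq_add]
    push_cast
    rfl
  rw [h1, h]
  simp only [dvd_neg]

/-- two congruences are one congruence -/
lemma crt_pair (V δ δ' : ℕ) (j : ℤ) (hj : ((V * Nat.gcd δ δ' : ℕ) : ℤ) ∣ j) :
    ∃ x0 : ℤ, ∀ y : ℤ, (((V * δ : ℕ) : ℤ) ∣ y ∧ ((V * δ' : ℕ) : ℤ) ∣ y + j) ↔
      ((V * Nat.lcm δ δ' : ℕ) : ℤ) ∣ y - x0 := by
  obtain ⟨k, hk⟩ := hj
  have hb := Int.gcd_eq_gcd_ab (δ : ℤ) (δ' : ℤ)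
  rw [Int.gcd_natCast_natCast] at hb
  set α := Int.gcdA (δ : ℤ) δ'
  set β := Int.gcdB (δ : ℤ) δ'
  refine ⟨-(V * δ * α * k), fun y => ?_⟩
  have e1 : -((V : ℤ) * δ * α * k) + j = (V * δ' : ℕ) * (β * k) := by
    rw [hk]
    push_cast
    rw [hb]
    ring
  have hl : ((V * Nat.lcm δ δ' : ℕ) : ℤ) = ((Nat.lcm (V * δ) (V * δ') : ℕ) : ℤ) := by
    rw [Nat.lcm_mul_left]
  rw [hl]
  constructor
  · rintro ⟨h1, h2⟩
    have a1 : ((V * δ : ℕ) : ℤ) ∣ y - -((V : ℤ) * δ * α * k) := by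
      have : y - -((V : ℤ) * δ * α * k) = y + (V * δ : ℕ) * (α * k) := by push_cast; ring
      rw [this]
      exact dvd_add h1 (dvd_mul_right _ _)
    have a2 : ((V * δ' : ℕ) : ℤ) ∣ y - -((V : ℤ) * δ * α * k) := by
      have : y - -((V : ℤ) * δ * α * k) = (y + j) - ((V * δ' : ℕ) * (β * k)) := by
        rw [← e1]; ring
      rw [this]
      exact dvd_sub h2 (dvd_mul_right _ _)
    have := Int.coe_lcm_dvd a1 a2
    rwa [Int.lcm_natCast_natCast] at this
  · intro h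
    have b1 : ((V * δ : ℕ) : ℤ) ∣ ((Nat.lcm (V * δ) (V * δ') : ℕ) : ℤ) := by
      exact_mod_cast Nat.dvd_lcm_left _ _
    have b2 : ((V * δ' : ℕ) : ℤ) ∣ ((Nat.lcm (V * δ) (V * δ') : ℕ) : ℤ) := by
      exact_mod_cast Nat.dvd_lcm_right _ _
    constructor
    · have : y = (y - -((V : ℤ) * δ * α * k)) - (V * δ : ℕ) * (α * k) := by push_cast; ring
      rw [this]
      exact dvd_sub (b1.trans h) (dvd_mul_right _ _)
    · have : y + j = (y - -((V : ℤ) * δ * α * k)) + ((V * δ' : ℕ) * (β * k)) := by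
        rw [← e1]; ring
      rw [this]
      exact dvd_add (b2.trans h) (dvd_mul_right _ _)

/-- joint counts -/
lemma joint (K V δ δ' : ℕ) (hK : 0 < K) (hD : V * Nat.lcm δ δ' ∣ K) (W j : ℤ) :
    ∃ x0 : ℤ, ∀ m : ℤ,
      ∑ b ∈ range K, ind V δ (W * b) m * ind V δ' (W * b) (m + j)
      = if ((V * Nat.gcd δ δ' : ℕ) : ℤ) ∣ j ∧
            ((Int.gcd W ((V * Nat.lcm δ δ' : ℕ) : ℤ) : ℕ) : ℤ) ∣ m - x0 then
          (K : ℝ) * (Int.gcd W ((V * Nat.lcm δ δ' : ℕ) : ℤ) : ℕ) / ((V * Nat.lcm δ δ' : ℕ) : ℝ)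
        else 0 := by
  by_cases hj : ((V * Nat.gcd δ δ' : ℕ) : ℤ) ∣ j
  · obtain ⟨x0, hx0⟩ := crt_pair V δ δ' j hj
    refine ⟨x0, fun m => ?_⟩
    have h := card_lin K (V * Nat.lcm δ δ') hK hD W (x0 - m)
    have h1 : ∑ b ∈ range K, ind V δ (W * b) m * ind V δ' (W * b) (m + j)
        = (((range K).filter
          (fun b : ℕ => ((V * Nat.lcm δ δ' : ℕ) : ℤ) ∣ W * b - (x0 - m))).card : ℝ) := by
      rw [Finset.card_filter]
      rw [Nat.cast_sum]
      apply Finset.sum_congr rfl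
      intro b _
      have hiff := hx0 (W * b + m)
      have e : W * (b : ℤ) + m - x0 = W * b - (x0 - m) := by ring
      rw [e, add_assoc] at hiff
      unfold ind
      by_cases hc : ((V * Nat.lcm δ δ' : ℕ) : ℤ) ∣ W * b - (x0 - m)
      · obtain ⟨c1, c2⟩ := hiff.mpr hc
        rw [if_pos hc, if_pos c1, if_pos c2]
        norm_num
      · rw [if_neg hc]
        by_cases c1 : ((V * δ : ℕ) : ℤ) ∣ W * b + m
        · have c2 : ¬ ((V * δ' : ℕ) : ℤ) ∣ W * b + (m + j) := fun c2 => hc (hiff.mp ⟨c1, c2⟩)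
          rw [if_neg c2]; simp
        · rw [if_neg c1]; simp
    rw [h1, h]
    have e2 : (((Int.gcd W ((V * Nat.lcm δ δ' : ℕ) : ℤ) : ℕ) : ℤ) ∣ x0 - m) ↔
        (((V * Nat.gcd δ δ' : ℕ) : ℤ) ∣ j ∧
            ((Int.gcd W ((V * Nat.lcm δ δ' : ℕ) : ℤ) : ℕ) : ℤ) ∣ m - x0) := by
      rw [← dvd_neg, neg_sub]
      exact ⟨fun h => ⟨hj, h⟩, fun h => h.2⟩
    simp only [e2]
  · refine ⟨0, fun m => ?_⟩
    rw [if_neg (fun h => hj h.1)]
    apply Finset.sum_eq_zero
    intro b _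
    unfold ind
    by_cases c1 : ((V * δ : ℕ) : ℤ) ∣ W * b + m
    · by_cases c2 : ((V * δ' : ℕ) : ℤ) ∣ W * b + (m + j)
      · exfalso
        apply hj
        have d1 : ((V * Nat.gcd δ δ' : ℕ) : ℤ) ∣ ((V * δ : ℕ) : ℤ) := by
          exact_mod_cast mul_dvd_mul_left V (Nat.gcd_dvd_left δ δ')
        have d2 : ((V * Nat.gcd δ δ' : ℕ) : ℤ) ∣ ((V * δ' : ℕ) : ℤ) := by
          exact_mod_cast mul_dvd_mul_left V (Nat.gcd_dvd_right δ δ')
        have : j = (W * b + (m + j)) - (W * b + m) := by ring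
        rw [this]
        exact dvd_sub (d2.trans c2) (d1.trans c1)
      · rw [if_neg c2]; simp
    · rw [if_neg c1]; simp

end Crest.Agent.R001.Str
end

-- ▼ part R001/Str3
section

/-!
# R001, block STR, part 3: the second moment for a fixed window and `V` large (`STR1`)
-/

set_option autoImplicit false

namespace Crest.Agent.R001.Str

open Finset

/-- reorganise a double sum over an interval by differences -/
lemma sum_pairs (l r : ℤ) (f : ℤ → ℤ → ℝ) :
    ∑ m ∈ Ioc l r, ∑ m' ∈ Ioc l r, f m m'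
      = ∑ j ∈ Ioo (-(r - l)) (r - l),
          ∑ m ∈ Ioc (max l (l - j)) (min r (r - j)), f m (m + j) := by
  rw [Finset.sum_sigma', Finset.sum_sigma']
  apply Finset.sum_bij' (fun (p : (_ : ℤ) × ℤ) _ => (⟨p.2 - p.1, p.1⟩ : (_ : ℤ) × ℤ))
    (fun (p : (_ : ℤ) × ℤ) _ => (⟨p.2, p.2 + p.1⟩ : (_ : ℤ) × ℤ))
  · rintro ⟨m, m'⟩ h
    simp only [mem_sigma, mem_Ioc, mem_Ioo, max_lt_iff, le_min_iff] at h ⊢
    omega
  · rintro ⟨j, m⟩ h
    simp only [mem_sigma, mem_Ioc, mem_Ioo, max_lt_iff, le_min_iff] at h ⊢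
    omega
  · rintro ⟨m, m'⟩ _
    simp
  · rintro ⟨j, m⟩ _
    simp
  · rintro ⟨m, m'⟩ _
    simp

/-- number of pairs of an interval congruent mod `G` -/
lemma card_pairs (l r : ℤ) (hlr : l ≤ r) (G : ℕ) (hG : 0 < G) :
    |(∑ m ∈ Ioc l r, ∑ m' ∈ Ioc l r, (if (G : ℤ) ∣ m' - m then (1 : ℝ) else 0))
      - ((r : ℝ) - l) ^ 2 / G| ≤ (r : ℝ) - l := by
  have hcard : ((Ioc l r).card : ℝ) = (r : ℝ) - l := by
    rw [Int.card_Ioc]
    have : ((r - l).toNat : ℤ) = r - l := Int.toNat_of_nonneg (by omega)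
    have h2 : (((r - l).toNat : ℤ) : ℝ) = ((r - l : ℤ) : ℝ) := by rw [this]
    push_cast at h2
    exact h2
  have h1 : (∑ m ∈ Ioc l r, ∑ m' ∈ Ioc l r, (if (G : ℤ) ∣ m' - m then (1 : ℝ) else 0))
      - ((r : ℝ) - l) ^ 2 / G
      = ∑ m ∈ Ioc l r, ((∑ m' ∈ Ioc l r, (if (G : ℤ) ∣ m' - m then (1 : ℝ) else 0))
        - ((r : ℝ) - l) / G) := by
    rw [Finset.sum_sub_distrib, Finset.sum_const, nsmul_eq_mul, hcard]
    ring
  rw [h1]
  refine (Finset.abs_sum_le_sum_abs _ _).trans ?_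
  calc ∑ m ∈ Ioc l r, |(∑ m' ∈ Ioc l r, (if (G : ℤ) ∣ m' - m then (1 : ℝ) else 0))
        - ((r : ℝ) - l) / G| ≤ ∑ m ∈ Ioc l r, (1 : ℝ) := by
        apply Finset.sum_le_sum
        intro m _
        have := card_Ioc_class l r hlr G hG m
        rw [Finset.card_filter] at this
        push_cast at this
        exact this
    _ = (r : ℝ) - l := by rw [Finset.sum_const, nsmul_eq_mul, hcard, mul_one]

/-- number of multiples of `G` in `(-h, h)` -/
lemma card_mult (h : ℤ) (hh : 0 ≤ h) (G : ℕ) (hG : 0 < G) :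
    (((Ioo (-h) h).filter (fun j => (G : ℤ) ∣ j)).card : ℝ) ≤ 2 * (h : ℝ) / G + 1 := by
  rcases hh.eq_or_lt with h0 | h0
  · subst h0
    simp
  · have e : Ioo (-h) h = Ioc (-h) (h - 1) := by
      ext j; simp only [mem_Ioo, mem_Ioc]; omega
    rw [e]
    have := card_Ioc_class (-h) (h - 1) (by omega) G hG 0
    simp only [sub_zero] at this
    have h2 := (abs_le.mp this).2
    have hG' : (0 : ℝ) < G := by exact_mod_cast hG
    have h3 : (((h - 1 : ℤ) : ℝ) - ((-h : ℤ) : ℝ)) / G ≤ 2 * (h : ℝ) / G := by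
      apply div_le_div_of_nonneg_right _ hG'.le
      push_cast; linarith
    linarith

/-- windowed count -/
noncomputable def Zr (V δ : ℕ) (B l r : ℤ) : ℝ := ∑ m ∈ Ioc l r, ind V δ B m

/-- `Σ_b Z_δ` -/
lemma sum_Zr (K V δ : ℕ) (hK : 0 < K) (hV : 0 < V) (hδ : 0 < δ) (hD : V * δ ∣ K) (W l r : ℤ)
    (hlr : l ≤ r) (hw : Int.gcd W ((V * δ : ℕ) : ℤ) ≤ V) :
    |∑ b ∈ range K, Zr V δ (W * b) l r - (K : ℝ) * (((r : ℝ) - l) / V) / δ| ≤ (K : ℝ) / δ := by
  unfold Zr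
  rw [Finset.sum_comm]
  set w : ℕ := Int.gcd W ((V * δ : ℕ) : ℤ) with hwdef
  have hw0 : 0 < w := Int.gcd_pos_of_ne_zero_right _ (by
    have : 0 < V * δ := Nat.mul_pos hV hδ
    exact_mod_cast this.ne')
  have h1 : ∑ m ∈ Ioc l r, ∑ b ∈ range K, ind V δ (W * b) m
      = ((K : ℝ) * w / ((V * δ : ℕ) : ℝ)) *
        (((Ioc l r).filter (fun m => (w : ℤ) ∣ m - 0)).card : ℝ) := by
    rw [Finset.card_filter]
    push_cast
    rw [Finset.mul_sum]
    apply Finset.sum_congr rfl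
    intro m _
    rw [sum_ind K V δ hK hD W m, ← hwdef, sub_zero]
    split_ifs
    · push_cast; ring
    · ring
  rw [h1]
  have h2 := card_Ioc_class l r hlr w hw0 0
  set N : ℝ := (((Ioc l r).filter (fun m => (w : ℤ) ∣ m - 0)).card : ℝ) with hN
  have hVr : (0 : ℝ) < V := by exact_mod_cast hV
  have hδr : (0 : ℝ) < δ := by exact_mod_cast hδ
  have hwr : (0 : ℝ) < w := by exact_mod_cast hw0
  have hKr : (0 : ℝ) < K := by exact_mod_cast hK
  have hwV : (w : ℝ) ≤ V := by exact_mod_cast hw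
  have e : (K : ℝ) * w / ((V * δ : ℕ) : ℝ) * N - (K : ℝ) * (((r : ℝ) - l) / V) / δ
      = ((K : ℝ) * w / ((V * δ : ℕ) : ℝ)) * (N - ((r : ℝ) - l) / w) := by
    push_cast
    field_simp
  rw [e, abs_mul, abs_of_nonneg (by positivity)]
  calc (K : ℝ) * w / ((V * δ : ℕ) : ℝ) * |N - ((r : ℝ) - l) / w|
      ≤ (K : ℝ) * w / ((V * δ : ℕ) : ℝ) * 1 := by
        apply mul_le_mul_of_nonneg_left h2 (by positivity)
    _ ≤ (K : ℝ) / δ := by
        push_cast
        rw [mul_one, div_le_div_iff₀ (by positivity) hδr]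
        have : (K : ℝ) * w * δ ≤ K * V * δ := by
          apply mul_le_mul_of_nonneg_right _ hδr.le
          apply mul_le_mul_of_nonneg_left hwV hKr.le
        linarith

/-- `Σ_b Z_δ Z_δ'` -/
lemma sum_ZZ (K V δ δ' : ℕ) (hK : 0 < K) (hV : 0 < V) (hδ : 0 < δ) (hδ' : 0 < δ')
    (hD : V * Nat.lcm δ δ' ∣ K) (W l r : ℤ) (hlr : l ≤ r)
    (hw : Int.gcd W ((V * Nat.lcm δ δ' : ℕ) : ℤ) ≤ V) :
    |∑ b ∈ range K, Zr V δ (W * b) l r * Zr V δ' (W * b) l r
        - (K : ℝ) * (((r : ℝ) - l) / V) ^ 2 / (δ * δ')|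
      ≤ (K : ℝ) * (3 * (((r : ℝ) - l) / V) + 1) * (Nat.gcd δ δ' : ℝ) / (δ * δ') := by
  set D : ℕ := V * Nat.lcm δ δ' with hDdef
  set g : ℕ := Nat.gcd δ δ' with hgdef
  set w : ℕ := Int.gcd W (D : ℤ) with hwdef
  have hg0 : 0 < g := Nat.gcd_pos_of_pos_left _ hδ
  have hlcm0 : 0 < Nat.lcm δ δ' := Nat.lcm_pos hδ hδ'
  have hD0 : 0 < D := Nat.mul_pos hV hlcm0
  have hw0 : 0 < w := Int.gcd_pos_of_ne_zero_right _ (by exact_mod_cast hD0.ne')
  have hVr : (0 : ℝ) < V := by exact_mod_cast hV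
  have hδr : (0 : ℝ) < δ := by exact_mod_cast hδ
  have hδr' : (0 : ℝ) < δ' := by exact_mod_cast hδ'
  have hwr : (0 : ℝ) < w := by exact_mod_cast hw0
  have hKr : (0 : ℝ) < K := by exact_mod_cast hK
  have hwV : (w : ℝ) ≤ V := by exact_mod_cast hw
  have hgr : (0 : ℝ) < g := by exact_mod_cast hg0
  have hDr : (0 : ℝ) < D := by exact_mod_cast hD0
  have hlcmr : (0 : ℝ) < (Nat.lcm δ δ' : ℝ) := by exact_mod_cast hlcm0
  have hgl : (g : ℝ) * (Nat.lcm δ δ' : ℝ) = δ * δ' := by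
    have := Nat.gcd_mul_lcm δ δ'
    exact_mod_cast this
  set h : ℝ := (r : ℝ) - l with hh
  have hh0 : 0 ≤ h := by
    have : (l : ℝ) ≤ r := by exact_mod_cast hlr
    simpa [hh] using this
  -- the joint counts
  set N : ℤ → ℤ → ℝ := fun m m' => ∑ b ∈ range K, ind V δ (W * b) m * ind V δ' (W * b) m'
    with hN
  have e1 : ∑ b ∈ range K, Zr V δ (W * b) l r * Zr V δ' (W * b) l r
      = ∑ m ∈ Ioc l r, ∑ m' ∈ Ioc l r, N m m' := by
    unfold Zr
    simp only [hN]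
    calc ∑ b ∈ range K, (∑ m ∈ Ioc l r, ind V δ (W * b) m) * (∑ m ∈ Ioc l r, ind V δ' (W * b) m)
        = ∑ b ∈ range K, ∑ m ∈ Ioc l r, ∑ m' ∈ Ioc l r,
            ind V δ (W * b) m * ind V δ' (W * b) m' := by
          apply Finset.sum_congr rfl
          intro b _
          rw [Finset.sum_mul_sum]
      _ = _ := by
          rw [Finset.sum_comm]
          apply Finset.sum_congr rfl
          intro m _
          rw [Finset.sum_comm]
  set P : ℝ := ∑ m ∈ Ioc l r, ∑ m' ∈ Ioc l r,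
    (if ((V * g : ℕ) : ℤ) ∣ m' - m then (1 : ℝ) else 0) with hP
  have hPb := card_pairs l r hlr (V * g) (Nat.mul_pos hV hg0)
  rw [← hP] at hPb
  -- difference
  have e2 : |∑ m ∈ Ioc l r, ∑ m' ∈ Ioc l r, N m m' - (K : ℝ) / D * P|
      ≤ ((K : ℝ) * w / D) * (2 * h / ((V * g : ℕ) : ℝ) + 1) := by
    rw [hP, sum_pairs l r N, sum_pairs l r, Finset.mul_sum, ← Finset.sum_sub_distrib]
    refine (Finset.abs_sum_le_sum_abs _ _).trans ?_
    calc ∑ j ∈ Ioo (-(r - l)) (r - l),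
          |∑ m ∈ Ioc (max l (l - j)) (min r (r - j)), N m (m + j)
            - (K : ℝ) / D * ∑ m ∈ Ioc (max l (l - j)) (min r (r - j)),
              (if ((V * g : ℕ) : ℤ) ∣ m + j - m then (1 : ℝ) else 0)|
        ≤ ∑ j ∈ Ioo (-(r - l)) (r - l),
            (if ((V * g : ℕ) : ℤ) ∣ j then (K : ℝ) * w / D else 0) := by
          apply Finset.sum_le_sum
          intro j hj
          rw [mem_Ioo] at hj
          obtain ⟨x0, hx0⟩ := joint K V δ δ' hK hD W j
          simp only [add_sub_cancel_left]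
          by_cases hjG : ((V * g : ℕ) : ℤ) ∣ j
          · simp only [if_pos hjG]
            have hle : max l (l - j) ≤ min r (r - j) := by
              rw [max_le_iff, le_min_iff, le_min_iff]; omega
            have a1 : ∑ m ∈ Ioc (max l (l - j)) (min r (r - j)), N m (m + j)
                = ((K : ℝ) * w / D) *
                  (((Ioc (max l (l - j)) (min r (r - j))).filter
                    (fun m => (w : ℤ) ∣ m - x0)).card : ℝ) := by
              rw [Finset.card_filter]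
              push_cast
              rw [Finset.mul_sum]
              apply Finset.sum_congr rfl
              intro m _
              have := hx0 m
              rw [hN]
              simp only
              rw [this]
              by_cases hm : (w : ℤ) ∣ m - x0
              · rw [if_pos ⟨hjG, hm⟩, if_pos hm, mul_one]
              · rw [if_neg (fun h => hm h.2), if_neg hm, mul_zero]
            rw [a1]
            have a2 : ∑ m ∈ Ioc (max l (l - j)) (min r (r - j)), (1 : ℝ)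
                = ((min r (r - j) : ℤ) : ℝ) - ((max l (l - j) : ℤ) : ℝ) := by
              rw [Finset.sum_const, nsmul_eq_mul, mul_one, Int.card_Ioc]
              have : ((min r (r - j) - max l (l - j)).toNat : ℤ)
                  = min r (r - j) - max l (l - j) := Int.toNat_of_nonneg (by omega)
              have h2 : (((min r (r - j) - max l (l - j)).toNat : ℤ) : ℝ)
                  = ((min r (r - j) - max l (l - j) : ℤ) : ℝ) := by rw [this]
              rw [Int.cast_sub] at h2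
              rw [← h2]
              norm_cast
            rw [a2]
            have a3 := card_Ioc_class _ _ hle w hw0 x0
            set N1 : ℝ := (((Ioc (max l (l - j)) (min r (r - j))).filter
                    (fun m => (w : ℤ) ∣ m - x0)).card : ℝ)
            set L1 : ℝ := ((min r (r - j) : ℤ) : ℝ) - ((max l (l - j) : ℤ) : ℝ)
            have a4 : (K : ℝ) * w / D * N1 - K / D * L1 = (K : ℝ) * w / D * (N1 - L1 / w) := by
              field_simp
            rw [a4, abs_mul, abs_of_nonneg (by positivity)]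
            calc (K : ℝ) * w / D * |N1 - L1 / w| ≤ (K : ℝ) * w / D * 1 :=
                  mul_le_mul_of_nonneg_left a3 (by positivity)
              _ = _ := mul_one _
          · simp only [if_neg hjG]
            have a1 : ∑ m ∈ Ioc (max l (l - j)) (min r (r - j)), N m (m + j) = 0 := by
              apply Finset.sum_eq_zero
              intro m _
              have := hx0 m
              rw [hN]
              simp only
              rw [this, if_neg (fun h => hjG h.1)]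
            rw [a1]
            simp
      _ = ((K : ℝ) * w / D) * (((Ioo (-(r - l)) (r - l)).filter
            (fun j => ((V * g : ℕ) : ℤ) ∣ j)).card : ℝ) := by
          rw [Finset.card_filter]
          push_cast
          rw [Finset.mul_sum]
          apply Finset.sum_congr rfl
          intro j _
          split_ifs <;> ring
      _ ≤ ((K : ℝ) * w / D) * (2 * h / ((V * g : ℕ) : ℝ) + 1) := by
          apply mul_le_mul_of_nonneg_left _ (by positivity)
          have := card_mult (r - l) (by omega) (V * g) (Nat.mul_pos hV hg0)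
          rw [Int.cast_sub] at this
          exact this
  rw [e1]
  set S : ℝ := ∑ m ∈ Ioc l r, ∑ m' ∈ Ioc l r, N m m' with hS
  set y : ℝ := h / V with hy
  have hy0 : 0 ≤ y := div_nonneg hh0 hVr.le
  have hhy : h = y * V := by rw [hy]; field_simp
  have hDD : (D : ℝ) = V * (Nat.lcm δ δ' : ℝ) := by rw [hDdef]; push_cast; rfl
  have hlg : (Nat.lcm δ δ' : ℝ) = δ * δ' / g := by rw [← hgl]; field_simp
  -- main term
  have m1 : (K : ℝ) * y ^ 2 / (δ * δ') = (K : ℝ) / D * (h ^ 2 / ((V * g : ℕ) : ℝ)) := by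
    rw [hDD, hlg, hhy]
    push_cast
    field_simp
  have m2 : |(K : ℝ) / D * P - (K : ℝ) * y ^ 2 / (δ * δ')| ≤ (K : ℝ) * y * g / (δ * δ') := by
    rw [m1, ← mul_sub, abs_mul, abs_of_nonneg (by positivity)]
    calc (K : ℝ) / D * |P - h ^ 2 / ((V * g : ℕ) : ℝ)| ≤ (K : ℝ) / D * h :=
          mul_le_mul_of_nonneg_left hPb (by positivity)
      _ = (K : ℝ) * y * g / (δ * δ') := by
          rw [hDD, hlg, hhy]
          field_simp
  have m3 : ((K : ℝ) * w / D) * (2 * h / ((V * g : ℕ) : ℝ) + 1)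
      ≤ (K : ℝ) * (2 * y + 1) * g / (δ * δ') := by
    have b1 : (K : ℝ) * w / D ≤ (K : ℝ) * g / (δ * δ') := by
      calc (K : ℝ) * w / D ≤ (K : ℝ) * V / D := by
            apply div_le_div_of_nonneg_right _ hDr.le
            exact mul_le_mul_of_nonneg_left hwV hKr.le
        _ = (K : ℝ) * g / (δ * δ') := by
            rw [hDD, hlg]
            field_simp
    have b2 : 2 * h / ((V * g : ℕ) : ℝ) + 1 ≤ 2 * y + 1 := by
      have hg1 : (1 : ℝ) ≤ g := by exact_mod_cast hg0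
      have : 2 * h / ((V * g : ℕ) : ℝ) = 2 * y / g := by
        rw [hhy]; push_cast; field_simp
      rw [this]
      have : 2 * y / g ≤ 2 * y := div_le_self (by positivity) hg1
      linarith
    calc ((K : ℝ) * w / D) * (2 * h / ((V * g : ℕ) : ℝ) + 1)
        ≤ ((K : ℝ) * g / (δ * δ')) * (2 * y + 1) := by
          apply mul_le_mul b1 b2 (by positivity) (by positivity)
      _ = _ := by ring
  have fin : |S - (K : ℝ) * y ^ 2 / (δ * δ')| ≤ |S - (K : ℝ) / D * P|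
      + |(K : ℝ) / D * P - (K : ℝ) * y ^ 2 / (δ * δ')| := abs_sub_le _ _ _
  calc |S - (K : ℝ) * y ^ 2 / (δ * δ')| ≤ _ := fin
    _ ≤ (K : ℝ) * (2 * y + 1) * g / (δ * δ') + (K : ℝ) * y * g / (δ * δ') :=
        add_le_add (e2.trans m3) m2
    _ = _ := by ring

end Crest.Agent.R001.Str
end

-- ▼ part R001/Str4

/-!
# R001, block STR, part 4: the variance of one window (`V` large) and the average variance of
moving windows
-/

set_option autoImplicit false

namespace Crest.Agent.R001.Str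

open Finset

/-- the variance functional `Σ_b (Σ_δ c_δ (Z_δ - y/δ))²` for the window `(l, r]`. -/
noncomputable def FF (K V : ℕ) (DD : Finset ℕ) (c : ℕ → ℝ) (W l r : ℤ) : ℝ :=
  ∑ b ∈ range K, (∑ δ ∈ DD, c δ * (Zr V δ (W * b) l r - (((r : ℝ) - l) / V) / δ)) ^ 2

/-- the universal variance quantity -/
noncomputable def vv (DD : Finset ℕ) (c : ℕ → ℝ) : ℝ :=
  ∑ δ ∈ DD, ∑ δ' ∈ DD, |c δ| * |c δ'| * ((Nat.gcd δ δ' : ℝ) / (δ * δ'))

lemma vv_nonneg (DD : Finset ℕ) (c : ℕ → ℝ) : 0 ≤ vv DD c := by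
  unfold vv
  apply Finset.sum_nonneg; intro δ _
  apply Finset.sum_nonneg; intro δ' _
  positivity

/-- algebra of the expansion -/
lemma expand (DD : Finset ℕ) (c : ℕ → ℝ) {ι : Type*} (T : Finset ι) (Z : ℕ → ι → ℝ)
    (y : ℝ) :
    ∑ b ∈ T, (∑ δ ∈ DD, c δ * (Z δ b - y / δ)) ^ 2
      = ∑ δ ∈ DD, ∑ δ' ∈ DD, c δ * c δ' *
          ((∑ b ∈ T, Z δ b * Z δ' b) - (y / δ') * ∑ b ∈ T, Z δ b - (y / δ) * ∑ b ∈ T, Z δ' b
            + (T.card : ℝ) * (y / δ * (y / δ'))) := by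
  calc ∑ b ∈ T, (∑ δ ∈ DD, c δ * (Z δ b - y / δ)) ^ 2
      = ∑ b ∈ T, ∑ δ ∈ DD, ∑ δ' ∈ DD,
          c δ * (Z δ b - y / δ) * (c δ' * (Z δ' b - y / δ')) := by
        apply Finset.sum_congr rfl
        intro b _
        rw [sq, Finset.sum_mul_sum]
    _ = ∑ δ ∈ DD, ∑ δ' ∈ DD, ∑ b ∈ T,
          c δ * (Z δ b - y / δ) * (c δ' * (Z δ' b - y / δ')) := by
        rw [Finset.sum_comm]
        apply Finset.sum_congr rfl
        intro δ _
        rw [Finset.sum_comm]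
    _ = _ := by
        apply Finset.sum_congr rfl
        intro δ _
        apply Finset.sum_congr rfl
        intro δ' _
        have e : ∀ b ∈ T, c δ * (Z δ b - y / δ) * (c δ' * (Z δ' b - y / δ'))
            = c δ * c δ' * (Z δ b * Z δ' b) - c δ * c δ' * (y / δ') * Z δ b
              - c δ * c δ' * (y / δ) * Z δ' b + c δ * c δ' * (y / δ * (y / δ')) := by
          intro b _; ring
        rw [Finset.sum_congr rfl e, Finset.sum_add_distrib, Finset.sum_sub_distrib,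
          Finset.sum_sub_distrib, ← Finset.mul_sum, ← Finset.mul_sum, ← Finset.mul_sum,
          Finset.sum_const, nsmul_eq_mul]
        ring

/-- bounding the expansion -/
lemma expand_le (DD : Finset ℕ) (c : ℕ → ℝ) {ι : Type*} (T : Finset ι) (Z : ℕ → ι → ℝ)
    (y E : ℝ) (hE : ∀ δ ∈ DD, ∀ δ' ∈ DD,
      |(∑ b ∈ T, Z δ b * Z δ' b) - (y / δ') * ∑ b ∈ T, Z δ b - (y / δ) * ∑ b ∈ T, Z δ' b
            + (T.card : ℝ) * (y / δ * (y / δ'))| ≤ E * ((Nat.gcd δ δ' : ℝ) / (δ * δ'))) :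
    ∑ b ∈ T, (∑ δ ∈ DD, c δ * (Z δ b - y / δ)) ^ 2 ≤ E * vv DD c := by
  rw [expand]
  unfold vv
  rw [Finset.mul_sum]
  apply Finset.sum_le_sum
  intro δ hδ
  rw [Finset.mul_sum]
  apply Finset.sum_le_sum
  intro δ' hδ'
  refine (le_abs_self _).trans ?_
  rw [abs_mul, abs_mul]
  calc |c δ| * |c δ'| * |_| ≤ |c δ| * |c δ'| * (E * ((Nat.gcd δ δ' : ℝ) / (δ * δ'))) :=
        mul_le_mul_of_nonneg_left (hE δ hδ δ' hδ') (by positivity)
    _ = _ := by ring

/-- `STR1` for one window -/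
theorem FF_le (K V : ℕ) (hK : 0 < K) (hV : 0 < V) (DD : Finset ℕ) (c : ℕ → ℝ)
    (hpos : ∀ δ ∈ DD, 0 < δ) (W : ℤ)
    (hD : ∀ δ ∈ DD, ∀ δ' ∈ DD, V * Nat.lcm δ δ' ∣ K)
    (hw : ∀ δ ∈ DD, ∀ δ' ∈ DD, Int.gcd W ((V * Nat.lcm δ δ' : ℕ) : ℤ) ≤ V)
    (l r : ℤ) (hlr : l ≤ r) :
    FF K V DD c W l r ≤ (K : ℝ) * (5 * (((r : ℝ) - l) / V) + 1) * vv DD c := by
  unfold FF
  apply expand_le
  intro δ hδ δ' hδ'
  have hKr : (0 : ℝ) < K := by exact_mod_cast hK
  have hVr : (0 : ℝ) < V := by exact_mod_cast hV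
  have hδr : (0 : ℝ) < δ := by exact_mod_cast hpos δ hδ
  have hδr' : (0 : ℝ) < δ' := by exact_mod_cast hpos δ' hδ'
  set y : ℝ := ((r : ℝ) - l) / V with hy
  have hy0 : 0 ≤ y := by
    apply div_nonneg _ hVr.le
    have : (l : ℝ) ≤ r := by exact_mod_cast hlr
    linarith
  have s1 := sum_ZZ K V δ δ' hK hV (hpos δ hδ) (hpos δ' hδ') (hD δ hδ δ' hδ') W l r hlr
    (hw δ hδ δ' hδ')
  have s2 := sum_Zr K V δ hK hV (hpos δ hδ) (by
    have := hD δ hδ δ hδ; rwa [Nat.lcm_self] at this) W l r hlr (by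
    have := hw δ hδ δ hδ; rwa [Nat.lcm_self] at this)
  have s3 := sum_Zr K V δ' hK hV (hpos δ' hδ') (by
    have := hD δ' hδ' δ' hδ'; rwa [Nat.lcm_self] at this) W l r hlr (by
    have := hw δ' hδ' δ' hδ'; rwa [Nat.lcm_self] at this)
  rw [← hy] at s1 s2 s3
  set A : ℝ := ∑ b ∈ range K, Zr V δ (W * b) l r * Zr V δ' (W * b) l r
  set B : ℝ := ∑ b ∈ range K, Zr V δ (W * b) l r
  set B' : ℝ := ∑ b ∈ range K, Zr V δ' (W * b) l r
  have hg1 : (1 : ℝ) ≤ (Nat.gcd δ δ' : ℝ) := by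
    exact_mod_cast Nat.gcd_pos_of_pos_left _ (hpos δ hδ)
  rw [Finset.card_range]
  have e : A - y / δ' * B - y / δ * B' + (K : ℝ) * (y / δ * (y / δ'))
      = (A - (K : ℝ) * y ^ 2 / (δ * δ')) - (y / δ') * (B - (K : ℝ) * y / δ)
        - (y / δ) * (B' - (K : ℝ) * y / δ') := by
    field_simp
    ring
  rw [e]
  have t1 : |(y / δ') * (B - (K : ℝ) * y / δ)| ≤ (K : ℝ) * y / (δ * δ') := by
    rw [abs_mul, abs_of_nonneg (by positivity)]
    calc (y / δ') * |B - (K : ℝ) * y / δ| ≤ (y / δ') * ((K : ℝ) / δ) :=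
          mul_le_mul_of_nonneg_left s2 (by positivity)
      _ = _ := by field_simp
  have t2 : |(y / δ) * (B' - (K : ℝ) * y / δ')| ≤ (K : ℝ) * y / (δ * δ') := by
    rw [abs_mul, abs_of_nonneg (by positivity)]
    calc (y / δ) * |B' - (K : ℝ) * y / δ'| ≤ (y / δ) * ((K : ℝ) / δ') :=
          mul_le_mul_of_nonneg_left s3 (by positivity)
      _ = _ := by field_simp
  have t3 : (K : ℝ) * y / (δ * δ') ≤ (K : ℝ) * y * (Nat.gcd δ δ' : ℝ) / (δ * δ') := by
    apply div_le_div_of_nonneg_right _ (by positivity)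
    calc (K : ℝ) * y = (K : ℝ) * y * 1 := (mul_one _).symm
      _ ≤ _ := mul_le_mul_of_nonneg_left hg1 (by positivity)
  have tri : ∀ a b d : ℝ, |a - b - d| ≤ |a| + |b| + |d| := by
    intro a b d
    calc |a - b - d| ≤ |a - b| + |d| := abs_sub _ _
      _ ≤ |a| + |b| + |d| := by linarith [abs_sub a b]
  refine (tri _ _ _).trans ?_
  calc _ ≤ (K : ℝ) * (3 * y + 1) * (Nat.gcd δ δ' : ℝ) / (δ * δ')
        + (K : ℝ) * y * (Nat.gcd δ δ' : ℝ) / (δ * δ')
        + (K : ℝ) * y * (Nat.gcd δ δ' : ℝ) / (δ * δ') :=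
        add_le_add (add_le_add s1 (t1.trans t3)) (t2.trans t3)
    _ = _ := by ring

/-! ### moving windows -/

lemma Zr_range (V δ : ℕ) (B r : ℤ) (h : ℕ) :
    Zr V δ B (r - h) r = ∑ i ∈ range h, ind V δ B (r - i) := by
  unfold Zr
  apply Finset.sum_bij' (fun (m : ℤ) _ => (r - m).toNat) (fun (i : ℕ) _ => r - (i : ℤ))
  · intro m hm
    rw [mem_Ioc] at hm
    rw [mem_range]; omega
  · intro i hi
    rw [mem_range] at hi
    rw [mem_Ioc]; omega
  · intro m hm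
    rw [mem_Ioc] at hm
    have : ((r - m).toNat : ℤ) = r - m := Int.toNat_of_nonneg (by omega)
    rw [this]; ring
  · intro i hi
    simp
  · intro m hm
    rw [mem_Ioc] at hm
    have : ((r - m).toNat : ℤ) = r - m := Int.toNat_of_nonneg (by omega)
    rw [this]
    congr 1
    ring

lemma card_pairs_range (h G : ℕ) (hG : 0 < G) :
    |(∑ i ∈ range h, ∑ i' ∈ range h, (if (G : ℤ) ∣ (i : ℤ) - i' then (1 : ℝ) else 0))
      - (h : ℝ) ^ 2 / G| ≤ (h : ℝ) := by
  have key : ∀ f : ℤ → ℝ, ∑ m ∈ Ioc (-(h : ℤ)) 0, f m = ∑ i ∈ range h, f (-(i : ℤ)) := by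
    intro f
    apply Finset.sum_bij' (fun (m : ℤ) _ => (-m).toNat) (fun (i : ℕ) _ => -(i : ℤ))
    · intro m hm
      rw [mem_Ioc] at hm
      rw [mem_range]; omega
    · intro i hi
      rw [mem_range] at hi
      rw [mem_Ioc]; omega
    · intro m hm
      rw [mem_Ioc] at hm
      have : ((-m).toNat : ℤ) = -m := Int.toNat_of_nonneg (by omega)
      rw [this]; ring
    · intro i hi
      simp
    · intro m hm
      rw [mem_Ioc] at hm
      have : ((-m).toNat : ℤ) = -m := Int.toNat_of_nonneg (by omega)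
      rw [this]
      congr 1
      ring
  have h1 := card_pairs (-(h : ℤ)) 0 (by omega) G hG
  rw [key] at h1
  simp only [key] at h1
  have e : ∀ i i' : ℕ, (-(i' : ℤ) - -(i : ℤ)) = (i : ℤ) - i' := by intro i i'; ring
  simp only [e] at h1
  push_cast at h1
  rw [sub_neg_eq_add, zero_add] at h1
  exact h1

/-- average over the right end of `Σ_b Z_δ` -/
lemma sum_Zr2 (K V δ h : ℕ) (hK : 0 < K) (hV : 0 < V) (hδ : 0 < δ) (hD : V * δ ∣ K)
    (W r1 r2 : ℤ) (hr : r1 ≤ r2) :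
    |∑ r ∈ Ioc r1 r2, ∑ b ∈ range K, Zr V δ (W * b) (r - h) r
        - ((r2 : ℝ) - r1) * (K : ℝ) * ((h : ℝ) / V) / δ|
      ≤ (K : ℝ) * (Int.gcd W ((V * δ : ℕ) : ℤ) : ℝ) * ((h : ℝ) / V) / δ := by
  set w : ℕ := Int.gcd W ((V * δ : ℕ) : ℤ) with hwdef
  have hw0 : 0 < w := Int.gcd_pos_of_ne_zero_right _ (by
    have : 0 < V * δ := Nat.mul_pos hV hδ
    exact_mod_cast this.ne')
  have hVr : (0 : ℝ) < V := by exact_mod_cast hV
  have hδr : (0 : ℝ) < δ := by exact_mod_cast hδ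
  have hwr : (0 : ℝ) < w := by exact_mod_cast hw0
  have hKr : (0 : ℝ) < K := by exact_mod_cast hK
  have e1 : ∑ r ∈ Ioc r1 r2, ∑ b ∈ range K, Zr V δ (W * b) (r - h) r
      = ∑ i ∈ range h, ∑ r ∈ Ioc r1 r2, ∑ b ∈ range K, ind V δ (W * b) (r - i) := by
    simp only [Zr_range]
    calc ∑ r ∈ Ioc r1 r2, ∑ b ∈ range K, ∑ i ∈ range h, ind V δ (W * b) (r - i)
        = ∑ r ∈ Ioc r1 r2, ∑ i ∈ range h, ∑ b ∈ range K, ind V δ (W * b) (r - i) := by
          apply Finset.sum_congr rfl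
          intro r _
          rw [Finset.sum_comm]
      _ = _ := by rw [Finset.sum_comm]
  rw [e1]
  have e2 : ∀ i : ℕ, ∑ r ∈ Ioc r1 r2, ∑ b ∈ range K, ind V δ (W * b) (r - i)
      = ((K : ℝ) * w / ((V * δ : ℕ) : ℝ)) *
        (((Ioc r1 r2).filter (fun r => (w : ℤ) ∣ r - i)).card : ℝ) := by
    intro i
    rw [Finset.card_filter]
    push_cast
    rw [Finset.mul_sum]
    apply Finset.sum_congr rfl
    intro r _
    rw [sum_ind K V δ hK hD W (r - i), ← hwdef]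
    split_ifs
    · push_cast; ring
    · ring
  simp only [e2]
  have e3 : ((r2 : ℝ) - r1) * (K : ℝ) * ((h : ℝ) / V) / δ
      = ∑ i ∈ range h, ((K : ℝ) * w / ((V * δ : ℕ) : ℝ)) * (((r2 : ℝ) - r1) / w) := by
    rw [Finset.sum_const, card_range, nsmul_eq_mul]
    push_cast
    field_simp
  rw [e3, ← Finset.sum_sub_distrib]
  refine (Finset.abs_sum_le_sum_abs _ _).trans ?_
  calc ∑ i ∈ range h, |((K : ℝ) * w / ((V * δ : ℕ) : ℝ)) *
        (((Ioc r1 r2).filter (fun r => (w : ℤ) ∣ r - i)).card : ℝ)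
        - ((K : ℝ) * w / ((V * δ : ℕ) : ℝ)) * (((r2 : ℝ) - r1) / w)|
      ≤ ∑ i ∈ range h, ((K : ℝ) * w / ((V * δ : ℕ) : ℝ)) := by
        apply Finset.sum_le_sum
        intro i _
        rw [← mul_sub, abs_mul, abs_of_nonneg (by positivity)]
        have := card_Ioc_class r1 r2 hr w hw0 i
        calc _ ≤ ((K : ℝ) * w / ((V * δ : ℕ) : ℝ)) * 1 :=
              mul_le_mul_of_nonneg_left this (by positivity)
          _ = _ := mul_one _
    _ = (K : ℝ) * w * ((h : ℝ) / V) / δ := by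
        rw [Finset.sum_const, card_range, nsmul_eq_mul]
        push_cast
        field_simp

/-- average over the right end of `Σ_b Z_δ Z_δ'` -/
lemma sum_ZZ2 (K V δ δ' h : ℕ) (hK : 0 < K) (hV : 0 < V) (hδ : 0 < δ) (hδ' : 0 < δ')
    (hD : V * Nat.lcm δ δ' ∣ K) (W r1 r2 : ℤ) (hr : r1 ≤ r2)
    (hw : (Int.gcd W ((V * Nat.lcm δ δ' : ℕ) : ℤ) : ℝ) * ((h : ℝ) / V + 1) ≤ (r2 : ℝ) - r1) :
    |∑ r ∈ Ioc r1 r2, ∑ b ∈ range K, Zr V δ (W * b) (r - h) r * Zr V δ' (W * b) (r - h) r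
        - ((r2 : ℝ) - r1) * (K : ℝ) * ((h : ℝ) / V) ^ 2 / (δ * δ')|
      ≤ 2 * ((r2 : ℝ) - r1) * (K : ℝ) * ((h : ℝ) / V) * (Nat.gcd δ δ' : ℝ) / (δ * δ') := by
  set D : ℕ := V * Nat.lcm δ δ' with hDdef
  set g : ℕ := Nat.gcd δ δ' with hgdef
  set w : ℕ := Int.gcd W (D : ℤ) with hwdef
  have hg0 : 0 < g := Nat.gcd_pos_of_pos_left _ hδ
  have hlcm0 : 0 < Nat.lcm δ δ' := Nat.lcm_pos hδ hδ'
  have hD0 : 0 < D := Nat.mul_pos hV hlcm0
  have hw0 : 0 < w := Int.gcd_pos_of_ne_zero_right _ (by exact_mod_cast hD0.ne')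
  have hVr : (0 : ℝ) < V := by exact_mod_cast hV
  have hδr : (0 : ℝ) < δ := by exact_mod_cast hδ
  have hδr' : (0 : ℝ) < δ' := by exact_mod_cast hδ'
  have hwr : (0 : ℝ) < w := by exact_mod_cast hw0
  have hKr : (0 : ℝ) < K := by exact_mod_cast hK
  have hgr : (0 : ℝ) < g := by exact_mod_cast hg0
  have hg1 : (1 : ℝ) ≤ g := by exact_mod_cast hg0
  have hDr : (0 : ℝ) < D := by exact_mod_cast hD0
  have hlcmr : (0 : ℝ) < (Nat.lcm δ δ' : ℝ) := by exact_mod_cast hlcm0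
  have hgl : (g : ℝ) * (Nat.lcm δ δ' : ℝ) = δ * δ' := by
    have := Nat.gcd_mul_lcm δ δ'
    exact_mod_cast this
  set R0 : ℝ := (r2 : ℝ) - r1 with hR0
  have hR00 : 0 ≤ R0 := by
    have : (r1 : ℝ) ≤ r2 := by exact_mod_cast hr
    rw [hR0]; linarith
  set P : ℝ := ∑ i ∈ range h, ∑ i' ∈ range h,
    (if ((V * g : ℕ) : ℤ) ∣ (i : ℤ) - i' then (1 : ℝ) else 0) with hP
  have hPb := card_pairs_range h (V * g) (Nat.mul_pos hV hg0)
  rw [← hP] at hPb
  have hP0 : 0 ≤ P := by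
    rw [hP]
    apply Finset.sum_nonneg; intro i _
    apply Finset.sum_nonneg; intro i' _
    split_ifs <;> norm_num
  have e1 : ∑ r ∈ Ioc r1 r2, ∑ b ∈ range K, Zr V δ (W * b) (r - h) r * Zr V δ' (W * b) (r - h) r
      = ∑ i ∈ range h, ∑ i' ∈ range h, ∑ r ∈ Ioc r1 r2, ∑ b ∈ range K,
          ind V δ (W * b) (r - i) * ind V δ' (W * b) (r - i') := by
    calc ∑ r ∈ Ioc r1 r2, ∑ b ∈ range K, Zr V δ (W * b) (r - h) r * Zr V δ' (W * b) (r - h) r
        = ∑ r ∈ Ioc r1 r2, ∑ i ∈ range h, ∑ i' ∈ range h, ∑ b ∈ range K,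
            ind V δ (W * b) (r - i) * ind V δ' (W * b) (r - i') := by
          apply Finset.sum_congr rfl
          intro r _
          calc ∑ b ∈ range K, Zr V δ (W * b) (r - h) r * Zr V δ' (W * b) (r - h) r
              = ∑ b ∈ range K, ∑ i ∈ range h, ∑ i' ∈ range h,
                  ind V δ (W * b) (r - i) * ind V δ' (W * b) (r - i') := by
                apply Finset.sum_congr rfl
                intro b _
                rw [Zr_range, Zr_range, Finset.sum_mul_sum]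
            _ = _ := by
                rw [Finset.sum_comm]
                apply Finset.sum_congr rfl
                intro i _
                rw [Finset.sum_comm]
      _ = _ := by
          rw [Finset.sum_comm]
          apply Finset.sum_congr rfl
          intro i _
          rw [Finset.sum_comm]
  have e2 : ∀ i i' : ℕ, |∑ r ∈ Ioc r1 r2, ∑ b ∈ range K,
          ind V δ (W * b) (r - i) * ind V δ' (W * b) (r - i')
          - (K : ℝ) / D * R0 * (if ((V * g : ℕ) : ℤ) ∣ (i : ℤ) - i' then (1 : ℝ) else 0)|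
      ≤ (K : ℝ) * w / D * (if ((V * g : ℕ) : ℤ) ∣ (i : ℤ) - i' then (1 : ℝ) else 0) := by
    intro i i'
    obtain ⟨x0, hx0⟩ := joint K V δ δ' hK hD W ((i : ℤ) - i')
    have hx1 : ∀ r : ℤ, ∑ b ∈ range K, ind V δ (W * b) (r - i) * ind V δ' (W * b) (r - i')
        = if ((V * g : ℕ) : ℤ) ∣ (i : ℤ) - i' ∧ (w : ℤ) ∣ (r - i) - x0 then
            (K : ℝ) * w / D else 0 := by
      intro r
      have := hx0 (r - i)
      have e : r - (i : ℤ) + ((i : ℤ) - i') = r - i' := by ring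
      rw [e] at this
      exact this
    simp only [hx1]
    by_cases hG : ((V * g : ℕ) : ℤ) ∣ (i : ℤ) - i'
    · simp only [hG, true_and, if_true, mul_one]
      have a1 : ∑ r ∈ Ioc r1 r2, (if (w : ℤ) ∣ (r - i) - x0 then (K : ℝ) * w / D else 0)
          = ((K : ℝ) * w / D) *
            (((Ioc r1 r2).filter (fun r => (w : ℤ) ∣ r - (i + x0))).card : ℝ) := by
        rw [Finset.card_filter]
        push_cast
        rw [Finset.mul_sum]
        apply Finset.sum_congr rfl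
        intro r _
        have e : r - (i : ℤ) - x0 = r - (i + x0) := by ring
        rw [e]
        split_ifs <;> ring
      rw [a1]
      have a2 := card_Ioc_class r1 r2 hr w hw0 (i + x0)
      rw [← hR0] at a2
      set N1 : ℝ := (((Ioc r1 r2).filter (fun r => (w : ℤ) ∣ r - (i + x0))).card : ℝ)
      have a3 : (K : ℝ) * w / D * N1 - K / D * R0 = (K : ℝ) * w / D * (N1 - R0 / w) := by
        field_simp
      rw [a3, abs_mul, abs_of_nonneg (by positivity)]
      calc (K : ℝ) * w / D * |N1 - R0 / w| ≤ (K : ℝ) * w / D * 1 :=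
            mul_le_mul_of_nonneg_left a2 (by positivity)
        _ = _ := mul_one _
    · simp only [hG, false_and, if_false, mul_zero, Finset.sum_const_zero, sub_zero, abs_zero,
        le_refl]
  have e3 : |∑ r ∈ Ioc r1 r2, ∑ b ∈ range K,
        Zr V δ (W * b) (r - h) r * Zr V δ' (W * b) (r - h) r - (K : ℝ) / D * R0 * P|
      ≤ (K : ℝ) * w / D * P := by
    rw [e1, hP, Finset.mul_sum, Finset.mul_sum, ← Finset.sum_sub_distrib]
    refine (Finset.abs_sum_le_sum_abs _ _).trans ?_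
    apply Finset.sum_le_sum
    intro i _
    rw [Finset.mul_sum, Finset.mul_sum, ← Finset.sum_sub_distrib]
    refine (Finset.abs_sum_le_sum_abs _ _).trans ?_
    apply Finset.sum_le_sum
    intro i' _
    exact e2 i i'
  set S : ℝ := ∑ r ∈ Ioc r1 r2, ∑ b ∈ range K,
        Zr V δ (W * b) (r - h) r * Zr V δ' (W * b) (r - h) r with hS
  set y : ℝ := (h : ℝ) / V with hy
  have hy0 : 0 ≤ y := by positivity
  have hhy : (h : ℝ) = y * V := by rw [hy]; field_simp
  have hDD : (D : ℝ) = V * (Nat.lcm δ δ' : ℝ) := by rw [hDdef]; push_cast; rfl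
  have hlg : (Nat.lcm δ δ' : ℝ) = δ * δ' / g := by rw [← hgl]; field_simp
  have m1 : R0 * (K : ℝ) * y ^ 2 / (δ * δ') = (K : ℝ) / D * R0 * ((h : ℝ) ^ 2 / ((V * g : ℕ) : ℝ)) := by
    rw [hDD, hlg, hhy]
    push_cast
    field_simp
  have m2 : |(K : ℝ) / D * R0 * P - R0 * (K : ℝ) * y ^ 2 / (δ * δ')|
      ≤ R0 * (K : ℝ) * y * g / (δ * δ') := by
    rw [m1, ← mul_sub, abs_mul, abs_of_nonneg (by positivity)]
    calc (K : ℝ) / D * R0 * |P - (h : ℝ) ^ 2 / ((V * g : ℕ) : ℝ)| ≤ (K : ℝ) / D * R0 * h :=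
          mul_le_mul_of_nonneg_left hPb (by positivity)
      _ = R0 * (K : ℝ) * y * g / (δ * δ') := by
          rw [hDD, hlg, hhy]
          field_simp
  have m3 : (K : ℝ) * w / D * P ≤ R0 * (K : ℝ) * y * g / (δ * δ') := by
    have b1 : P ≤ (h : ℝ) ^ 2 / ((V * g : ℕ) : ℝ) + h := by linarith [(abs_le.mp hPb).2]
    calc (K : ℝ) * w / D * P ≤ (K : ℝ) * w / D * ((h : ℝ) ^ 2 / ((V * g : ℕ) : ℝ) + h) :=
          mul_le_mul_of_nonneg_left b1 (by positivity)
      _ = (K : ℝ) / (δ * δ') * (w * (y ^ 2 + y * g)) := by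
          rw [hDD, hlg, hhy]
          push_cast
          field_simp
      _ ≤ (K : ℝ) / (δ * δ') * (R0 * y * g) := by
          apply mul_le_mul_of_nonneg_left _ (by positivity)
          calc (w : ℝ) * (y ^ 2 + y * g) ≤ (w : ℝ) * ((y + 1) * (y * g)) := by
                apply mul_le_mul_of_nonneg_left _ hwr.le
                nlinarith [mul_nonneg hy0 hy0, mul_nonneg (mul_nonneg hy0 hy0) (sub_nonneg.mpr hg1)]
            _ = (w * (y + 1)) * (y * g) := by ring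
            _ ≤ R0 * (y * g) := mul_le_mul_of_nonneg_right hw (by positivity)
            _ = _ := by ring
      _ = _ := by ring
  calc |S - R0 * (K : ℝ) * y ^ 2 / (δ * δ')| ≤ |S - (K : ℝ) / D * R0 * P|
      + |(K : ℝ) / D * R0 * P - R0 * (K : ℝ) * y ^ 2 / (δ * δ')| := abs_sub_le _ _ _
    _ ≤ R0 * (K : ℝ) * y * g / (δ * δ') + R0 * (K : ℝ) * y * g / (δ * δ') :=
        add_le_add (e3.trans m3) m2
    _ = _ := by ring

/-- `STR2`: average of the variance over moving windows of fixed length `h` -/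
theorem FF_avg (K V h : ℕ) (hK : 0 < K) (hV : 0 < V) (DD : Finset ℕ) (c : ℕ → ℝ)
    (hpos : ∀ δ ∈ DD, 0 < δ) (W : ℤ)
    (hD : ∀ δ ∈ DD, ∀ δ' ∈ DD, V * Nat.lcm δ δ' ∣ K) (r1 r2 : ℤ) (hr : r1 ≤ r2)
    (hw : ∀ δ ∈ DD, ∀ δ' ∈ DD,
      (Int.gcd W ((V * Nat.lcm δ δ' : ℕ) : ℤ) : ℝ) * ((h : ℝ) / V + 1) ≤ (r2 : ℝ) - r1) :
    ∑ r ∈ Ioc r1 r2, FF K V DD c W (r - h) r
      ≤ 4 * ((r2 : ℝ) - r1) * (K : ℝ) * ((h : ℝ) / V) * vv DD c := by
  have hcardr : ((Ioc r1 r2).card : ℝ) = (r2 : ℝ) - r1 := by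
    rw [Int.card_Ioc]
    have : ((r2 - r1).toNat : ℤ) = r2 - r1 := Int.toNat_of_nonneg (by omega)
    have h2 : (((r2 - r1).toNat : ℤ) : ℝ) = ((r2 - r1 : ℤ) : ℝ) := by rw [this]
    push_cast at h2
    exact h2
  have e0 : ∑ r ∈ Ioc r1 r2, FF K V DD c W (r - h) r
      = ∑ p ∈ (Ioc r1 r2) ×ˢ (range K),
          (∑ δ ∈ DD, c δ * (Zr V δ (W * p.2) (p.1 - h) p.1 - ((h : ℝ) / V) / δ)) ^ 2 := by
    rw [Finset.sum_product]
    apply Finset.sum_congr rfl
    intro r _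
    unfold FF
    apply Finset.sum_congr rfl
    intro b _
    have : ((r : ℝ) - ((r - h : ℤ) : ℝ)) = h := by push_cast; ring
    rw [this]
  rw [e0]
  apply expand_le
  intro δ hδ δ' hδ'
  have hKr : (0 : ℝ) < K := by exact_mod_cast hK
  have hVr : (0 : ℝ) < V := by exact_mod_cast hV
  have hδr : (0 : ℝ) < δ := by exact_mod_cast hpos δ hδ
  have hδr' : (0 : ℝ) < δ' := by exact_mod_cast hpos δ' hδ'
  have hR00 : 0 ≤ (r2 : ℝ) - r1 := by
    have : (r1 : ℝ) ≤ r2 := by exact_mod_cast hr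
    linarith
  have s1 := sum_ZZ2 K V δ δ' h hK hV (hpos δ hδ) (hpos δ' hδ') (hD δ hδ δ' hδ') W r1 r2 hr
    (hw δ hδ δ' hδ')
  have s2 := sum_Zr2 K V δ h hK hV (hpos δ hδ) (by
    have := hD δ hδ δ hδ; rwa [Nat.lcm_self] at this) W r1 r2 hr
  have s3 := sum_Zr2 K V δ' h hK hV (hpos δ' hδ') (by
    have := hD δ' hδ' δ' hδ'; rwa [Nat.lcm_self] at this) W r1 r2 hr
  have w2 : (Int.gcd W ((V * δ : ℕ) : ℤ) : ℝ) * ((h : ℝ) / V + 1) ≤ (r2 : ℝ) - r1 := by
    have := hw δ hδ δ hδ; rwa [Nat.lcm_self] at this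
  have w3 : (Int.gcd W ((V * δ' : ℕ) : ℤ) : ℝ) * ((h : ℝ) / V + 1) ≤ (r2 : ℝ) - r1 := by
    have := hw δ' hδ' δ' hδ'; rwa [Nat.lcm_self] at this
  rw [Finset.sum_product, Finset.sum_product, Finset.sum_product, Finset.card_product,
    Finset.card_range, Nat.cast_mul, hcardr]
  set y : ℝ := (h : ℝ) / V with hy
  have hy0 : 0 ≤ y := by positivity
  set R0 : ℝ := (r2 : ℝ) - r1 with hR0
  set wd : ℝ := (Int.gcd W ((V * δ : ℕ) : ℤ) : ℝ) with hwd
  set wd' : ℝ := (Int.gcd W ((V * δ' : ℕ) : ℤ) : ℝ) with hwd'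
  have hwd0 : 0 ≤ wd := by positivity
  have hwd0' : 0 ≤ wd' := by positivity
  set A : ℝ := ∑ r ∈ Ioc r1 r2, ∑ b ∈ range K,
    Zr V δ (W * b) (r - h) r * Zr V δ' (W * b) (r - h) r
  set B : ℝ := ∑ r ∈ Ioc r1 r2, ∑ b ∈ range K, Zr V δ (W * b) (r - h) r
  set B' : ℝ := ∑ r ∈ Ioc r1 r2, ∑ b ∈ range K, Zr V δ' (W * b) (r - h) r
  have hg1 : (1 : ℝ) ≤ (Nat.gcd δ δ' : ℝ) := by
    exact_mod_cast Nat.gcd_pos_of_pos_left _ (hpos δ hδ)
  have e : A - y / δ' * B - y / δ * B' + R0 * (K : ℝ) * (y / δ * (y / δ'))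
      = (A - R0 * (K : ℝ) * y ^ 2 / (δ * δ')) - (y / δ') * (B - R0 * (K : ℝ) * y / δ)
        - (y / δ) * (B' - R0 * (K : ℝ) * y / δ') := by
    field_simp
    ring
  rw [e]
  have q1 : wd * y ≤ R0 := by nlinarith
  have q2 : wd' * y ≤ R0 := by nlinarith
  have t1 : |(y / δ') * (B - R0 * (K : ℝ) * y / δ)| ≤ R0 * (K : ℝ) * y / (δ * δ') := by
    rw [abs_mul, abs_of_nonneg (by positivity)]
    calc (y / δ') * |B - R0 * (K : ℝ) * y / δ| ≤ (y / δ') * ((K : ℝ) * wd * y / δ) :=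
          mul_le_mul_of_nonneg_left s2 (by positivity)
      _ = (wd * y) * ((K : ℝ) * y / (δ * δ')) := by field_simp
      _ ≤ R0 * ((K : ℝ) * y / (δ * δ')) := mul_le_mul_of_nonneg_right q1 (by positivity)
      _ = _ := by ring
  have t2 : |(y / δ) * (B' - R0 * (K : ℝ) * y / δ')| ≤ R0 * (K : ℝ) * y / (δ * δ') := by
    rw [abs_mul, abs_of_nonneg (by positivity)]
    calc (y / δ) * |B' - R0 * (K : ℝ) * y / δ'| ≤ (y / δ) * ((K : ℝ) * wd' * y / δ') :=
          mul_le_mul_of_nonneg_left s3 (by positivity)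
      _ = (wd' * y) * ((K : ℝ) * y / (δ * δ')) := by field_simp
      _ ≤ R0 * ((K : ℝ) * y / (δ * δ')) := mul_le_mul_of_nonneg_right q2 (by positivity)
      _ = _ := by ring
  have t3 : R0 * (K : ℝ) * y / (δ * δ') ≤ R0 * (K : ℝ) * y * (Nat.gcd δ δ' : ℝ) / (δ * δ') := by
    apply div_le_div_of_nonneg_right _ (by positivity)
    calc R0 * (K : ℝ) * y = R0 * (K : ℝ) * y * 1 := (mul_one _).symm
      _ ≤ _ := mul_le_mul_of_nonneg_left hg1 (by positivity)
  have tri : ∀ a b d : ℝ, |a - b - d| ≤ |a| + |b| + |d| := by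
    intro a b d
    calc |a - b - d| ≤ |a - b| + |d| := abs_sub _ _
      _ ≤ |a| + |b| + |d| := by linarith [abs_sub a b]
  refine (tri _ _ _).trans ?_
  calc _ ≤ 2 * R0 * (K : ℝ) * y * (Nat.gcd δ δ' : ℝ) / (δ * δ')
        + R0 * (K : ℝ) * y * (Nat.gcd δ δ' : ℝ) / (δ * δ')
        + R0 * (K : ℝ) * y * (Nat.gcd δ δ' : ℝ) / (δ * δ') :=
        add_le_add (add_le_add s1 (t1.trans t3)) (t2.trans t3)
    _ = _ := by ring

end Crest.Agent.R001.Str
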