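import Crest.Agent.R001.TreeSize

/-!
# Scaling, main terms and the hybrid inequality
-/

namespace Crest.Agent.R001.Tree

open Finset Classical

/-- the density function `1 / n` -/
noncomputable def inv (n : ℕ) : ℝ := 1 / (n : ℝ)

/-- main term of the tree with stopping rule `stop` started at `(d, w)` -/
noncomputable def Th (stop : ℕ → ℕ → Prop) (d w : ℕ) : ℝ :=
  T stop (intF inv) (fun _ _ => 0) d w

/-- translation of the root by a factor `k` -/
theorem T_scale (stop : ℕ → ℕ → Prop) (fi fs : ℕ → ℕ → ℝ) (k d w : ℕ) :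
    T (fun b w => stop (k * b) w) (fun b w => fi (k * b) w) (fun b w => fs (k * b) w) d w
      = T stop fi fs (k * d) w := by
  induction w using Nat.strong_induction_on generalizing d with
  | _ w ih =>
    rw [T_eq, T_eq stop]
    congr 1
    refine Finset.sum_congr rfl fun p hp => Finset.sum_congr rfl fun q hq => ?_
    have h := ih q (lt_trans (lt_of_mem_pr hq) (lt_of_mem_pr hp)) (d * p * q)
    simp only [mul_assoc] at h ⊢
    rw [h]




lemma intF_scale (A : ℕ → ℝ) (k b w : ℕ) :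
    intF (fun b => A (k * b)) b w = intF A (k * b) w := by
  simp only [intF, mul_assoc]

lemma T_root_scale (stop : ℕ → ℕ → Prop) (fi fs : ℕ → ℕ → ℝ) (k w : ℕ) :
    T stop fi fs k w
      = T (fun b w => stop (k * b) w) (fun b w => fi (k * b) w) (fun b w => fs (k * b) w) 1 w := by
  rw [T_scale, mul_one]

lemma bd_scale {D : ℝ} {k : ℕ} (hk : 0 < k) (b w : ℕ) : bd D (k * b) w ↔ bd (D / k) b w := by
  unfold bd
  have hk' : (0 : ℝ) < k := by exact_mod_cast hk
  rw [div_le_iff₀ hk']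
  push_cast
  constructor <;> intro h <;> nlinarith [h]

lemma T_stop_congr {s1 s2 : ℕ → ℕ → Prop} (h : ∀ d w, s1 d w ↔ s2 d w) (fi fs : ℕ → ℕ → ℝ) (d w : ℕ) :
    T s1 fi fs d w = T s2 fi fs d w := by
  have : s1 = s2 := by funext d w; exact propext (h d w)
  rw [this]

/-- `Θ_D(δ, w) = (1/δ) Θ_{D/δ}(1, w)` -/
theorem Th_bd_scale {D : ℝ} {k : ℕ} (hk : 0 < k) (w : ℕ) :
    Th (bd D) k w = 1 / (k : ℝ) * Th (bd (D / k)) 1 w := by
  unfold Th
  rw [T_root_scale, T_stop_congr (bd_scale hk), ← T_smul]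
  congr 1
  · funext b w
    rw [← intF_scale]
    unfold intF inv
    rw [mul_sub, Finset.mul_sum]
    push_cast
    congr 1
    · rw [one_div_mul_one_div_rev, mul_comm]
    · refine Finset.sum_congr rfl fun p _ => ?_
      rw [one_div_mul_one_div_rev, mul_comm]
  · funext b w; simp

lemma intF_sub (A B : ℕ → ℝ) (d w : ℕ) : intF (fun n => A n - B n) d w = intF A d w - intF B d w := by
  unfold intF
  rw [Finset.sum_sub_distrib]; ring

lemma intF_smul (c : ℝ) (A : ℕ → ℝ) (d w : ℕ) : intF (fun n => c * A n) d w = c * intF A d w := by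
  unfold intF
  rw [mul_sub, Finset.mul_sum]

lemma abs_intF_le {R : ℕ → ℝ} {g : ℕ → ℝ} {d w : ℕ} (hd : |R d| ≤ g d)
    (hp : ∀ p ∈ pr w, |R (d * p)| ≤ g (d * p)) : |intF R d w| ≤ g d + ∑ p ∈ pr w, g (d * p) := by
  unfold intF
  refine (abs_sub _ _).trans (add_le_add hd ?_)
  exact (Finset.abs_sum_le_sum_abs _ _).trans (Finset.sum_le_sum hp)

/-- the error of a tree for the counts `A` -/
noncomputable def Er (stop : ℕ → ℕ → Prop) (A : ℕ → ℝ) (X : ℝ) (d w : ℕ) : ℝ :=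
  T stop (intF (fun n => A n - X * inv n)) (fun _ _ => 0) d w

lemma T_main_add_err (stop : ℕ → ℕ → Prop) (A : ℕ → ℝ) (X : ℝ) (d w : ℕ) :
    T stop (intF A) (fun _ _ => 0) d w = X * Th stop d w + Er stop A X d w := by
  unfold Th Er
  rw [← T_smul, ← T_add]
  congr 1
  · funext b w
    rw [intF_sub, intF_smul]; ring
  · funext b w; ring

/-- lower bound for a function with Buchstab's identity by an arbitrary tree -/
theorem lower {A : ℕ → ℝ} {S : ℕ → ℕ → ℝ} (hB : Buch A S) (hS : ∀ d w, 0 ≤ S d w)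
    (stop : ℕ → ℕ → Prop) (X : ℝ) {d w : ℕ} (hd : Rgh d w) :
    X * Th stop d w + Er stop A X d w ≤ S d w := by
  rw [← T_main_add_err, identity hB stop hd]
  exact T_mono d w (fun _ _ _ => le_rfl) (fun _ _ _ => hS _ _)

lemma LS_sum_subset {stop : ℕ → ℕ → Prop} {d0 w0 : ℕ} (hd0 : 0 < d0) (h0 : Rgh d0 w0)
    (U : Finset ℕ) (hU : U ⊆ LS stop d0 w0) (g : ℕ → ℕ → ℝ) :
    T stop (fun _ _ => 0) (fun b w => if b ∈ U then g b w else 0) d0 w0
      = ∑ b ∈ U, g b b.minFac := by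
  rw [T_eq_sum_LS stop _ hd0 h0, ← Finset.sum_filter]
  congr 1
  ext b
  simp only [mem_filter]
  exact ⟨fun h => h.2, fun h => ⟨hU h, h⟩⟩

/-- HYBRID INEQUALITY (keeping `S` on the nodes of `U`).
`stop` is any rule implied by `bd D`; `U` a set of stopped, not boundary, nodes. -/
theorem hybrid {A : ℕ → ℝ} {S : ℕ → ℕ → ℝ} (hB : Buch A S) (hS : ∀ d w, 0 ≤ S d w)
    {X D : ℝ} (hD : 1 < D) (hA : ∀ d : ℕ, 0 < d → |A d - X * inv d| ≤ 1)
    {stop : ℕ → ℕ → Prop} (hst : ∀ d w, bd D d w → stop d w)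
    {w0 : ℕ} (h0 : Adm D 1 w0) (U : Finset ℕ) (hU : U ⊆ LS stop 1 w0)
    (hUbd : ∀ b ∈ U, ¬ bd D b b.minFac) :
    X * (Th (bd D) 1 w0 - ∑ b ∈ U, Th (bd D) b b.minFac) + ∑ b ∈ U, S b b.minFac - D
      ≤ S 1 w0 := by
  have hr0 : Rgh 1 w0 := rgh_one w0
  have hleafrgh : ∀ b w, Leaf stop 1 w0 b w → Rgh b w := by
    rintro b w ⟨d', w', p, hn, hp, hq, rfl, hs⟩
    exact (hn.rgh hr0).child hp hq
  -- step 1
  set F : (ℕ → ℝ) → ℕ → ℕ → ℝ := fun B b w =>
    if bd D b w then 0 else if b ∈ U then 0 else T (bd D) (intF B) (fun _ _ => 0) b w with hF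
  have h1 : T stop (intF A) (fun b w => F A b w + if b ∈ U then S b w else 0) 1 w0 ≤ S 1 w0 := by
    rw [identity hB stop hr0]
    refine T_mono 1 w0 (fun _ _ _ => le_rfl) (fun b w hl => ?_)
    simp only [hF]
    by_cases hbd : bd D b w
    · rw [if_pos hbd]
      have : b ∉ U := fun hbU => hUbd b hbU (by rw [hl.minFac hr0]; exact hbd)
      rw [if_neg this, zero_add]; exact hS b w
    · rw [if_neg hbd]
      by_cases hbU : b ∈ U
      · rw [if_pos hbU, if_pos hbU, zero_add]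
      · rw [if_neg hbU, if_neg hbU, add_zero, identity hB (bd D) (hleafrgh b w hl)]
        exact T_mono b w (fun _ _ _ => le_rfl) (fun _ _ _ => hS _ _)
  -- step 2 : split
  have h2 : T stop (intF A) (fun b w => F A b w + if b ∈ U then S b w else 0) 1 w0
      = T stop (intF A) (F A) 1 w0 + ∑ b ∈ U, S b b.minFac := by
    rw [← LS_sum_subset one_pos hr0 U hU S, ← T_add]
    congr 1
    funext b w; ring
  -- step 3 : main term
  have h3 : T stop (intF inv) (F inv) 1 w0 = Th (bd D) 1 w0 - ∑ b ∈ U, Th (bd D) b b.minFac := by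
    rw [← LS_sum_subset one_pos hr0 U hU (Th (bd D))]
    unfold Th
    rw [T_comp hst (intF inv) (fun _ _ => 0) 1 w0, ← T_sub]
    refine T_congr 1 w0 (fun _ _ _ => by ring) (fun b w hl => ?_)
    simp only [hF, G]
    by_cases hbd : bd D b w
    · have : b ∉ U := fun hbU => hUbd b hbU (by rw [hl.minFac hr0]; exact hbd)
      rw [if_pos hbd, if_pos hbd, if_neg this]; ring
    · rw [if_neg hbd, if_neg hbd]
      by_cases hbU : b ∈ U
      · rw [if_pos hbU, if_pos hbU]; ring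
      · rw [if_neg hbU, if_neg hbU]; ring
  -- step 4 : error
  have hb1 : ∀ d w : ℕ, 0 < d → |intF A d w - X * intF inv d w| ≤ 1 + (pr w).card := by
    intro d w hd
    rw [← intF_smul, ← intF_sub]
    refine (abs_intF_le (g := fun _ => 1) (hA d hd)
      (fun p hp => hA _ (Nat.mul_pos hd (prime_of_mem_pr hp).pos))).trans ?_
    simp
  have h4 : |T stop (intF A) (F A) 1 w0 - X * T stop (intF inv) (F inv) 1 w0| ≤ D := by
    rw [← T_smul, ← T_sub]
    have h5 : |T stop (fun a b => intF A a b - X * intF inv a b) (fun a b => F A a b - X * F inv a b) 1 w0|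
        ≤ T stop (fun _ w => 1 + (pr w).card) (G (bd D) (fun _ w => 1 + (pr w).card) (fun _ _ => 1)) 1 w0 := by
      refine abs_T_le 1 w0 (fun d w hn => hb1 d w (hn.pos one_pos)) (fun b w hl => ?_)
      have hbpos : 0 < b := by
        obtain ⟨d', w', p, hn, hp, hq, rfl, hs⟩ := hl
        exact Nat.mul_pos (Nat.mul_pos (hn.pos one_pos) (prime_of_mem_pr hp).pos)
          (prime_of_mem_pr hq).pos
      simp only [hF, G]
      by_cases hbd : bd D b w
      · rw [if_pos hbd, if_pos hbd, if_pos hbd]; simp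
      · rw [if_neg hbd, if_neg hbd, if_neg hbd]
        by_cases hbU : b ∈ U
        · rw [if_pos hbU, if_pos hbU, mul_zero, sub_zero, abs_zero]
          refine T_nonneg b w (fun _ _ _ => by positivity) (fun _ _ _ => zero_le_one)
        · rw [if_neg hbU, if_neg hbU, ← T_smul, ← T_sub]
          refine abs_T_le b w (fun d w hn => hb1 d w (hn.pos hbpos)) (fun _ _ _ => by norm_num)
    refine h5.trans ?_
    rw [← T_comp hst]
    have := count_support (stop := bd D) (fun _ _ h => h) one_pos h0 (by simpa using hD)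
    simpa using this
  have h6 := (abs_le.1 h4).1
  rw [h3] at h6
  linarith


/-! ### Intervals -/

/-- counts of multiples in `(a - X, a]` -/
noncomputable def cI (a : ℤ) (X : ℕ) (d : ℕ) : ℝ := Aw (Ioc (a - X) a) id (fun _ => (1:ℝ)) d

/-- sifted counts in `(a - X, a]` -/
noncomputable def sI (a : ℤ) (X : ℕ) (d w : ℕ) : ℝ := Sw (Ioc (a - X) a) id (fun _ => (1:ℝ)) d w

lemma cI_eq (a : ℤ) (X d : ℕ) :
    cI a X d = (((Ioc (a - X) a).filter (fun t => (d : ℤ) ∣ t)).card : ℝ) := by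
  simp [cI, Aw]

lemma sI_eq (a : ℤ) (X d w : ℕ) :
    sI a X d w = (((Ioc (a - X) a).filter (fun t => (d : ℤ) ∣ t ∧
      ∀ p : ℕ, p.Prime → p < w → ¬ (p : ℤ) ∣ t)).card : ℝ) := by
  simp [sI, Sw]

lemma buch_I (a : ℤ) (X : ℕ) : Buch (cI a X) (sI a X) := buch_w _ _ _

lemma sI_nonneg (a : ℤ) (X d w : ℕ) : 0 ≤ sI a X d w := Sw_nonneg _ _ _ (fun _ _ => zero_le_one) d w

lemma cI_eq_div (a : ℤ) (X : ℕ) {d : ℕ} (hd : 0 < d) :
    cI a X d = (a / d - (a - X) / d : ℤ) := by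
  rw [cI_eq]
  have hd' : (0 : ℤ) < d := by exact_mod_cast hd
  have h := Int.Ioc_filter_dvd_card (a - X) a hd'
  have hle : (a - X) / (d:ℤ) ≤ a / d := Int.ediv_le_ediv hd' (by linarith [Int.natCast_nonneg X])
  have e1 : ⌊(a : ℚ) / ((d : ℤ) : ℚ)⌋ = a / d := Rat.floor_intCast_div_natCast a d
  have e2 : ⌊((a - X : ℤ) : ℚ) / ((d : ℤ) : ℚ)⌋ = (a - X) / d := Rat.floor_intCast_div_natCast (a - X) d
  rw [e1, e2, max_eq_left (by linarith)] at h
  exact_mod_cast h

lemma abs_cI_sub_le (a : ℤ) (X : ℕ) {d : ℕ} (hd : 0 < d) : |cI a X d - X * inv d| ≤ 1 := by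
  have hd' : (0 : ℝ) < d := by exact_mod_cast hd
  rw [cI_eq_div a X hd, inv]
  have h1 : ((a / d : ℤ) : ℝ) = a / d - ((a % d : ℤ) : ℝ) / d := by
    have := Int.emod_add_mul_ediv a d
    have h2 : ((a % d : ℤ) : ℝ) + d * ((a / d : ℤ) : ℝ) = a := by exact_mod_cast this
    field_simp
    linarith
  have h2 : (((a - X) / d : ℤ) : ℝ) = (a - X) / d - (((a - X) % d : ℤ) : ℝ) / d := by
    have := Int.emod_add_mul_ediv (a - X) d
    have h2 : (((a - X) % d : ℤ) : ℝ) + d * (((a - X) / d : ℤ) : ℝ) = (a - X : ℤ) := by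
      exact_mod_cast this
    push_cast at h2
    field_simp
    linarith
  have hd'' : (0 : ℤ) < d := by exact_mod_cast hd
  have b1 : (0:ℝ) ≤ ((a % d : ℤ) : ℝ) := by exact_mod_cast Int.emod_nonneg _ hd''.ne'
  have b2 : ((a % d : ℤ) : ℝ) ≤ d := by exact_mod_cast (Int.emod_lt_of_pos _ hd'').le
  have b3 : (0:ℝ) ≤ (((a - X) % d : ℤ) : ℝ) := by exact_mod_cast Int.emod_nonneg _ hd''.ne'
  have b4 : (((a - X) % d : ℤ) : ℝ) ≤ d := by exact_mod_cast (Int.emod_lt_of_pos _ hd'').le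
  push_cast
  rw [h1, h2]
  have e1 : (a : ℝ) / d - ((a % d : ℤ) : ℝ) / d - ((a - X) / d - (((a - X) % d : ℤ) : ℝ) / d)
      - X * (1 / d) = ((((a - X) % d : ℤ) : ℝ) - ((a % d : ℤ) : ℝ)) / d := by
    field_simp; ring
  rw [e1, abs_div, abs_of_pos hd', div_le_one hd', abs_le]
  constructor <;> linarith

end Crest.Agent.R001.Tree
namespace Crest.Agent.R001.Tree.Leaf
end Crest.Agent.R001.Tree.Leaf
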