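import Crest.Agent.R001.Uns6
import Crest.Agent.R001.AsmDefs

-- ▼ part R001/Uns7
section

/-! R001, block UNS, part 7: the class bound. -/

set_option autoImplicit false

namespace Crest.Agent.R001.Uns

open Finset Crest.Agent.R001.Tree Crest.Agent.R001.EST

/-- the second half of `ListX` for a given list -/
def ListProp (X : ℕ) (a : ℤ) (G : ℕ) (GG : Finset ℕ) (K0 : ℕ) (LL : Finset (ℤ × ℤ)) : Prop :=
  ∀ Y : ℕ, (X : ℝ) ^ ((1 : ℝ) / 2) ≤ Y → Y ≤ X →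
        ∀ (R : ∀ g : ℕ, Finset (ZMod g)) (K' : ℕ), K0 ≤ K' →
        (1024 * (∑ g ∈ GG, (R g).card : ℕ) * Real.log (2 * X) ≤ (K' : ℝ) ^ 2 * Real.log G) →
        ∀ (E : Finset ℕ) (P : ℕ → ℕ → Prop) [∀ e g, Decidable (P e g)],
        (∀ e ∈ E, Y ≤ e ∧ e ≤ 2 * Y) →
        (∀ e ∈ E, ∀ g ∈ GG, P e g → ((a / (e : ℤ) : ℤ) : ZMod g) ∈ R g ∧
          ¬ (∃ τ ∈ LL, (g : ℤ) ∣ τ.2 * a - τ.1 ∧ ∃ h : ℕ, 1 ≤ h ∧
            (h : ℝ) ≤ (X : ℝ) ^ ((1 : ℝ) / 30) ∧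
            h ∣ e ∧ (e : ℤ) ∣ h * (τ.2 * a - τ.1))) →
        (∀ e ∈ E, K' ≤ (GG.filter (fun g => P e g)).card) →
        (E.card : ℝ) < (X : ℝ) ^ ((59 : ℝ) / 60)

lemma log_two_mul_le (X : ℕ) (hX : 2 ≤ X) : Real.log (2 * X) ≤ 2 * Real.log X := by
  have h2 : (2 : ℝ) ≤ X := by exact_mod_cast hX
  have h0 : (0 : ℝ) < X := by linarith
  rw [two_mul (Real.log (X : ℝ)), ← Real.log_mul h0.ne' h0.ne']
  apply Real.log_le_log (by positivity)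
  nlinarith

lemma one_le_of_sq (L Lam : ℝ) (hL : 1 ≤ L) (h0 : 0 < Lam) (h : L ≤ Lam ^ 2) : 1 ≤ Lam := by
  by_contra hcon
  push Not at hcon
  nlinarith

lemma adm_aux (y : ℝ) (w : ℕ) (hw : (w : ℝ) ^ 2 ≤ y) : Adm y 1 w := by
  intro p hp
  have h1 : (p : ℝ) < w := by exact_mod_cast lt_of_mem_pr hp
  have h2 : (0 : ℝ) ≤ p := Nat.cast_nonneg p
  push_cast
  nlinarith

lemma HX_aux (C K X : ℕ) (hX : 1 ≤ X) (L G H : ℝ) (hL1 : 1 ≤ L) (hG : 1 ≤ G)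
    (f5 : 24 * L ^ (2 * C + 3 * K) ≤ (X : ℝ) ^ ((1 : ℝ) / 2000))
    (hG2 : G ≤ (X : ℝ) ^ ((1 : ℝ) / 1000)) (hH2 : H ≤ 2 * G * L ^ K) :
    (H + 1) * (X : ℝ) ^ ((1 : ℝ) / 2) ≤ X := by
  have hX1 : (1 : ℝ) ≤ X := by exact_mod_cast hX
  have hXr : (0 : ℝ) < X := by linarith
  have hLK : 1 ≤ L ^ K := one_le_pow₀ hL1
  have h1 : H + 1 ≤ 4 * G * L ^ K := by nlinarith
  have h2 : 4 * L ^ K ≤ 24 * L ^ (2 * C + 3 * K) := by
    have : L ^ K ≤ L ^ (2 * C + 3 * K) := pow_le_pow_right₀ hL1 (by omega)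
    linarith
  calc (H + 1) * (X : ℝ) ^ ((1 : ℝ) / 2) ≤ (4 * G * L ^ K) * (X : ℝ) ^ ((1 : ℝ) / 2) := by
        gcongr
    _ = (4 * L ^ K) * (G * (X : ℝ) ^ ((1 : ℝ) / 2)) := by ring
    _ ≤ (X : ℝ) ^ ((1 : ℝ) / 2000) * ((X : ℝ) ^ ((1 : ℝ) / 1000) * (X : ℝ) ^ ((1 : ℝ) / 2)) := by
        have := h2.trans f5
        gcongr
    _ = (X : ℝ) ^ ((1 : ℝ) / 2000 + ((1 : ℝ) / 1000 + (1 : ℝ) / 2)) := by
        rw [← Real.rpow_add hXr, ← Real.rpow_add hXr]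
    _ ≤ (X : ℝ) ^ (1 : ℝ) := Real.rpow_le_rpow_of_exponent_le hX1 (by norm_num)
    _ = X := Real.rpow_one _

lemma Lf_aux (x lg L : ℝ) (h0 : 0 ≤ x) (hx : x ≤ 2 * L) (hlg : 1 ≤ lg) (_hL : 0 ≤ L) :
    1024 * x / lg ≤ 2048 * L := by
  rw [div_le_iff₀ (by linarith)]
  nlinarith

open Classical in
/-- one class -/
theorem cls_num (C K A κ : ℕ)
    (hκ1 : (C + 2 * A + 8) * (2 * 3 ^ (2 * (C + 2 * A + 8))) ≤ κ) (hCκ : C ≤ κ)
    (c1 : ℝ) (C1 : ℕ) (hC1 : 2 * (2 * C + 2 * K + A + 3) + 3 ≤ C1) (X : ℕ)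
    (hbig : Big C K A c1 X) (hc1 : 0 < c1) (L : ℝ) (hL : L = Real.log X)
    (htail : ∑ Q ∈ (SP ⌊L / 400⌋₊ ⌊L ^ K⌋₊).powerset with
      ⌊(X : ℝ) ^ ((1 : ℝ) / 100)⌋₊ < primorial ⌊L / 400⌋₊ * ∏ q ∈ Q, q,
      Pr (SP ⌊L / 400⌋₊ ⌊L ^ K⌋₊) (fun q => (c1 * L / Real.log L) / q) Q ≤
        1 / L ^ (2 * C + 2 * K + A + 3))
    (a : ℤ) (G : ℕ) (hG1 : L ^ C1 ≤ 2 * G) (hG2 : (G : ℝ) ≤ (X : ℝ) ^ ((1 : ℝ) / 1000))
    (LL : Finset (ℤ × ℤ))
    (hLL : ListProp X a G (GGp G) ⌊(G : ℝ) / L ^ (2 * C + 2 * K + A + 3)⌋₊ LL)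
    (H w : ℕ) (hH1 : 2 * G * L ^ κ ≤ L ^ C * H) (hH2 : (H : ℝ) ≤ 2 * G * L ^ K)
    (hw1 : (w : ℝ) ≤ L ^ K) (hw2 : (w : ℝ) ^ 2 ≤ L ^ C * H / (2 * G))
    (EE : Finset ℕ) (hEE : ∀ e ∈ EE, 0 < e ∧ X / e = H) :
    ∑ e ∈ EE.map Nat.castEmbedding, ∑ g ∈ GGp G with ¬ StrP X a LL e g,
      |dev (W (L ^ C * H / (2 * G)) w) (a / e) H g| ≤
      EE.card * H / L ^ A + (X : ℝ) ^ ((995 : ℝ) / 1000) := by
  obtain ⟨hX2, f1, f2, f3, f4, f5, f6, f9⟩ := hbig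
  rw [← hL] at f1 f2 f3 f4 f5 f6
  obtain ⟨l, hl⟩ : ∃ l, l = Real.log L := ⟨_, rfl⟩
  rw [← hl] at f2 f3 f4 f6 htail
  have hL0 : 0 < L := by linarith
  have hL1 : 1 ≤ L := by linarith
  have hl0 : 0 < l := by
    rw [hl]
    exact Real.log_pos (by linarith)
  obtain ⟨Lam, hLam⟩ : ∃ Lam, Lam = c1 * L / l := ⟨_, rfl⟩
  have hLam0 : 0 < Lam := by rw [hLam]; positivity
  rw [← hLam] at f3 f4 htail
  have hXr : (0 : ℝ) < X := by exact_mod_cast (by omega : 0 < X)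
  have hX1 : (1 : ℝ) ≤ X := by exact_mod_cast (by omega : 1 ≤ X)
  have hκpos : 1 ≤ κ := by
    have : 0 < (C + 2 * A + 8) * (2 * 3 ^ (2 * (C + 2 * A + 8))) := by positivity
    omega
  obtain ⟨κ0, hκ0⟩ : ∃ κ0, κ0 = 2 * C + 2 * K + A + 3 := ⟨_, rfl⟩
  rw [← hκ0] at hC1 htail hLL
  obtain ⟨N, hN⟩ : ∃ N : ℝ, N = (H : ℝ) / G := ⟨_, rfl⟩
  obtain ⟨y, hy⟩ : ∃ y : ℝ, y = L ^ C * H / (2 * G) := ⟨_, rfl⟩
  rw [← hy] at hw2 ⊢
  obtain ⟨hG4, hG0, hHN, hN1, hN2, hyN, hyκ, hyK, hy1, hHG, hyH⟩ :=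
    sizes1 C K κ κ0 C1 L G H N y hκpos hCκ (by omega) hC1 f1 hG1 hH1 hH2 hN hy
  obtain ⟨hS1, hS2⟩ := sizes2 C K L H y l hl f1 f2 hy1 hyK (Nat.cast_nonneg H) hyH
  obtain ⟨b0, hb0⟩ : ∃ b0, b0 = C + 2 * A + 8 := ⟨_, rfl⟩
  have hB01 : 1 ≤ L ^ b0 := one_le_pow₀ hL1
  obtain ⟨n, hn1, hn2, hn3⟩ := sizes3 C K A L G H N y (L ^ b0) l hl f1 f6 hG0 hHN hN1 hy1 hyK hB01
  obtain ⟨hG3, hlogG, hK01, hK02, hK03, hK04⟩ := sizes4 κ0 L G f1 hG4
  have hGn : 0 < G := by exact_mod_cast hG0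
  have hN0 : 0 < N := by linarith
  have hH0 : 0 < (H : ℝ) := by rw [hHN]; positivity
  have hlog2X : Real.log (2 * X) ≤ 2 * L := by
    rw [hL]; exact log_two_mul_le X hX2
  have hlog2X0 : 0 ≤ Real.log (2 * X) := Real.log_nonneg (by linarith)
  have hcG := card_GGp_le G hGn
  -- Lam
  have hLam1 : 1 ≤ Lam := one_le_of_sq L Lam hL1 hLam0 f3
  have hLamk : L ^ b0 ≤ Lam ^ (2 * b0) := by
    rw [pow_mul]
    exact pow_le_pow_left₀ hL0.le f3 b0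
  have hyB : (L ^ b0) ^ (2 * 3 ^ (2 * b0)) ≤ y := by
    rw [← pow_mul]
    refine le_trans (pow_le_pow_right₀ hL1 ?_) hyκ
    rw [hb0]; exact hκ1
  have hAdm : Adm y 1 w := adm_aux y w hw2
  have hwZ : w ≤ ⌊L ^ K⌋₊ + 1 := (Nat.le_floor hw1).trans (Nat.le_succ _)
  -- ListHyp
  have hHX : ((H : ℝ) + 1) * (X : ℝ) ^ ((1 : ℝ) / 2) ≤ X :=
    HX_aux C K X (by omega) L G H hL1 (by linarith) f5 hG2 hH2
  have hH1n : 1 ≤ H := by
    exact Nat.one_le_iff_ne_zero.2 (fun h => by rw [h] at hH0; simp at hH0)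
  have hLH := listHyp_of_listX X a G (GGp G) ⌊(G : ℝ) / L ^ κ0⌋₊ LL (by linarith) hX2 hLL H hH1n
    hHX EE hEE
  have hLf0 : 0 ≤ 1024 * Real.log (2 * X) / Real.log G := by positivity
  have hLf : 1024 * Real.log (2 * X) / Real.log G ≤ 2048 * L :=
    Lf_aux _ _ L hlog2X0 hlog2X hlogG hL0.le
  have hGG : ∀ g ∈ GGp G, g.Prime := fun g hg => (mem_filter.1 hg).2
  have hGG2 : ∀ g ∈ GGp G, G ≤ g ∧ g ≤ 2 * G := fun g hg => mem_Icc.1 (mem_filter.1 hg).1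
  have hmain := cls y w ⌊L / 400⌋₊ ⌊L ^ K⌋₊ Lam (L ^ b0) (2 * b0) hAdm hy1 hLam1 f4 hB01 hLamk
    hyB hwZ a (EE.map Nat.castEmbedding) (GGp G) hGG G hGn hGG2 (StrP X a LL)
    ⌊(G : ℝ) / L ^ κ0⌋₊ (1024 * Real.log (2 * X) / Real.log G) ((X : ℝ) ^ ((59 : ℝ) / 60)) hLf0
    (by positivity) hLH H ⌊(X : ℝ) ^ ((1 : ℝ) / 100)⌋₊ (1 / L ^ κ0) htail (N / L ^ (A + 2))
    (by positivity) n hn1 (H / L ^ (A + 2)) (by positivity)
  have hT0 : (0 : ℝ) ≤ 2 ^ n * (N / L ^ (A + 2)) := by positivity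
  have hexc := sizes5 C K X (by omega) L G N y (2 ^ n * (N / L ^ (A + 2))) (GGp G).card hL0 f5
    hG0.le hG2 hN0.le hN2 (by linarith) hyK hn2 hT0 hcG (Nat.cast_nonneg _)
  have hnum := num_all C K A L G N H y (1024 * Real.log (2 * X) / Real.log G) (Real.log y) n
    (EE.map (Nat.castEmbedding (R := ℤ))).card (GGp G).card (2 ^ n * (N / L ^ (A + 2)))
    ((⌊(G : ℝ) / L ^ κ0⌋₊ : ℕ) : ℝ) (1 / L ^ κ0)
    (((⌊(X : ℝ) ^ ((1 : ℝ) / 100)⌋₊ : ℕ) : ℝ) * (X : ℝ) ^ ((59 : ℝ) / 60)) f1 hG0 hN0 hHN hyN hyK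
    hLf0 hLf hHG hS1 hS2 (Nat.cast_nonneg n) hn3 (Nat.cast_nonneg _) (Nat.cast_nonneg _) hcG hT0
    hn2 (Nat.cast_nonneg _) (by rw [← hκ0]; exact hK02) (by positivity) (by rw [← hκ0])
  rw [card_map] at hmain hnum
  rw [hb0] at hmain
  refine hmain.trans ?_
  refine le_trans ?_ (add_le_add_right hexc _)
  refine le_trans (le_of_eq ?_) hnum
  ring

end Crest.Agent.R001.Uns
end

-- ▼ part R001/Uns8
section

/-! R001, block UNS, part 8: summation over the classes. -/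

set_option autoImplicit false

namespace Crest.Agent.R001.Uns

open Finset Crest.Agent.R001.Tree Crest.Agent.R001.EST

lemma StrP_mono (X : ℕ) (a : ℤ) {LL LL' : Finset (ℤ × ℤ)} (h : LL ⊆ LL') {e : ℤ} {g : ℕ}
    (hs : StrP X a LL e g) : StrP X a LL' e g := by
  obtain ⟨τ, hτ, h1⟩ := hs
  exact ⟨τ, h hτ, h1⟩

/-- the list for one scale `G` -/
lemma exists_list (hList : ListX) (C K A : ℕ) : ∃ X1 : ℕ, ∀ X : ℕ, X1 ≤ X → ∀ c1 : ℝ,
    Big C K A c1 X → ∀ L : ℝ, L = Real.log X → ∀ κ0 C1 : ℕ, 2 * κ0 + 3 ≤ C1 →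
    ∀ (a : ℤ) (G : ℕ), L ^ C1 ≤ 2 * G → (G : ℝ) ≤ (X : ℝ) ^ ((1 : ℝ) / 1000) →
    ∃ LL : Finset (ℤ × ℤ), (LL.card : ℝ) ≤ 32 * L ^ κ0 ∧
      (∀ τ ∈ LL, 1 ≤ τ.2 ∧ (τ.2 : ℝ) ≤ (X : ℝ) ^ ((1 : ℝ) / 30) ∧
        |(τ.1 : ℝ)| ≤ (X : ℝ) ^ ((31 : ℝ) / 30) ∧ IsCoprime τ.1 τ.2) ∧
      ListProp X a G (GGp G) ⌊(G : ℝ) / L ^ κ0⌋₊ LL := by
  obtain ⟨X0, hX0⟩ := hList
  refine ⟨X0, fun X hX c1 hbig L hL κ0 C1 hC1 a G hG1 hG2 => ?_⟩
  obtain ⟨hX2, f1, f2, f3, f4, f5, f6, f9⟩ := hbig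
  rw [← hL] at f1
  clear f2 f3 f4 f5 f6
  have hL0 : 0 < L := by linarith
  have hL1 : 1 ≤ L := by linarith
  have hG4 : L ^ (2 * κ0 + 2) ≤ G := by
    have h1 : L ^ (2 * κ0 + 3) ≤ L ^ C1 := pow_le_pow_right₀ hL1 hC1
    have h2 : L ^ (2 * κ0 + 3) = L ^ (2 * κ0 + 2) * L := by rw [← pow_succ]
    have h3 : 0 < L ^ (2 * κ0 + 2) := by positivity
    nlinarith
  obtain ⟨hG3, hlogG, hK01, hK02, hK03, hK04⟩ := sizes4 κ0 L G f1 hG4
  have hG3n : 3 ≤ G := by exact_mod_cast hG3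
  have hXr : (0 : ℝ) < X := by exact_mod_cast (by omega : 0 < X)
  have hcG := card_GGp_le G (by omega)
  have hG0 : (0 : ℝ) < G := by linarith
  obtain ⟨k0, hk0⟩ : ∃ k0 : ℕ, k0 = ⌊(G : ℝ) / L ^ κ0⌋₊ := ⟨_, rfl⟩
  rw [← hk0] at hK01 hK02 hK03 ⊢
  have hk1 : (1 : ℝ) ≤ k0 := by exact_mod_cast hK01
  have hkey : 1024 * (G * L) ≤ (k0 : ℝ) ^ 2 := by
    have h1 : (G / (2 * L ^ κ0)) ^ 2 ≤ (k0 : ℝ) ^ 2 := pow_le_pow_left₀ (by positivity) hK03 2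
    linarith
  obtain ⟨LL, h1, h2, h3⟩ := hX0 X hX a G (GGp G) (by omega)
    (fun g hg => (mem_filter.1 hg).2)
    (fun g hg => by
      obtain ⟨h4, h5⟩ := mem_Icc.1 (mem_filter.1 hg).1
      exact ⟨h4, by nlinarith⟩)
    (by
      calc ((GGp G).card : ℝ) * G ≤ (2 * G) * G := by gcongr
        _ = 2 * (G * G) := by ring
        _ ≤ (X : ℝ) ^ ((1 : ℝ) / 750) * ((X : ℝ) ^ ((1 : ℝ) / 1000) * (X : ℝ) ^ ((1 : ℝ) / 1000)) := by
          gcongr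
        _ = (X : ℝ) ^ ((1 : ℝ) / 300) := by
          rw [← Real.rpow_add hXr, ← Real.rpow_add hXr]
          norm_num)
    k0 hK01
    (by
      have h6 := log_two_mul_le X hX2
      rw [← hL] at h6
      have h7 : 0 ≤ Real.log (2 * X) := Real.log_nonneg (by
        have : (2 : ℝ) ≤ X := by exact_mod_cast hX2
        linarith)
      calc 256 * ((GGp G).card : ℝ) * Real.log (2 * X) ≤ 256 * (2 * G) * (2 * L) := by gcongr
        _ = 1024 * (G * L) := by ring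
        _ ≤ (k0 : ℝ) ^ 2 * 1 := by rw [mul_one]; exact hkey
        _ ≤ _ := by gcongr)
  refine ⟨LL, ?_, h2, h3⟩
  have h4 : (LL.card : ℝ) * k0 ≤ 8 * (2 * G) := by
    have : ((LL.card * k0 : ℕ) : ℝ) ≤ ((8 * (GGp G).card : ℕ) : ℝ) := by exact_mod_cast h1
    push_cast at this
    linarith
  have h5 : (LL.card : ℝ) * (G / (2 * L ^ κ0)) ≤ 16 * G := by
    have : (LL.card : ℝ) * (G / (2 * L ^ κ0)) ≤ LL.card * k0 :=
      mul_le_mul_of_nonneg_left hK03 (Nat.cast_nonneg _)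
    linarith
  have hLκ : 0 < L ^ κ0 := by positivity
  rw [← mul_div_assoc, div_le_iff₀ (by positivity)] at h5
  have h6 : (LL.card : ℝ) * G ≤ (32 * L ^ κ0) * G := by linarith
  exact le_of_mul_le_mul_right h6 hG0

/-- numerics for a member of a class -/
lemma member (C K κ : ℕ) (hκ : 1 ≤ κ) (L : ℝ) (hL : 106496 ≤ L) (X d g G e H w : ℕ)
    (hd : 0 < d) (he : d = e * g) (hg : 0 < g) (hGg : G ≤ g) (hgG : g < 2 * G)
    (hH : H = X / e) (hd1 : (X : ℝ) / L ^ K ≤ d) (hd2 : (d : ℝ) ≤ X / L ^ (κ + 1))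
    (hw : 4 * (w : ℝ) ^ 2 ≤ X / d) :
    2 * (G : ℝ) * L ^ κ ≤ L ^ C * H ∧ (H : ℝ) ≤ 2 * G * L ^ K ∧ (w : ℝ) ≤ L ^ K ∧
      (w : ℝ) ^ 2 ≤ L ^ C * H / (2 * G) ∧
      L ^ C * X / (3 * d) ≤ L ^ C * H / (2 * G) ∧ L ^ C * H / (2 * G) ≤ L ^ C * X / d := by
  have hL0 : 0 < L := by linarith
  have hL1 : 1 ≤ L := by linarith
  have he0 : 0 < e := Nat.pos_of_ne_zero (by rintro rfl; simp at he; omega)
  have hdr : (0 : ℝ) < d := by exact_mod_cast hd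
  have her : (0 : ℝ) < e := by exact_mod_cast he0
  have hgr : (0 : ℝ) < g := by exact_mod_cast hg
  have hG0 : 0 < G := by omega
  have hGr : (0 : ℝ) < G := by exact_mod_cast hG0
  have hGr1 : (1 : ℝ) ≤ G := by exact_mod_cast hG0
  have hGgr : (G : ℝ) ≤ g := by exact_mod_cast hGg
  have hgGr : (g : ℝ) ≤ 2 * G := by exact_mod_cast hgG.le
  have hder : (d : ℝ) = e * g := by rw [he]; push_cast; ring
  obtain ⟨x, hx⟩ : ∃ x : ℝ, x = X / d := ⟨_, rfl⟩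
  have hXd : (X : ℝ) = x * d := by rw [hx]; field_simp
  have hLκ : L ≤ L ^ κ := by
    calc L = L ^ 1 := (pow_one L).symm
      _ ≤ L ^ κ := pow_le_pow_right₀ hL1 hκ
  have hLC : 1 ≤ L ^ C := one_le_pow₀ hL1
  have hxκ : L ^ κ * L ≤ x := by
    rw [← pow_succ]
    rw [hx, le_div_iff₀ hdr]
    rw [le_div_iff₀ (by positivity)] at hd2
    linarith
  have hxK : x ≤ L ^ K := by
    rw [hx, div_le_iff₀ hdr]
    rw [div_le_iff₀ (by positivity)] at hd1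
    linarith
  have hx0 : 0 < x := lt_of_lt_of_le (by positivity) hxκ
  have hXe : (X : ℝ) / e = x * g := by rw [hXd, hder]; field_simp
  have hH1 : (H : ℝ) ≤ x * g := by
    rw [hH, ← hXe]; exact Nat.cast_div_le
  have hH2 : x * g - 1 ≤ H := by
    rw [hH, ← hXe]
    have h1 : (X : ℝ) / e < ((X / e : ℕ) : ℝ) + 1 := by
      rw [div_lt_iff₀ her]
      have := Nat.lt_mul_div_succ X he0
      have h10 : (X : ℝ) < (e : ℝ) * (((X / e : ℕ) : ℝ) + 1) := by exact_mod_cast this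
      linarith
    linarith
  have hxg : x * G ≤ x * g := mul_le_mul_of_nonneg_left hGgr hx0.le
  have hxL : 106496 ≤ x := by nlinarith
  have hxG : 106496 ≤ x * G := by nlinarith
  have hH3 : x * G / 2 ≤ H := by linarith
  refine ⟨?_, ?_, ?_, ?_, ?_, ?_⟩
  · have h0 : 0 < L ^ κ := by positivity
    have h1 : 4 * L ^ κ ≤ x := by nlinarith
    calc 2 * (G : ℝ) * L ^ κ = (4 * L ^ κ) * G / 2 := by ring
      _ ≤ 1 * (x * G / 2) := by
        rw [one_mul]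
        gcongr
      _ ≤ L ^ C * H := by gcongr
  · calc (H : ℝ) ≤ x * g := hH1
      _ ≤ L ^ K * (2 * G) := by gcongr
      _ = _ := by ring
  · have h1 : (w : ℝ) ^ 2 ≤ L ^ K := by rw [hx] at hxK; linarith
    rcases Nat.eq_zero_or_pos w with h0 | h0
    · rw [h0]; simp; positivity
    · have h2 : (1 : ℝ) ≤ w := by exact_mod_cast h0
      nlinarith
  · rw [le_div_iff₀ (by positivity)]
    have h1 : 4 * (w : ℝ) ^ 2 ≤ x := by rw [hx]; exact hw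
    calc (w : ℝ) ^ 2 * (2 * G) = (4 * (w : ℝ) ^ 2) * G / 2 := by ring
      _ ≤ 1 * (x * G / 2) := by
        rw [one_mul]
        gcongr
      _ ≤ L ^ C * H := by gcongr
  · have h1 : L ^ C * X / (3 * d) = L ^ C * (x / 3) := by rw [hXd]; field_simp
    have h2 : L ^ C * H / (2 * G) = L ^ C * (H / (2 * G)) := by ring
    rw [h1, h2]
    refine mul_le_mul_of_nonneg_left ?_ (by positivity)
    rw [le_div_iff₀ (by positivity)]
    linarith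
  · have h1 : L ^ C * X / d = L ^ C * x := by rw [hXd]; field_simp
    have h2 : L ^ C * H / (2 * G) = L ^ C * (H / (2 * G)) := by ring
    rw [h1, h2]
    refine mul_le_mul_of_nonneg_left ?_ (by positivity)
    rw [div_le_iff₀ (by positivity)]
    exact hH1.trans (mul_le_mul_of_nonneg_left hgGr hx0.le)

end Crest.Agent.R001.Uns
end

-- ▼ part R001/Uns9
section

/-! R001, block UNS, part 9: the final theorem. -/

set_option autoImplicit false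

namespace Crest.Agent.R001.Uns

open Finset Crest.Agent.R001.Tree Crest.Agent.R001.EST

lemma minFac_eq_of (e g : ℕ) (hg : g.Prime) (hlt : (e * g).minFac < g) (he : 0 < e) :
    e.minFac = (e * g).minFac := by
  have hne : e * g ≠ 1 := by
    intro h
    have := Nat.eq_one_of_mul_eq_one_left h
    rw [this] at hg
    exact Nat.not_prime_one hg
  have hw := Nat.minFac_prime hne
  have h1 : (e * g).minFac ∣ e := by
    rcases (Nat.Prime.dvd_mul hw).1 (Nat.minFac_dvd (e * g)) with h | h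
    · exact h
    · have := (Nat.prime_dvd_prime_iff_eq hw hg).1 h
      omega
  apply le_antisymm
  · exact Nat.minFac_le_of_dvd hw.two_le h1
  · have he1 : e ≠ 1 := by
      rintro rfl
      exact hw.one_lt.ne' (Nat.dvd_one.1 h1)
    exact Nat.minFac_le_of_dvd (Nat.minFac_prime he1).two_le
      ((Nat.minFac_dvd e).trans (dvd_mul_right e g))

lemma rgh_of_dvd {e d : ℕ} (h : e ∣ d) : Rgh e d.minFac := by
  intro p hp hlt hdvd
  have := Nat.minFac_le_of_dvd hp.two_le (hdvd.trans h)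
  omega

/-- counting over the classes -/
lemma class_count (X : ℕ) (J : Finset (ℕ × ℕ × ℕ)) (m : ℕ) (hJ : ∀ c ∈ J, c.1 < m) :
    ∑ c ∈ J, ((((Icc 1 X).filter (fun e => X / e = c.2.1 ∧ e.minFac = c.2.2)).card : ℝ) * c.2.1) ≤
      m * (X * (1 + Real.log X)) := by
  classical
  calc ∑ c ∈ J, ((((Icc 1 X).filter (fun e => X / e = c.2.1 ∧ e.minFac = c.2.2)).card : ℝ) * c.2.1)
      = ∑ c ∈ J, ∑ e ∈ Icc 1 X, (if X / e = c.2.1 ∧ e.minFac = c.2.2 then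
          (((X / e : ℕ)) : ℝ) else 0) := by
        refine sum_congr rfl fun c _ => ?_
        rw [← sum_filter, ← nsmul_eq_mul, ← sum_const]
        refine sum_congr rfl fun e he => ?_
        rw [(mem_filter.1 he).2.1]
    _ = ∑ e ∈ Icc 1 X, ∑ c ∈ J, (if X / e = c.2.1 ∧ e.minFac = c.2.2 then
          (((X / e : ℕ)) : ℝ) else 0) := sum_comm
    _ ≤ ∑ e ∈ Icc 1 X, (m : ℝ) * (X / e) := by
        refine sum_le_sum fun e _ => ?_
        rw [← sum_filter, sum_const, nsmul_eq_mul]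
        have h1 : ((J.filter (fun c => X / e = c.2.1 ∧ e.minFac = c.2.2)).card : ℝ) ≤ m := by
          have : (J.filter (fun c => X / e = c.2.1 ∧ e.minFac = c.2.2)).card ≤ (range m).card := by
            refine card_le_card_of_injOn (fun c => c.1) ?_ ?_
            · intro c hc
              rw [mem_coe, mem_filter] at hc
              rw [mem_coe, mem_range]
              exact hJ c hc.1
            · intro c hc c' hc' h
              rw [mem_coe, mem_filter] at hc hc'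
              refine Prod.ext h (Prod.ext ?_ ?_)
              · rw [← hc.2.1, ← hc'.2.1]
              · rw [← hc.2.2, ← hc'.2.2]
          rw [card_range] at this
          exact_mod_cast this
        have h2 : (((X / e : ℕ)) : ℝ) ≤ (X : ℝ) / e := Nat.cast_div_le
        have h3 : (0 : ℝ) ≤ ((X / e : ℕ) : ℝ) := Nat.cast_nonneg _
        exact mul_le_mul h1 h2 h3 (Nat.cast_nonneg _)
    _ = m * (X * ∑ e ∈ Icc 1 X, (1 : ℝ) / e) := by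
        rw [mul_sum, mul_sum]
        refine sum_congr rfl fun e _ => ?_
        ring
    _ ≤ _ := by
        have := harm_le X
        gcongr

/-- the sum over one class -/
lemma class_sum (DD : Finset ℕ) (gf : ℕ → ℕ) (c : ℕ × ℕ × ℕ) (X : ℕ) (a : ℤ) (y : ℝ)
    (Str : ℤ → ℕ → Prop) (GG : Finset ℕ) [∀ e, DecidablePred fun g => ¬ Str e g]
    (hmem : ∀ d ∈ DD, d = d / gf d * gf d ∧ 1 ≤ d / gf d ∧ d / gf d ≤ X ∧ X / (d / gf d) = c.2.1 ∧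
      (d / gf d).minFac = c.2.2 ∧ gf d ∈ GG ∧ ¬ Str ((d / gf d : ℕ) : ℤ) (gf d)) :
    ∑ d ∈ DD, |dev (W y c.2.2) (a / ((d / gf d : ℕ) : ℤ)) c.2.1 (gf d)| ≤
      ∑ e ∈ ((Icc 1 X).filter (fun e => X / e = c.2.1 ∧ e.minFac = c.2.2)).map
        (Nat.castEmbedding (R := ℤ)), ∑ g ∈ GG with ¬ Str e g,
        |dev (W y c.2.2) (a / e) c.2.1 g| := by
  classical
  rw [sum_map]
  set EE := (Icc 1 X).filter (fun e => X / e = c.2.1 ∧ e.minFac = c.2.2) with hEE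
  have h1 : ∑ e ∈ EE, ∑ g ∈ GG with ¬ Str (Nat.castEmbedding (R := ℤ) e) g,
      |dev (W y c.2.2) (a / (Nat.castEmbedding (R := ℤ) e)) c.2.1 g| =
      ∑ x ∈ EE ×ˢ GG, if ¬ Str ((x.1 : ℕ) : ℤ) x.2 then
        |dev (W y c.2.2) (a / ((x.1 : ℕ) : ℤ)) c.2.1 x.2| else 0 := by
    rw [sum_product]
    refine sum_congr rfl fun e _ => ?_
    rw [sum_filter]
    rfl
  rw [h1]
  have h2 : ∑ d ∈ DD, |dev (W y c.2.2) (a / ((d / gf d : ℕ) : ℤ)) c.2.1 (gf d)| =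
      ∑ x ∈ DD.image (fun d => (d / gf d, gf d)), if ¬ Str ((x.1 : ℕ) : ℤ) x.2 then
        |dev (W y c.2.2) (a / ((x.1 : ℕ) : ℤ)) c.2.1 x.2| else 0 := by
    rw [sum_image]
    · refine sum_congr rfl fun d hd => ?_
      rw [if_pos (hmem d hd).2.2.2.2.2.2]
    · intro d hd d' hd' h
      rw [Prod.mk.injEq] at h
      rw [(hmem d hd).1, (hmem d' hd').1, h.1, h.2]
  rw [h2]
  refine sum_le_sum_of_subset_of_nonneg ?_ ?_
  · intro x hx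
    obtain ⟨d, hd, rfl⟩ := mem_image.1 hx
    obtain ⟨_, h3, h4, h5, h6, h7, _⟩ := hmem d hd
    rw [mem_product, hEE, mem_filter, mem_Icc]
    exact ⟨⟨⟨h3, h4⟩, h5, h6⟩, h7⟩
  · intro x _ _
    split_ifs <;> positivity

end Crest.Agent.R001.Uns
end

-- ▼ part R001/Uns10
section

/-! R001, block UNS, part 10: the final theorem. -/

set_option autoImplicit false

namespace Crest.Agent.R001.Uns

open Finset Crest.Agent.R001.Tree Crest.Agent.R001.EST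

lemma SP_eq (t Z : ℕ) : SP t Z = (Finset.Ioc t Z).filter Nat.Prime := by
  ext q
  rw [mem_SP, mem_filter, mem_Ioc]
  tauto

/-- numerics of the final sum -/
lemma final_num (C K A : ℕ) (L X NJ D1 S1 S2 S3 : ℝ) (hL : 106496 ≤ L) (hX : 1 ≤ X)
    (hS1 : S1 ≤ (⌊2 * L⌋₊ + 1 : ℕ) * (X * (1 + L)) / L ^ (A + 4))
    (hS2 : S2 ≤ NJ * X ^ ((995 : ℝ) / 1000))
    (hNJ : NJ ≤ 40 * L ^ (2 * K + 1) * X ^ ((1 : ℝ) / 1000))
    (h1 : 160 * L ^ (2 * K + 1 + A) ≤ X ^ ((4 : ℝ) / 1000))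
    (hD1 : D1 ≤ X) (hS3 : S3 ≤ D1 * (2 * L ^ (C + K) / L ^ (C + K + A + 1))) :
    S1 + S2 + S3 ≤ X / L ^ A := by
  have hL0 : 0 < L := by linarith
  have hL1 : 1 ≤ L := by linarith
  have hX0 : 0 < X := by linarith
  have hLA : 0 < L ^ A := by positivity
  have hfl : ((⌊2 * L⌋₊ + 1 : ℕ) : ℝ) ≤ 3 * L := by
    have := Nat.floor_le (show 0 ≤ 2 * L by linarith)
    push_cast
    linarith
  have t1 : S1 ≤ X / (4 * L ^ A) := by
    calc S1 ≤ (⌊2 * L⌋₊ + 1 : ℕ) * (X * (1 + L)) / L ^ (A + 4) := hS1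
      _ ≤ (3 * L) * (X * (2 * L)) / L ^ (A + 4) := by
          have : 1 + L ≤ 2 * L := by linarith
          gcongr
      _ = 6 * X / (L ^ A * L ^ 2) := by
          have e : L ^ (A + 4) = L ^ A * L ^ 2 * L ^ 2 := by ring
          rw [e]; field_simp; norm_num
      _ ≤ X / (4 * L ^ A) := by
          rw [div_le_div_iff₀ (by positivity) (by positivity)]
          have : 24 ≤ L ^ 2 := by nlinarith
          calc 6 * X * (4 * L ^ A) = X * (L ^ A * 24) := by ring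
            _ ≤ X * (L ^ A * L ^ 2) := by gcongr
  have t2 : S2 ≤ X / (4 * L ^ A) := by
    rw [le_div_iff₀ (by positivity)]
    calc S2 * (4 * L ^ A) ≤ (NJ * X ^ ((995 : ℝ) / 1000)) * (4 * L ^ A) := by gcongr
      _ ≤ ((40 * L ^ (2 * K + 1) * X ^ ((1 : ℝ) / 1000)) * X ^ ((995 : ℝ) / 1000)) *
          (4 * L ^ A) := by gcongr
      _ = (160 * L ^ (2 * K + 1 + A)) * (X ^ ((1 : ℝ) / 1000) * X ^ ((995 : ℝ) / 1000)) := by
          rw [pow_add]; ring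
      _ ≤ X ^ ((4 : ℝ) / 1000) * (X ^ ((1 : ℝ) / 1000) * X ^ ((995 : ℝ) / 1000)) := by gcongr
      _ = X := by
          rw [← Real.rpow_add hX0, ← Real.rpow_add hX0]
          norm_num
  have t3 : S3 ≤ X / (4 * L ^ A) := by
    calc S3 ≤ D1 * (2 * L ^ (C + K) / L ^ (C + K + A + 1)) := hS3
      _ ≤ X * (2 * L ^ (C + K) / L ^ (C + K + A + 1)) := by gcongr
      _ = X * 2 / (L ^ A * L) := by
          have e : L ^ (C + K + A + 1) = L ^ (C + K) * (L ^ A * L) := by ring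
          rw [e]; field_simp
      _ ≤ X / (4 * L ^ A) := by
          rw [div_le_div_iff₀ (by positivity) (by positivity)]
          calc X * 2 * (4 * L ^ A) = X * (L ^ A * 8) := by ring
            _ ≤ X * (L ^ A * L) := by
              have : (8 : ℝ) ≤ L := by linarith
              gcongr
  have h4 : X / (4 * L ^ A) = X / L ^ A / 4 := by field_simp
  rw [h4] at t1 t2 t3
  have h5 : 0 ≤ X / L ^ A := by positivity
  linarith

/-- number of classes -/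
lemma card_J_le (K : ℕ) (L X : ℝ) (hL : 106496 ≤ L) (hX : 1 ≤ X) (J : Finset (ℕ × ℕ × ℕ))
    (h1 : ∀ c ∈ J, c.1 < ⌊2 * L⌋₊ + 1) (h2 : ∀ c ∈ J, (c.2.1 : ℝ) ≤ 4 * (X ^ ((1 : ℝ) / 1000)) * L ^ K)
    (h3 : ∀ c ∈ J, (c.2.2 : ℝ) ≤ L ^ K) :
    (J.card : ℝ) ≤ 40 * L ^ (2 * K + 1) * X ^ ((1 : ℝ) / 1000) := by
  have hL1 : 1 ≤ L := by linarith
  have hLK : 1 ≤ L ^ K := one_le_pow₀ hL1
  obtain ⟨x, hx⟩ : ∃ x, x = X ^ ((1 : ℝ) / 1000) := ⟨_, rfl⟩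
  have hx1 : 1 ≤ x := by rw [hx]; exact Real.one_le_rpow hX (by norm_num)
  rw [← hx] at h2 ⊢
  have hsub : J ⊆ range (⌊2 * L⌋₊ + 1) ×ˢ (range (⌊4 * x * L ^ K⌋₊ + 1) ×ˢ
      range (⌊L ^ K⌋₊ + 1)) := by
    intro c hc
    rw [mem_product, mem_product, mem_range, mem_range, mem_range]
    refine ⟨h1 c hc, ?_, ?_⟩
    · exact Nat.lt_succ_of_le (Nat.le_floor (h2 c hc))
    · exact Nat.lt_succ_of_le (Nat.le_floor (h3 c hc))
  have hcard := card_le_card hsub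
  rw [card_product, card_product, card_range, card_range, card_range] at hcard
  have a1 : ((⌊2 * L⌋₊ + 1 : ℕ) : ℝ) ≤ 4 * L := by
    have := Nat.floor_le (show 0 ≤ 2 * L by linarith)
    push_cast; linarith
  have a2 : ((⌊4 * x * L ^ K⌋₊ + 1 : ℕ) : ℝ) ≤ 5 * (x * L ^ K) := by
    have := Nat.floor_le (show 0 ≤ 4 * x * L ^ K by positivity)
    have h : 1 ≤ x * L ^ K := by nlinarith
    push_cast; linarith
  have a3 : ((⌊L ^ K⌋₊ + 1 : ℕ) : ℝ) ≤ 2 * L ^ K := by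
    have := Nat.floor_le (show 0 ≤ L ^ K by positivity)
    push_cast; linarith
  calc (J.card : ℝ) ≤ (((⌊2 * L⌋₊ + 1) * ((⌊4 * x * L ^ K⌋₊ + 1) * (⌊L ^ K⌋₊ + 1)) : ℕ) : ℝ) := by
        exact_mod_cast hcard
    _ = ((⌊2 * L⌋₊ + 1 : ℕ) : ℝ) * (((⌊4 * x * L ^ K⌋₊ + 1 : ℕ) : ℝ) *
          ((⌊L ^ K⌋₊ + 1 : ℕ) : ℝ)) := by push_cast; ring
    _ ≤ (4 * L) * (5 * (x * L ^ K) * (2 * L ^ K)) := by gcongr
    _ = 40 * L ^ (2 * K + 1) * x := by ring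

end Crest.Agent.R001.Uns
end

-- ▼ part R001/Uns11
section

/-! R001, block UNS, part 11: the final theorem. -/

set_option autoImplicit false

namespace Crest.Agent.R001.Uns

open Finset Crest.Agent.R001.Tree Crest.Agent.R001.EST

/-- data of a controlled node: `g` is the distinguished prime factor -/
structure Ctl (X : ℕ) (a : ℤ) (LL : Finset (ℤ × ℤ)) (C1 : ℕ) (d g : ℕ) : Prop where
  pr : g.Prime
  dvd : g ∣ d
  lo : (Real.log X) ^ C1 ≤ g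
  hi : (g : ℝ) ≤ (X : ℝ) ^ ((1 : ℝ) / 1000)
  uns : ¬ StrP X a LL ((d / g : ℕ) : ℤ) g

open Classical in
/-- the sum over all controlled nodes, for given lists -/
lemma uns_core (C K A κ : ℕ)
    (hκ1 : (C + 2 * (A + 4) + 8) * (2 * 3 ^ (2 * (C + 2 * (A + 4) + 8))) ≤ κ) (hCκ : C ≤ κ)
    (c1 : ℝ) (C1 : ℕ) (hC1 : 2 * (2 * C + 2 * K + (A + 4) + 3) + 3 ≤ C1) (X : ℕ)
    (hbig : Big C K (A + 4) c1 X) (hc1 : 0 < c1) (L : ℝ) (hL : L = Real.log X)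
    (htail : ∑ Q ∈ (SP ⌊L / 400⌋₊ ⌊L ^ K⌋₊).powerset with
      ⌊(X : ℝ) ^ ((1 : ℝ) / 100)⌋₊ < primorial ⌊L / 400⌋₊ * ∏ q ∈ Q, q,
      Pr (SP ⌊L / 400⌋₊ ⌊L ^ K⌋₊) (fun q => (c1 * L / Real.log L) / q) Q ≤
        1 / L ^ (2 * C + 2 * K + (A + 4) + 3))
    (h1 : 160 * L ^ (2 * K + 1 + A) ≤ (X : ℝ) ^ ((4 : ℝ) / 1000))
    (a : ℤ) (Lst : ℕ → Finset (ℤ × ℤ))
    (hLst : ∀ j : ℕ, L ^ C1 ≤ 2 * ((2 ^ j : ℕ) : ℝ) → ((2 ^ j : ℕ) : ℝ) ≤ (X : ℝ) ^ ((1 : ℝ) / 1000) →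
      ListProp X a (2 ^ j) (GGp (2 ^ j)) ⌊((2 ^ j : ℕ) : ℝ) / L ^ (2 * C + 2 * K + (A + 4) + 3)⌋₊
        (Lst j))
    (DD : Finset ℕ) (gf : ℕ → ℕ)
    (hDD : ∀ d ∈ DD, 0 < d ∧ (X : ℝ) / L ^ K ≤ d ∧ (d : ℝ) ≤ X / L ^ (κ + 1) ∧
      4 * (d.minFac : ℝ) ^ 2 ≤ X / d)
    (hg : ∀ d ∈ DD, Ctl X a (Lst (Nat.log 2 (gf d))) C1 d (gf d)) :
    (∀ d ∈ DD, L ^ C * X / (3 * d) ≤
        L ^ C * ((X / (d / gf d) : ℕ) : ℝ) / (2 * ((2 ^ Nat.log 2 (gf d) : ℕ) : ℝ)) ∧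
      L ^ C * ((X / (d / gf d) : ℕ) : ℝ) / (2 * ((2 ^ Nat.log 2 (gf d) : ℕ) : ℝ)) ≤
        L ^ C * X / d) ∧
    ∑ d ∈ DD, max 0 (X / d * Th (bd (L ^ C * ((X / (d / gf d) : ℕ) : ℝ) /
      (2 * ((2 ^ Nat.log 2 (gf d) : ℕ) : ℝ)))) 1 d.minFac - sI a X d d.minFac) ≤
      X / L ^ A := by
  have f1 : 106496 ≤ L := by rw [hL]; exact hbig.f1
  have hX2 := hbig.X2
  have hL0 : 0 < L := by linarith
  have hL1 : 1 ≤ L := by linarith
  have hXr : (0 : ℝ) < X := by exact_mod_cast (by omega : 0 < X)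
  have hX1 : (1 : ℝ) ≤ X := by exact_mod_cast (by omega : 1 ≤ X)
  have hκpos : 1 ≤ κ := by
    have : 0 < (C + 2 * (A + 4) + 8) * (2 * 3 ^ (2 * (C + 2 * (A + 4) + 8))) := by positivity
    omega
  -- data of a member
  set ef : ℕ → ℕ := fun d => d / gf d with hef
  set jf : ℕ → ℕ := fun d => Nat.log 2 (gf d) with hjf
  have hfac : ∀ d ∈ DD, d = ef d * gf d := fun d hd =>
    (Nat.div_mul_cancel (hg d hd).dvd).symm
  have hmem : ∀ d ∈ DD, _ := fun d hd =>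
    member C K κ hκpos L f1 X d (gf d) (2 ^ jf d) (ef d) (X / ef d) d.minFac (hDD d hd).1
      (hfac d hd) (hg d hd).pr.pos (Nat.pow_log_le_self 2 (hg d hd).pr.ne_zero)
      (by
        have := Nat.lt_pow_succ_log_self (b := 2) (by norm_num) (gf d)
        rw [Nat.pow_succ] at this
        simp only [hjf]
        omega) rfl (hDD d hd).2.1 (hDD d hd).2.2.1 (hDD d hd).2.2.2
  refine ⟨fun d hd => ⟨(hmem d hd).2.2.2.2.1, (hmem d hd).2.2.2.2.2⟩, ?_⟩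
  have he0 : ∀ d ∈ DD, 0 < ef d := fun d hd => by
    refine Nat.pos_of_ne_zero fun h => ?_
    have h2 := hfac d hd
    rw [h, zero_mul] at h2
    exact (hDD d hd).1.ne' h2
  set lev : ℕ → ℝ := fun d => L ^ C * ((X / ef d : ℕ) : ℝ) / (2 * ((2 ^ jf d : ℕ) : ℝ)) with hlev
  have hfac2 : ∀ d ∈ DD, (d : ℝ) = ef d * gf d := fun d hd => by
    have := hfac d hd
    exact_mod_cast this
  -- bounds for `lev`
  have hlev1 : ∀ d ∈ DD, 1 < lev d := fun d hd => by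
    have h2 := (hmem d hd).1
    have hG0 : (0 : ℝ) < ((2 ^ jf d : ℕ) : ℝ) := by positivity
    have h3 : L ^ κ ≤ lev d := by
      simp only [hlev]
      rw [le_div_iff₀ (by positivity)]
      linarith
    have h4 : L ≤ L ^ κ := by
      calc L = L ^ 1 := (pow_one L).symm
        _ ≤ L ^ κ := pow_le_pow_right₀ hL1 hκpos
    linarith
  have hlev2 : ∀ d ∈ DD, lev d ≤ L ^ (C + K) := fun d hd => by
    have h2 := (hmem d hd).2.2.2.2.2
    refine h2.trans ?_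
    have hd0 : (0 : ℝ) < d := by exact_mod_cast (hDD d hd).1
    have h3 := (hDD d hd).2.1
    rw [div_le_iff₀ (by positivity)] at h3
    rw [div_le_iff₀ hd0, pow_add]
    have : 0 < L ^ C := by positivity
    calc L ^ C * X ≤ L ^ C * (d * L ^ K) := by gcongr
      _ = _ := by ring
  -- pointwise
  have hpt : ∀ d ∈ DD, max 0 (X / d * Th (bd (lev d)) 1 d.minFac - sI a X d d.minFac) ≤
      |dev (W (lev d) d.minFac) (a / ((ef d : ℕ) : ℤ)) (X / ef d) (gf d)| +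
        2 * L ^ (C + K) / L ^ (C + K + A + 1) := by
    intro d hd
    have hgp := (hg d hd).pr.pos
    have h2 := node_ge a X (ef d) (gf d) d.minFac (he0 d hd) hgp
      (rgh_of_dvd (Dvd.intro _ (hfac d hd).symm)) (lev d)
    rw [← hfac d hd, ← hfac2 d hd] at h2
    have hadm : Adm (lev d) 1 d.minFac := adm_aux _ _ (hmem d hd).2.2.2.1
    have h3 := card_Idx_le hadm (hlev1 d hd)
    have hgr : (0 : ℝ) < gf d := by exact_mod_cast hgp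
    have h4 : 2 * ((Idx (lev d) d.minFac).card : ℝ) / gf d ≤
        2 * L ^ (C + K) / L ^ (C + K + A + 1) := by
      have h5 : L ^ (C + K + A + 1) ≤ gf d := by
        have h5a : L ^ (C + K + A + 1) ≤ L ^ C1 := pow_le_pow_right₀ hL1 (by omega)
        refine h5a.trans ?_
        rw [hL]; exact (hg d hd).lo
      have h6 := h3.trans (hlev2 d hd)
      gcongr
    have h5 : Theta (lev d) d.minFac = Th (bd (lev d)) 1 d.minFac := rfl
    rw [h5] at h2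
    refine max_le ?_ ?_
    · positivity
    · linarith
  -- classes
  set key : ℕ → ℕ × ℕ × ℕ := fun d => (jf d, X / ef d, d.minFac) with hkey
  set J := DD.image key with hJ
  have hlt : ∀ d ∈ DD, d.minFac < gf d := fun d hd => by
    have h2 := (hmem d hd).2.2.1
    have h3 := (hg d hd).lo
    rw [← hL] at h3
    have h4 : L ^ K < L ^ C1 := pow_lt_pow_right₀ (by linarith) (by omega)
    have h5 : (d.minFac : ℝ) < gf d := by linarith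
    exact_mod_cast h5
  have hclass : ∀ c ∈ J, ∑ d ∈ DD with key d = c,
      |dev (W (lev d) d.minFac) (a / ((ef d : ℕ) : ℤ)) (X / ef d) (gf d)| ≤
      (((Icc 1 X).filter (fun e => X / e = c.2.1 ∧ e.minFac = c.2.2)).card : ℝ) * c.2.1 / L ^ (A + 4) +
        (X : ℝ) ^ ((995 : ℝ) / 1000) := by
    intro c hc
    obtain ⟨d0, hd0, hkd0⟩ := mem_image.1 hc
    have hj0 : c.1 = jf d0 := by rw [← hkd0]
    have hH0 : c.2.1 = X / ef d0 := by rw [← hkd0]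
    have hw0 : c.2.2 = d0.minFac := by rw [← hkd0]
    obtain ⟨m1, m2, m3, m4, _, _⟩ := hmem d0 hd0
    rw [← hj0, ← hH0] at m1 m2 m4
    rw [← hw0] at m3 m4
    have hG1 : L ^ C1 ≤ 2 * ((2 ^ c.1 : ℕ) : ℝ) := by
      have h2 := (hg d0 hd0).lo
      rw [← hL] at h2
      refine h2.trans ?_
      have h3 := Nat.lt_pow_succ_log_self (b := 2) (by norm_num) (gf d0)
      rw [hj0]
      have h4 : gf d0 ≤ 2 * 2 ^ jf d0 := by
        rw [Nat.pow_succ] at h3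
        simp only [hjf]
        omega
      exact_mod_cast h4
    have hG2 : ((2 ^ c.1 : ℕ) : ℝ) ≤ (X : ℝ) ^ ((1 : ℝ) / 1000) := by
      refine le_trans ?_ (hg d0 hd0).hi
      rw [hj0]
      exact_mod_cast Nat.pow_log_le_self 2 (hg d0 hd0).pr.ne_zero
    have hLL := hLst c.1 hG1 hG2
    have hcls := cls_num C K (A + 4) κ hκ1 hCκ c1 C1 hC1 X hbig hc1 L hL htail a (2 ^ c.1) hG1 hG2
      (Lst c.1) hLL c.2.1 c.2.2 m1 m2 m3 m4
      ((Icc 1 X).filter (fun e => X / e = c.2.1 ∧ e.minFac = c.2.2))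
      (fun e he => by
        rw [mem_filter, mem_Icc] at he
        exact ⟨he.1.1, he.2.1⟩)
    refine le_trans ?_ hcls
    refine le_trans (le_of_eq ?_) (class_sum (DD.filter (fun d => key d = c)) gf c X a
      (L ^ C * (c.2.1 : ℝ) / (2 * ((2 ^ c.1 : ℕ) : ℝ))) (StrP X a (Lst c.1)) (GGp (2 ^ c.1)) ?_)
    · refine sum_congr rfl fun d hd => ?_
      obtain ⟨hd1, hd2⟩ := mem_filter.1 hd
      have e1 : jf d = c.1 := by rw [← hd2]
      have e2 : X / ef d = c.2.1 := by rw [← hd2]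
      have e3 : d.minFac = c.2.2 := by rw [← hd2]
      simp only [hlev]
      rw [e1, e2, e3]
    · intro d hd
      obtain ⟨hd1, hd2⟩ := mem_filter.1 hd
      have e1 : jf d = c.1 := by rw [← hd2]
      have e2 : X / ef d = c.2.1 := by rw [← hd2]
      have e3 : d.minFac = c.2.2 := by rw [← hd2]
      have hctl := hg d hd1
      refine ⟨hfac d hd1, he0 d hd1, ?_, e2, ?_, ?_, ?_⟩
      · have h2 : d ≤ X := by
          have h3 := (hDD d hd1).2.2.1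
          have h4 : (X : ℝ) / L ^ (κ + 1) ≤ X := div_le_self hXr.le (one_le_pow₀ hL1)
          have h5 : (d : ℝ) ≤ X := h3.trans h4
          exact_mod_cast h5
        exact (Nat.div_le_self _ _).trans h2
      · rw [← e3]
        have h2 := minFac_eq_of (ef d) (gf d) hctl.pr (by rw [← hfac d hd1]; exact hlt d hd1)
          (he0 d hd1)
        rw [← hfac d hd1] at h2
        exact h2
      · rw [← e1]
        unfold GGp
        rw [mem_filter, mem_Icc]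
        have h3 := Nat.lt_pow_succ_log_self (b := 2) (by norm_num) (gf d)
        rw [Nat.pow_succ] at h3
        refine ⟨⟨Nat.pow_log_le_self 2 hctl.pr.ne_zero, ?_⟩, hctl.pr⟩
        simp only [hjf]
        omega
      · rw [← e1]; exact hctl.uns
  have hS12 : ∑ d ∈ DD, |dev (W (lev d) d.minFac) (a / ((ef d : ℕ) : ℤ)) (X / ef d) (gf d)| ≤
      ∑ c ∈ J, ((((Icc 1 X).filter (fun e => X / e = c.2.1 ∧ e.minFac = c.2.2)).card : ℝ) * c.2.1) /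
        L ^ (A + 4) + J.card * (X : ℝ) ^ ((995 : ℝ) / 1000) := by
    rw [← sum_fiberwise_of_maps_to (s := DD) (t := J) (g := key)
      (fun d hd => mem_image_of_mem _ hd)]
    refine (sum_le_sum hclass).trans (le_of_eq ?_)
    rw [sum_add_distrib, sum_const, nsmul_eq_mul]
  have hjlt : ∀ c ∈ J, c.1 < ⌊2 * L⌋₊ + 1 := by
    intro c hc
    obtain ⟨d, hd, rfl⟩ := mem_image.1 hc
    refine Nat.lt_succ_of_le (Nat.le_floor ?_)
    show ((jf d : ℕ) : ℝ) ≤ 2 * L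
    have h2 : ((2 ^ jf d : ℕ) : ℝ) ≤ X := by
      have h3 : ((2 ^ jf d : ℕ) : ℝ) ≤ gf d := by
        exact_mod_cast Nat.pow_log_le_self 2 (hg d hd).pr.ne_zero
      refine h3.trans ((hg d hd).hi.trans ?_)
      calc (X : ℝ) ^ ((1 : ℝ) / 1000) ≤ (X : ℝ) ^ (1 : ℝ) :=
            Real.rpow_le_rpow_of_exponent_le hX1 (by norm_num)
        _ = X := Real.rpow_one _
    have h3 : (jf d : ℝ) * Real.log 2 ≤ L := by
      rw [← Real.log_pow, hL]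
      apply Real.log_le_log (by positivity)
      push_cast at h2
      exact h2
    have h4 := Real.log_two_gt_d9
    have h5 : (0 : ℝ) ≤ jf d := Nat.cast_nonneg _
    have h6 : (jf d : ℝ) * (1 / 2) ≤ (jf d : ℝ) * Real.log 2 :=
      mul_le_mul_of_nonneg_left (by linarith) h5
    linarith
  have hJcard := card_J_le K L X f1 hX1 J hjlt
    (fun c hc => by
      obtain ⟨d, hd, rfl⟩ := mem_image.1 hc
      have h2 := (hmem d hd).2.1
      refine h2.trans ?_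
      have h3 : ((2 ^ jf d : ℕ) : ℝ) ≤ (X : ℝ) ^ ((1 : ℝ) / 1000) := by
        refine le_trans ?_ (hg d hd).hi
        exact_mod_cast Nat.pow_log_le_self 2 (hg d hd).pr.ne_zero
      have h4 : 0 < L ^ K := by positivity
      have h5 : (0 : ℝ) ≤ (X : ℝ) ^ ((1 : ℝ) / 1000) := by positivity
      calc 2 * ((2 ^ jf d : ℕ) : ℝ) * L ^ K ≤ 2 * (X : ℝ) ^ ((1 : ℝ) / 1000) * L ^ K := by gcongr
        _ ≤ 4 * (X : ℝ) ^ ((1 : ℝ) / 1000) * L ^ K := by gcongr; norm_num)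
    (fun c hc => by
      obtain ⟨d, hd, rfl⟩ := mem_image.1 hc
      exact (hmem d hd).2.2.1)
  have hDcard : (DD.card : ℝ) ≤ X := by
    have h2 : DD ⊆ Icc 1 X := by
      intro d hd
      rw [mem_Icc]
      refine ⟨(hDD d hd).1, ?_⟩
      have h3 := (hDD d hd).2.2.1
      have h4 : (X : ℝ) / L ^ (κ + 1) ≤ X := div_le_self hXr.le (one_le_pow₀ hL1)
      have h5 : (d : ℝ) ≤ X := h3.trans h4
      exact_mod_cast h5
    have h3 := card_le_card h2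
    rw [Nat.card_Icc, Nat.add_sub_cancel] at h3
    exact_mod_cast h3
  have hcount := class_count X J (⌊2 * L⌋₊ + 1) hjlt
  rw [← hL] at hcount
  have hfin := final_num C K A L X J.card DD.card
    ((∑ c ∈ J, ((((Icc 1 X).filter (fun e => X / e = c.2.1 ∧ e.minFac = c.2.2)).card : ℝ) *
      c.2.1)) / L ^ (A + 4))
    (J.card * (X : ℝ) ^ ((995 : ℝ) / 1000))
    (DD.card * (2 * L ^ (C + K) / L ^ (C + K + A + 1))) f1 hX1
    (div_le_div_of_nonneg_right hcount (by positivity)) le_rfl hJcard h1 hDcard le_rfl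
  refine le_trans ?_ hfin
  refine (sum_le_sum hpt).trans ?_
  rw [sum_add_distrib, sum_const, nsmul_eq_mul]
  have h7 : ∑ c ∈ J, ((((Icc 1 X).filter (fun e => X / e = c.2.1 ∧ e.minFac = c.2.2)).card : ℝ) *
      c.2.1) / L ^ (A + 4) = (∑ c ∈ J, ((((Icc 1 X).filter (fun e => X / e = c.2.1 ∧
        e.minFac = c.2.2)).card : ℝ) * c.2.1)) / L ^ (A + 4) := by
    rw [sum_div]
  rw [← h7]
  linarith [hS12]

end Crest.Agent.R001.Uns
end

-- ▼ part R001/Uns12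

/-! R001, block UNS, part 12: `ListX → UNSH`. -/

set_option autoImplicit false

namespace Crest.Agent.R001.Uns

open Finset Crest.Agent.R001.Tree Crest.Agent.R001.EST

lemma strP_of_capt (X : ℕ) (a : ℤ) (LL : Finset (ℤ × ℤ)) (e g : ℕ)
    (h : StrP X a LL (e : ℤ) g) :
    ∃ τ ∈ LL, (g : ℤ) ∣ τ.2 * a - τ.1 ∧ Asm.Capt X a τ e := by
  obtain ⟨τ, hτ, h1, h, h2, h3, h4, h5⟩ := h
  exact ⟨τ, hτ, h1, h, h2, h3, by exact_mod_cast h4, h5⟩

lemma log_lt_aux (X g : ℕ) (hX : (1 : ℝ) ≤ X) (L : ℝ) (hL : L = Real.log X) (hg0 : g ≠ 0)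
    (hg : (g : ℝ) ≤ (X : ℝ) ^ ((1 : ℝ) / 1000)) : Nat.log 2 g < ⌊2 * L⌋₊ + 1 := by
  refine Nat.lt_succ_of_le (Nat.le_floor ?_)
  have h2 : ((2 ^ Nat.log 2 g : ℕ) : ℝ) ≤ X := by
    have h3 : ((2 ^ Nat.log 2 g : ℕ) : ℝ) ≤ g := by
      exact_mod_cast Nat.pow_log_le_self 2 hg0
    refine h3.trans (hg.trans ?_)
    calc (X : ℝ) ^ ((1 : ℝ) / 1000) ≤ (X : ℝ) ^ (1 : ℝ) :=
          Real.rpow_le_rpow_of_exponent_le hX (by norm_num)
      _ = X := Real.rpow_one _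
  have h3 : (Nat.log 2 g : ℝ) * Real.log 2 ≤ L := by
    rw [← Real.log_pow, hL]
    apply Real.log_le_log (by positivity)
    push_cast at h2
    exact h2
  have h4 := Real.log_two_gt_d9
  have h5 : (0 : ℝ) ≤ Nat.log 2 g := Nat.cast_nonneg _
  have h6 : (Nat.log 2 g : ℝ) * (1 / 2) ≤ (Nat.log 2 g : ℝ) * Real.log 2 :=
    mul_le_mul_of_nonneg_left (by linarith) h5
  linarith

open Filter in
theorem unsH_of_listX (hList : ListX) : Asm.UNSH := by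
  classical
  intro C A
  obtain ⟨K1, hK1⟩ : ∃ K1 : ℕ, K1 = (C + 2 * (A + 4) + 8) * (2 * 3 ^ (2 * (C + 2 * (A + 4) + 8))) :=
    ⟨_, rfl⟩
  have hCK1 : C ≤ K1 := by
    rw [hK1]
    have : 0 < 2 * 3 ^ (2 * (C + 2 * (A + 4) + 8)) := by positivity
    nlinarith
  refine ⟨K1 + 1, fun K _ => ?_⟩
  obtain ⟨κ0, hκ0⟩ : ∃ κ0 : ℕ, κ0 = 2 * C + 2 * K + (A + 4) + 3 := ⟨_, rfl⟩
  refine ⟨2 * κ0 + 3, fun C1 hC1 => ?_⟩
  obtain ⟨c1, hc1, X2, hX2⟩ := tail400 K κ0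
  obtain ⟨X1, hX1⟩ := exists_list hList C K (A + 4)
  have hlp : ∀ᶠ X : ℕ in atTop,
      160 * Real.log (X : ℝ) ^ (2 * K + 1 + A) ≤ (X : ℝ) ^ ((4 : ℝ) / 1000) := by
    filter_upwards [tendsto_natCast_atTop_atTop.eventually
      (log_pow_le (2 * K + 1 + A) (1 / 160) ((4 : ℝ) / 1000) (by norm_num) (by norm_num))] with X hX
    linarith
  obtain ⟨X3, hX3⟩ := ((eventually_big C K (A + 4) c1 hc1).and hlp).exists_forall_of_atTop
  refine ⟨max (max X1 X3) X2, fun X hX a => ?_⟩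
  have hXX1 : X1 ≤ X := by
    have : (X1 : ℝ) ≤ X := (le_max_left (X1 : ℝ) X3).trans ((le_max_left _ _).trans hX)
    exact_mod_cast this
  have hXX3 : X3 ≤ X := by
    have : (X3 : ℝ) ≤ X := (le_max_right (X1 : ℝ) X3).trans ((le_max_left _ _).trans hX)
    exact_mod_cast this
  have hXX2 : X2 ≤ X := (le_max_right _ _).trans hX
  obtain ⟨hbig, hlog⟩ := hX3 X hXX3
  obtain ⟨L, hL⟩ : ∃ L : ℝ, L = Real.log X := ⟨_, rfl⟩
  have f1 : 106496 ≤ L := by rw [hL]; exact hbig.f1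
  have hX2' := hbig.X2
  have hXr1 : (1 : ℝ) ≤ X := by exact_mod_cast (by omega : 1 ≤ X)
  have hL1 : 1 ≤ L := by linarith
  have hL0 : 0 < L := by linarith
  -- the lists
  have hlists : ∀ j : ℕ, ∃ LL : Finset (ℤ × ℤ), (LL.card : ℝ) ≤ 32 * L ^ κ0 ∧
      (∀ τ ∈ LL, 1 ≤ τ.2 ∧ (τ.2 : ℝ) ≤ (X : ℝ) ^ ((1 : ℝ) / 30) ∧
        |(τ.1 : ℝ)| ≤ (X : ℝ) ^ ((31 : ℝ) / 30) ∧ IsCoprime τ.1 τ.2) ∧
      (L ^ C1 ≤ 2 * ((2 ^ j : ℕ) : ℝ) → ((2 ^ j : ℕ) : ℝ) ≤ (X : ℝ) ^ ((1 : ℝ) / 1000) →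
        ListProp X a (2 ^ j) (GGp (2 ^ j)) ⌊((2 ^ j : ℕ) : ℝ) / L ^ κ0⌋₊ LL) := by
    intro j
    by_cases hj : L ^ C1 ≤ 2 * ((2 ^ j : ℕ) : ℝ) ∧ ((2 ^ j : ℕ) : ℝ) ≤ (X : ℝ) ^ ((1 : ℝ) / 1000)
    · obtain ⟨LL, h1, h2, h3⟩ := hX1 X hXX1 c1 hbig L hL κ0 C1 hC1 a (2 ^ j) hj.1 hj.2
      exact ⟨LL, h1, h2, fun _ _ => h3⟩
    · refine ⟨∅, ?_, by simp, fun h1 h2 => absurd ⟨h1, h2⟩ hj⟩
      simp only [card_empty, Nat.cast_zero]
      positivity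
  choose Lst hl1 hl2 hl3 using hlists
  refine ⟨(range (⌊2 * L⌋₊ + 1)).biUnion Lst, ⟨?_, ?_⟩, ?_⟩
  · rw [← hL]
    have h1 : (((range (⌊2 * L⌋₊ + 1)).biUnion Lst).card : ℝ) ≤
        ∑ j ∈ range (⌊2 * L⌋₊ + 1), ((Lst j).card : ℝ) := by
      exact_mod_cast card_biUnion_le
    have h2 : ∑ j ∈ range (⌊2 * L⌋₊ + 1), ((Lst j).card : ℝ) ≤
        ∑ j ∈ range (⌊2 * L⌋₊ + 1), 32 * L ^ κ0 := sum_le_sum fun j _ => hl1 j
    rw [sum_const, card_range, nsmul_eq_mul] at h2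
    have hfl : ((⌊2 * L⌋₊ + 1 : ℕ) : ℝ) ≤ 3 * L := by
      have := Nat.floor_le (show 0 ≤ 2 * L by linarith)
      push_cast
      linarith
    calc (((range (⌊2 * L⌋₊ + 1)).biUnion Lst).card : ℝ)
        ≤ ((⌊2 * L⌋₊ + 1 : ℕ) : ℝ) * (32 * L ^ κ0) := h1.trans h2
      _ ≤ (3 * L) * (32 * L ^ κ0) := by gcongr
      _ = 96 * L ^ (κ0 + 1) := by ring
      _ ≤ L * L ^ (κ0 + 1) := by gcongr; linarith
      _ = L ^ (κ0 + 2) := by ring
      _ ≤ L ^ (2 * κ0 + 3) := pow_le_pow_right₀ hL1 (by omega)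
  · intro τ hτ
    obtain ⟨j, _, hj⟩ := mem_biUnion.1 hτ
    exact hl2 j τ hj
  · intro DD hDD
    have hDD1 : ∀ d ∈ DD, Asm.Win X K (K1 + 1) d := fun d hd => (hDD d hd).1
    have hDD2 := fun d hd => (hDD d hd).2
    choose! gf hg1 hg2 hg3 hg4 hg5 using hDD2
    have hctl : ∀ d ∈ DD, Ctl X a (Lst (Nat.log 2 (gf d))) C1 d (gf d) := by
      intro d hd
      refine ⟨hg1 d hd, hg2 d hd, hg3 d hd, hg4 d hd, fun hs => ?_⟩
      have hj : Nat.log 2 (gf d) ∈ range (⌊2 * L⌋₊ + 1) :=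
        mem_range.2 (log_lt_aux X (gf d) hXr1 L hL (hg1 d hd).ne_zero (hg4 d hd))
      obtain ⟨τ, hτ, h1, h2⟩ := strP_of_capt X a _ _ _
        (StrP_mono X a (subset_biUnion_of_mem Lst hj) hs)
      exact hg5 d hd τ hτ ⟨h1, h2⟩
    have hSP := SP_eq ⌊L / 400⌋₊ ⌊L ^ K⌋₊
    obtain ⟨_, htail⟩ := hX2 X hXX2 L hL (SP ⌊L / 400⌋₊ ⌊L ^ K⌋₊) hSP
      (fun q => (c1 * L / Real.log L) / q) (fun q => rfl)
    have hwin : ∀ d ∈ DD, 0 < d ∧ (X : ℝ) / L ^ K ≤ d ∧ (d : ℝ) ≤ X / L ^ (K1 + 1) ∧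
        4 * (d.minFac : ℝ) ^ 2 ≤ X / d := by
      intro d hd
      obtain ⟨w1, w2, w3, w4, _⟩ := hDD1 d hd
      rw [← hL] at w2 w3
      exact ⟨Nat.pos_of_ne_zero w1.ne_zero, w2, w3, w4⟩
    have hκ : 2 * κ0 + 3 ≤ C1 := hC1
    rw [hκ0] at hκ hl3 htail
    rw [← hL] at hlog
    obtain ⟨r1, r2⟩ := uns_core C K A K1 hK1.ge hCK1 c1 C1 hκ X hbig hc1 L hL htail hlog a Lst
      hl3 DD gf hwin hctl
    refine ⟨fun d => L ^ C * ((X / (d / gf d) : ℕ) : ℝ) / (2 * ((2 ^ Nat.log 2 (gf d) : ℕ) : ℝ)),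
      fun d hd => ?_, ?_⟩
    · rw [← hL]
      exact r1 d hd
    · rw [← hL]
      exact r2

end Crest.Agent.R001.Uns
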