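import Crest.Agent.R001.Uns3
import Crest.Agent.R001.UnsTail

-- ▼ part R001/Uns4
section

/-! R001, block UNS, part 4: numerics for one class. -/

set_option autoImplicit false

namespace Crest.Agent.R001.Uns

open Finset Crest.Agent.R001.Tree Crest.Agent.R001.EST

/-- term (ii) -/
lemma num_ii (C A : ℕ) (L G N H y Lf lg n : ℝ) (hL : 106496 ≤ L) (hG : 0 < G) (hN : 0 < N)
    (hH : H = N * G) (hy : y = L ^ C * N / 2) (hLf0 : 0 ≤ Lf) (hLf : Lf ≤ 2048 * L)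
    (hHG : 2 * H + 12 * G ^ 2 ≤ 13 * G ^ 2) (hS : 4 * (H * (1 + lg) ^ 3 + y ^ 2) ≤ 8 * (H * L))
    (hS0 : 0 ≤ 4 * (H * (1 + lg) ^ 3 + y ^ 2)) (_hn0 : 0 ≤ n) (hn : n ≤ L) :
    n * (Lf * (2 * H + 12 * G ^ 2) * (y / L ^ (C + 2 * A + 8) *
      (4 * (H * (1 + lg) ^ 3 + y ^ 2))) / G / (H / L ^ (A + 2))) ≤ H / L ^ (A + 2) := by
  have hL0 : 0 < L := by linarith
  have hH0 : 0 < H := by rw [hH]; positivity
  have hy0 : 0 < y := by rw [hy]; positivity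
  have h1 : Lf * (2 * H + 12 * G ^ 2) * (y / L ^ (C + 2 * A + 8) *
      (4 * (H * (1 + lg) ^ 3 + y ^ 2))) / G / (H / L ^ (A + 2)) ≤
      (2048 * L) * (13 * G ^ 2) * (y / L ^ (C + 2 * A + 8) * (8 * (H * L))) / G /
        (H / L ^ (A + 2)) := by gcongr
  have h2 : (2048 * L) * (13 * G ^ 2) * (y / L ^ (C + 2 * A + 8) * (8 * (H * L))) / G /
        (H / L ^ (A + 2)) = 106496 * (H / L ^ (A + 4)) := by
    rw [hy, hH]
    have e1 : L ^ (C + 2 * A + 8) = L ^ C * L ^ A * L ^ A * L ^ 8 := by ring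
    have e2 : L ^ (A + 2) = L ^ A * L ^ 2 := by ring
    have e3 : L ^ (A + 4) = L ^ A * L ^ 4 := by ring
    rw [e1, e2, e3]
    field_simp
    ring
  rw [h2] at h1
  calc _ ≤ L * (106496 * (H / L ^ (A + 4))) := by
        refine mul_le_mul hn h1 ?_ hL0.le
        positivity
    _ ≤ L * (L * (H / L ^ (A + 4))) := by gcongr
    _ = H / L ^ (A + 2) := by
        have e3 : L ^ (A + 4) = L ^ (A + 2) * L ^ 2 := by ring
        rw [e3]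
        field_simp

/-- all terms together -/
lemma num_all (C K A : ℕ) (L G N H y Lf lg n cE cG T K0r pt MT : ℝ) (hL : 106496 ≤ L)
    (hG : 0 < G) (hN : 0 < N)
    (hH : H = N * G) (hy : y = L ^ C * N / 2) (hyK : y ≤ L ^ (C + K))
    (hLf0 : 0 ≤ Lf) (hLf : Lf ≤ 2048 * L)
    (hHG : 2 * H + 12 * G ^ 2 ≤ 13 * G ^ 2) (hS : 4 * (H * (1 + lg) ^ 3 + y ^ 2) ≤ 8 * (H * L))
    (hS0 : 0 ≤ 4 * (H * (1 + lg) ^ 3 + y ^ 2)) (hn0 : 0 ≤ n) (hn : n ≤ L)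
    (hcE : 0 ≤ cE) (hcG0 : 0 ≤ cG) (hcG : cG ≤ 2 * G) (hT0 : 0 ≤ T) (hT : T ≤ 6 * y ^ 2 * N)
    (hK0 : 0 ≤ K0r) (hK : K0r + 1 ≤ 2 * G / L ^ (2 * C + 2 * K + A + 3))
    (_hpt0 : 0 ≤ pt) (hpt : pt ≤ 1 / L ^ (2 * C + 2 * K + A + 3)) :
    cE * cG * (N / L ^ (A + 2)) +
      n * (cE * ((Lf * (2 * H + 12 * G ^ 2) *
        (y / L ^ (C + 2 * A + 8) * (4 * (H * (1 + lg) ^ 3 + y ^ 2))) / G) / (H / L ^ (A + 2)) +
        H / L ^ (A + 2) + T * (K0r + 1))) +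
      T * (MT * cG) + pt * (cE * cG * T) ≤ cE * H / L ^ A + T * (MT * cG) := by
  have hL0 : 0 < L := by linarith
  have hH0 : 0 < H := by rw [hH]; positivity
  have hy0 : 0 < y := by rw [hy]; positivity
  have hii := num_ii C A L G N H y Lf lg n hL hG hN hH hy hLf0 hLf hHG hS hS0 hn0 hn
  obtain ⟨U, hU⟩ : ∃ U, U = Lf * (2 * H + 12 * G ^ 2) *
        (y / L ^ (C + 2 * A + 8) * (4 * (H * (1 + lg) ^ 3 + y ^ 2))) / G / (H / L ^ (A + 2)) :=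
    ⟨_, rfl⟩
  rw [← hU] at hii ⊢
  clear hU
  have hT2 : T ≤ 6 * L ^ (2 * C + 2 * K) * N := by
    have h1 : y ^ 2 ≤ L ^ (2 * C + 2 * K) := by
      calc y ^ 2 ≤ (L ^ (C + K)) ^ 2 := pow_le_pow_left₀ hy0.le hyK 2
        _ = L ^ (2 * C + 2 * K) := by ring
    calc T ≤ 6 * y ^ 2 * N := hT
      _ ≤ _ := by gcongr
  -- (i)
  have t1 : cE * cG * (N / L ^ (A + 2)) ≤ 2 * (cE * H / L ^ (A + 2)) := by
    calc cE * cG * (N / L ^ (A + 2)) ≤ cE * (2 * G) * (N / L ^ (A + 2)) := by gcongr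
      _ = _ := by rw [hH]; ring
  -- (ii)
  have t2 : n * (cE * U) ≤ cE * H / L ^ (A + 2) := by
    calc n * (cE * U) = cE * (n * U) := by ring
      _ ≤ cE * (H / L ^ (A + 2)) := mul_le_mul_of_nonneg_left hii hcE
      _ = _ := by ring
  -- (iii)
  have t3 : n * (cE * (H / L ^ (A + 2))) ≤ cE * H / L ^ (A + 1) := by
    calc n * (cE * (H / L ^ (A + 2))) ≤ L * (cE * (H / L ^ (A + 2))) := by gcongr
      _ = _ := by
        have e : L ^ (A + 2) = L ^ (A + 1) * L := by ring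
        rw [e]; field_simp
  -- (iv)
  have t4 : n * (cE * (T * (K0r + 1))) ≤ cE * H / L ^ (A + 1) := by
    calc n * (cE * (T * (K0r + 1)))
        ≤ L * (cE * ((6 * L ^ (2 * C + 2 * K) * N) * (2 * G / L ^ (2 * C + 2 * K + A + 3)))) := by
          gcongr
      _ = 12 * (cE * H / L ^ (A + 2)) := by
          have e : L ^ (2 * C + 2 * K + A + 3) = L ^ (2 * C + 2 * K) * L ^ (A + 2) * L := by ring
          rw [e, hH]; field_simp; ring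
      _ ≤ L * (cE * H / L ^ (A + 2)) := by
          have : 0 ≤ cE * H / L ^ (A + 2) := by positivity
          nlinarith
      _ = _ := by
        have e : L ^ (A + 2) = L ^ (A + 1) * L := by ring
        rw [e]; field_simp
  -- (vi)
  have t6 : pt * (cE * cG * T) ≤ cE * H / L ^ (A + 2) := by
    calc pt * (cE * cG * T)
        ≤ 1 / L ^ (2 * C + 2 * K + A + 3) * (cE * (2 * G) * (6 * L ^ (2 * C + 2 * K) * N)) := by
          gcongr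
      _ = 12 * (cE * H / L ^ (A + 3)) := by
          have e : L ^ (2 * C + 2 * K + A + 3) = L ^ (2 * C + 2 * K) * L ^ (A + 3) := by ring
          rw [e, hH]; field_simp; ring
      _ ≤ L * (cE * H / L ^ (A + 3)) := by
          have : 0 ≤ cE * H / L ^ (A + 3) := by positivity
          nlinarith
      _ = _ := by
        have e : L ^ (A + 3) = L ^ (A + 2) * L := by ring
        rw [e]; field_simp
  -- total
  have hx : 0 ≤ cE * H / L ^ (A + 2) := by positivity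
  have e1 : cE * H / L ^ (A + 1) = L * (cE * H / L ^ (A + 2)) := by
    have e : L ^ (A + 2) = L ^ (A + 1) * L := by ring
    rw [e]; field_simp
  have e2 : cE * H / L ^ A = L ^ 2 * (cE * H / L ^ (A + 2)) := by
    have e : L ^ (A + 2) = L ^ A * L ^ 2 := by ring
    rw [e]; field_simp
  have hsplit : n * (cE * (U + H / L ^ (A + 2) + T * (K0r + 1))) =
      n * (cE * U) + n * (cE * (H / L ^ (A + 2))) + n * (cE * (T * (K0r + 1))) := by ring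
  rw [hsplit, e2]
  rw [e1] at t3 t4
  generalize cE * H / L ^ (A + 2) = x at *
  have hfin : (4 + 2 * L) * x ≤ L ^ 2 * x := by
    apply mul_le_mul_of_nonneg_right _ hx
    nlinarith
  linarith [t1, t2, t3, t4, t6, hfin]

end Crest.Agent.R001.Uns
end

-- ▼ part R001/Uns5
section

/-! R001, block UNS, part 5: one class, all parameters chosen. -/

set_option autoImplicit false

namespace Crest.Agent.R001.Uns

open Finset Crest.Agent.R001.Tree Crest.Agent.R001.EST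

/-- structured pairs -/
def StrP (X : ℕ) (a : ℤ) (LL : Finset (ℤ × ℤ)) (e : ℤ) (g : ℕ) : Prop :=
  ∃ τ ∈ LL, (g : ℤ) ∣ τ.2 * a - τ.1 ∧ ∃ h : ℕ, 1 ≤ h ∧ (h : ℝ) ≤ (X : ℝ) ^ ((1 : ℝ) / 30) ∧
    (h : ℤ) ∣ e ∧ e ∣ h * (τ.2 * a - τ.1)

/-- the list form of the structure theorem -/
def ListX : Prop :=
  ∃ X0 : ℕ, ∀ X : ℕ, X0 ≤ X → ∀ (a : ℤ) (G : ℕ) (GG : Finset ℕ), 2 ≤ G →
    (∀ g ∈ GG, g.Prime) → (∀ g ∈ GG, G ≤ g ∧ g ≤ G ^ 2) →
    ((GG.card : ℝ) * G ≤ (X : ℝ) ^ ((1 : ℝ) / 300)) → ∀ K0 : ℕ, 1 ≤ K0 →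
    (256 * (GG.card : ℝ) * Real.log (2 * X) ≤ (K0 : ℝ) ^ 2 * Real.log G) →
    ∃ LL : Finset (ℤ × ℤ), LL.card * K0 ≤ 8 * GG.card ∧
      (∀ τ ∈ LL, 1 ≤ τ.2 ∧ (τ.2 : ℝ) ≤ (X : ℝ) ^ ((1 : ℝ) / 30) ∧
        |(τ.1 : ℝ)| ≤ (X : ℝ) ^ ((31 : ℝ) / 30) ∧ IsCoprime τ.1 τ.2) ∧
      ∀ Y : ℕ, (X : ℝ) ^ ((1 : ℝ) / 2) ≤ Y → Y ≤ X →
        ∀ (R : ∀ g : ℕ, Finset (ZMod g)) (K : ℕ), K0 ≤ K →
        (1024 * (∑ g ∈ GG, (R g).card : ℕ) * Real.log (2 * X) ≤ (K : ℝ) ^ 2 * Real.log G) →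
        ∀ (E : Finset ℕ) (P : ℕ → ℕ → Prop) [∀ e g, Decidable (P e g)],
        (∀ e ∈ E, Y ≤ e ∧ e ≤ 2 * Y) →
        (∀ e ∈ E, ∀ g ∈ GG, P e g → ((a / (e : ℤ) : ℤ) : ZMod g) ∈ R g ∧
          ¬ (∃ τ ∈ LL, (g : ℤ) ∣ τ.2 * a - τ.1 ∧ ∃ h : ℕ, 1 ≤ h ∧
            (h : ℝ) ≤ (X : ℝ) ^ ((1 : ℝ) / 30) ∧
            h ∣ e ∧ (e : ℤ) ∣ h * (τ.2 * a - τ.1))) →
        (∀ e ∈ E, K ≤ (GG.filter (fun g => P e g)).card) →
        (E.card : ℝ) < (X : ℝ) ^ ((59 : ℝ) / 60)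


/-- `ListHyp` for a class of `e` with the same `⌊X/e⌋`. -/
lemma listHyp_of_listX (X : ℕ) (a : ℤ) (G : ℕ) (GG : Finset ℕ) (K0 : ℕ)
    (LL : Finset (ℤ × ℤ)) (hG1 : 0 < Real.log G) (hX2 : 2 ≤ X)
    (hLL : ∀ Y : ℕ, (X : ℝ) ^ ((1 : ℝ) / 2) ≤ Y → Y ≤ X →
        ∀ (R : ∀ g : ℕ, Finset (ZMod g)) (K : ℕ), K0 ≤ K →
        (1024 * (∑ g ∈ GG, (R g).card : ℕ) * Real.log (2 * X) ≤ (K : ℝ) ^ 2 * Real.log G) →
        ∀ (E : Finset ℕ) (P : ℕ → ℕ → Prop) [∀ e g, Decidable (P e g)],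
        (∀ e ∈ E, Y ≤ e ∧ e ≤ 2 * Y) →
        (∀ e ∈ E, ∀ g ∈ GG, P e g → ((a / (e : ℤ) : ℤ) : ZMod g) ∈ R g ∧
          ¬ (∃ τ ∈ LL, (g : ℤ) ∣ τ.2 * a - τ.1 ∧ ∃ h : ℕ, 1 ≤ h ∧
            (h : ℝ) ≤ (X : ℝ) ^ ((1 : ℝ) / 30) ∧
            h ∣ e ∧ (e : ℤ) ∣ h * (τ.2 * a - τ.1))) →
        (∀ e ∈ E, K ≤ (GG.filter (fun g => P e g)).card) →
        (E.card : ℝ) < (X : ℝ) ^ ((59 : ℝ) / 60))
    (H : ℕ) (hH1 : 1 ≤ H) (hHX : ((H : ℝ) + 1) * (X : ℝ) ^ ((1 : ℝ) / 2) ≤ X)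
    (EE : Finset ℕ) (hEE : ∀ e ∈ EE, 0 < e ∧ X / e = H) :
    ListHyp a (EE.map Nat.castEmbedding) GG (StrP X a LL) K0
      (1024 * Real.log (2 * X) / Real.log G) ((X : ℝ) ^ ((59 : ℝ) / 60)) := by
  classical
  intro R K hK hR EE' hEE' hT
  set E : Finset ℕ := EE.filter (fun e => (e : ℤ) ∈ EE') with hE
  have hcard : EE'.card = E.card := by
    have : EE' = E.map Nat.castEmbedding := by
      ext z
      rw [mem_map]
      constructor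
      · intro hz
        obtain ⟨e, he, hez⟩ := mem_map.1 (hEE' hz)
        refine ⟨e, ?_, hez⟩
        rw [hE, mem_filter]
        refine ⟨he, ?_⟩
        have : ((e : ℕ) : ℤ) = z := hez
        rw [this]; exact hz
      · rintro ⟨e, he, rfl⟩
        rw [hE, mem_filter] at he
        exact he.2
    rw [this, card_map]
  rw [hcard]
  set Y : ℕ := X / (H + 1) + 1 with hY
  have hXr : (0 : ℝ) < X := by exact_mod_cast (by omega : 0 < X)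
  have hY1 : (X : ℝ) ^ ((1 : ℝ) / 2) ≤ Y := by
    have h1 : (X : ℝ) / (H + 1) ≤ Y := by
      rw [div_le_iff₀ (by positivity)]
      have := Nat.lt_mul_div_succ X (show 0 < H + 1 by omega)
      have h2 : (X : ℝ) < ((H : ℝ) + 1) * Y := by
        rw [hY]
        exact_mod_cast this
      linarith
    refine le_trans ?_ h1
    rw [le_div_iff₀ (by positivity), mul_comm]
    exact hHX
  have hY2 : Y ≤ X := by
    have h1 : X / (H + 1) ≤ X / 2 := Nat.div_le_div_left (by omega) (by norm_num)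
    omega
  have hlog : 0 ≤ Real.log (2 * X) := Real.log_nonneg (by
    have : (2 : ℝ) ≤ X := by exact_mod_cast hX2
    linarith)
  refine (hLL Y hY1 hY2 R K hK ?_ E
    (fun e g => ((a / (e : ℤ) : ℤ) : ZMod g) ∈ R g ∧ ¬ StrP X a LL e g) ?_ ?_ ?_).le
  · rw [div_mul_eq_mul_div, div_le_iff₀ hG1] at hR
    push_cast
    linarith
  · intro e he
    obtain ⟨he0, heH⟩ := hEE e (mem_filter.1 he).1
    have h1 : X < e * (H + 1) := by
      rw [← heH]; exact Nat.lt_mul_div_succ X he0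
    have h2 : e * H ≤ X := by
      rw [← heH]; exact Nat.mul_div_le X e
    have h3 : X / (H + 1) < e := (Nat.div_lt_iff_lt_mul (by omega)).2 h1
    refine ⟨by omega, ?_⟩
    have h4 : X < (H + 1) * Y := Nat.lt_mul_div_succ X (by omega)
    -- e * H ≤ X < (H+1) Y ≤ 2 H Y
    have h5 : e * H < 2 * Y * H := by nlinarith
    exact (Nat.lt_of_mul_lt_mul_right h5).le
  · intro e _ g _ hP
    refine ⟨hP.1, ?_⟩
    rintro ⟨τ, hτ, h1, h, h2, h3, h4, h5⟩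
    exact hP.2 ⟨τ, hτ, h1, h, h2, h3, by exact_mod_cast h4, h5⟩
  · intro e he
    obtain ⟨T, hT1, hT2, hT3⟩ := hT e (mem_filter.1 he).2
    refine hT2.trans (card_le_card ?_)
    intro g hg
    rw [mem_filter]
    exact ⟨hT1 hg, hT3 g hg⟩

end Crest.Agent.R001.Uns
end

-- ▼ part R001/Uns6

/-! R001, block UNS, part 6: one class, numerics. -/

set_option autoImplicit false

namespace Crest.Agent.R001.Uns

open Finset Crest.Agent.R001.Tree Crest.Agent.R001.EST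

def GGp (G : ℕ) : Finset ℕ := (Icc G (2 * G)).filter Nat.Prime

lemma card_GGp_le (G : ℕ) (hG : 1 ≤ G) : ((GGp G).card : ℝ) ≤ 2 * G := by
  have h1 : (GGp G).card ≤ (Icc G (2 * G)).card := card_filter_le _ _
  rw [Nat.card_Icc] at h1
  have h2 : (GGp G).card ≤ 2 * G := by omega
  exact_mod_cast h2

/-- largeness facts -/
structure Big (C K A : ℕ) (c1 : ℝ) (X : ℕ) : Prop where
  X2 : 2 ≤ X
  f1 : 106496 ≤ Real.log X
  f2 : (1 + (C + K : ℕ) * Real.log (Real.log X)) ^ 3 ≤ Real.log X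
  f3 : Real.log X ≤ (c1 * Real.log X / Real.log (Real.log X)) ^ 2
  f4 : c1 * Real.log X / Real.log (Real.log X) ≤ ⌊Real.log X / 400⌋₊
  f5 : 24 * Real.log X ^ (2 * C + 3 * K) ≤ (X : ℝ) ^ ((1 : ℝ) / 2000)
  f6 : 1 + 2 * ((2 * C + 2 * K + A + 3 : ℕ) * Real.log (Real.log X)) ≤ Real.log X
  f9 : 2 ≤ (X : ℝ) ^ ((1 : ℝ) / 750)

open Filter in
lemma log_pow_le (k : ℕ) (c s : ℝ) (hc : 0 < c) (hs : 0 < s) :
    ∀ᶠ x : ℝ in atTop, Real.log x ^ k ≤ c * x ^ s := by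
  have h1 := (isLittleO_log_rpow_rpow_atTop (k : ℝ) hs).def hc
  filter_upwards [h1, eventually_ge_atTop 1] with x hx hx1
  rw [Real.norm_eq_abs, Real.norm_eq_abs, abs_of_nonneg (by positivity : (0:ℝ) ≤ x ^ s),
    Real.rpow_natCast] at hx
  exact (le_abs_self _).trans hx

open Filter in
lemma eventually_big (C K A : ℕ) (c1 : ℝ) (hc1 : 0 < c1) :
    ∀ᶠ X : ℕ in atTop, Big C K A c1 X := by
  have hcast : Tendsto (fun X : ℕ => (X : ℝ)) atTop atTop := tendsto_natCast_atTop_atTop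
  have hL : Tendsto (fun X : ℕ => Real.log (X : ℝ)) atTop atTop :=
    Real.tendsto_log_atTop.comp hcast
  have hl : Tendsto (fun X : ℕ => Real.log (Real.log (X : ℝ))) atTop atTop :=
    Real.tendsto_log_atTop.comp hL
  set m := C + K with hm
  set m' := 2 * C + 2 * K + A + 3 with hm'
  have hp : Tendsto (fun X : ℕ => (X : ℝ) ^ ((1 : ℝ) / 750)) atTop atTop :=
    (tendsto_rpow_atTop (by norm_num)).comp hcast
  have a2 := hL.eventually (log_pow_le 3 (1 / (1 + (m : ℝ)) ^ 3) 1 (by positivity) one_pos)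
  have a3 := hL.eventually (log_pow_le 2 (c1 ^ 2) 1 (by positivity) one_pos)
  have a4 := hl.eventually_ge_atTop (800 * c1)
  have a5 := hcast.eventually (log_pow_le (2 * C + 3 * K) (1 / 24) ((1 : ℝ) / 2000)
    (by norm_num) (by norm_num))
  have a6 := hL.eventually (log_pow_le 1 (1 / (4 * (m' : ℝ) + 4)) 1 (by positivity) one_pos)
  filter_upwards [eventually_ge_atTop 2, hL.eventually_ge_atTop 106496, hl.eventually_ge_atTop 1,
    a2, a3, a4, a5, a6, hp.eventually_ge_atTop 2] with X b0 b1 bl b2 b3 b4 b5 b6 b9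
  set L := Real.log (X : ℝ) with hLdef
  set l := Real.log L with hldef
  have hL0 : 0 < L := by linarith
  have hl0 : 0 < l := by linarith
  simp only [Real.rpow_one] at b2 b3 b6
  refine ⟨b0, b1, ?_, ?_, ?_, ?_, ?_, b9⟩
  · have h1 : 1 + (m : ℝ) * l ≤ (1 + m) * l := by nlinarith [Nat.cast_nonneg (α := ℝ) m]
    calc (1 + (m : ℝ) * l) ^ 3 ≤ ((1 + m) * l) ^ 3 := by
          apply pow_le_pow_left₀ (by positivity) h1
      _ = (1 + (m : ℝ)) ^ 3 * l ^ 3 := by ring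
      _ ≤ (1 + (m : ℝ)) ^ 3 * (1 / (1 + (m : ℝ)) ^ 3 * L) := by gcongr
      _ = L := by field_simp
  · rw [div_pow, le_div_iff₀ (by positivity)]
    calc L * l ^ 2 ≤ L * (c1 ^ 2 * L) := by gcongr
      _ = (c1 * L) ^ 2 := by ring
  · have h1 : c1 * L / l ≤ L / 800 := by
      rw [div_le_iff₀ hl0]
      have : L / 800 * l ≥ L / 800 * (800 * c1) := by gcongr
      linarith
    have h2 := Nat.lt_floor_add_one (L / 400)
    linarith
  · have : 24 * L ^ (2 * C + 3 * K) ≤ 24 * (1 / 24 * (X : ℝ) ^ ((1 : ℝ) / 2000)) := by gcongr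
    linarith
  · rw [pow_one] at b6
    have h1 : (m' : ℝ) * l ≤ m' * (1 / (4 * (m' : ℝ) + 4) * L) := by gcongr
    have h2 : (m' : ℝ) * (1 / (4 * (m' : ℝ) + 4) * L) ≤ L / 4 := by
      have : (m' : ℝ) * (1 / (4 * (m' : ℝ) + 4)) ≤ 1 / 4 := by
        rw [mul_one_div, div_le_div_iff₀ (by positivity) (by norm_num)]
        linarith
      calc (m' : ℝ) * (1 / (4 * (m' : ℝ) + 4) * L) = (m' * (1 / (4 * (m' : ℝ) + 4))) * L := by ring
        _ ≤ 1 / 4 * L := by gcongr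
        _ = L / 4 := by ring
    linarith

/-- choice of the number of levels -/
lemma exists_levels (τ : ℝ) : ∃ n : ℕ, τ ≤ 2 ^ n ∧ (2 : ℝ) ^ n ≤ 2 * max τ 1 ∧
    (n : ℝ) ≤ 1 + 2 * Real.log (max τ 1) := by
  obtain ⟨n, h1, h2⟩ := exists_nat_pow_near (le_max_right τ 1) (one_lt_two (α := ℝ))
  refine ⟨n + 1, (le_max_left τ 1).trans h2.le, ?_, ?_⟩
  · rw [pow_succ]; linarith
  · have h3 : (n : ℝ) * Real.log 2 ≤ Real.log (max τ 1) := by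
      rw [← Real.log_pow]
      exact Real.log_le_log (by positivity) h1
    have h4 := Real.log_two_gt_d9
    have h5 : (0 : ℝ) ≤ n := Nat.cast_nonneg n
    push_cast
    nlinarith

/-- sizes (i) -/
lemma sizes1 (C K κ κ0 C1 : ℕ) (L G H N y : ℝ) (hκ : 1 ≤ κ) (hCκ : C ≤ κ)
    (hκ0 : C + K + 2 ≤ κ0)
    (hC1 : 2 * κ0 + 3 ≤ C1) (f1 : 106496 ≤ L) (hG1 : L ^ C1 ≤ 2 * G)
    (hH1 : 2 * G * L ^ κ ≤ L ^ C * H) (hH2 : H ≤ 2 * G * L ^ K) (hN : N = H / G)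
    (hy : y = L ^ C * H / (2 * G)) :
    L ^ (2 * κ0 + 2) ≤ G ∧ 0 < G ∧ H = N * G ∧ 1 ≤ N ∧ N ≤ 2 * L ^ K ∧ y = L ^ C * N / 2 ∧
      L ^ κ ≤ y ∧ y ≤ L ^ (C + K) ∧ 1 < y ∧ 2 * H + 12 * G ^ 2 ≤ 13 * G ^ 2 ∧ y ^ 2 ≤ H := by
  have hL0 : 0 < L := by linarith
  have hL1 : 1 ≤ L := by linarith
  have hG4 : L ^ (2 * κ0 + 2) ≤ G := by
    have h1 : L ^ (2 * κ0 + 3) ≤ L ^ C1 := pow_le_pow_right₀ hL1 hC1
    have h2 : L ^ (2 * κ0 + 3) = L ^ (2 * κ0 + 2) * L := by rw [← pow_succ]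
    have h3 : 0 < L ^ (2 * κ0 + 2) := by positivity
    nlinarith
  have hG0 : 0 < G := lt_of_lt_of_le (by positivity) hG4
  have hHN : H = N * G := by rw [hN]; field_simp
  have hN1 : 2 * L ^ κ ≤ L ^ C * N := by
    rw [hN, ← mul_div_assoc, le_div_iff₀ hG0]
    linarith
  have hLC : 0 < L ^ C := by positivity
  have hN1' : 1 ≤ N := by
    have h1 : L ^ C ≤ L ^ κ := pow_le_pow_right₀ hL1 hCκ
    by_contra hcon
    push Not at hcon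
    nlinarith
  have hN2 : N ≤ 2 * L ^ K := by
    rw [hN, div_le_iff₀ hG0]; linarith
  have hyN : y = L ^ C * N / 2 := by rw [hy, hN]; field_simp
  have hyκ : L ^ κ ≤ y := by rw [hyN]; linarith
  have hyK : y ≤ L ^ (C + K) := by
    rw [hyN, pow_add]
    nlinarith
  have hLκ : L ≤ L ^ κ := by
    calc L = L ^ 1 := (pow_one L).symm
      _ ≤ L ^ κ := pow_le_pow_right₀ hL1 hκ
  have hy1 : 1 < y := by linarith
  have hGG : 2 * H ≤ G ^ 2 := by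
    have h1 : 4 * L ^ K ≤ G := by
      refine le_trans ?_ hG4
      have h2 : L ^ (K + 1) ≤ L ^ (2 * κ0 + 2) := pow_le_pow_right₀ hL1 (by omega)
      have h3 : L ^ (K + 1) = L ^ K * L := pow_succ _ _
      have h4 : 0 < L ^ K := by positivity
      nlinarith
    nlinarith
  have hyH : y ^ 2 ≤ H := by
    calc y ^ 2 ≤ (L ^ (C + K)) ^ 2 := pow_le_pow_left₀ (by linarith) hyK 2
      _ = L ^ ((C + K) * 2) := (pow_mul _ _ _).symm
      _ ≤ L ^ (2 * κ0 + 2) := pow_le_pow_right₀ hL1 (by omega)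
      _ ≤ G := hG4
      _ ≤ H := by rw [hHN]; nlinarith
  exact ⟨hG4, hG0, hHN, hN1', hN2, hyN, hyκ, hyK, hy1, by linarith, hyH⟩

/-- sizes (ii): logarithms -/
lemma sizes2 (C K : ℕ) (L H y l : ℝ) (hl : l = Real.log L) (f1 : 106496 ≤ L)
    (f2 : (1 + (C + K : ℕ) * l) ^ 3 ≤ L) (hy1 : 1 < y) (hyK : y ≤ L ^ (C + K)) (hH : 0 ≤ H)
    (hyH : y ^ 2 ≤ H) :
    4 * (H * (1 + Real.log y) ^ 3 + y ^ 2) ≤ 8 * (H * L) ∧
      0 ≤ 4 * (H * (1 + Real.log y) ^ 3 + y ^ 2) := by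
  have hL0 : 0 < L := by linarith
  have hly0 : 0 ≤ Real.log y := Real.log_nonneg hy1.le
  have hly : Real.log y ≤ (C + K : ℕ) * l := by
    rw [hl, ← Real.log_pow]
    exact Real.log_le_log (by linarith) hyK
  have h3 : (1 + Real.log y) ^ 3 ≤ L :=
    le_trans (pow_le_pow_left₀ (by linarith) (by linarith) 3) f2
  constructor
  · have h4 : H * (1 + Real.log y) ^ 3 ≤ H * L := mul_le_mul_of_nonneg_left h3 hH
    have h5 : H ≤ H * L := by nlinarith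
    linarith
  · positivity

/-- sizes (iii): the number of levels -/
lemma sizes3 (C K A : ℕ) (L G H N y B0 l : ℝ) (hl : l = Real.log L) (f1 : 106496 ≤ L)
    (f6 : 1 + 2 * ((2 * C + 2 * K + A + 3 : ℕ) * l) ≤ L) (hG : 0 < G) (hHN : H = N * G)
    (hN1 : 1 ≤ N) (hy1 : 1 < y) (hyK : y ≤ L ^ (C + K)) (hB0 : 1 ≤ B0) :
    ∃ n : ℕ, y ^ 2 / B0 * (2 * (H / G) + 1) ≤ 2 ^ n * (N / L ^ (A + 2)) ∧
      2 ^ n * (N / L ^ (A + 2)) ≤ 6 * y ^ 2 * N ∧ (n : ℝ) ≤ L := by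
  have hL0 : 0 < L := by linarith
  have hL1 : 1 ≤ L := by linarith
  have hN0 : 0 < N := by linarith
  have hHG : H / G = N := by rw [hHN]; field_simp
  rw [hHG]
  obtain ⟨t0, ht0⟩ : ∃ t0, t0 = N / L ^ (A + 2) := ⟨_, rfl⟩
  rw [← ht0]
  have ht0' : 0 < t0 := by rw [ht0]; positivity
  have hLA : 1 ≤ L ^ (A + 2) := one_le_pow₀ hL1
  have ht0N : t0 ≤ N := by rw [ht0]; exact div_le_self hN0.le hLA
  obtain ⟨τ, hτ⟩ : ∃ τ, τ = y ^ 2 / B0 * (2 * N + 1) / t0 := ⟨_, rfl⟩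
  have hτ0 : y ^ 2 / B0 * (2 * N + 1) = τ * t0 := by rw [hτ]; field_simp
  rw [hτ0]
  obtain ⟨n, h1, h2, h3⟩ := exists_levels τ
  have hy2 : 1 ≤ y ^ 2 := one_le_pow₀ hy1.le
  have hyB : y ^ 2 / B0 ≤ y ^ 2 := div_le_self (by positivity) hB0
  refine ⟨n, mul_le_mul_of_nonneg_right h1 ht0'.le, ?_, ?_⟩
  · have h4 : 2 * max τ 1 * t0 ≤ 6 * y ^ 2 * N := by
      rcases le_total τ 1 with h | h
      · rw [max_eq_right h]
        nlinarith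
      · rw [max_eq_left h]
        calc 2 * τ * t0 = 2 * (y ^ 2 / B0 * (2 * N + 1)) := by rw [hτ0]; ring
          _ ≤ 2 * (y ^ 2 * (3 * N)) := by
              have : 2 * N + 1 ≤ 3 * N := by linarith
              gcongr
          _ = 6 * y ^ 2 * N := by ring
    exact (mul_le_mul_of_nonneg_right h2 ht0'.le).trans h4
  · have h5 : max τ 1 ≤ L ^ (2 * C + 2 * K + A + 3) := by
      apply max_le
      · rw [hτ, div_le_iff₀ ht0', ht0]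
        calc y ^ 2 / B0 * (2 * N + 1) ≤ y ^ 2 * (3 * N) := by
              have : 2 * N + 1 ≤ 3 * N := by linarith
              gcongr
          _ ≤ (L ^ (C + K)) ^ 2 * (L * N) := by
              have h6 : 3 * N ≤ L * N := by nlinarith
              gcongr
          _ = L ^ (2 * C + 2 * K + A + 3) * (N / L ^ (A + 2)) := by
              have e : L ^ (2 * C + 2 * K + A + 3) = (L ^ (C + K)) ^ 2 * L * L ^ (A + 2) := by ring
              rw [e]; field_simp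
      · exact one_le_pow₀ hL1
    have h6 : Real.log (max τ 1) ≤ (2 * C + 2 * K + A + 3 : ℕ) * l := by
      rw [hl, ← Real.log_pow]
      exact Real.log_le_log (by positivity) h5
    linarith

/-- sizes (iv): thresholds -/
lemma sizes4 (κ0 : ℕ) (L G : ℝ) (f1 : 106496 ≤ L) (hG4 : L ^ (2 * κ0 + 2) ≤ G) :
    3 ≤ G ∧ 1 ≤ Real.log G ∧ 1 ≤ ⌊G / L ^ κ0⌋₊ ∧
      ((⌊G / L ^ κ0⌋₊ : ℕ) : ℝ) + 1 ≤ 2 * G / L ^ κ0 ∧
      G / (2 * L ^ κ0) ≤ ((⌊G / L ^ κ0⌋₊ : ℕ) : ℝ) ∧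
      4096 * (G * L) ≤ (G / (2 * L ^ κ0)) ^ 2 * 4 := by
  have hL0 : 0 < L := by linarith
  have hL1 : 1 ≤ L := by linarith
  have h1 : L ^ 2 ≤ L ^ (2 * κ0 + 2) := pow_le_pow_right₀ hL1 (by omega)
  have hG3 : 3 ≤ G := by nlinarith
  have hG0 : 0 < G := by linarith
  have hlogG : 1 ≤ Real.log G := by
    rw [Real.le_log_iff_exp_le hG0]
    have := Real.exp_one_lt_d9
    linarith
  have hLκ : 0 < L ^ κ0 := by positivity
  have hLκ1 : 1 ≤ L ^ κ0 := one_le_pow₀ hL1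
  obtain ⟨x, hx⟩ : ∃ x, x = G / L ^ κ0 := ⟨_, rfl⟩
  have hGx : G = x * L ^ κ0 := by rw [hx]; field_simp
  have hx2 : 2 ≤ x := by
    rw [hx, le_div_iff₀ hLκ]
    have h2 : L ^ (2 * κ0 + 2) = L ^ κ0 * (L ^ κ0 * L ^ 2) := by ring
    have h3 : 2 ≤ L ^ κ0 * L ^ 2 := by nlinarith
    nlinarith
  have hfl1 : (1 : ℝ) ≤ ((⌊x⌋₊ : ℕ) : ℝ) := by
    have : 1 ≤ ⌊x⌋₊ := Nat.le_floor (by push_cast; linarith)
    exact_mod_cast this
  have hfl2 : ((⌊x⌋₊ : ℕ) : ℝ) ≤ x := Nat.floor_le (by linarith)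
  have hfl3 : x < ((⌊x⌋₊ : ℕ) : ℝ) + 1 := Nat.lt_floor_add_one x
  rw [← hx]
  refine ⟨hG3, hlogG, by exact_mod_cast hfl1, ?_, ?_, ?_⟩
  · have : 2 * G / L ^ κ0 = 2 * x := by rw [hx]; ring
    rw [this]; linarith
  · have : G / (2 * L ^ κ0) = x / 2 := by rw [hx]; field_simp
    rw [this]; linarith
  · have : (G / (2 * L ^ κ0)) ^ 2 * 4 = x * G / L ^ κ0 := by
      rw [hx]; field_simp; ring
    rw [this, le_div_iff₀ hLκ]
    have h5 : L ^ (2 * κ0 + 2) ≤ x * L ^ κ0 := by rw [← hGx]; exact hG4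
    have h6 : L ^ (2 * κ0 + 2) = (L ^ κ0 * L ^ 2) * L ^ κ0 := by ring
    rw [h6] at h5
    have h7 : L ^ κ0 * L ^ 2 ≤ x := le_of_mul_le_mul_right h5 hLκ
    calc 4096 * (G * L) * L ^ κ0 ≤ (L ^ κ0 * L ^ 2) * G := by
          have h8 : 4096 * L ≤ L ^ 2 := by nlinarith
          calc 4096 * (G * L) * L ^ κ0 = (4096 * L) * (L ^ κ0 * G) := by ring
            _ ≤ L ^ 2 * (L ^ κ0 * G) := by gcongr
            _ = _ := by ring
      _ ≤ x * G := by gcongr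

/-- sizes (v): the exceptional part -/
lemma sizes5 (C K : ℕ) (X : ℕ) (hX : 1 ≤ X) (L G N y T cG : ℝ) (hL0 : 0 < L)
    (f5 : 24 * L ^ (2 * C + 3 * K) ≤ (X : ℝ) ^ ((1 : ℝ) / 2000))
    (_hG : 0 ≤ G) (hG2 : G ≤ (X : ℝ) ^ ((1 : ℝ) / 1000)) (hN0 : 0 ≤ N) (hN2 : N ≤ 2 * L ^ K)
    (hy0 : 0 ≤ y) (hyK : y ≤ L ^ (C + K)) (hT : T ≤ 6 * y ^ 2 * N) (_hT0 : 0 ≤ T)
    (hcG : cG ≤ 2 * G) (hcG0 : 0 ≤ cG) :
    T * (((⌊(X : ℝ) ^ ((1 : ℝ) / 100)⌋₊ : ℕ) : ℝ) * (X : ℝ) ^ ((59 : ℝ) / 60) * cG) ≤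
      (X : ℝ) ^ ((995 : ℝ) / 1000) := by
  have hX1 : (1 : ℝ) ≤ X := by exact_mod_cast hX
  have hX0 : (0 : ℝ) < X := by linarith
  have h1 : ((⌊(X : ℝ) ^ ((1 : ℝ) / 100)⌋₊ : ℕ) : ℝ) ≤ (X : ℝ) ^ ((1 : ℝ) / 100) :=
    Nat.floor_le (by positivity)
  have h2 : T ≤ 12 * L ^ (2 * C + 3 * K) := by
    calc T ≤ 6 * y ^ 2 * N := hT
      _ ≤ 6 * (L ^ (C + K)) ^ 2 * (2 * L ^ K) := by gcongr
      _ = _ := by ring
  calc T * (((⌊(X : ℝ) ^ ((1 : ℝ) / 100)⌋₊ : ℕ) : ℝ) * (X : ℝ) ^ ((59 : ℝ) / 60) * cG)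
      ≤ (12 * L ^ (2 * C + 3 * K)) * ((X : ℝ) ^ ((1 : ℝ) / 100) * (X : ℝ) ^ ((59 : ℝ) / 60) *
          (2 * (X : ℝ) ^ ((1 : ℝ) / 1000))) := by
        gcongr
        linarith
    _ = (24 * L ^ (2 * C + 3 * K)) * ((X : ℝ) ^ ((1 : ℝ) / 100) * (X : ℝ) ^ ((59 : ℝ) / 60) *
          (X : ℝ) ^ ((1 : ℝ) / 1000)) := by ring
    _ ≤ (X : ℝ) ^ ((1 : ℝ) / 2000) * ((X : ℝ) ^ ((1 : ℝ) / 100) * (X : ℝ) ^ ((59 : ℝ) / 60) *
          (X : ℝ) ^ ((1 : ℝ) / 1000)) := by gcongr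
    _ = (X : ℝ) ^ ((1 : ℝ) / 2000 + ((1 : ℝ) / 100 + (59 : ℝ) / 60 + (1 : ℝ) / 1000)) := by
        rw [← Real.rpow_add hX0, ← Real.rpow_add hX0, ← Real.rpow_add hX0]
    _ ≤ _ := Real.rpow_le_rpow_of_exponent_le hX1 (by norm_num)

end Crest.Agent.R001.Uns
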